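import Mathlib

/-!
# Row 347: abstract notions used in the real-analysis part.

`L` counts sites of a ring; `n` is (number of sites of the open chain) - 2.
-/

set_option autoImplicit false

open Filter Topology

namespace Crest.Agent.R347

/-- `z L` (`L ≥ 2`) is a limit of power sums `Σ μ_i ^ L` of real numbers. -/
def IsPS (z : ℕ → ℝ) : Prop :=
  ∃ (κ : ℕ → ℕ) (μ : (k : ℕ) → Fin (κ k) → ℝ),
    ∀ L, 2 ≤ L → Tendsto (fun k => ∑ i, μ k i ^ L) atTop (𝓝 (z L))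

/-- joint limits of power sums and weighted power sums (nonnegative weights) -/
def IsPSO (z O : ℕ → ℝ) : Prop :=
  ∃ (κ : ℕ → ℕ) (μ c : (k : ℕ) → Fin (κ k) → ℝ), (∀ k i, 0 ≤ c k i) ∧
    (∀ L, 2 ≤ L → Tendsto (fun k => ∑ i, μ k i ^ L) atTop (𝓝 (z L))) ∧
    (∀ n, Tendsto (fun k => ∑ i, c k i * μ k i ^ n) atTop (𝓝 (O n)))

/-- two families of eigenvalues (two complementary sectors), `O` lives in the first, `O'` in the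
second, `z` is the total power sum -/
def IsPSO2 (z O O' : ℕ → ℝ) : Prop :=
  ∃ (κ κ' : ℕ → ℕ) (μ c : (k : ℕ) → Fin (κ k) → ℝ) (μ' c' : (k : ℕ) → Fin (κ' k) → ℝ),
    (∀ k i, 0 ≤ c k i) ∧ (∀ k i, 0 ≤ c' k i) ∧
    (∀ L, 2 ≤ L → Tendsto (fun k => ∑ i, μ k i ^ L + ∑ i, μ' k i ^ L) atTop (𝓝 (z L))) ∧
    (∀ n, Tendsto (fun k => ∑ i, c k i * μ k i ^ n) atTop (𝓝 (O n))) ∧
    (∀ n, Tendsto (fun k => ∑ i, c' k i * μ' k i ^ n) atTop (𝓝 (O' n)))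

/-- `m` behaves like the largest `|μ_i|` of a power sum `z` (even exponents only). -/
def TopData (z : ℕ → ℝ) (m : ℝ) : Prop :=
  0 < m ∧
  (∀ L, Even L → 2 ≤ L → m ^ L ≤ z L) ∧
  (∀ L L', Even L → Even L' → 2 ≤ L → 2 ≤ L' → z (L + L') ≤ m ^ L * z L') ∧
  (∀ L L', Even L → Even L' → 2 ≤ L → 2 ≤ L' →
    z (L + L') - m ^ (L + L') ≤ (z L - m ^ L) * (z L' - m ^ L'))

/-- top data for the pair (ring `z`, open chain `O`, `O'`): `c` is the weight of the top eigenvalue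
in `O`, `σ` its sign -/
def OTop (z O O' : ℕ → ℝ) (m c σ : ℝ) : Prop :=
  TopData z m ∧ 0 ≤ c ∧ (σ = 1 ∨ σ = -1) ∧
  (∀ n, Even n → c * m ^ n ≤ O n ∧ 0 ≤ O' n) ∧
  (∀ n L, Even n → Even L → O (n + L) ≤ O n * m ^ L ∧ O' (n + L) ≤ O' n * m ^ L) ∧
  (∀ n L, Even n → Even L → 2 ≤ L →
    O (n + L) - c * m ^ (n + L) ≤ (O n - c * m ^ n) * (z L - m ^ L)) ∧
  (0 < c → ∀ n L, Even n → Even L → 2 ≤ L → O' (n + L) ≤ O' n * (z L - m ^ L)) ∧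
  (∀ n, Even n → |O (n + 1) - σ * c * m ^ (n + 1)| ≤ m * (O n - c * m ^ n) ∧
    |O' (n + 1)| ≤ m * O' n)

/-- the family of rings: `z β L` = (normalised) partition function -/
structure RingFam (z : ℝ → ℕ → ℝ) (m : ℝ → ℝ) : Prop where
  top : ∀ β, 0 < β → TopData (z β) (m β)
  ge_one : ∀ β, 0 < β → ∀ L, Even L → 2 ≤ L → 1 ≤ z β L
  levels : ∀ L, Even L → 2 ≤ L → ∃ (k : ℕ) (x : Fin k → ℝ), (∀ i, 0 < x i) ∧
    ∀ β, 0 < β → z β L = ∑ i, (x i) ^ β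

/-- the family of open chains: `O = (Z_{+-} + Z_{++})/2`, `O' = (Z_{+-} - Z_{++})/2`. -/
structure OpenFam (z O O' : ℝ → ℕ → ℝ) (m c σ : ℝ → ℝ) : Prop where
  top : ∀ β, 0 < β → OTop (z β) (O β) (O' β) (m β) (c β) (σ β)
  levels_pm : ∀ n, ∃ (k : ℕ) (x : Fin k → ℝ), 0 < k ∧ (∀ i, 0 < x i) ∧
    ∀ β, 0 < β → O β n + O' β n = ∑ i, (x i) ^ β
  levels_pp : ∀ n, ∃ (k : ℕ) (x : Fin k → ℝ), 0 < k ∧ (∀ i, 0 < x i) ∧
    ∀ β, 0 < β → O β n - O' β n = ∑ i, (x i) ^ β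

/-- state of the ring recursion: `z (2β) L / (z β L)^2 ≥ u`, excited ratios of the time channel
`≤ ε` at `(L, 2β)` and `≤ ε₁` at `(L, β)`. -/
structure RingState (z : ℝ → ℕ → ℝ) (m : ℝ → ℝ) (L : ℕ) (β u ε ε₁ : ℝ) : Prop where
  evL : Even L
  twoL : 2 ≤ L
  hβ : 0 < β
  hu : 0 < u
  hε : 0 ≤ ε
  hε₁ : 0 ≤ ε₁
  pur : u * (z β L) ^ 2 ≤ z (2 * β) L
  exc : z (2 * β) L ≤ (1 + ε) * m (2 * β) ^ L
  exc₁ : z β L ≤ (1 + ε₁) * m β ^ L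

/-- state of the open-chain recursion -/
structure OpenState (O O' : ℝ → ℕ → ℝ) (m c : ℝ → ℝ) (n : ℕ) (β p r r₁ T T₁ : ℝ) : Prop where
  evn : Even n
  hβ : 0 < β
  hp : 0 < p
  hr : 1 ≤ r
  hr₁ : 1 ≤ r₁
  hT : 0 ≤ T
  hT₁ : 0 ≤ T₁
  c1 : 0 < c β
  c2 : 0 < c (2 * β)
  pur_pm : p * (O β n + O' β n) ^ 2 ≤ O (2 * β) n + O' (2 * β) n
  pur_pp : p * (O β n - O' β n) ^ 2 ≤ O (2 * β) n - O' (2 * β) n
  rat : O (2 * β) n ≤ r * (c (2 * β) * m (2 * β) ^ n)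
  rat₁ : O β n ≤ r₁ * (c β * m β ^ n)
  odd : O' (2 * β) n ≤ T * (c (2 * β) * m (2 * β) ^ n)
  odd₁ : O' β n ≤ T₁ * (c β * m β ^ n)

end Crest.Agent.R347
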