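import Crest.Agent.R347.Defs

/-! # Row 347: explicit form of the bonds and of the open chain Hamiltonian

`bond_apply`: `bond j k` (`j ≠ k`) has the entries `hbZ (σ j) (σ k) (τ j) (τ k)` for configurations which
agree off `{j, k}`; `hbZ` is the integer matrix of `S·S`.  `chainH N` is the real integer matrix of
`openH N 0 0` and `chainH_cons` its recursion in `Fin.cons`.
-/

set_option autoImplicit false

open Crest.MathPhysics.SpinChain Matrix

namespace Crest.Agent.R347

/-- the matrix of `S·S` (integer entries), rows `(s,t)`, columns `(s',t')` -/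
def hbZ (s t s' t' : Fin 3) : ℤ :=
  (if s = s' ∧ t = t' then (1 - (s.val : ℤ)) * (1 - (t.val : ℤ)) else 0)
  + (if s.val = s'.val + 1 ∧ t'.val = t.val + 1 then 1 else 0)
  + (if s'.val = s.val + 1 ∧ t.val = t'.val + 1 then 1 else 0)

theorem spinXY_mul (s t s' t' : Fin 3) :
    spinX s s' * spinX t t' + spinY s s' * spinY t t' =
      (1 / 2) * (spinPlus s s' * spinMinus t t' + spinMinus s s' * spinPlus t t') := by
  have hI : Complex.I ^ 2 = -1 := Complex.I_sq
  have hI0 : Complex.I ≠ 0 := Complex.I_ne_zero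
  simp only [spinX, spinY, Matrix.smul_apply, Matrix.add_apply, Matrix.sub_apply, smul_eq_mul]
  generalize spinPlus s s' = a
  generalize spinPlus t t' = b
  generalize spinMinus s s' = c
  generalize spinMinus t t' = d
  have e : (1 / (2 * Complex.I)) * (1 / (2 * Complex.I)) = -(1 / 4 : ℂ) := by
    field_simp
    rw [hI]
    norm_num
  have e2 : 1 / (2 * Complex.I) * (a - c) * (1 / (2 * Complex.I) * (b - d)) =
      ((1 / (2 * Complex.I)) * (1 / (2 * Complex.I))) * ((a - c) * (b - d)) := by ring
  rw [e2, e]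
  ring

theorem sum_spinOp (s t s' t' : Fin 3) :
    ∑ a : Fin 3, spinOp a s s' * spinOp a t t' = (hbZ s t s' t' : ℂ) := by
  have h2 : ((Real.sqrt 2 : ℝ) : ℂ) * ((Real.sqrt 2 : ℝ) : ℂ) = 2 := by
    rw [← Complex.ofReal_mul, Real.mul_self_sqrt (by norm_num)]
    norm_num
  rw [Fin.sum_univ_three]
  have e : spinOp 0 s s' * spinOp 0 t t' + spinOp 1 s s' * spinOp 1 t t' =
      spinX s s' * spinX t t' + spinY s s' * spinY t t' := rfl
  rw [e, spinXY_mul]
  show _ + spinZ s s' * spinZ t t' = _
  fin_cases s <;> fin_cases t <;> fin_cases s' <;> fin_cases t' <;>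
    (simp [spinZ, spinPlus, spinMinus, hbZ, magneticNumber, h2] <;> norm_num)

/-- product of two on-site matrices at different sites -/
theorem onSite_mul_onSite {ι : Type*} [Fintype ι] [DecidableEq ι] (A B : Matrix (Fin 3) (Fin 3) ℂ)
    {j k : ι} (hjk : j ≠ k) (σ τ : ι → Fin 3) :
    (onSite A j * onSite B k) σ τ =
      if (∀ l, l ≠ j → l ≠ k → σ l = τ l) then A (σ j) (τ j) * B (σ k) (τ k) else 0 := by
  rw [Matrix.mul_apply]
  simp only [onSite, Matrix.of_apply]
  rw [Finset.sum_eq_single (Function.update σ j (τ j))]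
  · have h1 : ∀ l, l ≠ j → σ l = Function.update σ j (τ j) l := fun l hl => by
      rw [Function.update_of_ne hl]
    rw [if_pos h1, Function.update_self, Function.update_of_ne (Ne.symm hjk)]
    have h2 : (∀ l, l ≠ k → Function.update σ j (τ j) l = τ l) ↔ (∀ l, l ≠ j → l ≠ k → σ l = τ l) := by
      constructor
      · intro h l hlj hlk
        have := h l hlk
        rwa [Function.update_of_ne hlj] at this
      · intro h l hlk
        by_cases hlj : l = j
        · rw [hlj, Function.update_self]
        · rw [Function.update_of_ne hlj]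
          exact h l hlj hlk
    by_cases h : ∀ l, l ≠ j → l ≠ k → σ l = τ l
    · rw [if_pos h, if_pos (h2.mpr h)]
    · rw [if_neg h, if_neg (fun h' => h (h2.mp h')), mul_zero]
  · intro ρ _ hρ
    by_cases h1 : ∀ l, l ≠ j → σ l = ρ l
    · by_cases h2 : ∀ l, l ≠ k → ρ l = τ l
      · exfalso
        apply hρ
        funext l
        by_cases hl : l = j
        · rw [hl, Function.update_self]
          exact h2 j hjk
        · rw [Function.update_of_ne hl]
          exact (h1 l hl).symm
      · rw [if_neg h2, mul_zero]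
    · rw [if_neg h1, zero_mul]
  · intro h
    exact absurd (Finset.mem_univ _) h

/-- the bond as an explicit matrix -/
theorem bond_apply {ι : Type*} [Fintype ι] [DecidableEq ι] {j k : ι} (hjk : j ≠ k) (σ τ : ι → Fin 3) :
    (bond j k : Matrix (ι → Fin 3) (ι → Fin 3) ℂ) σ τ =
      if (∀ l, l ≠ j → l ≠ k → σ l = τ l) then (hbZ (σ j) (σ k) (τ j) (τ k) : ℂ) else 0 := by
  rw [bond, Matrix.sum_apply]
  simp only [onSite_mul_onSite _ _ hjk]
  by_cases h : ∀ l, l ≠ j → l ≠ k → σ l = τ l
  · simp only [if_pos h]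
    exact sum_spinOp _ _ _ _
  · simp only [if_neg h]
    simp

/-- on-site `S^z` -/
theorem onSite_spinZ_apply {ι : Type*} [Fintype ι] [DecidableEq ι] (j : ι) (σ τ : ι → Fin 3) :
    (onSite spinZ j : Matrix (ι → Fin 3) (ι → Fin 3) ℂ) σ τ =
      if σ = τ then ((1 - ((σ j).val : ℤ) : ℤ) : ℂ) else 0 := by
  simp only [onSite, Matrix.of_apply, spinZ, Matrix.diagonal_apply, magneticNumber]
  by_cases h : σ = τ
  · subst h
    simp
  · rw [if_neg h]
    by_cases h1 : ∀ l, l ≠ j → σ l = τ l
    · rw [if_pos h1, if_neg]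
      intro h2
      apply h
      funext l
      by_cases hl : l = j
      · rw [hl, h2]
      · exact h1 l hl
    · rw [if_neg h1]

/-- the integer matrix of `openH N 0 0` -/
def chainZ (N : ℕ) (σ τ : Fin (N + 1) → Fin 3) : ℤ :=
  ∑ j : Fin N, if (∀ l, l ≠ Fin.castSucc j → l ≠ Fin.succ j → σ l = τ l) then
    hbZ (σ (Fin.castSucc j)) (σ (Fin.succ j)) (τ (Fin.castSucc j)) (τ (Fin.succ j)) else 0

theorem openH_apply (N : ℕ) (f₀ f₁ : ℝ) (σ τ : Fin (N + 1) → Fin 3) :
    openH N f₀ f₁ σ τ = (chainZ N σ τ : ℂ) -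
      if σ = τ then (f₀ : ℂ) * ((1 - ((σ 0).val : ℤ) : ℤ) : ℂ) +
        (f₁ : ℂ) * ((1 - ((σ (Fin.last N)).val : ℤ) : ℤ) : ℂ) else 0 := by
  rw [openH, Matrix.sub_apply, Matrix.sum_apply, Matrix.add_apply, Matrix.smul_apply, Matrix.smul_apply,
    onSite_spinZ_apply, onSite_spinZ_apply, chainZ]
  congr 1
  · push_cast
    apply Finset.sum_congr rfl
    intro j _
    rw [bond_apply (ne_of_lt (Fin.castSucc_lt_succ (i := j)))]
    split_ifs <;> rfl
  · by_cases h : σ = τ
    · rw [if_pos h, if_pos h, if_pos h]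
      simp [smul_eq_mul]
    · rw [if_neg h, if_neg h, if_neg h]
      simp

theorem chainZ_zero (σ τ : Fin (0 + 1) → Fin 3) : chainZ 0 σ τ = 0 := by
  simp [chainZ]

/-- recursion: add a site in front -/
theorem chainZ_cons (N : ℕ) (s t : Fin 3) (σ τ : Fin (N + 1) → Fin 3) :
    chainZ (N + 1) (Fin.cons s σ) (Fin.cons t τ) =
      (if s = t then chainZ N σ τ else 0) +
      (if (∀ l, l ≠ 0 → σ l = τ l) then hbZ s (σ 0) t (τ 0) else 0) := by
  rw [chainZ, Fin.sum_univ_succ, add_comm]
  congr 1
  · by_cases hst : s = t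
    · rw [if_pos hst, chainZ]
      apply Finset.sum_congr rfl
      intro j _
      have hc : (∀ l, l ≠ Fin.castSucc (Fin.succ j) → l ≠ Fin.succ (Fin.succ j) →
            (Fin.cons s σ : Fin (N + 1 + 1) → Fin 3) l = (Fin.cons t τ : Fin (N + 1 + 1) → Fin 3) l) ↔
          (∀ l, l ≠ Fin.castSucc j → l ≠ Fin.succ j → σ l = τ l) := by
        constructor
        · intro h l h1 h2
          have := h (Fin.succ l) (by
            rw [Fin.castSucc_succ]
            exact fun h => h1 (Fin.succ_injective _ h)) (fun h => h2 (Fin.succ_injective _ h))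
          simpa using this
        · intro h l
          refine Fin.cases ?_ (fun l => ?_) l
          · intro _ _
            simpa using hst
          · intro h1 h2
            rw [Fin.cons_succ, Fin.cons_succ]
            apply h l
            · intro h3
              apply h1
              rw [h3, Fin.castSucc_succ]
            · intro h3
              apply h2
              rw [h3]
      by_cases h : ∀ l, l ≠ Fin.castSucc j → l ≠ Fin.succ j → σ l = τ l
      · rw [if_pos h, if_pos (hc.mpr h), Fin.castSucc_succ, Fin.cons_succ, Fin.cons_succ, Fin.cons_succ,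
          Fin.cons_succ]
      · rw [if_neg h, if_neg (fun h' => h (hc.mp h'))]
    · rw [if_neg hst]
      apply Finset.sum_eq_zero
      intro j _
      rw [if_neg]
      intro h
      have := h 0 (by
        rw [Fin.castSucc_succ]
        exact (Fin.succ_ne_zero _).symm) (Fin.succ_ne_zero _).symm
      exact hst (by simpa using this)
  · have hc : (∀ l, l ≠ Fin.castSucc (0 : Fin (N + 1)) → l ≠ Fin.succ (0 : Fin (N + 1)) →
            (Fin.cons s σ : Fin (N + 1 + 1) → Fin 3) l = (Fin.cons t τ : Fin (N + 1 + 1) → Fin 3) l) ↔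
          (∀ l, l ≠ 0 → σ l = τ l) := by
      constructor
      · intro h l h1
        have := h (Fin.succ l) (by
          rw [Fin.castSucc_zero]
          exact Fin.succ_ne_zero _) (fun h => h1 (Fin.succ_injective _ h))
        simpa using this
      · intro h l
        refine Fin.cases ?_ (fun l => ?_) l
        · intro h1 _
          exact absurd rfl h1
        · intro _ h2
          rw [Fin.cons_succ, Fin.cons_succ]
          apply h l
          intro h3
          apply h2
          rw [h3]
    by_cases h : ∀ l, l ≠ 0 → σ l = τ l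
    · rw [if_pos h, if_pos (hc.mpr h), Fin.castSucc_zero, Fin.cons_succ, Fin.cons_succ, Fin.cons_zero,
        Fin.cons_zero]
    · rw [if_neg h, if_neg (fun h' => h (hc.mp h'))]

end Crest.Agent.R347
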