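import Crest.Agent.R347.ChADefs

/-!
# Row 347, Chebyshev method, piece C347_T2: Clenshaw's recurrence
-/

namespace Crest.Agent.R347.ChA

open Matrix Finset

variable {i : Type*} [Fintype i] [DecidableEq i]

theorem TT_zero (B : Matrix i i ℝ) : TT B 0 = 1 := by
  simp [TT]

theorem TT_one (B : Matrix i i ℝ) : TT B 1 = B := by
  simp [TT]

theorem TT_add_two (B : Matrix i i ℝ) (n : ℕ) :
    TT B ((n + 2 : ℕ) : ℤ) = (2 : ℝ) • (TT B ((n + 1 : ℕ) : ℤ) * B) - TT B (n : ℤ) := by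
  have h := Polynomial.Chebyshev.T_add_two ℝ (n : ℤ)
  simp only [TT]
  push_cast
  rw [h]
  simp only [map_sub, map_mul, Polynomial.aeval_X]
  have h2 : Polynomial.aeval B (2 : Polynomial ℝ) = (2 : Matrix i i ℝ) := by
    exact map_ofNat _ 2
  rw [h2]
  congr 1
  have hc : B * Polynomial.aeval B (Polynomial.Chebyshev.T ℝ ((n : ℤ) + 1)) =
      Polynomial.aeval B (Polynomial.Chebyshev.T ℝ ((n : ℤ) + 1)) * B := by
    have e1 := congrArg (Polynomial.aeval B)
      (mul_comm (Polynomial.X : Polynomial ℝ) (Polynomial.Chebyshev.T ℝ ((n : ℤ) + 1)))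
    simpa only [map_mul, Polynomial.aeval_X] using e1
  rw [mul_assoc, hc, two_smul, two_mul]

/-- By induction on `n`:
`c_0 + ∑_{0<j≤n} 2 T_j c_j = b_0 - b_2 - 2 T_{n+1} b_{n+1} + 2 T_n b_{n+2}` for `n ≤ D`. -/
theorem clenshaw (B : Matrix i i ℝ) (b c : ℕ → i → ℝ) (D : ℕ) (h1 : b (D + 1) = 0)
    (h2 : b (D + 2) = 0)
    (h : ∀ k ≤ D, b k = c k + (2 : ℝ) • (B *ᵥ b (k + 1)) - b (k + 2)) :
    b 0 - b 2 = c 0 + ∑ k ∈ Ioc 0 D, (2 : ℝ) • (TT B k *ᵥ c k) := by
  have key : ∀ n ≤ D, c 0 + ∑ k ∈ Ioc 0 n, (2 : ℝ) • (TT B k *ᵥ c k) =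
      b 0 - b 2 - (2 : ℝ) • (TT B ((n + 1 : ℕ) : ℤ) *ᵥ b (n + 1)) +
        (2 : ℝ) • (TT B (n : ℤ) *ᵥ b (n + 2)) := by
    intro n
    induction n with
    | zero =>
      intro _
      have h0 := h 0 (Nat.zero_le _)
      simp only [Ioc_self, sum_empty, add_zero, zero_add, Nat.cast_one, Nat.cast_zero,
        TT_zero, TT_one, Matrix.one_mulVec] at h0 ⊢
      rw [h0, two_smul ℝ (b 2)]
      abel
    | succ n ih =>
      intro hn
      have e : Ioc 0 (n + 1) = insert (n + 1) (Ioc 0 n) := by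
        ext x; simp only [mem_Ioc, mem_insert]; omega
      rw [e, sum_insert (by simp), add_comm ((2 : ℝ) • _) (∑ k ∈ Ioc 0 n, _), ← add_assoc,
        ih (by omega)]
      have hk := h (n + 1) hn
      have hc : c (n + 1) = b (n + 1) - (2 : ℝ) • (B *ᵥ b (n + 1 + 1)) + b (n + 1 + 2) := by
        rw [hk]; abel
      have ht := TT_add_two B n
      have e3 : n + 1 + 1 = n + 2 := rfl
      rw [e3] at hc ⊢
      rw [ht, hc]
      simp only [Matrix.mulVec_add, Matrix.mulVec_sub, Matrix.mulVec_smul, Matrix.sub_mulVec,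
        Matrix.smul_mulVec, ← Matrix.mulVec_mulVec, smul_add, smul_sub]
      abel
  have hD := key D le_rfl
  rw [h1, h2, Matrix.mulVec_zero, Matrix.mulVec_zero, smul_zero, sub_zero, add_zero] at hD
  exact hD.symm

end Crest.Agent.R347.ChA
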