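import Crest.Agent.R347.ChADefs

/-!
# Row 347, Chebyshev method, piece C347_T3: powers in terms of Chebyshev polynomials
-/

namespace Crest.Agent.R347.ChA

open Matrix Finset Polynomial

variable {i : Type*} [Fintype i] [DecidableEq i]

theorem S_succ (F : ℤ → ℝ[X]) (N : ℕ) (m : ℤ) :
    ∑ k ∈ range (N + 2), ((N + 1).choose k : ℝ[X]) * F (m + k) =
      (∑ k ∈ range (N + 1), (N.choose k : ℝ[X]) * F (m + k)) +
        ∑ k ∈ range (N + 1), (N.choose k : ℝ[X]) * F (m + 1 + k) := by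
  have h1 : ∑ k ∈ range (N + 2), (N.choose k : ℝ[X]) * F (m + k) =
      ∑ k ∈ range (N + 1), (N.choose k : ℝ[X]) * F (m + k) := by
    rw [sum_range_succ, Nat.choose_eq_zero_of_lt (Nat.lt_succ_self N)]
    simp
  rw [← h1, sum_range_succ' (fun k => ((N + 1).choose k : ℝ[X]) * F (m + k)),
    sum_range_succ' (fun k => (N.choose k : ℝ[X]) * F (m + k))]
  have h2 : ∑ k ∈ range (N + 1), ((N + 1).choose (k + 1) : ℝ[X]) * F (m + (k + 1 : ℕ)) =
      (∑ k ∈ range (N + 1), (N.choose (k + 1) : ℝ[X]) * F (m + (k + 1 : ℕ))) +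
        ∑ k ∈ range (N + 1), (N.choose k : ℝ[X]) * F (m + 1 + k) := by
    rw [← sum_add_distrib]
    refine sum_congr rfl fun k _ => ?_
    have h3 : m + ((k + 1 : ℕ) : ℤ) = m + 1 + k := by push_cast; ring
    rw [h3, Nat.choose_succ_succ]
    push_cast
    ring
  rw [h2]
  simp only [Nat.choose_zero_right]
  ring

theorem S_two (F : ℤ → ℝ[X]) (N : ℕ) (m : ℤ) :
    ∑ k ∈ range (N + 3), ((N + 2).choose k : ℝ[X]) * F (m + k) =
      ∑ k ∈ range (N + 1), (N.choose k : ℝ[X]) *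
        (F (m + k) + 2 * F (m + 1 + k) + F (m + 2 + k)) := by
  rw [S_succ F (N + 1) m, S_succ F N m, S_succ F N (m + 1), ← sum_add_distrib,
    ← sum_add_distrib, ← sum_add_distrib]
  refine sum_congr rfl fun k _ => ?_
  have h3 : m + 1 + 1 + (k : ℤ) = m + 2 + k := by ring
  rw [h3]
  ring

theorem cheb_step (m : ℤ) : (2 + 2 * X : ℝ[X]) * Chebyshev.T ℝ m =
    Chebyshev.T ℝ (m - 1) + 2 * Chebyshev.T ℝ m + Chebyshev.T ℝ (m + 1) := by
  rw [Chebyshev.T_add_one]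
  ring

theorem fold_sum (n : ℕ) (f : ℕ → ℝ[X]) :
    ∑ k ∈ range (2 * n + 1), f k = f n + ∑ j ∈ Ioc 0 n, (f (n + j) + f (n - j)) := by
  have h0 : ∀ (g : ℕ → ℝ[X]), ∑ j ∈ Ioc 0 n, g j = ∑ j ∈ range n, g (j + 1) := by
    intro g
    induction n with
    | zero => simp
    | succ n ih =>
      rw [sum_Ioc_succ_top (Nat.zero_le n), ih, sum_range_succ]
  rw [h0, show 2 * n + 1 = n + (n + 1) by ring, sum_range_add, sum_range_succ', sum_add_distrib,
    ← sum_range_reflect f n]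
  have h1 : ∑ j ∈ range n, f (n - 1 - j) = ∑ j ∈ range n, f (n - (j + 1)) := by
    refine sum_congr rfl fun j _ => ?_
    congr 1
    omega
  rw [h1, Nat.add_zero]
  ring

/-- `(2 + 2x)^n T_m(x) = ∑_{k ≤ 2n} C(2n,k) T_{m+k-n}(x)` (induction on `n`, Pascal twice, from
`(2+2x) T_m = T_{m-1} + 2 T_m + T_{m+1}`) -/
theorem cheb_pow_mul (n : ℕ) (m : ℤ) : (2 + 2 * X : ℝ[X]) ^ n * Chebyshev.T ℝ m =
    ∑ k ∈ range (2 * n + 1), ((2 * n).choose k : ℝ[X]) * Chebyshev.T ℝ (m + k - n) := by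
  induction n generalizing m with
  | zero => simp
  | succ n ih =>
    have h1 := S_two (Chebyshev.T ℝ) (2 * n) (m - (n + 1 : ℕ))
    have h2 : ∑ k ∈ range (2 * (n + 1) + 1), ((2 * (n + 1)).choose k : ℝ[X]) *
        Chebyshev.T ℝ (m + k - (n + 1 : ℕ)) =
        ∑ k ∈ range (2 * n + 3), ((2 * n + 2).choose k : ℝ[X]) *
          Chebyshev.T ℝ (m - (n + 1 : ℕ) + k) := by
      refine sum_congr rfl fun k _ => ?_
      congr 2
      ring
    rw [h2, h1, pow_succ', mul_assoc, ih, mul_sum]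
    refine sum_congr rfl fun k _ => ?_
    have e1 : m - ((n + 1 : ℕ) : ℤ) + k = m + k - n - 1 := by push_cast; ring
    have e2 : m - ((n + 1 : ℕ) : ℤ) + 1 + k = m + k - n := by push_cast; ring
    have e3 : m - ((n + 1 : ℕ) : ℤ) + 2 + k = m + k - n + 1 := by push_cast; ring
    rw [e1, e2, e3, ← cheb_step]
    ring

theorem cheb_pow (n : ℕ) : (2 + 2 * X : ℝ[X]) ^ n =
    ((2 * n).choose n : ℝ[X]) +
      ∑ j ∈ Ioc 0 n, (2 * (2 * n).choose (n - j) : ℝ[X]) * Chebyshev.T ℝ (j : ℤ) := by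
  have h := cheb_pow_mul n 0
  rw [Chebyshev.T_zero, mul_one] at h
  rw [h, fold_sum]
  congr 1
  · simp
  · refine sum_congr rfl fun j hj => ?_
    have hj' := mem_Ioc.mp hj
    have e1 : (0 : ℤ) + ((n + j : ℕ) : ℤ) - n = j := by push_cast; ring
    have e2 : (0 : ℤ) + ((n - j : ℕ) : ℤ) - n = -j := by
      rw [Nat.cast_sub hj'.2]
      ring
    have e3 : (2 * n).choose (n + j) = (2 * n).choose (n - j) := by
      rw [← Nat.choose_symm (by omega : n - j ≤ 2 * n)]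
      congr 1
      omega
    rw [e1, e2, e3, Chebyshev.T_neg]
    ring

theorem Apow_TT (A : Matrix i i ℝ) (Lam : ℝ) (hL : 0 < Lam) (n : ℕ) :
    A ^ n = (Lam / 4) ^ n • (((2 * n).choose n : ℝ) • (1 : Matrix i i ℝ) +
      ∑ j ∈ Ioc 0 n, (2 * (2 * n).choose (n - j) : ℝ) • TT (BB A Lam) (j : ℤ)) := by
  have h := congrArg (fun p : ℝ[X] => aeval (BB A Lam) p) (cheb_pow n)
  simp only [map_pow, map_add, map_mul, map_ofNat, aeval_X, map_natCast, map_sum] at h
  have h1 : (2 + 2 * BB A Lam : Matrix i i ℝ) = (4 / Lam) • A := by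
    rw [BB, two_mul, ← add_sub_assoc, sub_add_eq_add_sub]
    have h3 : (2 : Matrix i i ℝ) = 1 + 1 := one_add_one_eq_two.symm
    rw [h3]
    have h4 : (4 / Lam) • A = (2 / Lam) • A + (2 / Lam) • A := by
      rw [← add_smul]
      congr 1
      ring
    rw [h4]
    abel
  rw [h1, _root_.smul_pow] at h
  have h5 : A ^ n = (Lam / 4) ^ n • ((4 / Lam) ^ n • A ^ n) := by
    rw [smul_smul, ← mul_pow]
    have h6 : Lam / 4 * (4 / Lam) = 1 := by
      field_simp
    rw [h6, one_pow, one_smul]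
  rw [h5, h]
  congr 1
  congr 1
  · rw [← nsmul_one, ← Nat.cast_smul_eq_nsmul ℝ]
  · refine sum_congr rfl fun j _ => ?_
    rw [TT]
    have h7 : ∀ (c : ℕ) (M : Matrix i i ℝ), (2 * (c : Matrix i i ℝ)) * M = (2 * (c : ℝ)) • M := by
      intro c M
      rw [mul_smul, Nat.cast_smul_eq_nsmul ℝ, two_smul, nsmul_eq_mul, mul_assoc, two_mul]
    rw [h7]

end Crest.Agent.R347.ChA
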