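import Crest.Agent.R347.ChADefs

/-!
# Row 347, Chebyshev method, piece C347_T4: tail of the exponential series
-/

namespace Crest.Agent.R347.ChA

open Matrix Finset

variable {i : Type*} [Fintype i] [DecidableEq i]

/-- tail of the exponential series, real form: for `x < N + 2`
`∑_{n ≤ M} x^(N+1+n)/(N+1+n)! ≤ x^(N+1)/(N+1)! * (N+2)/(N+2-x)` -/
theorem exp_tail_real (x : ℝ) (hx : 0 ≤ x) (N : ℕ) (hN : x < N + 2) (M : ℕ) :
    ∑ n ∈ range M, x ^ (N + 1 + n) / ((N + 1 + n).factorial : ℝ) ≤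
      x ^ (N + 1) / ((N + 1).factorial : ℝ) * ((N + 2) / (N + 2 - x)) := by
  have hN2 : (0 : ℝ) < N + 2 := by positivity
  have hr0 : 0 ≤ x / (N + 2) := div_nonneg hx hN2.le
  have hr1 : x / (N + 2) < 1 := (div_lt_one hN2).2 hN
  have hterm : ∀ n ∈ range M, x ^ (N + 1 + n) / ((N + 1 + n).factorial : ℝ) ≤
      x ^ (N + 1) / ((N + 1).factorial : ℝ) * (x / (N + 2)) ^ n := by
    intro n _
    have h1 : ((N + 1).factorial : ℝ) * ((N : ℝ) + 2) ^ n ≤ ((N + 1 + n).factorial : ℝ) := by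
      have := Nat.factorial_mul_pow_le_factorial (m := N + 1) (n := n)
      have h2 : (((N + 1).factorial * (N + 1).succ ^ n : ℕ) : ℝ) ≤ ((N + 1 + n).factorial : ℝ) := by
        exact_mod_cast this
      push_cast at h2
      have e : (N : ℝ) + 1 + 1 = N + 2 := by ring
      rw [e] at h2
      exact h2
    have hf : (0 : ℝ) < ((N + 1).factorial : ℝ) := by exact_mod_cast Nat.factorial_pos _
    have e : x ^ (N + 1) / ((N + 1).factorial : ℝ) * (x / (N + 2)) ^ n =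
        x ^ (N + 1 + n) / (((N + 1).factorial : ℝ) * ((N : ℝ) + 2) ^ n) := by
      rw [div_pow, div_mul_div_comm, ← pow_add]
    rw [e]
    exact div_le_div_of_nonneg_left (pow_nonneg hx _) (by positivity) h1
  refine (sum_le_sum hterm).trans ?_
  rw [← mul_sum]
  refine mul_le_mul_of_nonneg_left ?_ (by positivity)
  have h1 : (∑ n ∈ range M, (x / ((N : ℝ) + 2)) ^ n) * (1 - x / (N + 2)) = 1 - (x / (N + 2)) ^ M :=
    geom_sum_mul_neg _ _
  have h2 : (0 : ℝ) < 1 - x / (N + 2) := by linarith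
  have h3 : ((N : ℝ) + 2) / (N + 2 - x) = 1 / (1 - x / (N + 2)) := by
    have h4 : (0 : ℝ) < N + 2 - x := by linarith
    rw [div_eq_div_iff h4.ne' h2.ne']
    field_simp
  rw [h3, le_div_iff₀ h2, h1]
  have : 0 ≤ (x / ((N : ℝ) + 2)) ^ M := pow_nonneg hr0 _
  linarith

section

open scoped Matrix.Norms.Operator

private theorem h16_expser (A : Matrix i i ℝ) (t : ℝ) (s : i → ℝ) :
    HasSum (fun n : ℕ => (t ^ n / (n.factorial : ℝ)) • (A ^ n *ᵥ s))
      (NormedSpace.exp (t • A) *ᵥ s) := by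
  have h1 := NormedSpace.exp_series_hasSum_exp' (𝕂 := ℝ) (t • A)
  have h2 : HasSum (fun n : ℕ => ((n.factorial : ℝ)⁻¹ • (t • A) ^ n) *ᵥ s)
      (NormedSpace.exp (t • A) *ᵥ s) := by
    have hc : Continuous (fun X : Matrix i i ℝ => X *ᵥ s) := by fun_prop
    exact h1.map (⟨⟨fun X : Matrix i i ℝ => X *ᵥ s, Matrix.zero_mulVec s⟩,
      fun X Y => Matrix.add_mulVec X Y s⟩ : Matrix i i ℝ →+ (i → ℝ)) hc
  have he : (fun n : ℕ => ((n.factorial : ℝ)⁻¹ • (t • A) ^ n) *ᵥ s) =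
      fun n : ℕ => (t ^ n / (n.factorial : ℝ)) • (A ^ n *ᵥ s) := by
    funext n
    rw [smul_pow, smul_smul, Matrix.smul_mulVec, div_eq_inv_mul]
  rw [he] at h2
  exact h2

end

theorem exp_tail (A : Matrix i i ℝ) (Lam t : ℝ) (hL : 0 < Lam) (ht : 0 ≤ t)
    (hp : ∀ (n : ℕ) (f : i → ℝ), n2 (A ^ n *ᵥ f) ≤ Lam ^ n * n2 f) (N : ℕ)
    (hN : t * Lam < N + 2) (s : i → ℝ) :
    n2 (NormedSpace.exp (t • A) *ᵥ s -
      ∑ n ∈ range (N + 1), (t ^ n / (n.factorial : ℝ)) • (A ^ n *ᵥ s)) ≤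
      (t * Lam) ^ (N + 1) / ((N + 1).factorial : ℝ) * ((N + 2) / (N + 2 - t * Lam)) * n2 s := by
  have hs := h16_expser A t s
  have hlim : Filter.Tendsto (fun M : ℕ => n2 (∑ n ∈ range (N + 1 + M),
      (t ^ n / (n.factorial : ℝ)) • (A ^ n *ᵥ s) -
      ∑ n ∈ range (N + 1), (t ^ n / (n.factorial : ℝ)) • (A ^ n *ᵥ s))) Filter.atTop
      (nhds (n2 (NormedSpace.exp (t • A) *ᵥ s -
      ∑ n ∈ range (N + 1), (t ^ n / (n.factorial : ℝ)) • (A ^ n *ᵥ s)))) := by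
    have h1 := hs.tendsto_sum_nat
    have h2 : Filter.Tendsto (fun M : ℕ => N + 1 + M) Filter.atTop Filter.atTop :=
      Filter.tendsto_atTop_mono (fun M => Nat.le_add_left M (N + 1)) Filter.tendsto_id
    have h3 := (h1.comp h2).sub_const
      (∑ n ∈ range (N + 1), (t ^ n / (n.factorial : ℝ)) • (A ^ n *ᵥ s))
    exact (n2_continuous.tendsto _).comp h3
  refine le_of_tendsto hlim (Filter.Eventually.of_forall fun M => ?_)
  have e : ∑ n ∈ range (N + 1 + M), (t ^ n / (n.factorial : ℝ)) • (A ^ n *ᵥ s) -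
      ∑ n ∈ range (N + 1), (t ^ n / (n.factorial : ℝ)) • (A ^ n *ᵥ s) =
      ∑ n ∈ range M, (t ^ (N + 1 + n) / ((N + 1 + n).factorial : ℝ)) • (A ^ (N + 1 + n) *ᵥ s) := by
    rw [sum_range_add]
    simp
  rw [e]
  refine (n2_sum _ _).trans ?_
  have hterm : ∀ n ∈ range M, n2 ((t ^ (N + 1 + n) / ((N + 1 + n).factorial : ℝ)) •
      (A ^ (N + 1 + n) *ᵥ s)) ≤
      (t * Lam) ^ (N + 1 + n) / ((N + 1 + n).factorial : ℝ) * n2 s := by
    intro n _
    have h0 : 0 ≤ t ^ (N + 1 + n) / ((N + 1 + n).factorial : ℝ) := by positivity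
    rw [n2_smul, abs_of_nonneg h0]
    refine (mul_le_mul_of_nonneg_left (hp (N + 1 + n) s) h0).trans (le_of_eq ?_)
    rw [mul_pow]
    ring
  refine (sum_le_sum hterm).trans ?_
  rw [← sum_mul]
  exact mul_le_mul_of_nonneg_right (exp_tail_real (t * Lam) (mul_nonneg ht hL.le) N hN M)
    (n2_nonneg s)

end Crest.Agent.R347.ChA
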