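import Crest.Agent.R347.ChA1
import Crest.Agent.R347.ChA2
import Crest.Agent.R347.ChA3
import Crest.Agent.R347.ChA4

/-!
# Row 347, Chebyshev method: main abstract theorem `cheb_main`
-/

namespace Crest.Agent.R347.ChA

open Matrix Finset

variable {i : Type*} [Fintype i] [DecidableEq i]

theorem Ioc_filter_le (a n N : ℕ) (hn : n ≤ N) :
    (Ioc a N).filter (fun j => j ≤ n) = Ioc a n := by
  ext x; simp only [mem_filter, mem_Ioc]; omega

/-- Chebyshev expansion of the truncated exponential series -/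
theorem trunc_TT (A : Matrix i i ℝ) (Lam t : ℝ) (hL : 0 < Lam) (N0 : ℕ) (s : i → ℝ) :
    ∑ n ∈ range (N0 + 1), (t ^ n / (n.factorial : ℝ)) • (A ^ n *ᵥ s) =
      (∑ n ∈ range (N0 + 1), (t * Lam / 4) ^ n / (n.factorial : ℝ) *
        (if 0 ≤ n then ((2 * n).choose (n - 0) : ℝ) else 0)) • s +
      ∑ j ∈ Ioc 0 N0, (2 * ∑ n ∈ range (N0 + 1), (t * Lam / 4) ^ n / (n.factorial : ℝ) *
        (if j ≤ n then ((2 * n).choose (n - j) : ℝ) else 0)) •
          (TT (BB A Lam) (j : ℤ) *ᵥ s) := by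
  have e1 : ∀ n ∈ range (N0 + 1), (t ^ n / (n.factorial : ℝ)) • (A ^ n *ᵥ s) =
      ((t * Lam / 4) ^ n / (n.factorial : ℝ) *
        (if 0 ≤ n then ((2 * n).choose (n - 0) : ℝ) else 0)) • s +
      ∑ j ∈ Ioc 0 N0, ((t * Lam / 4) ^ n / (n.factorial : ℝ) *
        (2 * (if j ≤ n then ((2 * n).choose (n - j) : ℝ) else 0))) •
          (TT (BB A Lam) (j : ℤ) *ᵥ s) := by
    intro n hn
    have hn' : n ≤ N0 := by have := mem_range.1 hn; omega
    have e2 : ∑ j ∈ Ioc 0 N0, ((t * Lam / 4) ^ n / (n.factorial : ℝ) *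
        (2 * (if j ≤ n then ((2 * n).choose (n - j) : ℝ) else 0))) •
          (TT (BB A Lam) (j : ℤ) *ᵥ s) =
        ∑ j ∈ Ioc 0 n, ((t * Lam / 4) ^ n / (n.factorial : ℝ) *
          (2 * ((2 * n).choose (n - j) : ℝ))) • (TT (BB A Lam) (j : ℤ) *ᵥ s) := by
      rw [← Ioc_filter_le 0 n N0 hn', sum_filter]
      refine sum_congr rfl fun j _ => ?_
      split_ifs with h
      · rfl
      · simp
    rw [e2, if_pos (Nat.zero_le _), Nat.sub_zero, Apow_TT A Lam hL n, Matrix.smul_mulVec,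
      Matrix.add_mulVec, Matrix.smul_mulVec, Matrix.one_mulVec, Matrix.sum_mulVec, smul_smul]
    have e3 : t ^ n / (n.factorial : ℝ) * (Lam / 4) ^ n =
        (t * Lam / 4) ^ n / (n.factorial : ℝ) := by
      rw [mul_div_assoc t Lam 4, mul_pow]; ring
    rw [e3, smul_add, smul_smul, smul_sum]
    congr 1
    refine sum_congr rfl fun j _ => ?_
    rw [Matrix.smul_mulVec, smul_smul]
  rw [sum_congr rfl e1, sum_add_distrib, sum_smul, sum_comm]
  congr 1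
  refine sum_congr rfl fun j _ => ?_
  rw [mul_sum, sum_smul]
  refine sum_congr rfl fun n _ => ?_
  congr 1
  ring

/-- **Chebyshev/Clenshaw evaluation of `exp (t A) s` with errors.** -/
theorem cheb_main (A : Matrix i i ℝ) (hs : A.IsSymm) (Lam t : ℝ) (hL : 0 < Lam) (ht : 0 ≤ t)
    (h0 : ∀ f : i → ℝ, 0 ≤ f ⬝ᵥ (A *ᵥ f)) (h1 : ∀ f : i → ℝ, f ⬝ᵥ (A *ᵥ f) ≤ Lam * (f ⬝ᵥ f))
    (s : i → ℝ) (S : ℝ) (hS : 0 < S) (D N0 : ℕ) (hD : D ≤ N0) (g : ℕ → ℝ)
    (hg : ∀ j ≤ D, |g j - S * ∑ n ∈ range (N0 + 1), (t * Lam / 4) ^ n / (n.factorial : ℝ) *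
      (if j ≤ n then ((2 * n).choose (n - j) : ℝ) else 0)| ≤ 1)
    (b : ℕ → i → ℝ) (hb1 : b (D + 1) = 0) (hb2 : b (D + 2) = 0) (E : ℝ)
    (hb : ∀ k ≤ D, n2 (b k - (g k • s + (4 / Lam) • (A *ᵥ b (k + 1)) - (2 : ℝ) • b (k + 1)
      - b (k + 2))) ≤ E)
    (tau : ℝ) (ht2 : t * Lam < N0 + 2)
    (htau : S * (∑ n ∈ range (N0 + 1), (t * Lam / 4) ^ n / (n.factorial : ℝ) *
        ∑ j ∈ Ioc D n, 2 * ((2 * n).choose (n - j) : ℝ)) +
      S * ((t * Lam) ^ (N0 + 1) / ((N0 + 1).factorial : ℝ) * ((N0 + 2) / (N0 + 2 - t * Lam)))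
        ≤ tau) :
    n2 ((b 0 - b 2) - S • (NormedSpace.exp (t • A) *ᵥ s)) ≤
      (2 * D + 1) * E + (2 * D + 1 + tau) * n2 s := by
  set B := BB A Lam with hB
  set G : ℕ → ℝ := fun j => ∑ n ∈ range (N0 + 1), (t * Lam / 4) ^ n / (n.factorial : ℝ) *
      (if j ≤ n then ((2 * n).choose (n - j) : ℝ) else 0) with hG
  have hG0 : ∀ j, 0 ≤ G j := by
    intro j
    refine sum_nonneg fun n _ => mul_nonneg (by positivity) ?_
    split_ifs <;> positivity
  set P : i → ℝ := ∑ n ∈ range (N0 + 1), (t ^ n / (n.factorial : ℝ)) • (A ^ n *ᵥ s) with hP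
  have hPT : P = G 0 • s + ∑ j ∈ Ioc 0 N0, (2 * G j) • (TT B (j : ℤ) *ᵥ s) :=
    trunc_TT A Lam t hL N0 s
  set err : ℕ → i → ℝ := fun k => b k - (g k • s + (4 / Lam) • (A *ᵥ b (k + 1)) -
    (2 : ℝ) • b (k + 1) - b (k + 2)) with herr
  set c : ℕ → i → ℝ := fun k => g k • s + err k with hc
  have hrec : ∀ k ≤ D, b k = c k + (2 : ℝ) • (B *ᵥ b (k + 1)) - b (k + 2) := by
    intro k _
    have e1 : (2 : ℝ) • (B *ᵥ b (k + 1)) =
        (4 / Lam) • (A *ᵥ b (k + 1)) - (2 : ℝ) • b (k + 1) := by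
      rw [hB, BB, Matrix.sub_mulVec, Matrix.smul_mulVec, Matrix.one_mulVec, smul_sub, smul_smul]
      congr 2
      ring
    simp only [hc, herr]
    rw [e1]
    abel
  have hcl := clenshaw B b c D hb1 hb2 hrec
  -- splitting the range
  have hsplit : ∑ j ∈ Ioc 0 N0, (2 * G j) • (TT B (j : ℤ) *ᵥ s) =
      ∑ j ∈ Ioc 0 D, (2 * G j) • (TT B (j : ℤ) *ᵥ s) +
        ∑ j ∈ Ioc D N0, (2 * G j) • (TT B (j : ℤ) *ᵥ s) :=
    (sum_Ioc_consecutive _ (Nat.zero_le _) hD).symm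
  set r : ℕ → i → ℝ := fun k => (g k - S * G k) • s + err k with hr
  have hdiff : (b 0 - b 2) - S • P = r 0 + ∑ k ∈ Ioc 0 D, (2 : ℝ) • (TT B (k : ℤ) *ᵥ r k) -
      ∑ j ∈ Ioc D N0, (2 * (S * G j)) • (TT B (j : ℤ) *ᵥ s) := by
    rw [hcl, hPT, hsplit, smul_add, smul_add, smul_sum, smul_sum, smul_smul]
    have e1 : ∑ k ∈ Ioc 0 D, (2 : ℝ) • (TT B (k : ℤ) *ᵥ r k) =
        ∑ k ∈ Ioc 0 D, (2 : ℝ) • (TT B (k : ℤ) *ᵥ c k) -
          ∑ k ∈ Ioc 0 D, S • (2 * G k) • (TT B (k : ℤ) *ᵥ s) := by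
      rw [← sum_sub_distrib]
      refine sum_congr rfl fun k _ => ?_
      simp only [hr, hc]
      rw [Matrix.mulVec_add, Matrix.mulVec_add, Matrix.mulVec_smul, Matrix.mulVec_smul, sub_smul,
        smul_add, smul_add, smul_sub, smul_smul, smul_smul S, smul_smul 2 (S * G k)]
      rw [show S * (2 * G k) = 2 * (S * G k) by ring]
      abel
    have e2 : r 0 = c 0 - (S * G 0) • s := by
      simp only [hr, hc]
      rw [sub_smul]; abel
    have e3 : ∑ j ∈ Ioc D N0, (2 * (S * G j)) • (TT B (j : ℤ) *ᵥ s) =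
        ∑ j ∈ Ioc D N0, S • (2 * G j) • (TT B (j : ℤ) *ᵥ s) := by
      refine sum_congr rfl fun j _ => ?_
      rw [smul_smul]
      congr 1
      ring
    rw [e1, e2, e3]
    abel
  have hrn : ∀ k ≤ D, n2 (r k) ≤ n2 s + E := by
    intro k hk
    refine (n2_add _ _).trans (add_le_add ?_ (hb k hk))
    rw [n2_smul]
    have h1' := hg k hk
    calc |g k - S * G k| * n2 s ≤ 1 * n2 s :=
          mul_le_mul_of_nonneg_right h1' (n2_nonneg s)
      _ = n2 s := one_mul _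
  have hTn : ∀ (k : ℤ) (f : i → ℝ), n2 (TT B k *ᵥ f) ≤ n2 f :=
    TT_contr A hs Lam hL h0 h1
  have hmain : n2 ((b 0 - b 2) - S • P) ≤ (n2 s + E) + D * (2 * (n2 s + E)) +
      (∑ j ∈ Ioc D N0, 2 * (S * G j)) * n2 s := by
    rw [hdiff]
    refine (n2_sub _ _).trans (add_le_add ((n2_add _ _).trans (add_le_add (hrn 0 (Nat.zero_le _))
      ?_)) ?_)
    · refine (n2_sum _ _).trans ?_
      have : ∀ k ∈ Ioc 0 D, n2 ((2 : ℝ) • (TT B (k : ℤ) *ᵥ r k)) ≤ 2 * (n2 s + E) := by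
        intro k hk
        rw [n2_smul, abs_of_pos (by norm_num : (0 : ℝ) < 2)]
        exact mul_le_mul_of_nonneg_left ((hTn _ _).trans (hrn k (mem_Ioc.1 hk).2)) (by norm_num)
      refine (sum_le_sum this).trans ?_
      rw [sum_const, Nat.card_Ioc, nsmul_eq_mul, Nat.sub_zero]
    · refine (n2_sum _ _).trans ?_
      rw [sum_mul]
      refine sum_le_sum fun j _ => ?_
      rw [n2_smul, abs_of_nonneg (mul_nonneg (by norm_num) (mul_nonneg hS.le (hG0 j)))]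
      exact mul_le_mul_of_nonneg_left (hTn _ _) (mul_nonneg (by norm_num)
        (mul_nonneg hS.le (hG0 j)))
  have hsumG : ∑ j ∈ Ioc D N0, 2 * (S * G j) =
      S * (∑ n ∈ range (N0 + 1), (t * Lam / 4) ^ n / (n.factorial : ℝ) *
        ∑ j ∈ Ioc D n, 2 * ((2 * n).choose (n - j) : ℝ)) := by
    have e1 : ∀ n ∈ range (N0 + 1), ∑ j ∈ Ioc D n, 2 * ((2 * n).choose (n - j) : ℝ) =
        ∑ j ∈ Ioc D N0, 2 * (if j ≤ n then ((2 * n).choose (n - j) : ℝ) else 0) := by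
      intro n hn
      have hn' : n ≤ N0 := by have := mem_range.1 hn; omega
      rw [← Ioc_filter_le D n N0 hn', sum_filter]
      refine sum_congr rfl fun j _ => ?_
      split_ifs <;> simp
    have e2 : ∑ n ∈ range (N0 + 1), (t * Lam / 4) ^ n / (n.factorial : ℝ) *
        ∑ j ∈ Ioc D n, 2 * ((2 * n).choose (n - j) : ℝ) =
        ∑ n ∈ range (N0 + 1), (t * Lam / 4) ^ n / (n.factorial : ℝ) *
        ∑ j ∈ Ioc D N0, 2 * (if j ≤ n then ((2 * n).choose (n - j) : ℝ) else 0) :=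
      sum_congr rfl fun n hn => by rw [e1 n hn]
    rw [e2]
    simp only [hG, mul_sum]
    rw [sum_comm]
    refine sum_congr rfl fun n _ => sum_congr rfl fun j _ => ?_
    ring
  have htail := exp_tail A Lam t hL ht (Apow_le A hs Lam hL h0 h1) N0 ht2 s
  have hexp : n2 (S • P - S • (NormedSpace.exp (t • A) *ᵥ s)) ≤
      S * ((t * Lam) ^ (N0 + 1) / ((N0 + 1).factorial : ℝ) *
        ((N0 + 2) / (N0 + 2 - t * Lam))) * n2 s := by
    rw [← smul_sub, n2_smul, abs_of_pos hS, ← n2_neg, neg_sub, mul_assoc]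
    exact mul_le_mul_of_nonneg_left htail hS.le
  have hfin : (b 0 - b 2) - S • (NormedSpace.exp (t • A) *ᵥ s) =
      ((b 0 - b 2) - S • P) + (S • P - S • (NormedSpace.exp (t • A) *ᵥ s)) := by abel
  rw [hfin]
  refine (n2_add _ _).trans ((add_le_add hmain hexp).trans ?_)
  rw [hsumG]
  have := mul_le_mul_of_nonneg_right htau (n2_nonneg s)
  linarith

end Crest.Agent.R347.ChA
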