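import Crest.Agent.R347.ChADefs

/-!
# Row 347, Chebyshev method, piece C347_T1

`A` symmetric, `0 ≤ A ≤ Lam` as a quadratic form: `|A f|² ≤ Lam f·Af`, `|T_k(B) f| ≤ |f|`,
`|A^n f| ≤ Lam^n |f|`.
-/

namespace Crest.Agent.R347.ChA

open Matrix Finset

variable {i : Type*} [Fintype i] [DecidableEq i]

omit [DecidableEq i] in
theorem symm_dot (A : Matrix i i ℝ) (hs : A.IsSymm) (f g : i → ℝ) :
    f ⬝ᵥ (A *ᵥ g) = (A *ᵥ f) ⬝ᵥ g := by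
  rw [Matrix.dotProduct_mulVec, ← Matrix.mulVec_transpose, hs.eq]

theorem symm_aeval (A : Matrix i i ℝ) (hs : A.IsSymm) (p : Polynomial ℝ) :
    (Polynomial.aeval A p).IsSymm := by
  induction p using Polynomial.induction_on' with
  | add p q hp hq =>
    rw [map_add]
    exact hp.add hq
  | monomial n a =>
    rw [Polynomial.aeval_monomial, Algebra.algebraMap_eq_smul_one, smul_mul_assoc, one_mul]
    exact (hs.pow n).smul a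

/-- `|A f|² ≤ Lam f·Af`: expand `0 ≤ (f - c Af)·A(f - c Af)` with `c = 1/Lam`. -/
theorem Asq_le (A : Matrix i i ℝ) (hs : A.IsSymm) (Lam : ℝ) (hL : 0 < Lam)
    (h0 : ∀ f : i → ℝ, 0 ≤ f ⬝ᵥ (A *ᵥ f)) (h1 : ∀ f : i → ℝ, f ⬝ᵥ (A *ᵥ f) ≤ Lam * (f ⬝ᵥ f))
    (f : i → ℝ) : (A *ᵥ f) ⬝ᵥ (A *ᵥ f) ≤ Lam * (f ⬝ᵥ (A *ᵥ f)) := by
  have h2 := h0 (Lam • f - A *ᵥ f)
  have h3 := h1 (A *ᵥ f)
  have e1 : f ⬝ᵥ (A *ᵥ (A *ᵥ f)) = (A *ᵥ f) ⬝ᵥ (A *ᵥ f) := symm_dot A hs _ _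
  rw [Matrix.mulVec_sub, Matrix.mulVec_smul, sub_dotProduct, dotProduct_sub, dotProduct_sub,
    smul_dotProduct, smul_dotProduct, dotProduct_smul, dotProduct_smul, e1] at h2
  simp only [smul_eq_mul] at h2
  have h4 : 0 ≤ Lam * (Lam * (f ⬝ᵥ (A *ᵥ f)) - (A *ᵥ f) ⬝ᵥ (A *ᵥ f)) := by nlinarith
  have h5 := nonneg_of_mul_nonneg_right h4 hL
  linarith

theorem BB_contr (A : Matrix i i ℝ) (hs : A.IsSymm) (Lam : ℝ) (hL : 0 < Lam)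
    (h0 : ∀ f : i → ℝ, 0 ≤ f ⬝ᵥ (A *ᵥ f)) (h1 : ∀ f : i → ℝ, f ⬝ᵥ (A *ᵥ f) ≤ Lam * (f ⬝ᵥ f))
    (f : i → ℝ) : n2 (BB A Lam *ᵥ f) ≤ n2 f := by
  apply n2_le_of
  have h2 := Asq_le A hs Lam hL h0 h1 f
  have e : BB A Lam *ᵥ f = (2 / Lam) • (A *ᵥ f) - f := by
    rw [BB, Matrix.sub_mulVec, Matrix.smul_mulVec, Matrix.one_mulVec]
  rw [e, sub_dotProduct, dotProduct_sub, dotProduct_sub, smul_dotProduct, smul_dotProduct,
    dotProduct_smul, dotProduct_smul]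
  simp only [smul_eq_mul]
  rw [dotProduct_comm (A *ᵥ f) f]
  have h3 : (2 / Lam) * ((2 / Lam) * ((A *ᵥ f) ⬝ᵥ (A *ᵥ f))) ≤
      (2 / Lam) * (2 * (f ⬝ᵥ (A *ᵥ f))) := by
    refine mul_le_mul_of_nonneg_left ?_ (by positivity)
    rw [div_mul_eq_mul_div, div_le_iff₀ hL]
    linarith
  linarith

/-- Pell equation for Chebyshev polynomials -/
theorem cheb_pell (k : ℤ) :
    (1 : Polynomial ℝ) - Polynomial.Chebyshev.T ℝ k ^ 2 =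
      (1 - Polynomial.X ^ 2) * Polynomial.Chebyshev.U ℝ (k - 1) ^ 2 := by
  have h := congrArg (fun p : Polynomial ℝ => p.comp (2 * Polynomial.X))
    (Polynomial.Chebyshev.S_sq_add_S_sq ℝ (k - 1))
  simp only [Polynomial.sub_comp, Polynomial.add_comp, Polynomial.mul_comp, Polynomial.pow_comp,
    Polynomial.X_comp, Polynomial.one_comp, Polynomial.Chebyshev.S_comp_two_mul_X,
    sub_add_cancel] at h
  have h2 := Polynomial.Chebyshev.T_eq_U_sub_X_mul_U ℝ k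
  rw [h2]
  linear_combination (-1 : Polynomial ℝ) * h

/-- `1 - T_k² = (1 - x²) U_{k-1}²` and polynomials in the symmetric `B` are symmetric and commute:
`|f|² - |T_k f|² = |U f|² - |B U f|² ≥ 0`. -/
theorem TT_contr (A : Matrix i i ℝ) (hs : A.IsSymm) (Lam : ℝ) (hL : 0 < Lam)
    (h0 : ∀ f : i → ℝ, 0 ≤ f ⬝ᵥ (A *ᵥ f)) (h1 : ∀ f : i → ℝ, f ⬝ᵥ (A *ᵥ f) ≤ Lam * (f ⬝ᵥ f))
    (k : ℤ) (f : i → ℝ) : n2 (TT (BB A Lam) k *ᵥ f) ≤ n2 f := by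
  apply n2_le_of
  have hB : (BB A Lam).IsSymm := (hs.smul _).sub Matrix.isSymm_one
  set B := BB A Lam with hBdef
  set T := TT B k with hT
  set U := Polynomial.aeval B (Polynomial.Chebyshev.U ℝ (k - 1)) with hU
  have hTs : T.IsSymm := symm_aeval B hB _
  have hUs : U.IsSymm := symm_aeval B hB _
  have hUB : U * B = B * U := by
    have h1 : U * Polynomial.aeval B (Polynomial.X : Polynomial ℝ) =
        Polynomial.aeval B (Polynomial.X : Polynomial ℝ) * U := by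
      rw [hU, ← map_mul, ← map_mul, mul_comm]
    simpa using h1
  have key : (1 : Matrix i i ℝ) - T * T = U * U - (B * U) * (B * U) := by
    have h := congrArg (Polynomial.aeval B) (cheb_pell k)
    simp only [map_sub, map_mul, map_pow, map_one, Polynomial.aeval_X] at h
    have h' : (1 : Matrix i i ℝ) - T ^ 2 = (1 - B ^ 2) * U ^ 2 := h
    rw [← pow_two, h', sub_mul, one_mul, ← pow_two, mul_assoc B U (B * U), ← mul_assoc U B U, hUB]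
    simp only [pow_two, mul_assoc]
  have k1 : (T *ᵥ f) ⬝ᵥ (T *ᵥ f) = f ⬝ᵥ ((T * T) *ᵥ f) := by
    rw [← Matrix.mulVec_mulVec, symm_dot T hTs f]
  have k2 : (U *ᵥ f) ⬝ᵥ (U *ᵥ f) = f ⬝ᵥ ((U * U) *ᵥ f) := by
    rw [← Matrix.mulVec_mulVec, symm_dot U hUs f]
  have k3 : ((B * U) *ᵥ f) ⬝ᵥ ((B * U) *ᵥ f) = f ⬝ᵥ (((B * U) * (B * U)) *ᵥ f) := by
    have hs' : (B * U).IsSymm := by
      rw [Matrix.IsSymm, Matrix.transpose_mul, hUs.eq, hB.eq, hUB]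
    rw [← symm_dot (B * U) hs' f, Matrix.mulVec_mulVec]
  have k4 := congrArg (fun M : Matrix i i ℝ => f ⬝ᵥ (M *ᵥ f)) key
  simp only [Matrix.sub_mulVec, dotProduct_sub, Matrix.one_mulVec] at k4
  have k5 : ((B * U) *ᵥ f) ⬝ᵥ ((B * U) *ᵥ f) ≤ (U *ᵥ f) ⬝ᵥ (U *ᵥ f) := by
    rw [← Matrix.mulVec_mulVec]
    have h := BB_contr A hs Lam hL h0 h1 (U *ᵥ f)
    rw [← n2_sq, ← n2_sq]
    exact pow_le_pow_left₀ (n2_nonneg _) h 2
  linarith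

theorem Apow_le (A : Matrix i i ℝ) (hs : A.IsSymm) (Lam : ℝ) (hL : 0 < Lam)
    (h0 : ∀ f : i → ℝ, 0 ≤ f ⬝ᵥ (A *ᵥ f)) (h1 : ∀ f : i → ℝ, f ⬝ᵥ (A *ᵥ f) ≤ Lam * (f ⬝ᵥ f))
    (n : ℕ) (f : i → ℝ) : n2 (A ^ n *ᵥ f) ≤ Lam ^ n * n2 f := by
  have hA : ∀ g : i → ℝ, n2 (A *ᵥ g) ≤ Lam * n2 g := by
    intro g
    have h2 := Asq_le A hs Lam hL h0 h1 g
    have h3 := h1 g
    have h4 : (A *ᵥ g) ⬝ᵥ (A *ᵥ g) ≤ Lam ^ 2 * (g ⬝ᵥ g) := by nlinarith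
    rw [← n2_sq, ← n2_sq, ← mul_pow] at h4
    exact (sq_le_sq₀ (n2_nonneg _) (mul_nonneg hL.le (n2_nonneg _))).1 h4
  induction n with
  | zero => simp
  | succ n ih =>
    rw [pow_succ', ← Matrix.mulVec_mulVec, pow_succ']
    calc n2 (A *ᵥ (A ^ n *ᵥ f)) ≤ Lam * n2 (A ^ n *ᵥ f) := hA _
      _ ≤ Lam * (Lam ^ n * n2 f) := mul_le_mul_of_nonneg_left ih hL.le
      _ = Lam * Lam ^ n * n2 f := by ring

end Crest.Agent.R347.ChA
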