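import Mathlib

/-!
# Row 347, Chebyshev method: abstract linear algebra (part T), definitions

* `n2 f = sqrt (∑ x, f x * f x)` with its norm properties;
* `BB A Lam = (2/Lam) A - 1`;
* `TT B k = T_k(B)` (`k : ℤ`, Chebyshev polynomials of the first kind).
-/

namespace Crest.Agent.R347.ChA

open Matrix Finset

variable {i : Type*} [Fintype i] [DecidableEq i]

/-- euclidean norm -/
noncomputable def n2 (f : i → ℝ) : ℝ := Real.sqrt (∑ x, f x * f x)

/-- `B = (2/Lam) A - 1` -/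
noncomputable def BB (A : Matrix i i ℝ) (Lam : ℝ) : Matrix i i ℝ := (2 / Lam) • A - 1

/-- `T_k(B)` -/
noncomputable def TT (B : Matrix i i ℝ) (k : ℤ) : Matrix i i ℝ :=
  Polynomial.aeval B (Polynomial.Chebyshev.T ℝ k)

omit [DecidableEq i] in
theorem n2_eq (f : i → ℝ) : n2 f = ‖(WithLp.toLp 2 f : EuclideanSpace ℝ i)‖ := by
  rw [n2, EuclideanSpace.norm_eq]
  congr 1
  refine sum_congr rfl fun x _ => ?_
  rw [Real.norm_eq_abs, sq_abs, pow_two]

omit [DecidableEq i] in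
theorem n2_nonneg (f : i → ℝ) : 0 ≤ n2 f := Real.sqrt_nonneg _

omit [DecidableEq i] in
theorem n2_sq (f : i → ℝ) : n2 f ^ 2 = f ⬝ᵥ f := by
  rw [n2, Real.sq_sqrt (sum_nonneg fun x _ => mul_self_nonneg _)]
  rfl

omit [DecidableEq i] in
theorem n2_le_of (f g : i → ℝ) (h : f ⬝ᵥ f ≤ g ⬝ᵥ g) : n2 f ≤ n2 g :=
  Real.sqrt_le_sqrt h

omit [DecidableEq i] in
theorem n2_zero : n2 (0 : i → ℝ) = 0 := by
  simp [n2]

omit [DecidableEq i] in
theorem n2_add (f g : i → ℝ) : n2 (f + g) ≤ n2 f + n2 g := by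
  rw [n2_eq, n2_eq, n2_eq]
  exact norm_add_le _ _

omit [DecidableEq i] in
theorem n2_neg (f : i → ℝ) : n2 (-f) = n2 f := by
  simp [n2]

omit [DecidableEq i] in
theorem n2_sub (f g : i → ℝ) : n2 (f - g) ≤ n2 f + n2 g := by
  rw [sub_eq_add_neg, ← n2_neg g]
  exact n2_add _ _

omit [DecidableEq i] in
theorem n2_smul (c : ℝ) (f : i → ℝ) : n2 (c • f) = |c| * n2 f := by
  rw [n2_eq, n2_eq, ← Real.norm_eq_abs, ← norm_smul]
  rfl

omit [DecidableEq i] in
theorem n2_sum {ι : Type*} (S : Finset ι) (f : ι → i → ℝ) :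
    n2 (∑ k ∈ S, f k) ≤ ∑ k ∈ S, n2 (f k) := by
  classical
  induction S using Finset.induction_on with
  | empty => simp [n2_zero]
  | insert a S ha ih =>
    rw [sum_insert ha, sum_insert ha]
    exact (n2_add _ _).trans (by linarith)

omit [DecidableEq i] in
theorem n2_continuous : Continuous (n2 : (i → ℝ) → ℝ) := by
  unfold n2
  fun_prop

end Crest.Agent.R347.ChA
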