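import Crest.Agent.R347.ChCore

/-!
# Row 347, numerics (ring), Chebyshev version: check of the coefficients (evaluated by the kernel)

`a = 17·2^s`, `b = 4 r`: `t Lam / 4 = a / b` for `t = 17/4`, `Lam = 4·2^s / r`.
-/

set_option autoImplicit false

namespace Crest.Agent.R347

/-- factorial -/
def fctN : ℕ → ℕ
  | 0 => 1
  | n + 1 => (n + 1) * fctN n

/-- `t_n + t_(n+1) + …` (`k + 1` terms), `t_(n+1) = t_n a (2n+2)(2n+1) / (b (n+1)(n+1-j)(n+1+j))` -/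
def sumJ (a b j : ℕ) : ℕ → ℕ → ℕ → ℕ
  | 0, _, t => t
  | k + 1, n, t => t + sumJ a b j k (n + 1)
      (t * (a * ((2 * n + 2) * (2 * n + 1))) / (b * ((n + 1) * ((n + 1 - j) * (n + 1 + j)))))

/-- `∑_{n=j}^{N0} a^n b^(N0-n) (N0!/n!) C(2n, n-j)` -/
def numJ (a b N0 j : ℕ) : ℕ := sumJ a b j (N0 - j) j (a ^ j * (b ^ (N0 - j) * (fctN N0 / fctN j)))

/-- check of the coefficients `g_j, …, g_0` -/
def gamL (a b N0 den : ℕ) : List ℕ → Bool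
  | [] => true
  | g :: l => (Nat.ble (g * den) (numJ a b N0 l.length) &&
      Nat.ble (numJ a b N0 l.length) ((g + 1) * den)) && gamL a b N0 den l

/-- `∑_{j=D+1}^{D+k} numJ j` -/
def tailJ (a b N0 D : ℕ) : ℕ → ℕ
  | 0 => 0
  | k + 1 => numJ a b N0 (D + k + 1) + tailJ a b N0 D k

/-- all checks; `gs = [g_D, …, g_0]`, `S = 2^(-σ)`, tail bound `τ + 1` -/
def gamC (r s D N0 σ τ : ℕ) (gs : List ℕ) : Bool :=
  (Nat.beq gs.length (D + 1) && (Nat.ble D N0 && Nat.blt 0 r)) &&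
  (gamL (17 * 2 ^ s) (4 * r) N0 (2 ^ σ * ((4 * r) ^ N0 * fctN N0)) gs &&
  (Nat.ble (2 * tailJ (17 * 2 ^ s) (4 * r) N0 D (N0 - D)) (τ * (2 ^ σ * ((4 * r) ^ N0 * fctN N0))) &&
  (Nat.blt (17 * 2 ^ s) ((N0 + 2) * r) &&
    Nat.ble ((17 * 2 ^ s) ^ (N0 + 1) * ((N0 + 2) * r))
      (2 ^ σ * (r ^ (N0 + 1) * (fctN (N0 + 1) * ((N0 + 2) * r - 17 * 2 ^ s)))))))

end Crest.Agent.R347
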