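import Mathlib
import Crest.Agent.R347.ChGam

/-!
# Row 347, Chebyshev numerics, piece C: soundness of the check of the coefficients

`a = 17·2^s`, `b = 4 r`, `a / b = (17/4) Lam / 4` with `Lam = 4·2^s/r`.  By induction
`t_n = a^n b^(N0-n) (N0!/n!) C(2n, n-j)` (exact divisions:
`C(2n+2, n+1-j) (n+1-j)(n+1+j) = C(2n, n-j) (2n+2)(2n+1)`), so
`numJ a b N0 j = b^N0 N0! ∑_{n=j}^{N0} (a/b)^n / n! C(2n, n-j)`.  The double sum of the tail is exchanged:
`∑_n w_n ∑_{j ∈ Ioc D n} 2 C(2n, n-j) = 2 ∑_{j=D+1}^{N0} numJ j / den`.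
-/

set_option autoImplicit false

open Finset

namespace Crest.Agent.R347

/-- the coefficients of the Chebyshev expansion, in the form used by `ChA.cheb_main` -/
structure GamOK (r s D N0 σ : ℕ) (τ : ℝ) (g : ℕ → ℝ) : Prop where
  hD : D ≤ N0
  hg : ∀ j ≤ D, |g j - 1 / 2 ^ σ * ∑ n ∈ range (N0 + 1),
    (17 / 4 * (4 * 2 ^ s / (r : ℝ)) / 4) ^ n / (n.factorial : ℝ) *
      (if j ≤ n then ((2 * n).choose (n - j) : ℝ) else 0)| ≤ 1
  ht2 : 17 / 4 * (4 * 2 ^ s / (r : ℝ)) < N0 + 2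
  htau : 1 / 2 ^ σ * (∑ n ∈ range (N0 + 1), (17 / 4 * (4 * 2 ^ s / (r : ℝ)) / 4) ^ n /
        (n.factorial : ℝ) * ∑ j ∈ Ioc D n, 2 * ((2 * n).choose (n - j) : ℝ)) +
      1 / 2 ^ σ * ((17 / 4 * (4 * 2 ^ s / (r : ℝ))) ^ (N0 + 1) / ((N0 + 1).factorial : ℝ) *
        ((N0 + 2) / (N0 + 2 - 17 / 4 * (4 * 2 ^ s / (r : ℝ))))) ≤ τ

private theorem fctN_eq (n : ℕ) : fctN n = n.factorial := by
  induction n with
  | zero => rfl
  | succ n ih => rw [fctN, ih, Nat.factorial_succ]

private theorem choose_step (n j : ℕ) (hj : j ≤ n) :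
    (2 * (n + 1)).choose (n + 1 - j) * ((n + 1 - j) * (n + 1 + j)) =
      (2 * n).choose (n - j) * ((2 * n + 2) * (2 * n + 1)) := by
  obtain ⟨k, rfl⟩ := Nat.exists_eq_add_of_le hj
  have e1 : j + k + 1 - j = k + 1 := by omega
  have e2 : j + k - j = k := by omega
  rw [e1, e2]
  have h1 := Nat.add_one_mul_choose_eq (2 * (j + k) + 1) k
  have h2 := Nat.choose_mul_succ_eq (2 * (j + k)) k
  have e3 : 2 * (j + k) + 1 - k = j + k + 1 + j := by omega
  rw [e3] at h2
  have e4 : 2 * (j + k) + 1 + 1 = 2 * (j + k + 1) := by omega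
  rw [e4] at h1
  have e5 : 2 * (j + k) + 2 = 2 * (j + k + 1) := by omega
  rw [e5]
  calc (2 * (j + k + 1)).choose (k + 1) * ((k + 1) * (j + k + 1 + j))
      = ((2 * (j + k + 1)).choose (k + 1) * (k + 1)) * (j + k + 1 + j) := by ring
    _ = (2 * (j + k + 1) * (2 * (j + k) + 1).choose k) * (j + k + 1 + j) := by rw [h1]
    _ = 2 * (j + k + 1) * ((2 * (j + k) + 1).choose k * (j + k + 1 + j)) := by ring
    _ = 2 * (j + k + 1) * ((2 * (j + k)).choose k * (2 * (j + k) + 1)) := by rw [h2]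
    _ = _ := by ring

/-- the terms of the sum -/
private def tT (a b N0 j n : ℕ) : ℕ :=
  a ^ n * (b ^ (N0 - n) * (N0.factorial / n.factorial)) * (2 * n).choose (n - j)

private theorem tT_step (a b N0 j n : ℕ) (hb : 0 < b) (hj : j ≤ n) (hn : n < N0) :
    tT a b N0 j n * (a * ((2 * n + 2) * (2 * n + 1))) /
      (b * ((n + 1) * ((n + 1 - j) * (n + 1 + j)))) = tT a b N0 j (n + 1) := by
  apply Nat.div_eq_of_eq_mul_left
  · have : 0 < n + 1 - j := by omega
    positivity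
  · have h1 := choose_step n j hj
    have h2 : N0.factorial / n.factorial = (n + 1) * (N0.factorial / (n + 1).factorial) := by
      have hd : (n + 1).factorial ∣ N0.factorial := Nat.factorial_dvd_factorial hn
      obtain ⟨c, hc⟩ := hd
      rw [hc, Nat.mul_div_cancel_left _ (Nat.factorial_pos _), Nat.factorial_succ,
        mul_comm (n + 1) n.factorial, mul_assoc, Nat.mul_div_cancel_left _ (Nat.factorial_pos _)]
    have h3 : b ^ (N0 - n) = b * b ^ (N0 - (n + 1)) := by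
      rw [← pow_succ']
      congr 1
      omega
    unfold tT
    rw [h2, h3, pow_succ]
    calc a ^ n * (b * b ^ (N0 - (n + 1)) * ((n + 1) * (N0.factorial / (n + 1).factorial))) *
          (2 * n).choose (n - j) * (a * ((2 * n + 2) * (2 * n + 1)))
        = a ^ n * (b * b ^ (N0 - (n + 1)) * ((n + 1) * (N0.factorial / (n + 1).factorial))) * a *
          ((2 * n).choose (n - j) * ((2 * n + 2) * (2 * n + 1))) := by ring
      _ = a ^ n * (b * b ^ (N0 - (n + 1)) * ((n + 1) * (N0.factorial / (n + 1).factorial))) * a *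
          ((2 * (n + 1)).choose (n + 1 - j) * ((n + 1 - j) * (n + 1 + j))) := by rw [h1]
      _ = _ := by ring

private theorem sumJ_eq (a b N0 j : ℕ) (hb : 0 < b) : ∀ (k n : ℕ), j ≤ n → n + k ≤ N0 →
    sumJ a b j k n (tT a b N0 j n) = ∑ i ∈ range (k + 1), tT a b N0 j (n + i) := by
  intro k
  induction k with
  | zero =>
    intro n _ _
    simp [sumJ]
  | succ k ih =>
    intro n hn hk
    rw [sumJ, tT_step a b N0 j n hb hn (by omega), ih (n + 1) (by omega) (by omega),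
      Finset.sum_range_succ' _ (k + 1), add_comm]
    congr 1
    refine Finset.sum_congr rfl fun i _ => ?_
    congr 1
    omega

theorem numJ_eq (a b N0 j : ℕ) (ha : 0 < a) (hb : 0 < b) (hj : j ≤ N0) :
    (numJ a b N0 j : ℝ) = (b : ℝ) ^ N0 * (N0.factorial : ℝ) * ∑ n ∈ range (N0 + 1),
      ((a : ℝ) / b) ^ n / (n.factorial : ℝ) *
        (if j ≤ n then ((2 * n).choose (n - j) : ℝ) else 0) := by
  have h0 : numJ a b N0 j = ∑ i ∈ range (N0 - j + 1), tT a b N0 j (j + i) := by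
    have h1 : a ^ j * (b ^ (N0 - j) * (fctN N0 / fctN j)) = tT a b N0 j j := by
      unfold tT
      rw [fctN_eq, fctN_eq, Nat.sub_self, Nat.choose_zero_right, mul_one]
    unfold numJ
    rw [h1, sumJ_eq a b N0 j hb _ _ le_rfl (by omega)]
  have hbR : (b : ℝ) ≠ 0 := by exact_mod_cast hb.ne'
  have h2 : ∀ n, j ≤ n → n ≤ N0 → (tT a b N0 j n : ℝ) = (b : ℝ) ^ N0 * (N0.factorial : ℝ) *
      (((a : ℝ) / b) ^ n / (n.factorial : ℝ) *
        (if j ≤ n then ((2 * n).choose (n - j) : ℝ) else 0)) := by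
    intro n hjn hn
    rw [if_pos hjn]
    unfold tT
    push_cast
    rw [Nat.cast_div (Nat.factorial_dvd_factorial hn)
      (by exact_mod_cast (Nat.factorial_ne_zero n))]
    have h3 : (b : ℝ) ^ N0 = b ^ (N0 - n) * b ^ n := by
      rw [← pow_add]
      congr 1
      omega
    rw [h3, div_pow]
    have h4 : (n.factorial : ℝ) ≠ 0 := by exact_mod_cast (Nat.factorial_ne_zero n)
    field_simp
  rw [h0]
  push_cast
  rw [Finset.mul_sum]
  have h5 : ∑ n ∈ range (N0 + 1), (b : ℝ) ^ N0 * (N0.factorial : ℝ) *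
      (((a : ℝ) / b) ^ n / (n.factorial : ℝ) *
        (if j ≤ n then ((2 * n).choose (n - j) : ℝ) else 0)) =
      ∑ n ∈ Ico j (N0 + 1), (b : ℝ) ^ N0 * (N0.factorial : ℝ) *
      (((a : ℝ) / b) ^ n / (n.factorial : ℝ) *
        (if j ≤ n then ((2 * n).choose (n - j) : ℝ) else 0)) := by
    symm
    apply Finset.sum_subset
    · intro n hn
      rw [Finset.mem_Ico] at hn
      rw [Finset.mem_range]
      omega
    · intro n hn hn'
      rw [Finset.mem_range] at hn
      rw [Finset.mem_Ico] at hn'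
      rw [if_neg (by omega), mul_zero, mul_zero]
  rw [h5, Finset.sum_Ico_eq_sum_range]
  have h6 : N0 + 1 - j = N0 - j + 1 := by omega
  rw [h6]
  refine Finset.sum_congr rfl fun i hi => ?_
  rw [Finset.mem_range] at hi
  exact h2 (j + i) (by omega) (by omega)

private theorem gamL_spec (a b N0 den : ℕ) : ∀ (gs : List ℕ), gamL a b N0 den gs = true →
    ∀ j < gs.length, gs.getD (gs.length - 1 - j) 0 * den ≤ numJ a b N0 j ∧
      numJ a b N0 j ≤ (gs.getD (gs.length - 1 - j) 0 + 1) * den := by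
  intro gs
  induction gs with
  | nil => intro _ j hj; simp at hj
  | cons g l ih =>
    intro h j hj
    rw [gamL, Bool.and_eq_true, Bool.and_eq_true] at h
    obtain ⟨⟨h1, h2⟩, h3⟩ := h
    have h1' := Nat.le_of_ble_eq_true h1
    have h2' := Nat.le_of_ble_eq_true h2
    rw [List.length_cons] at hj
    rcases Nat.lt_or_ge j l.length with hlt | hge
    · have e : (g :: l).length - 1 - j = (l.length - 1 - j) + 1 := by
        rw [List.length_cons]; omega
      rw [e, List.getD_cons_succ]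
      exact ih h3 j hlt
    · have ej : j = l.length := by omega
      subst ej
      have e : (g :: l).length - 1 - l.length = 0 := by
        rw [List.length_cons]; omega
      rw [e, List.getD_cons_zero]
      exact ⟨h1', h2'⟩

private theorem tailJ_eq (a b N0 D : ℕ) : ∀ k, tailJ a b N0 D k =
    ∑ j ∈ Ioc D (D + k), numJ a b N0 j := by
  intro k
  induction k with
  | zero => simp [tailJ]
  | succ k ih =>
    rw [tailJ, ih, ← add_assoc, Finset.sum_Ioc_succ_top (by omega), add_comm]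

theorem gam_sound {r s D N0 σ τ : ℕ} {gs : List ℕ} (h : gamC r s D N0 σ τ gs = true) :
    gs.length = D + 1 ∧
      GamOK r s D N0 σ ((τ : ℝ) + 1) fun j => ((gs.getD (D - j) 0 : ℕ) : ℝ) := by
  unfold gamC at h
  simp only [Bool.and_eq_true] at h
  obtain ⟨⟨hl, hDN, hr⟩, hL, hT, hlt, hR⟩ := h
  have hl' : gs.length = D + 1 := Nat.eq_of_beq_eq_true hl
  have hDN' : D ≤ N0 := Nat.le_of_ble_eq_true hDN
  have hr' : 0 < r := by
    have := Nat.le_of_ble_eq_true hr
    omega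
  have hT' := Nat.le_of_ble_eq_true hT
  have hlt' : 17 * 2 ^ s < (N0 + 2) * r := Nat.le_of_ble_eq_true hlt
  have hR' := Nat.le_of_ble_eq_true hR
  clear hl hDN hr hT hlt hR
  rw [fctN_eq] at hL hT'
  rw [fctN_eq] at hR'
  have ha : 0 < 17 * 2 ^ s := by positivity
  have hb : 0 < 4 * r := by omega
  have hrR : (0 : ℝ) < r := by exact_mod_cast hr'
  have hfac : (0 : ℝ) < (N0.factorial : ℝ) := by exact_mod_cast Nat.factorial_pos N0
  have hq : (17 / 4 * (4 * 2 ^ s / (r : ℝ)) / 4) = ((17 * 2 ^ s : ℕ) : ℝ) / ((4 * r : ℕ) : ℝ) := by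
    push_cast
    field_simp
  have hnum : ∀ j ≤ N0, (numJ (17 * 2 ^ s) (4 * r) N0 j : ℝ) =
      (((4 * r : ℕ) : ℝ) ^ N0 * (N0.factorial : ℝ)) * ∑ n ∈ range (N0 + 1),
      (17 / 4 * (4 * 2 ^ s / (r : ℝ)) / 4) ^ n / (n.factorial : ℝ) *
        (if j ≤ n then ((2 * n).choose (n - j) : ℝ) else 0) := by
    intro j hj
    rw [hq]
    exact numJ_eq (17 * 2 ^ s) (4 * r) N0 j ha hb hj
  set M : ℝ := ((4 * r : ℕ) : ℝ) ^ N0 * (N0.factorial : ℝ) with hM
  have hMpos : 0 < M := by positivity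
  have h2σ : (0 : ℝ) < 2 ^ σ := by positivity
  refine ⟨hl', ⟨hDN', ?_, ?_, ?_⟩⟩
  · -- the coefficients
    intro j hj
    obtain ⟨e1, e2⟩ := gamL_spec _ _ _ _ gs hL j (by omega)
    have ei : gs.length - 1 - j = D - j := by omega
    rw [ei] at e1 e2
    have e1' : ((gs.getD (D - j) 0 : ℕ) : ℝ) * (2 ^ σ * M) ≤
        (numJ (17 * 2 ^ s) (4 * r) N0 j : ℝ) := by
      rw [hM]
      exact_mod_cast e1
    have e2' : (numJ (17 * 2 ^ s) (4 * r) N0 j : ℝ) ≤
        (((gs.getD (D - j) 0 : ℕ) : ℝ) + 1) * (2 ^ σ * M) := by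
      rw [hM]
      exact_mod_cast e2
    rw [hnum j (by omega)] at e1' e2'
    generalize (∑ n ∈ range (N0 + 1), (17 / 4 * (4 * 2 ^ s / (r : ℝ)) / 4) ^ n /
      (n.factorial : ℝ) * (if j ≤ n then ((2 * n).choose (n - j) : ℝ) else 0)) = X at e1' e2' ⊢
    generalize ((gs.getD (D - j) 0 : ℕ) : ℝ) = g at e1' e2' ⊢
    have f1 : g * 2 ^ σ ≤ X := by
      have : M * (g * 2 ^ σ) ≤ M * X := by linarith
      exact le_of_mul_le_mul_left this hMpos
    have f2 : X ≤ (g + 1) * 2 ^ σ := by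
      have : M * X ≤ M * ((g + 1) * 2 ^ σ) := by linarith
      exact le_of_mul_le_mul_left this hMpos
    have f3 : 1 / 2 ^ σ * X = X / 2 ^ σ := by ring
    rw [f3, abs_le]
    have f4 : g ≤ X / 2 ^ σ := by rw [le_div_iff₀ h2σ]; exact f1
    have f5 : X / 2 ^ σ ≤ g + 1 := by rw [div_le_iff₀ h2σ]; exact f2
    constructor <;> linarith
  · -- `t Lam < N0 + 2`
    have e : 17 / 4 * (4 * 2 ^ s / (r : ℝ)) = 17 * 2 ^ s / r := by field_simp
    rw [e, div_lt_iff₀ hrR]
    exact_mod_cast hlt'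
  · -- the tail
    apply add_le_add
    · have e1 : ∑ n ∈ range (N0 + 1), (17 / 4 * (4 * 2 ^ s / (r : ℝ)) / 4) ^ n /
          (n.factorial : ℝ) * ∑ j ∈ Ioc D n, 2 * ((2 * n).choose (n - j) : ℝ) =
          ∑ j ∈ Ioc D N0, 2 * ∑ n ∈ range (N0 + 1),
            (17 / 4 * (4 * 2 ^ s / (r : ℝ)) / 4) ^ n / (n.factorial : ℝ) *
            (if j ≤ n then ((2 * n).choose (n - j) : ℝ) else 0) := by
        have e0 : ∀ n ∈ range (N0 + 1), (17 / 4 * (4 * 2 ^ s / (r : ℝ)) / 4) ^ n /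
            (n.factorial : ℝ) * ∑ j ∈ Ioc D n, 2 * ((2 * n).choose (n - j) : ℝ) =
            ∑ j ∈ Ioc D N0, 2 * ((17 / 4 * (4 * 2 ^ s / (r : ℝ)) / 4) ^ n /
            (n.factorial : ℝ) * (if j ≤ n then ((2 * n).choose (n - j) : ℝ) else 0)) := by
          intro n hn
          rw [Finset.mem_range] at hn
          rw [Finset.mul_sum]
          have hs : Ioc D n ⊆ Ioc D N0 := by
            intro x hx
            rw [Finset.mem_Ioc] at hx ⊢
            omega
          rw [← Finset.sum_subset hs]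
          · refine Finset.sum_congr rfl fun j hj => ?_
            rw [Finset.mem_Ioc] at hj
            rw [if_pos hj.2]
            ring
          · intro x hx hx'
            rw [Finset.mem_Ioc] at hx hx'
            rw [if_neg (by omega), mul_zero, mul_zero]
        rw [Finset.sum_congr rfl e0, Finset.sum_comm]
        refine Finset.sum_congr rfl fun j _ => ?_
        rw [Finset.mul_sum]
      rw [e1]
      have e2 : (2 * (tailJ (17 * 2 ^ s) (4 * r) N0 D (N0 - D) : ℕ) : ℝ) =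
          M * ∑ j ∈ Ioc D N0, 2 * ∑ n ∈ range (N0 + 1),
            (17 / 4 * (4 * 2 ^ s / (r : ℝ)) / 4) ^ n / (n.factorial : ℝ) *
            (if j ≤ n then ((2 * n).choose (n - j) : ℝ) else 0) := by
        rw [tailJ_eq]
        have e3 : D + (N0 - D) = N0 := by omega
        rw [e3]
        push_cast
        rw [Finset.mul_sum, Finset.mul_sum]
        refine Finset.sum_congr rfl fun j hj => ?_
        rw [Finset.mem_Ioc] at hj
        rw [hnum j hj.2]
        ring
      have e4 : (2 * (tailJ (17 * 2 ^ s) (4 * r) N0 D (N0 - D) : ℕ) : ℝ) ≤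
          (τ : ℝ) * (2 ^ σ * M) := by
        rw [hM]
        exact_mod_cast hT'
      rw [e2] at e4
      generalize (∑ j ∈ Ioc D N0, 2 * ∑ n ∈ range (N0 + 1),
            (17 / 4 * (4 * 2 ^ s / (r : ℝ)) / 4) ^ n / (n.factorial : ℝ) *
            (if j ≤ n then ((2 * n).choose (n - j) : ℝ) else 0)) = X at e4 ⊢
      have f1 : X ≤ (τ : ℝ) * 2 ^ σ := by
        have : M * X ≤ M * ((τ : ℝ) * 2 ^ σ) := by linarith
        exact le_of_mul_le_mul_left this hMpos
      have f3 : 1 / 2 ^ σ * X = X / 2 ^ σ := by ring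
      rw [f3, div_le_iff₀ h2σ]
      exact f1
    · have e : 17 / 4 * (4 * 2 ^ s / (r : ℝ)) = 17 * 2 ^ s / r := by field_simp
      rw [e]
      have hlt2 : (17 * 2 ^ s : ℝ) < (N0 + 2) * r := by exact_mod_cast hlt'
      have hsub : (((N0 + 2) * r - 17 * 2 ^ s : ℕ) : ℝ) = (N0 + 2) * r - 17 * 2 ^ s := by
        rw [Nat.cast_sub hlt'.le]
        push_cast
        ring
      have hR2 : (17 * 2 ^ s : ℝ) ^ (N0 + 1) * ((N0 + 2) * r) ≤
          2 ^ σ * ((r : ℝ) ^ (N0 + 1) * (((N0 + 1).factorial : ℝ) *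
            ((N0 + 2) * r - 17 * 2 ^ s))) := by
        rw [← hsub]
        exact_mod_cast hR'
      have hpos : (0 : ℝ) < (N0 + 2) * r - 17 * 2 ^ s := by linarith
      have hf1 : (0 : ℝ) < ((N0 + 1).factorial : ℝ) := by
        exact_mod_cast Nat.factorial_pos (N0 + 1)
      have e5 : ((N0 : ℝ) + 2) / (N0 + 2 - 17 * 2 ^ s / r) =
          ((N0 + 2) * r) / ((N0 + 2) * r - 17 * 2 ^ s) := by
        have : (N0 : ℝ) + 2 - 17 * 2 ^ s / r = ((N0 + 2) * r - 17 * 2 ^ s) / r := by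
          field_simp
        rw [this, div_div_eq_mul_div]
      rw [e5, div_pow]
      have e6 : 1 / 2 ^ σ * ((17 * 2 ^ s : ℝ) ^ (N0 + 1) / (r : ℝ) ^ (N0 + 1) /
          ((N0 + 1).factorial : ℝ) * (((N0 + 2) * r) / ((N0 + 2) * r - 17 * 2 ^ s))) =
          ((17 * 2 ^ s : ℝ) ^ (N0 + 1) * ((N0 + 2) * r)) /
          (2 ^ σ * ((r : ℝ) ^ (N0 + 1) * (((N0 + 1).factorial : ℝ) *
            ((N0 + 2) * r - 17 * 2 ^ s)))) := by
        rw [div_div, div_mul_div_comm, div_mul_div_comm, one_mul]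
        congr 1
        ring
      rw [e6, div_le_one (by positivity)]
      exact hR2

end Crest.Agent.R347
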