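import Mathlib

/-!
# Row 347, Chebyshev method: kernel check of the coefficients of `cheb_main`

`x = t * Lam`, `x / 4 = u / v`, `S = sn / sd`.  With
`G j = ∑ n ∈ range (N0+1), (x/4)^n/n! * (if j ≤ n then C(2n,n-j) else 0)`
the function `hor` computes `G j` exactly (Horner form of the hypergeometric series):
`G j = (u/v)^j / j! * (p.1 / p.2)`, `p = hor u v j (N0 - j) (1, 1)`.

* `chk1_sound` : `chk1 u v sn sd N0 j g = true → |g - S * G j| ≤ 1`;
* `chkG_sound` : all `j ≤ D`, coefficients in a list;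
* `chkT_sound` : the bound `tau` (truncation in `j` and exponential tail).
-/

namespace Crest.Agent.R347.ChA

open Finset

/-- Horner steps `k-1, …, 0` -/
def hor (u v j : ℕ) : ℕ → ℕ × ℕ → ℕ × ℕ
  | 0, p => p
  | k + 1, p =>
    let d := p.2 * (v * ((k + 1) * (2 * j + k + 1)))
    hor u v j k (d + p.1 * (2 * u * (2 * (j + k) + 1)), d)

/-- the ratio -/
noncomputable def rr (y : ℝ) (j k : ℕ) : ℝ :=
  2 * y * (2 * (j + k) + 1) / ((k + 1) * (2 * j + k + 1))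

theorem hor_pos (u v j : ℕ) (hv : 0 < v) : ∀ (k : ℕ) (p : ℕ × ℕ), 0 < p.2 →
    0 < (hor u v j k p).2
  | 0, p, h => h
  | k + 1, p, h => by
    rw [hor]
    exact hor_pos u v j hv k _ (by positivity)

theorem hor_eq (u v j : ℕ) (hv : 0 < v) : ∀ (k : ℕ) (p : ℕ × ℕ), 0 < p.2 →
    ((hor u v j k p).1 : ℝ) / (hor u v j k p).2 =
      ∑ m ∈ range k, (∏ l ∈ range m, rr (u / v) j l) +
        (∏ l ∈ range k, rr (u / v) j l) * ((p.1 : ℝ) / p.2)
  | 0, p, h => by simp [hor]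
  | k + 1, p, h => by
    have h2 : (p.2 : ℝ) ≠ 0 := by exact_mod_cast h.ne'
    have hv' : (v : ℝ) ≠ 0 := by exact_mod_cast hv.ne'
    have h3 : ((k : ℝ) + 1) ≠ 0 := by positivity
    have h4 : (2 * (j : ℝ) + k + 1) ≠ 0 := by positivity
    have key : (((p.2 * (v * ((k + 1) * (2 * j + k + 1))) +
        p.1 * (2 * u * (2 * (j + k) + 1)) : ℕ) : ℝ)) /
        ((p.2 * (v * ((k + 1) * (2 * j + k + 1))) : ℕ) : ℝ) =
        1 + rr (u / v) j k * ((p.1 : ℝ) / p.2) := by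
      rw [rr]
      push_cast
      field_simp
    rw [hor, hor_eq u v j hv k _ (by positivity)]
    simp only [key]
    rw [sum_range_succ (fun m => ∏ l ∈ range m, rr (u / v) j l) k,
      prod_range_succ (fun l => rr (u / v) j l) k]
    ring

theorem coef_step (y : ℝ) (j m : ℕ) :
    y ^ (j + m) / ((j + m).factorial : ℝ) * ((2 * (j + m)).choose m : ℝ) =
      y ^ j / (j.factorial : ℝ) * ∏ l ∈ range m, rr y j l := by
  induction m with
  | zero => simp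
  | succ m ih =>
    rw [prod_range_succ, ← mul_assoc, ← ih, rr]
    have hf : ((j + (m + 1)).factorial : ℝ) = ((j + m : ℕ) + 1 : ℝ) * ((j + m).factorial : ℝ) := by
      rw [← add_assoc, Nat.factorial_succ]; push_cast; ring
    have hc : ((2 * (j + (m + 1))).choose (m + 1) : ℝ) * (((m : ℝ) + 1) * (2 * j + m + 1)) =
        (2 * (j + m) + 2) * (2 * (j + m) + 1) * ((2 * (j + m)).choose m : ℝ) := by
      -- C(N+2,m+1) (m+1)(N+1-m) = (N+2)(N+1) C(N,m), N = 2(j+m)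
      have h1 := Nat.add_one_mul_choose_eq (2 * (j + m) + 1) m
      have h2 := Nat.choose_mul_succ_eq (2 * (j + m)) m
      -- h1 : (N+2) * C(N+1,m) = C(N+2,m+1) * (m+1)
      -- h2 : C(N,m) * (N+1) = C(N+1,m) * (N+1-m)
      have e : 2 * (j + m) + 1 - m = 2 * j + m + 1 := by omega
      rw [e] at h2
      have h1' : ((2 * (j + m) + 1 + 1 : ℕ) : ℝ) * ((2 * (j + m) + 1).choose m : ℝ) =
          ((2 * (j + m) + 1 + 1).choose (m + 1) : ℝ) * ((m + 1 : ℕ) : ℝ) := by exact_mod_cast h1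
      have h2' : ((2 * (j + m)).choose m : ℝ) * ((2 * (j + m) + 1 : ℕ) : ℝ) =
          ((2 * (j + m) + 1).choose m : ℝ) * ((2 * j + m + 1 : ℕ) : ℝ) := by exact_mod_cast h2
      have e2 : 2 * (j + (m + 1)) = 2 * (j + m) + 1 + 1 := by ring
      rw [e2]
      push_cast at h1' h2' ⊢
      linear_combination (-(2 * (j : ℝ) + m + 1)) * h1' - (2 * ((j : ℝ) + m) + 2) * h2'
    have h3 : ((m : ℝ) + 1) ≠ 0 := by positivity
    have h4 : (2 * (j : ℝ) + m + 1) ≠ 0 := by positivity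
    have h5 : ((j + m).factorial : ℝ) ≠ 0 := by positivity
    have h6 : ((j + m : ℕ) + 1 : ℝ) ≠ 0 := by positivity
    have hc' : ((2 * (j + (m + 1))).choose (m + 1) : ℝ) =
        (2 * (j + m) + 2) * (2 * (j + m) + 1) * ((2 * (j + m)).choose m : ℝ) /
          (((m : ℝ) + 1) * (2 * j + m + 1)) := by
      rw [eq_div_iff (mul_ne_zero h3 h4), hc]
    rw [hf, hc', ← add_assoc, pow_succ]
    push_cast
    push_cast at h6
    field_simp

/-- the coefficient `G j` in Horner form -/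
theorem G_eq (u v : ℕ) (hv : 0 < v) (j N0 : ℕ) (hj : j ≤ N0) :
    ∑ n ∈ range (N0 + 1), ((u : ℝ) / v) ^ n / (n.factorial : ℝ) *
      (if j ≤ n then ((2 * n).choose (n - j) : ℝ) else 0) =
    ((u : ℝ) / v) ^ j / (j.factorial : ℝ) *
      (((hor u v j (N0 - j) (1, 1)).1 : ℝ) / (hor u v j (N0 - j) (1, 1)).2) := by
  rw [hor_eq u v j hv _ _ Nat.one_pos]
  have e : N0 + 1 = j + (N0 - j + 1) := by omega
  rw [e, sum_range_add]
  have h0 : ∑ n ∈ range j, ((u : ℝ) / v) ^ n / (n.factorial : ℝ) *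
      (if j ≤ n then ((2 * n).choose (n - j) : ℝ) else 0) = 0 := by
    refine sum_eq_zero fun n hn => ?_
    rw [if_neg (by have := mem_range.1 hn; omega), mul_zero]
  rw [h0, zero_add]
  simp only [Nat.cast_one, div_one, mul_one]
  rw [← sum_range_succ, mul_sum]
  refine sum_congr rfl fun m _ => ?_
  rw [if_pos (Nat.le_add_right _ _), Nat.add_sub_cancel_left]
  exact coef_step _ j m

/-- check of one coefficient -/
def chk1 (u v sn sd N0 j g : ℕ) : Bool :=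
  let p := hor u v j (N0 - j) (1, 1)
  let den := sd * (v ^ j * (j.factorial * p.2))
  let num := sn * (u ^ j * p.1)
  Nat.ble num ((g + 1) * den) && Nat.ble (g * den) (num + den)

theorem SG_eq (u v : ℕ) (hv : 0 < v) (sn sd : ℕ) (j N0 : ℕ) (hj : j ≤ N0) :
    ((sn : ℝ) / sd) * ∑ n ∈ range (N0 + 1), ((u : ℝ) / v) ^ n / (n.factorial : ℝ) *
      (if j ≤ n then ((2 * n).choose (n - j) : ℝ) else 0) =
    ((sn * (u ^ j * (hor u v j (N0 - j) (1, 1)).1) : ℕ) : ℝ) /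
      ((sd * (v ^ j * (j.factorial * (hor u v j (N0 - j) (1, 1)).2)) : ℕ) : ℝ) := by
  rw [G_eq u v hv j N0 hj]
  push_cast
  rw [div_pow]
  field_simp

theorem chk1_sound (u v : ℕ) (hv : 0 < v) (sn sd : ℕ) (hsd : 0 < sd) (j N0 g : ℕ) (hj : j ≤ N0)
    (h : chk1 u v sn sd N0 j g = true) :
    |(g : ℝ) - ((sn : ℝ) / sd) * ∑ n ∈ range (N0 + 1), ((u : ℝ) / v) ^ n / (n.factorial : ℝ) *
      (if j ≤ n then ((2 * n).choose (n - j) : ℝ) else 0)| ≤ 1 := by
  rw [SG_eq u v hv sn sd j N0 hj]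
  simp only [chk1, Bool.and_eq_true, Nat.ble_eq] at h
  obtain ⟨h1, h2⟩ := h
  have hp := hor_pos u v j hv (N0 - j) (1, 1) Nat.one_pos
  set den : ℕ := sd * (v ^ j * (j.factorial * (hor u v j (N0 - j) (1, 1)).2)) with hden
  set num : ℕ := sn * (u ^ j * (hor u v j (N0 - j) (1, 1)).1) with hnum
  have hdpos : (0 : ℝ) < (den : ℝ) := by
    have : 0 < den := by rw [hden]; positivity
    exact_mod_cast this
  have h1' : (num : ℝ) ≤ ((g : ℝ) + 1) * den := by exact_mod_cast h1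
  have h2' : (g : ℝ) * den ≤ num + den := by exact_mod_cast h2
  rw [abs_le]
  constructor
  · have : (num : ℝ) / den ≤ g + 1 := by rw [div_le_iff₀ hdpos]; exact h1'
    linarith
  · have : (g : ℝ) - 1 ≤ num / den := by rw [le_div_iff₀ hdpos]; linarith
    linarith

/-- check of a list of coefficients, starting at index `j` -/
def chkL (u v sn sd N0 : ℕ) : ℕ → List ℕ → Bool
  | _, [] => true
  | j, g :: l => chk1 u v sn sd N0 j g && chkL u v sn sd N0 (j + 1) l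

theorem chkL_sound (u v : ℕ) (sn sd N0 : ℕ) :
    ∀ (l : List ℕ) (j : ℕ), chkL u v sn sd N0 j l = true → ∀ k < l.length,
      chk1 u v sn sd N0 (j + k) (l.getD k 0) = true
  | [], j, _, k, hk => by simp at hk
  | g :: l, j, h, k, hk => by
    simp only [chkL, Bool.and_eq_true] at h
    cases k with
    | zero => simpa using h.1
    | succ k =>
      have := chkL_sound u v sn sd N0 l (j + 1) h.2 k (by simpa using hk)
      rw [show j + (k + 1) = j + 1 + k by ring]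
      simpa using this

/-- check of all coefficients -/
def chkG (u v sn sd D N0 : ℕ) (gl : List ℕ) : Bool :=
  Nat.blt 0 v && Nat.blt 0 sd && Nat.ble D N0 && Nat.ble (D + 1) gl.length &&
    chkL u v sn sd N0 0 gl

theorem chkG_sound (u v sn sd D N0 : ℕ) (gl : List ℕ) (h : chkG u v sn sd D N0 gl = true) :
    ∀ j ≤ D, |((gl.getD j 0 : ℕ) : ℝ) - ((sn : ℝ) / sd) *
      ∑ n ∈ range (N0 + 1), ((u : ℝ) / v) ^ n / (n.factorial : ℝ) *
        (if j ≤ n then ((2 * n).choose (n - j) : ℝ) else 0)| ≤ 1 := by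
  intro j hj
  simp only [chkG, Bool.and_eq_true, Nat.blt_eq, Nat.ble_eq] at h
  obtain ⟨⟨⟨⟨h1, h2⟩, h3⟩, h4⟩, h5⟩ := h
  have := chkL_sound u v sn sd N0 gl 0 h5 j (by omega)
  rw [zero_add] at this
  exact chk1_sound u v h1 sn sd h2 j N0 _ (by omega) this

/-- `2^64 * 2 * S * G j`, rounded up -/
def upJ (u v sn sd N0 j : ℕ) : ℕ :=
  let p := hor u v j (N0 - j) (1, 1)
  2 ^ 65 * (sn * (u ^ j * p.1)) / (sd * (v ^ j * (j.factorial * p.2))) + 1

/-- sum of `upJ` over `j = D+1, …, D+k` -/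
def upS (u v sn sd N0 D : ℕ) : ℕ → ℕ
  | 0 => 0
  | k + 1 => upS u v sn sd N0 D k + upJ u v sn sd N0 (D + k + 1)

/-- `2^64 *` exponential tail, rounded up -/
def upE (u v sn sd N0 : ℕ) : ℕ :=
  2 ^ 64 * (sn * ((4 * u) ^ (N0 + 1) * ((N0 + 2) * v))) /
    (sd * (v ^ (N0 + 1) * ((N0 + 1).factorial * ((N0 + 2) * v - 4 * u)))) + 1

/-- check of `tau` -/
def chkT (u v sn sd D N0 tau : ℕ) : Bool :=
  Nat.blt 0 v && Nat.blt 0 sd && Nat.ble D N0 && Nat.blt (4 * u) ((N0 + 2) * v) &&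
    Nat.ble (upS u v sn sd N0 D (N0 - D) + upE u v sn sd N0) (tau * 2 ^ 64)

theorem div_up (a b : ℕ) (hb : 0 < b) : (a : ℝ) / b ≤ ((a / b + 1 : ℕ) : ℝ) := by
  have h1 : a < b * (a / b + 1) := by
    have := Nat.div_add_mod a b
    have h2 := Nat.mod_lt a hb
    rw [mul_add, mul_one]
    omega
  have hb' : (0 : ℝ) < b := by exact_mod_cast hb
  rw [div_le_iff₀ hb']
  have : (a : ℝ) < b * ((a / b + 1 : ℕ) : ℝ) := by exact_mod_cast h1
  linarith

theorem upJ_le (u v : ℕ) (hv : 0 < v) (sn sd : ℕ) (hsd : 0 < sd) (j N0 : ℕ) (hj : j ≤ N0) :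
    2 ^ 65 * (((sn : ℝ) / sd) * ∑ n ∈ range (N0 + 1), ((u : ℝ) / v) ^ n / (n.factorial : ℝ) *
      (if j ≤ n then ((2 * n).choose (n - j) : ℝ) else 0)) ≤ (upJ u v sn sd N0 j : ℝ) := by
  rw [SG_eq u v hv sn sd j N0 hj]
  have hp := hor_pos u v j hv (N0 - j) (1, 1) Nat.one_pos
  have hd : 0 < sd * (v ^ j * (j.factorial * (hor u v j (N0 - j) (1, 1)).2)) := by positivity
  have h := div_up (2 ^ 65 * (sn * (u ^ j * (hor u v j (N0 - j) (1, 1)).1))) _ hd
  rw [upJ]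
  refine le_trans (le_of_eq ?_) h
  push_cast
  ring

theorem upS_le (u v : ℕ) (hv : 0 < v) (sn sd : ℕ) (hsd : 0 < sd) (N0 D : ℕ) : ∀ k : ℕ,
    D + k ≤ N0 → 2 ^ 65 * (((sn : ℝ) / sd) * ∑ j ∈ Ioc D (D + k),
      ∑ n ∈ range (N0 + 1), ((u : ℝ) / v) ^ n / (n.factorial : ℝ) *
      (if j ≤ n then ((2 * n).choose (n - j) : ℝ) else 0)) ≤ (upS u v sn sd N0 D k : ℝ)
  | 0, _ => by simp [upS]
  | k + 1, hk => by
    have ih := upS_le u v hv sn sd hsd N0 D k (by omega)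
    have h1 := upJ_le u v hv sn sd hsd (D + k + 1) N0 (by omega)
    have e : Ioc D (D + (k + 1)) = insert (D + k + 1) (Ioc D (D + k)) := by
      ext x; simp only [mem_Ioc, mem_insert]; omega
    rw [e, sum_insert (by simp), upS, mul_add, mul_add]
    push_cast
    linarith

theorem upE_le (u v : ℕ) (hv : 0 < v) (sn sd : ℕ) (hsd : 0 < sd) (N0 : ℕ)
    (h : 4 * u < (N0 + 2) * v) :
    2 ^ 64 * (((sn : ℝ) / sd) * ((4 * ((u : ℝ) / v)) ^ (N0 + 1) / ((N0 + 1).factorial : ℝ) *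
      (((N0 : ℝ) + 2) / (N0 + 2 - 4 * ((u : ℝ) / v))))) ≤ (upE u v sn sd N0 : ℝ) := by
  have hw : 0 < (N0 + 2) * v - 4 * u := by omega
  have hd : 0 < sd * (v ^ (N0 + 1) * ((N0 + 1).factorial * ((N0 + 2) * v - 4 * u))) := by
    positivity
  have h1 := div_up (2 ^ 64 * (sn * ((4 * u) ^ (N0 + 1) * ((N0 + 2) * v)))) _ hd
  rw [upE]
  refine le_trans (le_of_eq ?_) h1
  have hv' : (v : ℝ) ≠ 0 := by exact_mod_cast hv.ne'
  have hsd' : (sd : ℝ) ≠ 0 := by exact_mod_cast hsd.ne'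
  have hcast : (((N0 + 2) * v - 4 * u : ℕ) : ℝ) = (N0 + 2) * v - 4 * u := by
    rw [Nat.cast_sub h.le]; push_cast; ring
  have hw' : ((N0 : ℝ) + 2) * v - 4 * u ≠ 0 := by
    rw [← hcast]; exact_mod_cast hw.ne'
  have e1 : ((N0 : ℝ) + 2) / (N0 + 2 - 4 * ((u : ℝ) / v)) =
      ((N0 + 2) * v) / ((N0 + 2) * v - 4 * u) := by
    have : (N0 : ℝ) + 2 - 4 * ((u : ℝ) / v) = ((N0 + 2) * v - 4 * u) / v := by
      field_simp
    rw [this, div_div_eq_mul_div]
  have e2 : (4 * ((u : ℝ) / v)) ^ (N0 + 1) = (4 * u) ^ (N0 + 1) / v ^ (N0 + 1) := by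
    rw [← mul_div_assoc, div_pow]
  rw [e1, e2]
  simp only [Nat.cast_mul, Nat.cast_pow, Nat.cast_add, hcast, Nat.cast_ofNat]
  field_simp

/-- soundness of the `tau` check, in the form of `cheb_main` (`x/4 = u/v`, `x = 4 (u/v)`) -/
theorem chkT_sound (u v sn sd D N0 tau : ℕ) (h : chkT u v sn sd D N0 tau = true) :
    ((sn : ℝ) / sd) * (∑ n ∈ range (N0 + 1), ((u : ℝ) / v) ^ n / (n.factorial : ℝ) *
        ∑ j ∈ Ioc D n, 2 * ((2 * n).choose (n - j) : ℝ)) +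
      ((sn : ℝ) / sd) * ((4 * ((u : ℝ) / v)) ^ (N0 + 1) / ((N0 + 1).factorial : ℝ) *
        (((N0 : ℝ) + 2) / (N0 + 2 - 4 * ((u : ℝ) / v)))) ≤ tau := by
  simp only [chkT, Bool.and_eq_true, Nat.blt_eq, Nat.ble_eq] at h
  obtain ⟨⟨⟨⟨hv, hsd⟩, hD⟩, h4⟩, h5⟩ := h
  have h1 := upS_le u v hv sn sd hsd N0 D (N0 - D) (by omega)
  have h2 := upE_le u v hv sn sd hsd N0 h4
  rw [show D + (N0 - D) = N0 by omega] at h1
  have h3 : ∑ n ∈ range (N0 + 1), ((u : ℝ) / v) ^ n / (n.factorial : ℝ) *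
        ∑ j ∈ Ioc D n, 2 * ((2 * n).choose (n - j) : ℝ) =
      2 * ∑ j ∈ Ioc D N0, ∑ n ∈ range (N0 + 1), ((u : ℝ) / v) ^ n / (n.factorial : ℝ) *
      (if j ≤ n then ((2 * n).choose (n - j) : ℝ) else 0) := by
    rw [sum_comm, mul_sum]
    refine sum_congr rfl fun n hn => ?_
    have hn' : n ≤ N0 := by have := mem_range.1 hn; omega
    have e : (Ioc D N0).filter (fun j => j ≤ n) = Ioc D n := by
      ext x; simp only [mem_filter, mem_Ioc]; omega
    rw [← mul_sum, ← e, sum_filter, mul_sum, mul_sum, mul_sum]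
    refine sum_congr rfl fun j _ => ?_
    split_ifs
    · ring
    · simp
  have h6 : ((upS u v sn sd N0 D (N0 - D) : ℕ) : ℝ) + (upE u v sn sd N0 : ℕ) ≤
      (tau : ℝ) * 2 ^ 64 := by exact_mod_cast h5
  rw [h3]
  have h7 : (2 : ℝ) ^ 65 = 2 * 2 ^ 64 := by norm_num
  rw [h7] at h1
  nlinarith [h1, h2, h6]

end Crest.Agent.R347.ChA
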