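import Crest.Agent.R347.ChA
import Crest.Agent.R347.ChCoef

/-!
# Row 347, Chebyshev method: `cheb_main` with the coefficient checks plugged in

`t * Lam / 4 = u / v`, `S = sn / sd`, `gs = [g_D, …, g_0]` (highest coefficient first).
-/

namespace Crest.Agent.R347.ChA

open Matrix Finset

variable {i : Type*} [Fintype i] [DecidableEq i]

/-- everything that the kernel has to check about the coefficients -/
def chkCoef (u v sn sd D N0 tau : ℕ) (gs : List ℕ) : Bool :=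
  Nat.blt 0 sn && chkG u v sn sd D N0 gs.reverse && chkT u v sn sd D N0 tau

theorem cheb_cert (A : Matrix i i ℝ) (hs : A.IsSymm) (Lam t : ℝ) (hL : 0 < Lam) (ht : 0 ≤ t)
    (h0 : ∀ f : i → ℝ, 0 ≤ f ⬝ᵥ (A *ᵥ f)) (h1 : ∀ f : i → ℝ, f ⬝ᵥ (A *ᵥ f) ≤ Lam * (f ⬝ᵥ f))
    (s : i → ℝ) (u v sn sd D N0 tau : ℕ) (gs : List ℕ) (hx : t * Lam / 4 = (u : ℝ) / v)
    (hchk : chkCoef u v sn sd D N0 tau gs = true)
    (b : ℕ → i → ℝ) (hb1 : b (D + 1) = 0) (hb2 : b (D + 2) = 0) (E : ℝ)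
    (hb : ∀ k ≤ D, n2 (b k - (((gs.reverse.getD k 0 : ℕ) : ℝ) • s + (4 / Lam) • (A *ᵥ b (k + 1))
      - (2 : ℝ) • b (k + 1) - b (k + 2))) ≤ E) :
    n2 ((b 0 - b 2) - ((sn : ℝ) / sd) • (NormedSpace.exp (t • A) *ᵥ s)) ≤
      (2 * D + 1) * E + (2 * D + 1 + tau) * n2 s := by
  simp only [chkCoef, Bool.and_eq_true] at hchk
  obtain ⟨⟨hsn, hG⟩, hT⟩ := hchk
  have hsn' : 0 < sn := by simpa using hsn
  have hG' := hG
  simp only [chkG, Bool.and_eq_true, Nat.blt_eq, Nat.ble_eq] at hG'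
  obtain ⟨⟨⟨⟨hv, hsd⟩, hDN⟩, _⟩, _⟩ := hG'
  have hT' := hT
  simp only [chkT, Bool.and_eq_true, Nat.blt_eq, Nat.ble_eq] at hT'
  obtain ⟨⟨_, h4⟩, _⟩ := hT'
  have hx4 : t * Lam = 4 * ((u : ℝ) / v) := by rw [← hx]; ring
  have hv' : (0 : ℝ) < v := by exact_mod_cast hv
  have ht2 : t * Lam < N0 + 2 := by
    rw [hx4, mul_div_assoc', div_lt_iff₀ hv']
    exact_mod_cast h4
  refine cheb_main A hs Lam t hL ht h0 h1 s ((sn : ℝ) / sd)
    (div_pos (by exact_mod_cast hsn') (by exact_mod_cast hsd)) D N0 hDN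
    (fun k => ((gs.reverse.getD k 0 : ℕ) : ℝ)) ?_ b hb1 hb2 E hb tau ht2 ?_
  · intro j hj
    rw [hx]
    exact chkG_sound u v sn sd D N0 gs.reverse hG j hj
  · rw [hx, hx4]
    exact chkT_sound u v sn sd D N0 tau hT

end Crest.Agent.R347.ChA
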