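import Crest.Agent.R347.NumCore

/-!
# Row 347, numerics (ring), Chebyshev version: definitions evaluated by the kernel

One run treats the sectors with digit sum `me` (even) and `mo` (odd).  A signed vector `u` supported on
the two sectors `S`, `-2^B ≤ u < 2^B`, is stored as the packed vector with slots `u + 2^B` on `S` and
`0` elsewhere.
-/

set_option autoImplicit false

namespace Crest.Agent.R347

/-- sum over the bulk bonds `m < M` of the two shifts by `± 2·3^m` slots, offset `off` slots -/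
def hopC (W off : ℕ) : ℕ → ℕ
  | 0 => 0
  | m + 1 => hopC W off m + (2 ^ (W * (off + 2 * 3 ^ m)) + 2 ^ (W * (off - 2 * 3 ^ m)))
/-- indicator of the sector with digit sum `m` -/
def secI (W L m : ℕ) : ℕ :=
  ones W L - ((((dsP W L L ^^^ (m * ones W L)) + 31 * ones W L) >>> 5) &&& ones W L)
/-- full mask from an indicator -/
def fullM (W i : ℕ) : ℕ := i * (2 ^ W - 1)
/-- indicator of both sectors -/
def runI (W L me mo : ℕ) : ℕ := secI W L me + secI W L mo
/-- bulk hops (before masking), `off = 2·3^(L-2)` -/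
def bulkP (W L a : ℕ) : ℕ := (a * hopC W (2 * 3 ^ (L - 2)) (L - 1)) >>> (W * (2 * 3 ^ (L - 2)))
/-- boundary shift upwards (slots `+ (3^(L-1) - 1)`) -/
def bshl (W L a : ℕ) : ℕ := a <<< (W * (3 ^ (L - 1) - 1))
/-- boundary shift downwards -/
def bshr (W L a : ℕ) : ℕ := a >>> (W * (3 ^ (L - 1) - 1))
/-- hops of `a` plus the extra terms `pl`, masked, plus the diagonal part of `a` -/
def opP (W L me mo a pl : ℕ) : ℕ :=
  ((bulkP W L a + pl) &&& fullM W (runI W L me mo)) + diagP W L a
/-- masked -/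
def mnP (W L me mo x : ℕ) : ℕ := x &&& fullM W (runI W L me mo)

/-- constant part: `(32·2^B + h)·1 - 2^B·(plus part of 1) + 2^B·(minus part of 1)` -/
def cstP (W L B h me mo plus minus : ℕ) : ℕ :=
  ((32 * 2 ^ B + h) * runI W L me mo + 2 ^ B * minus) - 2 ^ B * plus

/-- the new vector `g e + ⌊(r (K b1) + r h) / 2^s⌋ - 2 b1 - b2` (bias `2^B`) from
`N1 = K b1 + 32·2^B + h`, `P1`, `P2`, coefficient `g`, start `st` -/
def newP (W L B r s me mo st g N1 P1 P2 : ℕ) : ℕ :=
  ((shP W L s (N1 * r) + (g * st + (12 * 2 ^ B - r * 2 ^ (B + 5 - s)) * runI W L me mo)) -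
    (2 * P1 + P2)) ^^^ (8 * 2 ^ B * runI W L me mo)
/-- last step: `v = b0 - b2 = g e + ⌊(r (K b1) + r h) / 2^s⌋ - 2 b1 - 2 b2` -/
def lastP (W L B r s me mo st g N1 P1 P2 : ℕ) : ℕ :=
  ((shP W L s (N1 * r) + (g * st + (21 * 2 ^ B - r * 2 ^ (B + 5 - s)) * runI W L me mo)) -
    (2 * P1 + 2 * P2)) ^^^ (16 * 2 ^ B * runI W L me mo)

/-- `N1` for `κ = 0` -/
def n0P (W L B h me mo P : ℕ) : ℕ :=
  opP W L me mo P (bshl W L P + bshr W L P) +
    cstP W L B h me mo (opP W L me mo (runI W L me mo)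
      (bshl W L (runI W L me mo) + bshr W L (runI W L me mo))) 0
/-- `N1` for `κ = 2` -/
def n2P (W L B h me mo P : ℕ) : ℕ :=
  (opP W L me mo P 0 +
    cstP W L B h me mo (opP W L me mo (runI W L me mo) 0)
      (mnP W L me mo (bshl W L (runI W L me mo) + bshr W L (runI W L me mo)))) -
    mnP W L me mo (bshl W L P + bshr W L P)
/-- `N1` for `κ = 1`, first component (`P` = first, `Q` = second component) -/
def n1aP (W L B h me mo P Q : ℕ) : ℕ :=
  (opP W L me mo P (bshl W L Q) +
    cstP W L B h me mo (opP W L me mo (runI W L me mo) (bshl W L (runI W L me mo)))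
      (mnP W L me mo (bshr W L (runI W L me mo)))) -
    mnP W L me mo (bshr W L Q)
/-- `N1` for `κ = 1`, second component -/
def n1bP (W L B h me mo P Q : ℕ) : ℕ :=
  (opP W L me mo Q (bshr W L P) +
    cstP W L B h me mo (opP W L me mo (runI W L me mo) (bshr W L (runI W L me mo)))
      (mnP W L me mo (bshl W L (runI W L me mo)))) -
    mnP W L me mo (bshl W L P)

/-- `N1` for one component -/
def n02P (W L B h me mo : ℕ) (z : Bool) (P : ℕ) : ℕ :=
  bif z then n2P W L B h me mo P else n0P W L B h me mo P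

/-- recursion with one component; `z = true`: `κ = 2`, `z = false`: `κ = 0`; returns 0 on overflow -/
def run1P (W L B r s h me mo st : ℕ) (z : Bool) (k : ℕ → ℕ) : List ℕ → ℕ → ℕ → ℕ
  | [], _, _ => 0
  | [g], P1, P2 =>
    (fun V => bif Nat.beq (V &&& hiM W L (B + 1)) 0 then k V else 0)
      (lastP W L B r s me mo st g (n02P W L B h me mo z P1) P1 P2)
  | g :: g' :: l, P1, P2 =>
    (fun P => bif Nat.beq (P &&& hiM W L (B + 1)) 0
      then run1P W L B r s h me mo st z k (g' :: l) P P1 else 0)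
      (newP W L B r s me mo st g (n02P W L B h me mo z P1) P1 P2)

/-- recursion with two components (`κ = 1`) -/
def run2P (W L B r s h me mo st : ℕ) (k : ℕ → ℕ → ℕ) : List ℕ → ℕ → ℕ → ℕ → ℕ → ℕ
  | [], _, _, _, _ => 0
  | [g], P1, P2, Q1, Q2 =>
    (fun V U => bif Nat.beq ((V ||| U) &&& hiM W L (B + 1)) 0 then k V U else 0)
      (lastP W L B r s me mo st g (n1aP W L B h me mo P1 Q1) P1 P2)
      (lastP W L B r s me mo st 0 (n1bP W L B h me mo P1 Q1) Q1 Q2)
  | g :: g' :: l, P1, P2, Q1, Q2 =>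
    (fun P Q => bif Nat.beq ((P ||| Q) &&& hiM W L (B + 1)) 0
      then run2P W L B r s h me mo st k (g' :: l) P P1 Q Q1 else 0)
      (newP W L B r s me mo st g (n1aP W L B h me mo P1 Q1) P1 P2)
      (newP W L B r s me mo st 0 (n1bP W L B h me mo P1 Q1) Q1 Q2)

/-- `∑_{c ∈ sector m} (V(c) - 2^B)^2`, from `V` and its flip `F` -/
def sqS (W L B m V F : ℕ) : ℕ :=
  (cf W L (V &&& fullM W (secI W L m)) F + 2 ^ (2 * B) * cf W L (secI W L m) (ones W L)) -
    2 ^ (B + 1) * cf W L (V &&& fullM W (secI W L m)) (ones W L)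
/-- `2^199 + ∑_{c ∈ sector L, c ∈ S} (V(c) - 2^B)(V(flip c) - 2^B)` -/
def flS (W L B me mo V : ℕ) : ℕ :=
  (2 ^ 199 + (cf W L (V &&& fullM W (secI W L L)) V +
    2 ^ (2 * B) * cf W L (runI W L me mo &&& fullM W (secI W L L)) (ones W L))) -
    2 ^ (B + 1) * cf W L (V &&& fullM W (secI W L L)) (ones W L)

/-- output for one component: even sector, odd sector, (flip term) in fields of 200 bits -/
def out1 (W L B me mo : ℕ) (fl : Bool) (V : ℕ) : ℕ :=
  (fun F => sqS W L B me V F + (sqS W L B mo V F <<< 200)) (flipP W L V L) +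
    ((bif fl then flS W L B me mo V else 1) <<< 400)
/-- output for two components -/
def out2 (W L B me mo V U : ℕ) : ℕ :=
  (fun F G => (sqS W L B me V F + sqS W L B me U G) +
    ((sqS W L B mo V F + sqS W L B mo U G) <<< 200)) (flipP W L V L) (flipP W L U L) + 1 <<< 400

/-- certificate of a run, one component; the zero vector is `2^B` on the sectors -/
def chkC1 (W L B r s h me mo : ℕ) (gs starts : List ℕ) (z fl : Bool) (v : ℕ) : Bool :=
  (bif Nat.beq v 0 then false else true) &&
    Nat.beq (run1P W L B r s h me mo (stP W starts) z (out1 W L B me mo fl) gs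
      (2 ^ B * runI W L me mo) (2 ^ B * runI W L me mo)) v

/-- certificate of a run, two components -/
def chkC2 (W L B r s h me mo : ℕ) (gs starts : List ℕ) (v : ℕ) : Bool :=
  (bif Nat.beq v 0 then false else true) &&
    Nat.beq (run2P W L B r s h me mo (stP W starts) (out2 W L B me mo) gs
      (2 ^ B * runI W L me mo) (2 ^ B * runI W L me mo) (2 ^ B * runI W L me mo)
      (2 ^ B * runI W L me mo)) v

end Crest.Agent.R347
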