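import Crest.Agent.R347.NDefs
import Crest.Agent.R347.ChCore
import Crest.Agent.R347.ChADefs

/-!
# Row 347, numerics (ring), Chebyshev version: vector-level definitions

`c' arises from c by raising i and lowering j` is `Hop i j c c'` (NDefs.lean).
-/

set_option autoImplicit false

open Crest.MathPhysics.SpinChain Matrix

namespace Crest.Agent.R347

variable {n : ℕ}

/-- digit sum -/
def dsm (c : Cfg n) : ℕ := ∑ j, (c j : ℕ)

/-- the two sectors -/
def inS (me mo : ℕ) (c : Cfg n) : Prop := dsm c = me ∨ dsm c = mo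

instance (me mo : ℕ) : DecidablePred (inS (n := n) me mo) := fun c => by
  unfold inS; infer_instance

section ops
variable {R : Type} [CommSemiring R]

/-- bulk hops -/
def bhop (u : Cfg n → R) (c : Cfg n) : R :=
  ∑ j : Fin n, ((∑ y, if Hop (Fin.castSucc j) (Fin.succ j) c y then u y else 0) +
    (∑ y, if Hop (Fin.succ j) (Fin.castSucc j) c y then u y else 0))

/-- diagonal and bulk hops -/
def blk (u : Cfg n → R) (c : Cfg n) : R := (diagK c : R) * u c + bhop u c

/-- boundary hop (values come from the slot `idx c - (3^n - 1)`) -/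
def hup (u : Cfg n → R) (c : Cfg n) : R := ∑ y, if Hop 0 (Fin.last n) c y then u y else 0

/-- boundary hop (values come from the slot `idx c + (3^n - 1)`) -/
def hdn (u : Cfg n → R) (c : Cfg n) : R := ∑ y, if Hop (Fin.last n) 0 c y then u y else 0

end ops

/-- the operator for `κ = 0` (`z = false`) and `κ = 2` (`z = true`) -/
def K02 {R : Type} [CommRing R] (z : Bool) (u : Cfg n → R) (c : Cfg n) : R :=
  blk u c + (if z then -(hup u c + hdn u c) else hup u c + hdn u c)

/-- the operator for `κ = 1`; components `false`, `true` -/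
def K1 {R : Type} [CommRing R] (u : Cfg n × Bool → R) (x : Cfg n × Bool) : R :=
  if x.2 then blk (fun c => u (c, true)) x.1 +
      (hdn (fun c => u (c, false)) x.1 - hup (fun c => u (c, false)) x.1)
  else blk (fun c => u (c, false)) x.1 +
      (hup (fun c => u (c, true)) x.1 - hdn (fun c => u (c, true)) x.1)

/-- packed signed vector: slots `u + 2^B` on the sectors, `0` elsewhere -/
def pB (W B me mo : ℕ) (u : Cfg n → ℤ) : ℕ :=
  pk W fun c => if inS me mo c then (u c + 2 ^ B).toNat else 0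

/-- admissible vector: supported on the sectors, `-2^B ≤ u < 2^B` -/
structure Adm (B me mo : ℕ) (u : Cfg n → ℤ) : Prop where
  supp : ∀ c, ¬ inS me mo c → u c = 0
  lo : ∀ c, -(2 ^ B : ℤ) ≤ u c
  hi : ∀ c, u c < 2 ^ B

/-- size conditions of the packed Chebyshev arithmetic -/
structure ChOK (n W B r s h : ℕ) : Prop where
  hn1 : 2 ≤ n
  hn : n + 1 ≤ 10
  hB1 : 6 ≤ B
  hB : B + 6 ≤ W
  hrW : r * 2 ^ (B + 6) ≤ 2 ^ W
  hr0 : 0 < r
  hs : s ≤ B
  hc : r * 2 ^ (B + 5 - s) ≤ 6 * 2 ^ B
  hh : r * h < 2 ^ s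
  hh2 : h < 2 ^ B
  hW3 : 3 * W + 2 ≤ 199
  hcf : 3 ^ (n + 1) * 2 ^ (2 * (B + 1)) < 2 ^ (3 * W)

/-- one step on integer vectors -/
def stepZ {ι : Type} (r s h : ℕ) (g : ℕ) (e Ku b1 b2 : ι → ℤ) : ι → ℤ := fun x =>
  g * e x + (r * Ku x + r * h) / 2 ^ s - 2 * b1 x - b2 x

/-- last step on integer vectors -/
def lastZ {ι : Type} (r s h : ℕ) (g : ℕ) (e Ku b1 b2 : ι → ℤ) : ι → ℤ := fun x =>
  g * e x + (r * Ku x + r * h) / 2 ^ s - 2 * b1 x - 2 * b2 x

/-- the recursion on integer vectors -/
def runZ {ι : Type} (K : (ι → ℤ) → ι → ℤ) (r s h : ℕ) (e : ι → ℤ) :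
    List ℕ → (ι → ℤ) → (ι → ℤ) → ι → ℤ
  | [], _, _ => fun _ => 0
  | [g], b1, b2 => lastZ r s h g e (K b1) b1 b2
  | g :: g' :: l, b1, b2 => runZ K r s h e (g' :: l) (stepZ r s h g e (K b1) b1 b2) b1

/-- indicator of a set of configurations, one component -/
def ind0 {R : Type} [CommRing R] (A : Finset (Cfg n)) (c : Cfg n) : R := if c ∈ A then 1 else 0

/-- indicator of a set of configurations, two components -/
def ind1 {R : Type} [CommRing R] (A : Finset (Cfg n)) (x : Cfg n × Bool) : R :=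
  if x.1 ∈ A ∧ x.2 = false then 1 else 0

/-- embedding of one-component vectors (`κ = 0, 2`) -/
def X02 (z : Bool) (u : Cfg n → ℝ) : XC n → ℝ := fun x =>
  if z = true ∧ (x.2 = 1 ∨ x.2 = 3) then -u x.1 else u x.1

/-- embedding of two-component vectors (`κ = 1`) -/
def X1 (u : Cfg n × Bool → ℝ) : XC n → ℝ := fun x =>
  if x.2 = 0 then u (x.1, false) else if x.2 = 1 then u (x.1, true)
  else if x.2 = 2 then -u (x.1, false) else -u (x.1, true)

/-- `exp(17/4 K)` applied to the indicator of `A`, reduced to one component -/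
noncomputable def u02 (n : ℕ) (z : Bool) (A : Finset (Cfg n)) (c : Cfg n) : ℝ :=
  vA n A (c, 0) + vA n A (c, 2) + (if z then -(vA n A (c, 1) + vA n A (c, 3))
    else vA n A (c, 1) + vA n A (c, 3))

/-- `exp(17/4 K)` applied to the indicator of `A`, reduced to two components -/
noncomputable def u1 (n : ℕ) (A : Finset (Cfg n)) (x : Cfg n × Bool) : ℝ :=
  if x.2 then vA n A (x.1, 1) - vA n A (x.1, 3) else vA n A (x.1, 0) - vA n A (x.1, 2)

end Crest.Agent.R347
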