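import Crest.Agent.R347.ND1

/-!
# Row 347 numerics, piece ND4: correlations

`cf1 W L e a b`: `a &&& dm 0 e` keeps the slots with lowest digit `e`, `b &&& dm 0 (2-e)` those with lowest digit `2 - e`; the product is
`∑ f c g c' 2^(W (idx c + idx c'))`, all exponents are `≡ 2 mod 3` (times `W`); the coefficient of `2^(W s)`, `s = 3^L - 1`, is
`∑_(c : c 0 = e) f c g (flp c)` since `idx c + idx c' = 3^L - 1 ↔ c' = flp c`. Each coefficient is `≤ 3^n 2^(2b) < 2^(3W)`, so the terms with
`s' ≤ s - 3` sum to `< 2^(W s)` and the extraction is exact.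
`flipD` swaps the values 0 and 2 of a digit.
-/

set_option autoImplicit false

open Crest.MathPhysics.SpinChain Matrix

namespace Crest.Agent.R347

variable {n : ℕ}

private theorem sum_two_mul_pow (m : ℕ) : ∑ j ∈ Finset.range m, 2 * 3 ^ j + 1 = 3 ^ m := by
  induction m with
  | zero => simp
  | succ m ih =>
    rw [Finset.sum_range_succ, pow_succ]
    omega

theorem idx_flp (c : Cfg n) : idx (flp c) + idx c + 1 = 3 ^ (n + 1) := by
  rw [← sum_two_mul_pow (n + 1), ← Fin.sum_univ_eq_sum_range (fun j => 2 * 3 ^ j)]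
  unfold idx
  rw [← Finset.sum_add_distrib]
  congr 1
  refine Finset.sum_congr rfl fun j _ => ?_
  rw [← Nat.add_mul]
  congr 1
  unfold flp
  rw [Fin.val_rev]
  have := (c j).isLt
  omega

private theorem idx_mod (c : Cfg n) : idx c % 3 = (c 0 : ℕ) := by
  unfold idx
  rw [Fin.sum_univ_succ]
  have h : ∀ j : Fin n, (c j.succ : ℕ) * 3 ^ ((j.succ : Fin (n + 1)) : ℕ) =
      3 * ((c j.succ : ℕ) * 3 ^ (j : ℕ)) := by
    intro j
    rw [Fin.val_succ, pow_succ]
    ring
  simp only [h]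
  rw [← Finset.mul_sum, Fin.val_zero, pow_zero, mul_one]
  have := (c 0).isLt
  omega

private theorem card_first (e : Fin 3) :
    (Finset.univ.filter fun c : Cfg n => c 0 = e).card = 3 ^ n := by
  have h : (Finset.univ.filter fun c : Cfg n => c 0 = e) =
      Fintype.piFinset (fun i : Fin (n + 1) => if i = 0 then {e} else Finset.univ) := by
    ext c
    simp only [Finset.mem_filter, Finset.mem_univ, true_and, Fintype.mem_piFinset]
    constructor
    · intro hc i
      by_cases hi : i = 0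
      · subst hi; simp [hc]
      · simp [hi]
    · intro hc
      simpa using hc 0
  rw [h, Fintype.card_piFinset, Fin.prod_univ_succ]
  simp

private theorem digit_extract (D : ℕ) (hD : 0 < D) (A : ℕ → ℕ) (hA : ∀ t, A t < D) (N t0 : ℕ)
    (ht : t0 < N) : (∑ t ∈ Finset.range N, A t * D ^ t) / D ^ t0 % D = A t0 := by
  induction t0 generalizing A N with
  | zero =>
    obtain ⟨N, rfl⟩ : ∃ k, N = k + 1 := ⟨N - 1, by omega⟩
    have h1 : ∑ t ∈ Finset.range (N + 1), A t * D ^ t =
        A 0 + D * ∑ t ∈ Finset.range N, A (t + 1) * D ^ t := by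
      rw [Finset.sum_range_succ', Finset.mul_sum, pow_zero, mul_one, add_comm]
      congr 1
      refine Finset.sum_congr rfl fun t _ => ?_
      rw [pow_succ]
      ring
    rw [h1, pow_zero, Nat.div_one, Nat.add_mul_mod_self_left, Nat.mod_eq_of_lt (hA 0)]
  | succ t0 ih =>
    obtain ⟨N, rfl⟩ : ∃ k, N = k + 1 := ⟨N - 1, by omega⟩
    have h1 : ∑ t ∈ Finset.range (N + 1), A t * D ^ t =
        A 0 + D * ∑ t ∈ Finset.range N, A (t + 1) * D ^ t := by
      rw [Finset.sum_range_succ', Finset.mul_sum, pow_zero, mul_one, add_comm]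
      congr 1
      refine Finset.sum_congr rfl fun t _ => ?_
      rw [pow_succ]
      ring
    rw [h1, pow_succ', ← Nat.div_div_eq_div_mul, Nat.add_mul_div_left _ _ hD,
      Nat.div_eq_of_lt (hA 0), zero_add]
    exact ih (fun t => A (t + 1)) (fun t => hA (t + 1)) N (by omega)

private theorem pk_prod {W : ℕ} (F G : Cfg n → ℕ) (e : Fin 3)
    (hF : ∀ c, c 0 ≠ e → F c = 0) (hG : ∀ c, c 0 ≠ Fin.rev e → G c = 0) :
    pk W F * pk W G = 2 ^ (2 * W) * ∑ t ∈ Finset.range (3 ^ (n + 1)),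
      (∑ c : Cfg n, ∑ c' : Cfg n, if idx c + idx c' = 3 * t + 2 then F c * G c' else 0) *
        (2 ^ (3 * W)) ^ t := by
  unfold pk
  rw [Finset.sum_mul_sum, Finset.mul_sum]
  have h1 : ∀ t : ℕ, 2 ^ (2 * W) *
      ((∑ c : Cfg n, ∑ c' : Cfg n, if idx c + idx c' = 3 * t + 2 then F c * G c' else 0) *
        (2 ^ (3 * W)) ^ t) = ∑ c : Cfg n, ∑ c' : Cfg n,
        if idx c + idx c' = 3 * t + 2 then F c * G c' * 2 ^ (W * (3 * t + 2)) else 0 := by
    intro t
    rw [Finset.sum_mul, Finset.mul_sum]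
    refine Finset.sum_congr rfl fun c _ => ?_
    rw [Finset.sum_mul, Finset.mul_sum]
    refine Finset.sum_congr rfl fun c' _ => ?_
    split_ifs
    · rw [← pow_mul, show W * (3 * t + 2) = 2 * W + 3 * W * t by ring, pow_add]
      ring
    · simp
  simp only [h1]
  conv_rhs => rw [Finset.sum_comm]
  refine Finset.sum_congr rfl fun c _ => ?_
  conv_rhs => rw [Finset.sum_comm]
  refine Finset.sum_congr rfl fun c' _ => ?_
  by_cases h0 : F c * G c' = 0
  · have : F c * 2 ^ (W * idx c) * (G c' * 2 ^ (W * idx c')) =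
        (F c * G c') * (2 ^ (W * idx c) * 2 ^ (W * idx c')) := by ring
    rw [this, h0]
    simp
  · have hc : c 0 = e := by
      by_contra h
      exact h0 (by rw [hF c h, zero_mul])
    have hc' : c' 0 = Fin.rev e := by
      by_contra h
      exact h0 (by rw [hG c' h, mul_zero])
    have m1 := idx_mod c
    have m2 := idx_mod c'
    rw [hc] at m1
    rw [hc', Fin.val_rev] at m2
    have l1 := idx_lt c
    have l2 := idx_lt c'
    have he := e.isLt
    obtain ⟨t, ht⟩ : ∃ t, idx c + idx c' = 3 * t + 2 := ⟨(idx c + idx c') / 3, by omega⟩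
    rw [Finset.sum_eq_single t]
    · rw [if_pos ht, ← ht, Nat.mul_add, pow_add]
      ring
    · intro t' _ hne
      rw [if_neg (by omega)]
    · intro hn
      exact absurd (Finset.mem_range.2 (by omega)) hn

theorem cf1_eq {W b : ℕ} (hW : 0 < W) (hb : b ≤ W) (hs : 3 ^ n * 2 ^ (2 * b) < 2 ^ (3 * W)) (e : Fin 3)
    (f g : Cfg n → ℕ) (hf : ∀ c, f c < 2 ^ b) (hg : ∀ c, g c < 2 ^ b) :
    cf1 W (n + 1) e (pk W f) (pk W g) = ∑ c : Cfg n, if c 0 = e then f c * g (flp c) else 0 := by
  have hbW : 2 ^ b ≤ 2 ^ W := Nat.pow_le_pow_right (by norm_num) hb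
  have hf' : ∀ c, f c < 2 ^ W := fun c => (hf c).trans_le hbW
  have hg' : ∀ c, g c < 2 ^ W := fun c => (hg c).trans_le hbW
  have e1 : dm W (n + 1) 0 e = pk W fun c : Cfg n => if c 0 = e then 2 ^ W - 1 else 0 :=
    dm_eq hW (0 : Fin (n + 1)) e
  have e2 : dm W (n + 1) 0 (2 - (e : ℕ)) =
      pk W fun c : Cfg n => if c 0 = Fin.rev e then 2 ^ W - 1 else 0 := by
    have := dm_eq (n := n) hW (0 : Fin (n + 1)) (Fin.rev e)
    rw [Fin.val_rev] at this
    have h3 : 3 - ((e : ℕ) + 1) = 2 - (e : ℕ) := by omega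
    rw [h3] at this
    exact this
  unfold cf1
  rw [e1, e2, pk_mask f hf' (fun c => c 0 = e), pk_mask g hg' (fun c => c 0 = Fin.rev e)]
  set F : Cfg n → ℕ := fun c => if c 0 = e then f c else 0 with hF
  set G : Cfg n → ℕ := fun c => if c 0 = Fin.rev e then g c else 0 with hG
  have hF0 : ∀ c, c 0 ≠ e → F c = 0 := fun c hc => by rw [hF]; simp only; rw [if_neg hc]
  have hG0 : ∀ c, c 0 ≠ Fin.rev e → G c = 0 := fun c hc => by rw [hG]; simp only; rw [if_neg hc]
  have hFb : ∀ c, F c ≤ 2 ^ b := by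
    intro c
    rw [hF]
    simp only
    split_ifs
    · exact (hf c).le
    · exact Nat.zero_le _
  have hGb : ∀ c, G c ≤ 2 ^ b := by
    intro c
    rw [hG]
    simp only
    split_ifs
    · exact (hg c).le
    · exact Nat.zero_le _
  rw [pk_prod F G e hF0 hG0, Nat.shiftRight_eq_div_pow]
  set A : ℕ → ℕ := fun t =>
    ∑ c : Cfg n, ∑ c' : Cfg n, if idx c + idx c' = 3 * t + 2 then F c * G c' else 0 with hA
  have hAlt : ∀ t, A t < 2 ^ (3 * W) := by
    intro t
    refine lt_of_le_of_lt ?_ hs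
    rw [hA]
    simp only
    calc ∑ c : Cfg n, ∑ c' : Cfg n, (if idx c + idx c' = 3 * t + 2 then F c * G c' else 0)
        ≤ ∑ c : Cfg n, if c 0 = e then 2 ^ (2 * b) else 0 := by
          refine Finset.sum_le_sum fun c _ => ?_
          by_cases hc : c 0 = e
          · rw [if_pos hc]
            by_cases hex : ∃ c' : Cfg n, idx c + idx c' = 3 * t + 2
            · obtain ⟨c', hc'⟩ := hex
              rw [Finset.sum_eq_single c']
              · rw [if_pos hc', two_mul, pow_add]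
                exact Nat.mul_le_mul (hFb c) (hGb c')
              · intro c'' _ hne
                rw [if_neg]
                intro h
                exact hne (idx_inj (by omega))
              · intro h
                exact absurd (Finset.mem_univ _) h
            · rw [Finset.sum_eq_zero]
              · exact Nat.zero_le _
              · intro c' _
                rw [if_neg fun h => hex ⟨c', h⟩]
          · rw [hF0 c hc]
            simp
      _ = 3 ^ n * 2 ^ (2 * b) := by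
          rw [← Finset.sum_filter, Finset.sum_const, card_first, smul_eq_mul]
  have h3n : 1 ≤ 3 ^ n := Nat.one_le_pow _ _ (by norm_num)
  have hexp : W * (3 ^ (n + 1) - 1) = 2 * W + 3 * W * (3 ^ n - 1) := by
    rw [pow_succ]
    obtain ⟨k, hk⟩ : ∃ k, 3 ^ n = k + 1 := ⟨3 ^ n - 1, by omega⟩
    rw [hk]
    have : (k + 1) * 3 - 1 = 3 * k + 2 := by omega
    rw [this, Nat.add_sub_cancel]
    ring
  rw [hexp, pow_add 2 (2 * W) (3 * W * (3 ^ n - 1)), ← Nat.div_div_eq_div_mul,
    Nat.mul_div_cancel_left _ (by positivity), pow_mul 2 (3 * W)]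
  have hP : (∑ t ∈ Finset.range (3 ^ (n + 1)),
      (∑ c : Cfg n, ∑ c' : Cfg n, if idx c + idx c' = 3 * t + 2 then F c * G c' else 0) *
        (2 ^ (3 * W)) ^ t) = ∑ t ∈ Finset.range (3 ^ (n + 1)), A t * (2 ^ (3 * W)) ^ t := rfl
  rw [hP, digit_extract (2 ^ (3 * W)) (by positivity) A hAlt _ _ (by rw [pow_succ]; omega)]
  rw [hA]
  simp only
  refine Finset.sum_congr rfl fun c _ => ?_
  have hfl := idx_flp c
  rw [Finset.sum_eq_single (flp c)]
  · rw [if_pos (by rw [pow_succ] at hfl; omega)]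
    rw [hF, hG]
    simp only
    by_cases hc : c 0 = e
    · rw [if_pos hc, if_pos hc, if_pos]
      unfold flp
      rw [hc]
    · rw [if_neg hc, if_neg hc, zero_mul]
  · intro c' _ hne
    rw [if_neg]
    intro h
    apply hne
    apply idx_inj
    rw [pow_succ] at hfl
    omega
  · intro h
    exact absurd (Finset.mem_univ _) h

theorem cf_eq {W b : ℕ} (hW : 0 < W) (hb : b ≤ W) (hs : 3 ^ n * 2 ^ (2 * b) < 2 ^ (3 * W))
    (f g : Cfg n → ℕ) (hf : ∀ c, f c < 2 ^ b) (hg : ∀ c, g c < 2 ^ b) :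
    cf W (n + 1) (pk W f) (pk W g) = ∑ c : Cfg n, f c * g (flp c) := by
  have h0 : cf1 W (n + 1) 0 (pk W f) (pk W g) = _ := cf1_eq hW hb hs 0 f g hf hg
  have h1 : cf1 W (n + 1) 1 (pk W f) (pk W g) = _ := cf1_eq hW hb hs 1 f g hf hg
  have h2 : cf1 W (n + 1) 2 (pk W f) (pk W g) = _ := cf1_eq hW hb hs 2 f g hf hg
  unfold cf
  rw [h0, h1, h2, ← Finset.sum_add_distrib, ← Finset.sum_add_distrib]
  refine Finset.sum_congr rfl fun c _ => ?_
  have hc : c 0 = 0 ∨ c 0 = 1 ∨ c 0 = 2 := by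
    have := (c 0).isLt
    rcases h : c 0 with ⟨v, hv⟩
    interval_cases v
    · exact Or.inl rfl
    · exact Or.inr (Or.inl rfl)
    · exact Or.inr (Or.inr rfl)
  rcases hc with h | h | h <;> rw [h] <;> simp

/-- flip of one digit -/
def flp1 (i : Fin (n + 1)) (c : Cfg n) : Cfg n := Function.update c i (Fin.rev (c i))

theorem flp1_flp1 (i : Fin (n + 1)) (c : Cfg n) : flp1 i (flp1 i c) = c := by
  unfold flp1
  rw [Function.update_self, Fin.rev_rev, Function.update_idem, Function.update_eq_self]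

theorem flp1_self (i : Fin (n + 1)) (c : Cfg n) : flp1 i c i = Fin.rev (c i) := by
  unfold flp1; rw [Function.update_self]

theorem idx_flp1_zero (i : Fin (n + 1)) (c : Cfg n) (h : c i = 0) :
    idx (flp1 i c) = idx c + 2 * 3 ^ (i : ℕ) := by
  unfold idx
  rw [← Finset.add_sum_erase _ _ (Finset.mem_univ i), ← Finset.add_sum_erase (a := i)
    (f := fun j => (c j : ℕ) * 3 ^ (j : ℕ)) _ (Finset.mem_univ i), flp1_self, h]
  have h1 : ∑ x ∈ Finset.univ.erase i, ((flp1 i c x : Fin 3) : ℕ) * 3 ^ (x : ℕ) =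
      ∑ x ∈ Finset.univ.erase i, ((c x : Fin 3) : ℕ) * 3 ^ (x : ℕ) := by
    refine Finset.sum_congr rfl fun x hx => ?_
    unfold flp1
    rw [Function.update_of_ne (Finset.ne_of_mem_erase hx)]
  rw [h1]
  have h2 : ((Fin.rev (0 : Fin 3) : Fin 3) : ℕ) = 2 := rfl
  have h3 : ((0 : Fin 3) : ℕ) = 0 := rfl
  rw [h2, h3]
  ring

theorem pk_flp1_shl {W : ℕ} (i : Fin (n + 1)) (f : Cfg n → ℕ) :
    (pk W fun c : Cfg n => if c i = 0 then f c else 0) <<< (W * (2 * 3 ^ (i : ℕ))) =
      pk W fun c : Cfg n => if c i = 2 then f (flp1 i c) else 0 := by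
  rw [Nat.shiftLeft_eq]
  unfold pk
  let e : Cfg n ≃ Cfg n := ⟨flp1 i, flp1 i, flp1_flp1 i, flp1_flp1 i⟩
  rw [← Equiv.sum_comp e (fun c => (if c i = 2 then f (flp1 i c) else 0) * 2 ^ (W * idx c)),
    Finset.sum_mul]
  refine Finset.sum_congr rfl fun c _ => ?_
  show (if c i = 0 then f c else 0) * 2 ^ (W * idx c) * 2 ^ (W * (2 * 3 ^ (i : ℕ))) =
    (if flp1 i c i = 2 then f (flp1 i (flp1 i c)) else 0) * 2 ^ (W * idx (flp1 i c))
  rw [flp1_flp1, flp1_self]
  by_cases h : c i = 0
  · rw [if_pos h, if_pos (by rw [h]; rfl), idx_flp1_zero i c h, mul_add, pow_add, mul_assoc]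
  · rw [if_neg h, if_neg]
    · simp
    · intro h2
      apply h
      have : Fin.rev (Fin.rev (c i)) = Fin.rev 2 := congrArg _ h2
      rw [Fin.rev_rev] at this
      rw [this]; rfl

theorem flipD_eq {W : ℕ} (hW : 0 < W) (i : Fin (n + 1)) (f : Cfg n → ℕ)
    (hf : ∀ c, f c < 2 ^ W) :
    flipD W (n + 1) i (pk W f) = pk W fun c => f (flp1 i c) := by
  have hpos : 0 < 2 ^ W := by positivity
  have hd0 : dm W (n + 1) i 0 = pk W fun c : Cfg n => if c i = 0 then 2 ^ W - 1 else 0 :=
    dm_eq hW i 0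
  have hd1 : dm W (n + 1) i 1 = pk W fun c : Cfg n => if c i = 1 then 2 ^ W - 1 else 0 :=
    dm_eq hW i 1
  have hd2 : dm W (n + 1) i 2 = pk W fun c : Cfg n => if c i = 2 then 2 ^ W - 1 else 0 :=
    dm_eq hW i 2
  unfold flipD
  rw [hd0, hd1, hd2, pk_mask f hf, pk_mask f hf, pk_mask f hf, pk_flp1_shl]
  have h1 : (pk W fun c : Cfg n => if c i = 2 then f c else 0) =
      (pk W fun c : Cfg n => if c i = 0 then f (flp1 i c) else 0) <<< (W * (2 * 3 ^ (i : ℕ))) := by
    rw [pk_flp1_shl i (fun c => f (flp1 i c))]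
    congr 1
    funext c
    rw [flp1_flp1]
  have hlt : ∀ (p : Prop) [Decidable p] (c : Cfg n), (if p then f c else 0) < 2 ^ W := by
    intro p _ c
    split_ifs
    · exact hf c
    · exact hpos
  rw [h1, Nat.shiftLeft_shiftRight, pk_or _ _ (fun c => hlt _ _) (fun c => hlt _ _), pk_or]
  · congr 1
    funext c
    rcases hc : c i with ⟨v, hv⟩
    have h3 : v = 0 ∨ v = 1 ∨ v = 2 := by omega
    rcases h3 with h | h | h
    · subst h
      have e0 : (⟨0, hv⟩ : Fin 3) = 0 := rfl
      rw [e0]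
      simp
    · subst h
      have e0 : (⟨1, hv⟩ : Fin 3) = 1 := rfl
      rw [e0] at hc ⊢
      have h4 : flp1 i c = c := by
        unfold flp1
        rw [hc]
        have : Fin.rev (1 : Fin 3) = 1 := rfl
        rw [this, ← hc, Function.update_eq_self]
      rw [h4]
      simp
    · subst h
      have e0 : (⟨2, hv⟩ : Fin 3) = 2 := rfl
      rw [e0]
      simp
  · intro c; exact hlt _ _
  · intro c
    exact Nat.or_lt_two_pow (hlt _ _) (hlt _ _)

/-- flip of the digits `< m` -/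
def flpm (m : ℕ) (c : Cfg n) : Cfg n := fun j => if (j : ℕ) < m then Fin.rev (c j) else c j

theorem flipP_eq_aux {W : ℕ} (hW : 0 < W) (f : Cfg n → ℕ) (hf : ∀ c, f c < 2 ^ W) (m : ℕ)
    (hm : m ≤ n + 1) : flipP W (n + 1) (pk W f) m = pk W fun c => f (flpm m c) := by
  induction m with
  | zero =>
    show pk W f = _
    congr 1
  | succ m ih =>
    have h1 : flipP W (n + 1) (pk W f) (m + 1) =
        flipD W (n + 1) m (flipP W (n + 1) (pk W f) m) := rfl
    rw [h1, ih (by omega)]
    have h2 := flipD_eq hW (⟨m, by omega⟩ : Fin (n + 1)) (fun c => f (flpm m c)) (fun c => hf _)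
    refine h2.trans ?_
    congr 1
    funext c
    congr 1
    funext j
    unfold flpm flp1
    by_cases hj : j = (⟨m, by omega⟩ : Fin (n + 1))
    · subst hj
      simp
    · have hj' : (j : ℕ) ≠ m := fun h => hj (Fin.ext h)
      rw [Function.update_of_ne hj]
      by_cases h3 : (j : ℕ) < m
      · rw [if_pos h3, if_pos (by omega)]
      · rw [if_neg h3, if_neg (by omega)]

theorem flipP_eq {W : ℕ} (hW : 0 < W) (f : Cfg n → ℕ) (hf : ∀ c, f c < 2 ^ W) :
    flipP W (n + 1) (pk W f) (n + 1) = pk W fun c => f (flp c) := by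
  rw [flipP_eq_aux hW f hf (n + 1) le_rfl]
  congr 1
  funext c
  congr 1
  funext j
  unfold flpm flp
  rw [if_pos j.2]

end Crest.Agent.R347
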