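import Crest.Agent.R347.ChG3
import Crest.Agent.R347.ND4

/-!
# Row 347, Chebyshev numerics, piece F: the final sums

`cf_eq` (ND4): `cf W L (pk f) (pk g) = ∑_c f c * g (flp c)` (with `b = B + 1`); `flipP_eq` (ND4): `flipP` of `pk f` is
`pk (f ∘ flp)`.  `V = pB v` has slots `v + β` on `S`, and for `m = me` or `mo`:
`∑_{dsm c = m} (v+β)² + β² #{dsm c = m} - 2β ∑_{dsm c = m} (v+β) = ∑_{dsm c = m} v²`.  Flip term: `dsm c = n+1` iff
`dsm (flp c) = n+1`; for `c ∈ S` with `dsm c = n + 1`: `(v+β)(v'+β) + β² - 2β(v+β)`, and `∑ v = ∑ v'` over that sector.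
Fields of 200 bits: `∑ v² ≤ 3^(n+1) 2^(2B) < 2^199` (from `ChOK.hcf`, `hW3`).
-/

set_option autoImplicit false

open Crest.MathPhysics.SpinChain Matrix

namespace Crest.Agent.R347

variable {n W B r s h me mo : ℕ}

theorem chF_flp_flp (c : Cfg n) : flp (flp c) = c := by
  funext j
  unfold flp
  rw [Fin.rev_rev]

/-- slots of `pB` -/
private def sl (B me mo : ℕ) (v : Cfg n → ℤ) (c : Cfg n) : ℕ :=
  if inS me mo c then (v c + 2 ^ B).toNat else 0

private theorem pB_eq_sl (v : Cfg n → ℤ) : pB W B me mo v = pk W (sl B me mo v) := rfl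

private theorem sl_lt (v : Cfg n → ℤ) (hv : Adm B me mo v) (c : Cfg n) :
    sl B me mo v c < 2 ^ (B + 1) := by
  unfold sl
  split_ifs
  · have h1 := hv.lo c
    have h2 := hv.hi c
    have h3 : ((2 : ℤ) ^ (B + 1)) = 2 * 2 ^ B := by rw [pow_succ]; ring
    have : ((v c + 2 ^ B).toNat : ℤ) < ((2 ^ (B + 1) : ℕ) : ℤ) := by
      rw [Int.toNat_of_nonneg (by linarith)]
      push_cast
      rw [h3]
      linarith
    exact_mod_cast this
  · positivity

private theorem sl_cast (v : Cfg n → ℤ) (hv : Adm B me mo v) (c : Cfg n) (hc : inS me mo c) :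
    ((sl B me mo v c : ℕ) : ℤ) = v c + 2 ^ B := by
  unfold sl
  rw [if_pos hc, Int.toNat_of_nonneg]
  have := hv.lo c
  linarith

private theorem sl_out (v : Cfg n → ℤ) (c : Cfg n) (hc : ¬ inS me mo c) :
    sl B me mo v c = 0 := by
  unfold sl
  rw [if_neg hc]

private theorem okW (ok : ChOK n W B r s h) : 7 ≤ W := by
  have h1 := ok.hB1
  have h2 := ok.hB
  omega

private theorem okS (ok : ChOK n W B r s h) :
    3 ^ n * 2 ^ (2 * (B + 1)) < 2 ^ (3 * W) := by
  refine lt_of_le_of_lt ?_ ok.hcf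
  exact Nat.mul_le_mul_right _ (Nat.pow_le_pow_right (by norm_num) (by omega))

private theorem chF_card : Fintype.card (Cfg n) = 3 ^ (n + 1) := by
  simp [Cfg]

/-- sector part of a packed vector -/
private theorem sec_part (ok : ChOK n W B r s h) (m : ℕ) (hm : m < 32) (f : Cfg n → ℕ)
    (hf : ∀ c, f c < 2 ^ (B + 1)) :
    pk W f &&& fullM W (secI W (n + 1) m) = pk W fun c => if dsm c = m then f c else 0 := by
  have hW := okW ok
  have hBW : 2 ^ (B + 1) ≤ 2 ^ W := Nat.pow_le_pow_right (by norm_num) (by have := ok.hB; omega)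
  rw [secI_eq hW (by have := ok.hn; omega) m hm, fullM_eq,
    pk_mask f (fun c => (hf c).trans_le hBW)]

theorem sqS_eq (ok : ChOK n W B r s h) (m : ℕ) (hm32 : m < 32) (hm : m = me ∨ m = mo)
    (v : Cfg n → ℤ) (hv : Adm B me mo v) :
    (sqS W (n + 1) B m (pB W B me mo v) (flipP W (n + 1) (pB W B me mo v) (n + 1)) : ℤ) =
      ∑ c : Cfg n, if dsm c = m then v c * v c else 0 := by
  have hW := okW ok
  have hW0 : 0 < W := by omega
  have hbW : B + 1 ≤ W := by have := ok.hB; omega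
  have hBW : 2 ^ (B + 1) ≤ 2 ^ W := Nat.pow_le_pow_right (by norm_num) hbW
  have hs := okS ok
  have hf := sl_lt v hv
  have h1lt : (1 : ℕ) < 2 ^ (B + 1) := Nat.one_lt_two_pow (by omega)
  have h0lt : (0 : ℕ) < 2 ^ (B + 1) := by omega
  unfold sqS
  rw [pB_eq_sl, flipP_eq hW0 _ (fun c => (hf c).trans_le hBW), sec_part ok m hm32 _ hf,
    ones_eq hW0, secI_eq hW (by have := ok.hn; omega) m hm32,
    cf_eq (b := B + 1) hW0 hbW hs _ _ (fun c => by split_ifs; exacts [hf c, h0lt])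
      (fun c => hf _),
    cf_eq (b := B + 1) hW0 hbW hs _ _ (fun c => by split_ifs; exacts [h1lt, h0lt])
      (fun _ => h1lt),
    cf_eq (b := B + 1) hW0 hbW hs _ _ (fun c => by split_ifs; exacts [hf c, h0lt])
      (fun _ => h1lt)]
  simp only [chF_flp_flp, mul_one]
  have key : ∀ c : Cfg n, 2 ^ (B + 1) * (if dsm c = m then sl B me mo v c else 0) ≤
      (if dsm c = m then sl B me mo v c else 0) * sl B me mo v c +
        2 ^ (2 * B) * (if dsm c = m then 1 else 0) := by
    intro c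
    split_ifs
    · rw [pow_succ, mul_one, two_mul, pow_add]
      zify
      nlinarith [sq_nonneg ((sl B me mo v c : ℤ) - 2 ^ B)]
    · simp
  have hle : 2 ^ (B + 1) * (∑ c : Cfg n, if dsm c = m then sl B me mo v c else 0) ≤
      (∑ c : Cfg n, (if dsm c = m then sl B me mo v c else 0) * sl B me mo v c) +
        2 ^ (2 * B) * ∑ c : Cfg n, if dsm c = m then 1 else 0 := by
    rw [Finset.mul_sum, Finset.mul_sum, ← Finset.sum_add_distrib]
    exact Finset.sum_le_sum fun c _ => key c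
  rw [Nat.cast_sub hle]
  push_cast
  rw [Finset.mul_sum, Finset.mul_sum, ← Finset.sum_add_distrib, ← Finset.sum_sub_distrib]
  refine Finset.sum_congr rfl fun c _ => ?_
  by_cases hc : dsm c = m
  · have hin : inS me mo c := by
      rcases hm with rfl | rfl
      · exact Or.inl hc
      · exact Or.inr hc
    rw [if_pos hc, if_pos hc, if_pos hc, sl_cast v hv c hin, pow_succ, two_mul, pow_add]
    ring
  · rw [if_neg hc, if_neg hc, if_neg hc]
    ring

theorem sum_sq_lt (ok : ChOK n W B r s h) (v : Cfg n → ℤ) (hv : Adm B me mo v)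
    (p : Cfg n → Prop) [DecidablePred p] :
    (∑ c : Cfg n, if p c then v c * v c else 0) < 2 ^ 198 := by
  have h1 : (∑ c : Cfg n, if p c then v c * v c else 0) ≤ ∑ _c : Cfg n, (2 : ℤ) ^ (2 * B) := by
    refine Finset.sum_le_sum fun c _ => ?_
    split_ifs
    · have h1 := hv.lo c
      have h2 := hv.hi c
      rw [two_mul, pow_add]
      nlinarith
    · positivity
  have h2 : (∑ _c : Cfg n, (2 : ℤ) ^ (2 * B)) = 3 ^ (n + 1) * 2 ^ (2 * B) := by
    rw [Finset.sum_const, Finset.card_univ, chF_card, nsmul_eq_mul]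
    push_cast
    ring
  have h3 : (3 : ℤ) ^ (n + 1) * 2 ^ (2 * B) ≤ 3 ^ (n + 1) * 2 ^ (2 * (B + 1)) := by
    refine mul_le_mul_of_nonneg_left ?_ (by positivity)
    exact pow_le_pow_right₀ (by norm_num) (by omega)
  have h4 : (3 : ℤ) ^ (n + 1) * 2 ^ (2 * (B + 1)) < 2 ^ (3 * W) := by exact_mod_cast ok.hcf
  have h5 : (2 : ℤ) ^ (3 * W) ≤ 2 ^ 198 := by
    refine pow_le_pow_right₀ (by norm_num) ?_
    have := ok.hW3
    omega
  linarith

theorem flS_eq (ok : ChOK n W B r s h) (h1 : me < 32) (h2 : mo < 32) (hme : me % 2 = 0)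
    (hmo : mo % 2 = 1) (v : Cfg n → ℤ) (hv : Adm B me mo v) :
    (flS W (n + 1) B me mo (pB W B me mo v) : ℤ) =
      2 ^ 199 + ∑ c : Cfg n, if dsm c = n + 1 then v c * v (flp c) else 0 := by
  have hW := okW ok
  have hW0 : 0 < W := by omega
  have hbW : B + 1 ≤ W := by have := ok.hB; omega
  have hBW : 2 ^ (B + 1) ≤ 2 ^ W := Nat.pow_le_pow_right (by norm_num) hbW
  have hs := okS ok
  have hf := sl_lt v hv
  have h1lt : (1 : ℕ) < 2 ^ (B + 1) := Nat.one_lt_two_pow (by omega)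
  have h0lt : (0 : ℕ) < 2 ^ (B + 1) := by omega
  have hn32 : n + 1 < 32 := by have := ok.hn; omega
  have hn15 : n + 1 ≤ 15 := by have := ok.hn; omega
  have hi : ∀ c : Cfg n, (if inS me mo c then 1 else 0) < 2 ^ (B + 1) := fun c => by
    split_ifs; exacts [h1lt, h0lt]
  unfold flS
  rw [pB_eq_sl, sec_part ok (n + 1) hn32 _ hf, runI_eq hW hn15 h1 h2 hme hmo,
    sec_part ok (n + 1) hn32 _ hi, ones_eq hW0,
    cf_eq (b := B + 1) hW0 hbW hs _ _ (fun c => by split_ifs; exacts [hf c, h0lt]) hf,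
    cf_eq (b := B + 1) hW0 hbW hs _ _ (fun c => by split_ifs; exacts [h1lt, h0lt, h0lt])
      (fun _ => h1lt),
    cf_eq (b := B + 1) hW0 hbW hs _ _ (fun c => by split_ifs; exacts [hf c, h0lt])
      (fun _ => h1lt)]
  simp only [mul_one]
  have hle0 : 2 ^ (B + 1) * (∑ c : Cfg n, if dsm c = n + 1 then sl B me mo v c else 0) ≤
      2 ^ 199 := by
    have e1 : (∑ c : Cfg n, if dsm c = n + 1 then sl B me mo v c else 0) ≤
        ∑ _c : Cfg n, 2 ^ (B + 1) := by
      refine Finset.sum_le_sum fun c _ => ?_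
      split_ifs
      · exact (hf c).le
      · exact Nat.zero_le _
    rw [Finset.sum_const, Finset.card_univ, chF_card, smul_eq_mul] at e1
    calc 2 ^ (B + 1) * (∑ c : Cfg n, if dsm c = n + 1 then sl B me mo v c else 0)
        ≤ 2 ^ (B + 1) * (3 ^ (n + 1) * 2 ^ (B + 1)) := Nat.mul_le_mul_left _ e1
      _ = 3 ^ (n + 1) * 2 ^ (2 * (B + 1)) := by rw [two_mul (B + 1), pow_add 2 (B + 1)]; ring
      _ ≤ 2 ^ (3 * W) := ok.hcf.le
      _ ≤ 2 ^ 199 := Nat.pow_le_pow_right (by norm_num) (by have := ok.hW3; omega)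
  rw [Nat.cast_sub (by
    refine hle0.trans ?_
    exact Nat.le_add_right _ _)]
  push_cast
  -- the involution
  have hsum : (∑ c : Cfg n, if dsm c = n + 1 then ((sl B me mo v c : ℕ) : ℤ) else 0) =
      ∑ c : Cfg n, if dsm c = n + 1 then ((sl B me mo v (flp c) : ℕ) : ℤ) else 0 := by
    let e : Cfg n ≃ Cfg n := ⟨flp, flp, chF_flp_flp, chF_flp_flp⟩
    rw [← Equiv.sum_comp e]
    refine Finset.sum_congr rfl fun c _ => ?_
    show (if dsm (flp c) = n + 1 then ((sl B me mo v (flp c) : ℕ) : ℤ) else 0) = _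
    have hd := dsm_flp c
    have hiff : dsm (flp c) = n + 1 ↔ dsm c = n + 1 := by omega
    simp only [hiff]
  have hpow : ((2 : ℤ) ^ (B + 1)) = 2 ^ B + 2 ^ B := by rw [pow_succ]; ring
  rw [hpow, add_mul]
  conv_lhs =>
    arg 2
    arg 2
    rw [hsum]
  rw [Finset.mul_sum, Finset.mul_sum, Finset.mul_sum]
  have main : ∀ c : Cfg n,
      (((if dsm c = n + 1 then ((sl B me mo v c : ℕ) : ℤ) else 0) * ((sl B me mo v (flp c) : ℕ) : ℤ)) +
        (2 ^ (2 * B) * (if dsm c = n + 1 then (if inS me mo c then (1 : ℤ) else 0) else 0))) -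
        (2 ^ B * (if dsm c = n + 1 then ((sl B me mo v c : ℕ) : ℤ) else 0) +
          2 ^ B * (if dsm c = n + 1 then ((sl B me mo v (flp c) : ℕ) : ℤ) else 0)) =
      if dsm c = n + 1 then v c * v (flp c) else 0 := by
    intro c
    by_cases hc : dsm c = n + 1
    · have hd := dsm_flp c
      have hdf : dsm (flp c) = n + 1 := by omega
      simp only [if_pos hc]
      by_cases hin : inS me mo c
      · have hin' : inS me mo (flp c) := by
          rcases hin with hh | hh
          · exact Or.inl (by omega)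
          · exact Or.inr (by omega)
        rw [if_pos hin, sl_cast v hv c hin, sl_cast v hv _ hin', two_mul, pow_add]
        ring
      · have hin' : ¬ inS me mo (flp c) := by
          rintro (hh | hh)
          · exact hin (Or.inl (by omega))
          · exact hin (Or.inr (by omega))
        rw [if_neg hin, sl_out v c hin, sl_out v _ hin', hv.supp c hin]
        simp
    · simp only [if_neg hc]
      ring
  have hfin := Finset.sum_congr (s₁ := (Finset.univ : Finset (Cfg n))) rfl fun c _ => main c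
  rw [Finset.sum_sub_distrib, Finset.sum_add_distrib, Finset.sum_add_distrib] at hfin
  rw [← hfin]
  ring

private theorem cfFields (a b w N : ℕ) (ha : a < 2 ^ 200) (hb : b < 2 ^ 200)
    (hN : N = a + b <<< 200 + w <<< 400) :
    N % 2 ^ 200 = a ∧ (N >>> 200) % 2 ^ 200 = b ∧ N >>> 400 = w := by
  have h2 : (2 : ℕ) ^ 400 = 2 ^ 200 * 2 ^ 200 := by rw [← pow_add]
  rw [Nat.shiftLeft_eq, Nat.shiftLeft_eq, h2] at hN
  rw [Nat.shiftRight_eq_div_pow, Nat.shiftRight_eq_div_pow, h2]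
  have hD : 0 < (2 : ℕ) ^ 200 := by positivity
  generalize (2 : ℕ) ^ 200 = D at *
  have hN' : N = a + D * (b + D * w) := by rw [hN]; ring
  have h3 : N / D = b + D * w := by
    rw [hN', Nat.add_mul_div_left _ _ hD, Nat.div_eq_of_lt ha, Nat.zero_add]
  refine ⟨?_, ?_, ?_⟩
  · rw [hN', Nat.add_mul_mod_self_left, Nat.mod_eq_of_lt ha]
  · rw [h3, Nat.add_mul_mod_self_left, Nat.mod_eq_of_lt hb]
  · rw [← Nat.div_div_eq_div_mul, h3, Nat.add_mul_div_left _ _ hD, Nat.div_eq_of_lt hb,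
      Nat.zero_add]

private theorem cfLt (a : ℕ) (x : ℤ) (ha : (a : ℤ) = x) (hx : x < 2 ^ 198) : a < 2 ^ 198 := by
  have h : (a : ℤ) < ((2 ^ 198 : ℕ) : ℤ) := by rw [ha]; push_cast; exact hx
  exact_mod_cast h

private theorem cf198 (a : ℕ) (ha : a < 2 ^ 198) : a < 2 ^ 200 :=
  ha.trans (Nat.pow_lt_pow_right (by norm_num) (by norm_num))

private theorem cf198' (a b : ℕ) (ha : a < 2 ^ 198) (hb : b < 2 ^ 198) : a + b < 2 ^ 200 := by
  have h : (2 : ℕ) ^ 200 = 4 * 2 ^ 198 := by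
    rw [show (200 : ℕ) = 2 + 198 from rfl, pow_add]
    congr 1
  rw [h]
  generalize (2 : ℕ) ^ 198 = D at *
  omega

/-- fields of the output, one component -/
theorem out1_spec (ok : ChOK n W B r s h) (h1 : me < 32) (h2 : mo < 32) (hme : me % 2 = 0)
    (hmo : mo % 2 = 1) (fl : Bool) (v : Cfg n → ℤ) (hv : Adm B me mo v) (N : ℕ)
    (hN : N = out1 W (n + 1) B me mo fl (pB W B me mo v)) :
    ((N % 2 ^ 200 : ℕ) : ℤ) = (∑ c : Cfg n, if dsm c = me then v c * v c else 0) ∧
    (((N >>> 200) % 2 ^ 200 : ℕ) : ℤ) = (∑ c : Cfg n, if dsm c = mo then v c * v c else 0) ∧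
    (fl = true → ((N >>> 400 : ℕ) : ℤ) = 2 ^ 199 +
      ∑ c : Cfg n, if dsm c = n + 1 then v c * v (flp c) else 0) := by
  have ea := sqS_eq ok me h1 (Or.inl rfl) v hv
  have eb := sqS_eq ok mo h2 (Or.inr rfl) v hv
  have la := cfLt _ _ ea (sum_sq_lt ok v hv fun c => dsm c = me)
  have lb := cfLt _ _ eb (sum_sq_lt ok v hv fun c => dsm c = mo)
  obtain ⟨f1, f2, f3⟩ := cfFields _ _ (bif fl then flS W (n + 1) B me mo (pB W B me mo v) else 1) N
    (cf198 _ la) (cf198 _ lb) hN
  rw [f1, f2, f3]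
  refine ⟨ea, eb, ?_⟩
  intro hfl
  rw [hfl, cond_true]
  exact flS_eq ok h1 h2 hme hmo v hv

/-- fields of the output, two components -/
theorem out2_spec (ok : ChOK n W B r s h) (h1 : me < 32) (h2 : mo < 32) (hme : me % 2 = 0)
    (hmo : mo % 2 = 1) (v : Cfg n × Bool → ℤ) (hv : ∀ t, Adm B me mo fun c => v (c, t)) (N : ℕ)
    (hN : N = out2 W (n + 1) B me mo (pB W B me mo fun c => v (c, false))
      (pB W B me mo fun c => v (c, true))) :
    ((N % 2 ^ 200 : ℕ) : ℤ) = (∑ c : Cfg n, if dsm c = me then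
      v (c, false) * v (c, false) + v (c, true) * v (c, true) else 0) ∧
    (((N >>> 200) % 2 ^ 200 : ℕ) : ℤ) = (∑ c : Cfg n, if dsm c = mo then
      v (c, false) * v (c, false) + v (c, true) * v (c, true) else 0) := by
  have ea := sqS_eq ok me h1 (Or.inl rfl) _ (hv false)
  have eb := sqS_eq ok mo h2 (Or.inr rfl) _ (hv false)
  have ea' := sqS_eq ok me h1 (Or.inl rfl) _ (hv true)
  have eb' := sqS_eq ok mo h2 (Or.inr rfl) _ (hv true)
  have la := cfLt _ _ ea (sum_sq_lt ok _ (hv false) fun c => dsm c = me)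
  have lb := cfLt _ _ eb (sum_sq_lt ok _ (hv false) fun c => dsm c = mo)
  have la' := cfLt _ _ ea' (sum_sq_lt ok _ (hv true) fun c => dsm c = me)
  have lb' := cfLt _ _ eb' (sum_sq_lt ok _ (hv true) fun c => dsm c = mo)
  obtain ⟨f1, f2, -⟩ := cfFields _ _ 1 N (cf198' _ _ la la') (cf198' _ _ lb lb') hN
  rw [f1, f2]
  push_cast
  rw [ea, eb, ea', eb', ← Finset.sum_add_distrib, ← Finset.sum_add_distrib]
  constructor
  · refine Finset.sum_congr rfl fun c _ => ?_
    split_ifs <;> simp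
  · refine Finset.sum_congr rfl fun c _ => ?_
    split_ifs <;> simp

end Crest.Agent.R347
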