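import Crest.Agent.R347.NDefs

/-!
# Row 347 numerics, piece ND0: packed vectors, bit level

`idx : Cfg n → {0, …, 3^(n+1) - 1}` is a bijection (base 3 digits; `finFunctionFinEquiv`).  `pk W f = ∑_c f c 2^(W idx c)`.
Key lemma `testBit_pk`: for `f < 2^W` the bit `W * i + b` (`b < W`) of `pk W f` is bit `b` of `f (cfg i)` (if `i < 3^(n+1)`, else 0): write
the sum over `i < m`, induction on `m` (`Nat.testBit_two_pow_mul_add`-type lemmas / `Nat.ofDigits (2^W)`), or compute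
`pk W f / 2^(W i) % 2^W = f (cfg i)`.  Everything else follows from `Nat.eq_of_testBit_eq`.
-/

set_option autoImplicit false

open Crest.MathPhysics.SpinChain Matrix

namespace Crest.Agent.R347

variable {n : ℕ}

private theorem idx_eq (c : Cfg n) : idx c = (finFunctionFinEquiv c : ℕ) := by
  rw [finFunctionFinEquiv_apply]; rfl

theorem idx_lt (c : Cfg n) : idx c < 3 ^ (n + 1) := by
  rw [idx_eq]; exact Fin.is_lt _

theorem idx_inj : Function.Injective (idx : Cfg n → ℕ) := by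
  intro a b h
  rw [idx_eq, idx_eq] at h
  exact finFunctionFinEquiv.injective (Fin.val_injective h)

theorem idx_surj {i : ℕ} (hi : i < 3 ^ (n + 1)) : ∃ c : Cfg n, idx c = i := by
  refine ⟨finFunctionFinEquiv.symm ⟨i, hi⟩, ?_⟩
  rw [idx_eq, Equiv.apply_symm_apply]

private theorem S_lt (W : ℕ) (F : ℕ → ℕ) (m : ℕ) (hF : ∀ i < m, F i < 2 ^ W) :
    ∑ i ∈ Finset.range m, F i * 2 ^ (W * i) < 2 ^ (W * m) := by
  induction m with
  | zero => simp
  | succ m ih =>
    rw [Finset.sum_range_succ]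
    have h1 := ih (fun i hi => hF i (Nat.lt_succ_of_lt hi))
    have h2 := hF m (Nat.lt_succ_self m)
    calc ∑ i ∈ Finset.range m, F i * 2 ^ (W * i) + F m * 2 ^ (W * m)
        < 2 ^ (W * m) + F m * 2 ^ (W * m) := Nat.add_lt_add_right h1 _
      _ = (F m + 1) * 2 ^ (W * m) := by ring
      _ ≤ 2 ^ W * 2 ^ (W * m) := Nat.mul_le_mul_right _ h2
      _ = 2 ^ (W * (m + 1)) := by rw [← pow_add]; congr 1; ring

private theorem S_slot (W : ℕ) (F : ℕ → ℕ) (m : ℕ) (hF : ∀ i < m, F i < 2 ^ W) (i : ℕ) (hi : i < m) :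
    (∑ i ∈ Finset.range m, F i * 2 ^ (W * i)) / 2 ^ (W * i) % 2 ^ W = F i := by
  induction m with
  | zero => exact absurd hi (Nat.not_lt_zero i)
  | succ m ih =>
    rw [Finset.sum_range_succ]
    rcases Nat.lt_succ_iff_lt_or_eq.mp hi with h | h
    · obtain ⟨d, hd⟩ := Nat.exists_eq_add_of_lt h
      have h1 : F m * 2 ^ (W * m) = (F m * 2 ^ (W * d) * 2 ^ W) * 2 ^ (W * i) := by
        rw [mul_assoc, mul_assoc, ← pow_add, ← pow_add]
        congr 2
        rw [hd]; ring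
      rw [h1, Nat.add_mul_div_right _ _ (by positivity), Nat.add_mul_mod_self_right]
      exact ih (fun i hi => hF i (Nat.lt_succ_of_lt hi)) h
    · subst h
      rw [Nat.add_mul_div_right _ _ (by positivity),
        Nat.div_eq_of_lt (S_lt W F i (fun j hj => hF j (Nat.lt_succ_of_lt hj))), zero_add,
        Nat.mod_eq_of_lt (hF i (Nat.lt_succ_self i))]

private theorem pk_eq_S (W : ℕ) (f : Cfg n → ℕ) : ∃ F : ℕ → ℕ,
    (∀ c : Cfg n, F (idx c) = f c) ∧ pk W f = ∑ i ∈ Finset.range (3 ^ (n + 1)), F i * 2 ^ (W * i) := by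
  refine ⟨fun i => if h : i < 3 ^ (n + 1) then f (finFunctionFinEquiv.symm ⟨i, h⟩) else 0, ?_, ?_⟩
  · intro c
    simp only [dif_pos (idx_lt c)]
    congr 1
    rw [Equiv.symm_apply_eq]
    exact Fin.ext (idx_eq c)
  · rw [Finset.sum_range]
    unfold pk
    refine Fintype.sum_equiv finFunctionFinEquiv _ _ fun c => ?_
    have h1 : ((finFunctionFinEquiv c : Fin (3 ^ (n + 1))) : ℕ) = idx c := (idx_eq c).symm
    have h2 : ((finFunctionFinEquiv c : Fin (3 ^ (n + 1))) : ℕ) < 3 ^ (n + 1) := Fin.is_lt _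
    have h3 : finFunctionFinEquiv.symm ⟨((finFunctionFinEquiv c : Fin (3 ^ (n + 1))) : ℕ), h2⟩ = c := by
      rw [Equiv.symm_apply_eq]
    beta_reduce
    rw [dif_pos h2, h3, h1]

private theorem pk_slot' {W : ℕ} (f : Cfg n → ℕ) (hf : ∀ c, f c < 2 ^ W) (c : Cfg n) :
    pk W f / 2 ^ (W * idx c) % 2 ^ W = f c := by
  obtain ⟨F, hF, hS⟩ := pk_eq_S W f
  rw [hS, S_slot W F _ (fun i hi => by
    obtain ⟨c, rfl⟩ := idx_surj hi
    rw [hF]; exact hf c) _ (idx_lt c), hF]

theorem testBit_pk {W : ℕ} (f : Cfg n → ℕ) (hf : ∀ c, f c < 2 ^ W) (c : Cfg n) (b : ℕ)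
    (hb : b < W) : (pk W f).testBit (W * idx c + b) = (f c).testBit b := by
  have h1 : (pk W f).testBit (W * idx c + b) =
      (pk W f / 2 ^ (W * idx c) % 2 ^ W).testBit b := by
    rw [Nat.testBit_mod_two_pow, Nat.testBit_div_two_pow]
    simp [hb, Nat.add_comm]
  rw [h1, pk_slot' f hf c]

theorem pk_lt {W : ℕ} (f : Cfg n → ℕ) (hf : ∀ c, f c < 2 ^ W) : pk W f < 2 ^ (W * 3 ^ (n + 1)) := by
  obtain ⟨F, hF, hS⟩ := pk_eq_S W f
  rw [hS]
  exact S_lt W F _ (fun i hi => by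
    obtain ⟨c, rfl⟩ := idx_surj hi
    rw [hF]; exact hf c)

theorem pk_slot {W : ℕ} (f : Cfg n → ℕ) (hf : ∀ c, f c < 2 ^ W) (c : Cfg n) :
    pk W f / 2 ^ (W * idx c) % 2 ^ W = f c := by
  exact pk_slot' f hf c

theorem pk_inj {W : ℕ} (f g : Cfg n → ℕ) (hf : ∀ c, f c < 2 ^ W) (hg : ∀ c, g c < 2 ^ W)
    (h : pk W f = pk W g) : f = g := by
  funext c
  rw [← pk_slot' f hf c, ← pk_slot' g hg c, h]

/-- extensionality by bits -/
theorem eq_of_testBit {W : ℕ} (hW : 0 < W) (x y : ℕ) (hx : x < 2 ^ (W * 3 ^ (n + 1)))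
    (hy : y < 2 ^ (W * 3 ^ (n + 1)))
    (h : ∀ (c : Cfg n) (b : ℕ), b < W → x.testBit (W * idx c + b) = y.testBit (W * idx c + b)) :
    x = y := by
  refine Nat.eq_of_testBit_eq fun j => ?_
  by_cases hj : j < W * 3 ^ (n + 1)
  · have h1 : j / W < 3 ^ (n + 1) := Nat.div_lt_of_lt_mul hj
    obtain ⟨c, hc⟩ := idx_surj h1
    have h2 : j = W * idx c + j % W := by rw [hc]; exact (Nat.div_add_mod j W).symm
    rw [h2]
    have h3 := h c (j % W) (Nat.mod_lt _ hW)
    exact h3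
  · have h1 : 2 ^ (W * 3 ^ (n + 1)) ≤ 2 ^ j :=
      Nat.pow_le_pow_right (by norm_num) (not_lt.mp hj)
    rw [Nat.testBit_lt_two_pow (hx.trans_le h1), Nat.testBit_lt_two_pow (hy.trans_le h1)]

private theorem pk_zero_width (f : Cfg n → ℕ) (hf : ∀ c, f c < 2 ^ 0) : pk 0 f = 0 := by
  unfold pk
  refine Finset.sum_eq_zero fun c _ => ?_
  have := hf c
  rw [pow_zero, Nat.lt_one_iff] at this
  rw [this, zero_mul]

theorem pk_and {W : ℕ} (f g : Cfg n → ℕ) (hf : ∀ c, f c < 2 ^ W) (hg : ∀ c, g c < 2 ^ W) :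
    pk W f &&& pk W g = pk W fun c => f c &&& g c := by
  rcases Nat.eq_zero_or_pos W with rfl | hW
  · rw [pk_zero_width f hf, pk_zero_width g hg, pk_zero_width _ (fun c =>
      lt_of_le_of_lt Nat.and_le_left (hf c))]
    rfl
  · have hfg : ∀ c, f c &&& g c < 2 ^ W := fun c => lt_of_le_of_lt Nat.and_le_left (hf c)
    refine eq_of_testBit hW _ _ (lt_of_le_of_lt Nat.and_le_left (pk_lt f hf)) (pk_lt _ hfg) ?_
    intro c b hb
    rw [Nat.testBit_and, testBit_pk f hf c b hb, testBit_pk g hg c b hb,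
      testBit_pk _ hfg c b hb, Nat.testBit_and]

theorem pk_or {W : ℕ} (f g : Cfg n → ℕ) (hf : ∀ c, f c < 2 ^ W) (hg : ∀ c, g c < 2 ^ W) :
    pk W f ||| pk W g = pk W fun c => f c ||| g c := by
  rcases Nat.eq_zero_or_pos W with rfl | hW
  · rw [pk_zero_width f hf, pk_zero_width g hg, pk_zero_width _ (fun c =>
      Nat.or_lt_two_pow (hf c) (hg c))]
    rfl
  · have hfg : ∀ c, f c ||| g c < 2 ^ W := fun c => Nat.or_lt_two_pow (hf c) (hg c)
    refine eq_of_testBit hW _ _ (Nat.or_lt_two_pow (pk_lt f hf) (pk_lt g hg)) (pk_lt _ hfg) ?_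
    intro c b hb
    rw [Nat.testBit_or, testBit_pk f hf c b hb, testBit_pk g hg c b hb,
      testBit_pk _ hfg c b hb, Nat.testBit_or]

theorem pk_xor {W : ℕ} (f g : Cfg n → ℕ) (hf : ∀ c, f c < 2 ^ W) (hg : ∀ c, g c < 2 ^ W) :
    pk W f ^^^ pk W g = pk W fun c => f c ^^^ g c := by
  rcases Nat.eq_zero_or_pos W with rfl | hW
  · rw [pk_zero_width f hf, pk_zero_width g hg, pk_zero_width _ (fun c =>
      Nat.xor_lt_two_pow (hf c) (hg c))]
    rfl
  · have hfg : ∀ c, f c ^^^ g c < 2 ^ W := fun c => Nat.xor_lt_two_pow (hf c) (hg c)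
    refine eq_of_testBit hW _ _ (Nat.xor_lt_two_pow (pk_lt f hf) (pk_lt g hg)) (pk_lt _ hfg) ?_
    intro c b hb
    rw [Nat.testBit_xor, testBit_pk f hf c b hb, testBit_pk g hg c b hb,
      testBit_pk _ hfg c b hb, Nat.testBit_xor]

/-- masking -/
theorem pk_mask {W : ℕ} (f : Cfg n → ℕ) (hf : ∀ c, f c < 2 ^ W) (p : Cfg n → Prop)
    [DecidablePred p] :
    pk W f &&& pk W (fun c => if p c then 2 ^ W - 1 else 0) = pk W fun c => if p c then f c else 0 := by
  have h2 : 0 < 2 ^ W := by positivity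
  rw [pk_and f _ hf (fun c => by split_ifs <;> omega)]
  congr 1
  funext c
  split_ifs
  · exact Nat.and_two_pow_sub_one_of_lt_two_pow (hf c)
  · exact Nat.and_zero _

theorem pk_add {W : ℕ} (f g : Cfg n → ℕ) : pk W f + pk W g = pk W fun c => f c + g c := by
  unfold pk
  rw [← Finset.sum_add_distrib]
  exact Finset.sum_congr rfl fun c _ => (add_mul _ _ _).symm

theorem pk_mul {W : ℕ} (a : ℕ) (f : Cfg n → ℕ) : pk W f * a = pk W fun c => f c * a := by
  unfold pk
  rw [Finset.sum_mul]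
  exact Finset.sum_congr rfl fun c _ => by ring

theorem pk_sub {W : ℕ} (f g : Cfg n → ℕ) (h : ∀ c, g c ≤ f c) :
    pk W f - pk W g = pk W fun c => f c - g c := by
  have h1 : pk W g + pk W (fun c => f c - g c) = pk W f := by
    rw [pk_add]
    congr 1
    funext c
    have := h c
    omega
  omega

/-- slotwise right shift -/
theorem pk_shr {W : ℕ} (s : ℕ) (hs : s ≤ W) (f : Cfg n → ℕ) (hf : ∀ c, f c < 2 ^ W) :
    (pk W f >>> s) &&& pk W (fun _ : Cfg n => 2 ^ (W - s) - 1) = pk W fun c => f c / 2 ^ s := by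
  have hpos : ∀ k, 0 < 2 ^ k := fun k => by positivity
  have hconst : ∀ c : Cfg n, (fun _ : Cfg n => 2 ^ (W - s) - 1) c < 2 ^ W := by
    intro c
    have h1 : 2 ^ (W - s) ≤ 2 ^ W := Nat.pow_le_pow_right (by norm_num) (Nat.sub_le W s)
    have := hpos (W - s)
    show 2 ^ (W - s) - 1 < 2 ^ W
    omega
  have hdiv : ∀ c, f c / 2 ^ s < 2 ^ W := fun c => lt_of_le_of_lt (Nat.div_le_self _ _) (hf c)
  rcases Nat.eq_zero_or_pos W with rfl | hW
  · rw [pk_zero_width f hf, pk_zero_width _ hdiv, Nat.zero_shiftRight, Nat.zero_and]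
  · refine eq_of_testBit hW _ _ (Nat.and_lt_two_pow _ (pk_lt _ hconst)) (pk_lt _ hdiv) ?_
    intro c b hb
    rw [Nat.testBit_and, testBit_pk _ hconst c b hb, testBit_pk _ hdiv c b hb,
      Nat.testBit_shiftRight, Nat.testBit_div_two_pow, Nat.testBit_two_pow_sub_one]
    by_cases hbs : b < W - s
    · have h1 : s + (W * idx c + b) = W * idx c + (b + s) := by ring
      rw [h1, testBit_pk f hf c (b + s) (by omega)]
      simp [hbs, Nat.add_comm]
    · have h1 : (f c).testBit (b + s) = false :=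
        Nat.testBit_lt_two_pow ((hf c).trans_le (Nat.pow_le_pow_right (by norm_num) (by omega)))
      have h2 : (f c).testBit (s + b) = false := by rw [Nat.add_comm]; exact h1
      simp [hbs, h1, h2]

/-- the overflow check -/
theorem pk_check {W : ℕ} (B : ℕ) (hB : B ≤ W) (f : Cfg n → ℕ) (hf : ∀ c, f c < 2 ^ W)
    (h : pk W f &&& pk W (fun _ : Cfg n => 2 ^ W - 2 ^ B) = 0) (c : Cfg n) : f c < 2 ^ B := by
  have hpos : ∀ k, 0 < 2 ^ k := fun k => by positivity
  have hle : 2 ^ B ≤ 2 ^ W := Nat.pow_le_pow_right (by norm_num) hB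
  have hconst : ∀ c : Cfg n, (fun _ : Cfg n => 2 ^ W - 2 ^ B) c < 2 ^ W := by
    intro c
    have := hpos B
    show 2 ^ W - 2 ^ B < 2 ^ W
    omega
  rw [pk_and f _ hf hconst] at h
  have h1 : f c &&& (2 ^ W - 2 ^ B) = 0 := by
    unfold pk at h
    rw [Finset.sum_eq_zero_iff] at h
    have h2 := h c (Finset.mem_univ c)
    rcases Nat.mul_eq_zero.mp h2 with h3 | h3
    · exact h3
    · exact absurd h3 (hpos _).ne'
  refine Nat.lt_pow_two_of_testBit _ fun b hb => ?_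
  by_cases hbW : b < W
  · have h2 := congrArg (fun z => z.testBit b) h1
    simp only [Nat.testBit_and, Nat.zero_testBit] at h2
    have h3 : 2 ^ W - 2 ^ B = 2 ^ B * (2 ^ (W - B) - 1) := by
      rw [Nat.mul_sub, ← pow_add, mul_one]
      congr 2
      omega
    have h4 : (2 ^ W - 2 ^ B).testBit b = true := by
      rw [h3, Nat.testBit_two_pow_mul, Nat.testBit_two_pow_sub_one]
      simp
      omega
    rw [h4, Bool.and_true] at h2
    exact h2
  · exact Nat.testBit_lt_two_pow ((hf c).trans_le (Nat.pow_le_pow_right (by norm_num) (by omega)))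

end Crest.Agent.R347
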