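import Crest.Agent.R347.ChDefs
import Crest.Agent.R347.ND0

/-!
# Row 347, Chebyshev numerics, piece G0: the forbidden moves lead to other sectors

Base-3 digits: `N = idx c + 3^i = idx y + 3^j`.  If `r` carries occur in `idx c + 3^i`, then the digit
sum of `N` is `dsm c + 1 - 2 r` (for `N < 3^(n+1)`); likewise `dsm y + 1 - 2 r'`.  `c, y ∈ S` and
parity give `dsm c = dsm y`, so `r = r'`.  ADJACENT (`i = j ± 1`): if `r ≥ 1` the digits `i .. i+r-1`
of `N` are 0 and digit `i+r` is `≥ 1`, and the same with `j`: contradiction; so `r = 0` and the digits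
of `N` give the Hop.  Simple direct proof for adjacent `(j, j+1)`: `idx y = idx c + 2·3^j`: write
`c_j = 0`: then `y` is `c` with `c_j` replaced by 2 (digit sum + 2, not in S by parity and value);
`c_j ≥ 1`: digit `j` becomes `c_j - 1` and a carry goes to `j + 1`: legal iff `c_(j+1) ≤ 1`, otherwise
(`c_(j+1) = 2`) it becomes 0 and the carry goes on: the digit sum changes by `-2z`, `z ≥ 1`.
BOUNDARY: top digit: a carry out of the top digit would leave the range; see the mail/plan: for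
`idx y + 1 = idx c + 3^n`: no carry is possible at the top (`y < 3^(n+1)`, unless `idx y + 1 = 3^(n+1)`,
`y` = all 2, digit sum `2(n+1)`, then `idx c = 2·3^n`, digit sum 2, other value, same parity), so
`r = 0 = r'` and the digit 0 of `y` is `≤ 1`.
-/

set_option autoImplicit false

open Crest.MathPhysics.SpinChain Matrix

namespace Crest.Agent.R347

variable {n : ℕ}

/-- base-3 value of a digit function -/
private def g0bS {d : ℕ} (f : Fin d → Fin 3) : ℕ := ∑ j : Fin d, (f j : ℕ) * 3 ^ (j : ℕ)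

private theorem g0bS_succ {d : ℕ} (f : Fin (d + 1) → Fin 3) :
    g0bS f = (f 0 : ℕ) + 3 * g0bS (fun j : Fin d => f (Fin.succ j)) := by
  unfold g0bS
  rw [Fin.sum_univ_succ, Finset.mul_sum]
  congr 1
  · simp
  · refine Finset.sum_congr rfl fun j _ => ?_
    rw [Fin.val_succ, pow_succ]; ring

private theorem g0bS_lt {d : ℕ} (f : Fin d → Fin 3) : g0bS f < 3 ^ d := by
  induction d with
  | zero => simp [g0bS]
  | succ d ih =>
    rw [g0bS_succ, pow_succ]
    have h1 := ih (fun j : Fin d => f (Fin.succ j))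
    have h2 := (f 0).is_lt
    omega

private theorem g0bS_inj {d : ℕ} (f g : Fin d → Fin 3) (h : g0bS f = g0bS g) : f = g := by
  induction d with
  | zero => funext j; exact Fin.elim0 j
  | succ d ih =>
    rw [g0bS_succ, g0bS_succ] at h
    have h1 := (f 0).is_lt
    have h2 := (g 0).is_lt
    have h3 : (f 0 : ℕ) = g 0 := by omega
    have h4 := ih (fun j : Fin d => f (Fin.succ j)) (fun j : Fin d => g (Fin.succ j)) (by omega)
    funext j
    refine Fin.cases ?_ (fun i => ?_) j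
    · exact Fin.ext h3
    · exact congrFun h4 i

private theorem g0bS_add_one {d : ℕ} (f g : Fin d → Fin 3) (h : g0bS f + 1 = g0bS g) :
    ∑ j, (g j : ℕ) ≤ ∑ j, (f j : ℕ) + 1 := by
  induction d with
  | zero => simp [g0bS] at h
  | succ d ih =>
    rw [g0bS_succ, g0bS_succ] at h
    have h1 := (f 0).is_lt
    have h2 := (g 0).is_lt
    rw [Fin.sum_univ_succ, Fin.sum_univ_succ]
    by_cases h3 : (f 0 : ℕ) = 2
    · have h4 : (g 0 : ℕ) = 0 := by omega
      have h5 := ih (fun j : Fin d => f (Fin.succ j)) (fun j : Fin d => g (Fin.succ j)) (by omega)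
      omega
    · have h4 : (g 0 : ℕ) = (f 0 : ℕ) + 1 := by omega
      have h5 := g0bS_inj (fun j : Fin d => f (Fin.succ j)) (fun j : Fin d => g (Fin.succ j)) (by omega)
      have h6 : ∑ j : Fin d, (f (Fin.succ j) : ℕ) = ∑ j : Fin d, (g (Fin.succ j) : ℕ) :=
        Finset.sum_congr rfl fun j _ => by rw [congrFun h5 j]
      omega

private theorem g0bS_add_one_eq {d : ℕ} (f g : Fin (d + 1) → Fin 3) (h : g0bS f + 1 = g0bS g)
    (hs : ∑ j, (g j : ℕ) = ∑ j, (f j : ℕ) + 1) :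
    (g 0 : ℕ) = (f 0 : ℕ) + 1 ∧ ∀ l : Fin d, g (Fin.succ l) = f (Fin.succ l) := by
  rw [g0bS_succ, g0bS_succ] at h
  have h1 := (f 0).is_lt
  have h2 := (g 0).is_lt
  rw [Fin.sum_univ_succ, Fin.sum_univ_succ] at hs
  by_cases h3 : (f 0 : ℕ) = 2
  · have h4 : (g 0 : ℕ) = 0 := by omega
    have h5 := g0bS_add_one (fun j : Fin d => f (Fin.succ j)) (fun j : Fin d => g (Fin.succ j)) (by omega)
    omega
  · have h4 : (g 0 : ℕ) = (f 0 : ℕ) + 1 := by omega
    have h5 := g0bS_inj (fun j : Fin d => f (Fin.succ j)) (fun j : Fin d => g (Fin.succ j)) (by omega)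
    exact ⟨h4, fun l => (congrFun h5 l).symm⟩

private theorem g0bS_full {d : ℕ} (f : Fin d → Fin 3) (h : g0bS f + 1 = 3 ^ d) :
    ∑ j, (f j : ℕ) = 2 * d := by
  induction d with
  | zero => simp
  | succ d ih =>
    rw [g0bS_succ, pow_succ] at h
    have h1 := (f 0).is_lt
    have h2 := g0bS_lt (fun j : Fin d => f (Fin.succ j))
    have h3 : g0bS (fun j : Fin d => f (Fin.succ j)) + 1 = 3 ^ d := by omega
    have h4 := ih _ h3
    rw [Fin.sum_univ_succ, h4]
    omega

private theorem g0bS_zero {d : ℕ} (f : Fin d → Fin 3) (h : g0bS f = 0) :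
    ∑ j, (f j : ℕ) = 0 := by
  induction d with
  | zero => simp
  | succ d ih =>
    rw [g0bS_succ] at h
    have h4 := ih (fun j : Fin d => f (Fin.succ j)) (by omega)
    rw [Fin.sum_univ_succ, h4]
    omega

private theorem g0bidx_split (c : Cfg n) :
    idx c = g0bS (fun j : Fin n => c (Fin.castSucc j)) + (c (Fin.last n) : ℕ) * 3 ^ n := by
  unfold idx g0bS
  rw [Fin.sum_univ_castSucc]
  rfl

private theorem g0bdsm_split (c : Cfg n) :
    dsm c = ∑ j : Fin n, (c (Fin.castSucc j) : ℕ) + (c (Fin.last n) : ℕ) := by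
  unfold dsm
  rw [Fin.sum_univ_castSucc]

private theorem g0bidx_mod (c : Cfg n) : idx c % 2 = dsm c % 2 := by
  unfold idx dsm
  rw [Finset.sum_nat_mod]
  conv_rhs => rw [Finset.sum_nat_mod]
  congr 1
  refine Finset.sum_congr rfl fun j _ => ?_
  rw [Nat.mul_mod, Nat.pow_mod]
  norm_num

private theorem g0bdsm_eq {me mo : ℕ} (hme : me % 2 = 0) (hmo : mo % 2 = 1) {c y : Cfg n}
    (hc : inS me mo c) (hy : inS me mo y) (h : idx y % 2 = idx c % 2) : dsm y = dsm c := by
  rw [g0bidx_mod, g0bidx_mod] at h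
  rcases hc with hc | hc <;> rcases hy with hy | hy <;> rw [hc, hy] at h ⊢ <;> omega

theorem idx_hop {i j : Fin (n + 1)} (hij : i ≠ j) {c y : Cfg n} (h : Hop i j c y) :
    idx y + 3 ^ (j : ℕ) = idx c + 3 ^ (i : ℕ) := by
  obtain ⟨h1, h2, h3⟩ := h
  have e1 : (3 : ℕ) ^ (j : ℕ) = ∑ l : Fin (n + 1), if l = j then 3 ^ (l : ℕ) else 0 := by
    rw [Finset.sum_ite_eq' Finset.univ j (fun l : Fin (n + 1) => 3 ^ (l : ℕ))]
    simp
  have e2 : (3 : ℕ) ^ (i : ℕ) = ∑ l : Fin (n + 1), if l = i then 3 ^ (l : ℕ) else 0 := by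
    rw [Finset.sum_ite_eq' Finset.univ i (fun l : Fin (n + 1) => 3 ^ (l : ℕ))]
    simp
  unfold idx
  rw [e1, e2, ← Finset.sum_add_distrib, ← Finset.sum_add_distrib]
  refine Finset.sum_congr rfl fun l _ => ?_
  by_cases hl : l = i
  · subst hl
    rw [if_neg hij, if_pos rfl, h1]; ring
  · by_cases hl2 : l = j
    · subst hl2
      rw [if_neg hl, if_pos rfl, h2]; ring
    · rw [if_neg hl, if_neg hl2, h3 l hl hl2]

theorem dsm_hop {i j : Fin (n + 1)} (hij : i ≠ j) {c y : Cfg n} (h : Hop i j c y) :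
    dsm y = dsm c := by
  obtain ⟨h1, h2, h3⟩ := h
  have e1 : (1 : ℕ) = ∑ l : Fin (n + 1), if l = j then 1 else 0 := by simp
  have e2 : (1 : ℕ) = ∑ l : Fin (n + 1), if l = i then 1 else 0 := by simp
  have e3 : dsm y + (∑ l : Fin (n + 1), if l = j then 1 else 0) =
      dsm c + ∑ l : Fin (n + 1), if l = i then 1 else 0 := by
    unfold dsm
    rw [← Finset.sum_add_distrib, ← Finset.sum_add_distrib]
    refine Finset.sum_congr rfl fun l _ => ?_
    by_cases hl : l = i
    · subst hl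
      rw [if_neg hij, if_pos rfl, h1]
    · by_cases hl2 : l = j
      · subst hl2
        rw [if_neg hl, if_pos rfl, h2]
      · rw [if_neg hl, if_neg hl2, h3 l hl hl2]
  rw [← e1, ← e2] at e3
  omega

private theorem g0aS_adj {d : ℕ} (j : Fin d) (f g : Fin (d + 1) → Fin 3)
    (h : g0bS g + 3 ^ (j : ℕ) = g0bS f + 3 ^ ((j : ℕ) + 1))
    (hs : ∑ l, (g l : ℕ) = ∑ l, (f l : ℕ)) :
    (g j.succ : ℕ) = (f j.succ : ℕ) + 1 ∧ (f j.castSucc : ℕ) = (g j.castSucc : ℕ) + 1 ∧
      ∀ l, l ≠ j.succ → l ≠ j.castSucc → g l = f l := by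
  induction d with
  | zero => exact Fin.elim0 j
  | succ d ih =>
    rw [g0bS_succ g, g0bS_succ f] at h
    rw [Fin.sum_univ_succ (fun l => (g l : ℕ)), Fin.sum_univ_succ (fun l => (f l : ℕ))] at hs
    have h1 := (f 0).is_lt
    have h2 := (g 0).is_lt
    rcases Fin.eq_zero_or_eq_succ j with rfl | ⟨i, rfl⟩
    · have h0 : (g 0 : ℕ) + 3 * g0bS (fun l : Fin (d + 1) => g l.succ) + 1 =
          (f 0 : ℕ) + 3 * g0bS (fun l : Fin (d + 1) => f l.succ) + 3 := by
        simpa using h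
      by_cases h3 : (g 0 : ℕ) = 2
      · exfalso
        have h4 : (f 0 : ℕ) = 0 := by omega
        have h5 := g0bS_inj (fun l : Fin (d + 1) => g l.succ)
          (fun l : Fin (d + 1) => f l.succ) (by omega)
        have h6 : ∑ l : Fin (d + 1), (g l.succ : ℕ) = ∑ l : Fin (d + 1), (f l.succ : ℕ) :=
          Finset.sum_congr rfl fun l _ => by rw [congrFun h5 l]
        omega
      · have h4 : (f 0 : ℕ) = (g 0 : ℕ) + 1 := by omega
        have h5 : g0bS (fun l : Fin (d + 1) => f l.succ) + 1 =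
            g0bS (fun l : Fin (d + 1) => g l.succ) := by omega
        obtain ⟨h6, h7⟩ := g0bS_add_one_eq (fun l : Fin (d + 1) => f l.succ)
          (fun l : Fin (d + 1) => g l.succ) h5 (by omega)
        refine ⟨h6, h4, fun l hl1 hl2 => ?_⟩
        rcases Fin.eq_zero_or_eq_succ l with rfl | ⟨k, rfl⟩
        · exact absurd rfl hl2
        · rcases Fin.eq_zero_or_eq_succ k with rfl | ⟨m, rfl⟩
          · exact absurd rfl hl1
          · exact h7 m
    · have e1 : ((i.succ : Fin (d + 1)) : ℕ) = (i : ℕ) + 1 := Fin.val_succ i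
      rw [e1, pow_succ 3 (i : ℕ), pow_succ 3 ((i : ℕ) + 1)] at h
      have h3 : (g 0 : ℕ) = (f 0 : ℕ) := by omega
      obtain ⟨h4, h5, h6⟩ := ih i (fun l : Fin (d + 1) => f l.succ)
        (fun l : Fin (d + 1) => g l.succ) (by omega) (by omega)
      refine ⟨h4, h5, fun l hl1 hl2 => ?_⟩
      rcases Fin.eq_zero_or_eq_succ l with rfl | ⟨k, rfl⟩
      · exact Fin.ext h3
      · refine h6 k (fun hk => hl1 (by rw [hk])) (fun hk => hl2 ?_)
        rw [hk, Fin.succ_castSucc]

theorem hop_adj {me mo : ℕ} (hme : me % 2 = 0) (hmo : mo % 2 = 1) (j : Fin n) {c y : Cfg n}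
    (hc : inS me mo c) (hy : inS me mo y) (h : idx y + 3 ^ (j : ℕ) = idx c + 3 ^ ((j : ℕ) + 1)) :
    Hop (Fin.succ j) (Fin.castSucc j) c y := by
  have o1 : 3 ^ (j : ℕ) % 2 = 1 := by rw [Nat.pow_mod]; norm_num
  have o2 : 3 ^ ((j : ℕ) + 1) % 2 = 1 := by rw [Nat.pow_mod]; norm_num
  have hd : dsm y = dsm c := g0bdsm_eq hme hmo hc hy (by omega)
  exact g0aS_adj j c y h hd

theorem hop_adj' {me mo : ℕ} (hme : me % 2 = 0) (hmo : mo % 2 = 1) (j : Fin n) {c y : Cfg n}
    (hc : inS me mo c) (hy : inS me mo y) (h : idx y + 3 ^ ((j : ℕ) + 1) = idx c + 3 ^ (j : ℕ)) :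
    Hop (Fin.castSucc j) (Fin.succ j) c y := by
  obtain ⟨h1, h2, h3⟩ := hop_adj hme hmo j hy hc h.symm
  exact ⟨h2, h1, fun l hl1 hl2 => (h3 l hl2 hl1).symm⟩

theorem hop_bd {me mo : ℕ} (hn : 1 ≤ n) (hme : me % 2 = 0) (hmo : mo % 2 = 1) {c y : Cfg n}
    (hc : inS me mo c) (hy : inS me mo y) (h : idx y + 1 = idx c + 3 ^ n) :
    Hop (Fin.last n) 0 c y := by
  obtain ⟨m, rfl⟩ : ∃ m, n = m + 1 := ⟨n - 1, by omega⟩
  have hodd : 3 ^ (m + 1) % 2 = 1 := by rw [Nat.pow_mod]; norm_num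
  have hd : dsm y = dsm c := g0bdsm_eq hme hmo hc hy (by omega)
  rw [g0bidx_split, g0bidx_split] at h
  rw [g0bdsm_split, g0bdsm_split] at hd
  have hLc := g0bS_lt (fun j : Fin (m + 1) => c (Fin.castSucc j))
  have hLy := g0bS_lt (fun j : Fin (m + 1) => y (Fin.castSucc j))
  have hcl := (c (Fin.last (m + 1))).is_lt
  have hyl := (y (Fin.last (m + 1))).is_lt
  by_cases hB : g0bS (fun j : Fin (m + 1) => y (Fin.castSucc j)) + 1 = 3 ^ (m + 1)
  · -- impossible case
    exfalso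
    have h1 := g0bS_full _ hB
    have h2 : g0bS (fun j : Fin (m + 1) => c (Fin.castSucc j)) + (c (Fin.last (m + 1)) : ℕ) * 3 ^ (m + 1) =
        (y (Fin.last (m + 1)) : ℕ) * 3 ^ (m + 1) := by omega
    have h3 : (c (Fin.last (m + 1)) : ℕ) = (y (Fin.last (m + 1)) : ℕ) := by
      generalize (c (Fin.last (m + 1)) : ℕ) = a at *
      generalize (y (Fin.last (m + 1)) : ℕ) = b at *
      interval_cases a <;> interval_cases b <;> omega
    have h4 := g0bS_zero (fun j : Fin (m + 1) => c (Fin.castSucc j)) (by rw [h3] at h2; omega)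
    omega
  · have hlt : g0bS (fun j : Fin (m + 1) => y (Fin.castSucc j)) + 1 < 3 ^ (m + 1) := by omega
    have h3 : (y (Fin.last (m + 1)) : ℕ) = (c (Fin.last (m + 1)) : ℕ) + 1 := by
      generalize (c (Fin.last (m + 1)) : ℕ) = a at *
      generalize (y (Fin.last (m + 1)) : ℕ) = b at *
      interval_cases a <;> interval_cases b <;> omega
    have h4 : g0bS (fun j : Fin (m + 1) => y (Fin.castSucc j)) + 1 =
        g0bS (fun j : Fin (m + 1) => c (Fin.castSucc j)) := by
      rw [h3, add_mul] at h; omega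
    have h5 : ∑ j : Fin (m + 1), (c (Fin.castSucc j) : ℕ) =
        ∑ j : Fin (m + 1), (y (Fin.castSucc j) : ℕ) + 1 := by omega
    obtain ⟨h6, h7⟩ := g0bS_add_one_eq _ _ h4 h5
    refine ⟨h3, h6, ?_⟩
    intro l hl1 hl0
    rcases Fin.eq_castSucc_or_eq_last l with ⟨i, rfl⟩ | rfl
    · rcases Fin.eq_zero_or_eq_succ i with rfl | ⟨k, rfl⟩
      · exact absurd rfl hl0
      · exact (h7 k).symm
    · exact absurd rfl hl1

theorem hop_bd' {me mo : ℕ} (hn : 1 ≤ n) (hme : me % 2 = 0) (hmo : mo % 2 = 1) {c y : Cfg n}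
    (hc : inS me mo c) (hy : inS me mo y) (h : idx y + 3 ^ n = idx c + 1) :
    Hop 0 (Fin.last n) c y := by
  obtain ⟨h1, h2, h3⟩ := hop_bd hn hme hmo hy hc h.symm
  exact ⟨h2, h1, fun l hl1 hl2 => (h3 l hl2 hl1).symm⟩

end Crest.Agent.R347
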