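import Crest.Agent.R347.ChDefs
import Crest.Agent.R347.ND0

/-!
# Row 347, Chebyshev numerics, piece G1: numbers with slots of `W` bits, slots indexed by `ℕ`

`sl W R F = ∑_{i < R} F i 2^(W i)`.  Elementary; ND0 has the same statements for `pk` (see `S_lt`, `S_slot`).
-/

set_option autoImplicit false

open Crest.MathPhysics.SpinChain Matrix

namespace Crest.Agent.R347

variable {n : ℕ}

/-- slot sum -/
def sl (W R : ℕ) (F : ℕ → ℕ) : ℕ := ∑ i ∈ Finset.range R, F i * 2 ^ (W * i)

theorem sl_add (W R : ℕ) (F G : ℕ → ℕ) : sl W R F + sl W R G = sl W R fun i => F i + G i := by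
  unfold sl
  rw [← Finset.sum_add_distrib]
  exact Finset.sum_congr rfl fun i _ => (add_mul _ _ _).symm

theorem sl_ext (W R R' : ℕ) (F : ℕ → ℕ) (h : R ≤ R') (hF : ∀ i, R ≤ i → F i = 0) :
    sl W R F = sl W R' F := by
  unfold sl
  refine Finset.sum_subset (Finset.range_mono h) fun i _ hi => ?_
  rw [hF i (by simpa using hi), zero_mul]

private theorem sl_lt' (W : ℕ) (F : ℕ → ℕ) (m : ℕ) (hF : ∀ i, F i < 2 ^ W) :
    sl W m F < 2 ^ (W * m) := by
  induction m with
  | zero => simp [sl]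
  | succ m ih =>
    unfold sl at *
    rw [Finset.sum_range_succ]
    have h2 := hF m
    calc ∑ i ∈ Finset.range m, F i * 2 ^ (W * i) + F m * 2 ^ (W * m)
        < 2 ^ (W * m) + F m * 2 ^ (W * m) := Nat.add_lt_add_right ih _
      _ = (F m + 1) * 2 ^ (W * m) := by ring
      _ ≤ 2 ^ W * 2 ^ (W * m) := Nat.mul_le_mul_right _ h2
      _ = 2 ^ (W * (m + 1)) := by rw [← pow_add]; congr 1; ring

private theorem sl_split (W R k : ℕ) (F : ℕ → ℕ) :
    sl W (R + k) F = sl W k F + (sl W R fun i => F (i + k)) * 2 ^ (W * k) := by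
  unfold sl
  rw [Nat.add_comm R k, Finset.sum_range_add, Finset.sum_mul]
  congr 1
  refine Finset.sum_congr rfl fun i _ => ?_
  rw [mul_assoc, ← pow_add, ← mul_add, Nat.add_comm k i]

theorem sl_shl (W R k : ℕ) (F : ℕ → ℕ) :
    sl W R F <<< (W * k) = sl W (R + k) fun i => if k ≤ i then F (i - k) else 0 := by
  have h0 : (sl W k fun i => if k ≤ i then F (i - k) else 0) = 0 := by
    unfold sl
    refine Finset.sum_eq_zero fun i hi => ?_
    have hi' := Finset.mem_range.mp hi
    beta_reduce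
    rw [if_neg (by omega), zero_mul]
  rw [Nat.shiftLeft_eq, sl_split, h0, zero_add]
  congr 1
  unfold sl
  refine Finset.sum_congr rfl fun i _ => ?_
  beta_reduce
  rw [if_pos (Nat.le_add_left k i), Nat.add_sub_cancel]

theorem sl_shr (W R k : ℕ) (F : ℕ → ℕ) (hF : ∀ i, F i < 2 ^ W) :
    sl W (R + k) F >>> (W * k) = sl W R fun i => F (i + k) := by
  rw [Nat.shiftRight_eq_div_pow, sl_split, Nat.add_mul_div_right _ _ (by positivity),
    Nat.div_eq_of_lt (sl_lt' W F k hF), zero_add]

/-- slot of a packed vector -/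
theorem pk_sl (W : ℕ) (f : Cfg n → ℕ) (F : ℕ → ℕ) (hF : ∀ c, F (idx c) = f c) :
    pk W f = sl W (3 ^ (n + 1)) F := by
  have hidx : ∀ c : Cfg n, idx c = (finFunctionFinEquiv c : ℕ) := fun c => by
    rw [finFunctionFinEquiv_apply]; rfl
  unfold sl pk
  rw [Finset.sum_range]
  refine Fintype.sum_equiv finFunctionFinEquiv _ _ fun c => ?_
  rw [← hidx c, hF c]

theorem sl_and_mask {W R : ℕ} (F : ℕ → ℕ) (hF : ∀ i, F i < 2 ^ W) (hR : 3 ^ (n + 1) ≤ R)
    (p : Cfg n → Prop) [DecidablePred p] :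
    sl W R F &&& pk W (fun c : Cfg n => if p c then 2 ^ W - 1 else 0) =
      pk W fun c : Cfg n => if p c then F (idx c) else 0 := by
  obtain ⟨d, rfl⟩ := Nat.exists_eq_add_of_le hR
  have h2 : 0 < 2 ^ W := by positivity
  have hm : pk W (fun c : Cfg n => if p c then 2 ^ W - 1 else 0) < 2 ^ (W * 3 ^ (n + 1)) :=
    pk_lt _ fun c => by split_ifs <;> omega
  have hmod : sl W (3 ^ (n + 1) + d) F % 2 ^ (W * 3 ^ (n + 1)) = sl W (3 ^ (n + 1)) F := by
    rw [Nat.add_comm, sl_split, Nat.add_mul_mod_self_right, Nat.mod_eq_of_lt (sl_lt' W F _ hF)]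
  rw [← pk_mask (fun c : Cfg n => F (idx c)) (fun c => hF _) p,
    pk_sl W (fun c : Cfg n => F (idx c)) F (fun c => rfl), ← hmod]
  refine Nat.eq_of_testBit_eq fun j => ?_
  rw [Nat.testBit_and, Nat.testBit_and, Nat.testBit_mod_two_pow]
  by_cases hj : j < W * 3 ^ (n + 1)
  · simp [hj]
  · rw [Nat.testBit_lt_two_pow (hm.trans_le (Nat.pow_le_pow_right (by norm_num) (not_lt.mp hj))),
      Bool.and_false, Bool.and_false]

private theorem sl_mul_pow (W R T k : ℕ) (F : ℕ → ℕ) (hk : k ≤ T) :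
    sl W R F * 2 ^ (W * k) =
      sl W (R + T) fun i => if k ≤ i ∧ i - k < R then F (i - k) else 0 := by
  unfold sl
  simp only [ite_mul, zero_mul]
  rw [← Finset.sum_filter, Finset.sum_mul]
  refine Finset.sum_nbij' (fun i => i + k) (fun j => j - k) ?_ ?_ ?_ ?_ ?_
  · intro i hi
    simp only [Finset.mem_range, Finset.mem_filter] at *
    omega
  · intro j hj
    simp only [Finset.mem_range, Finset.mem_filter] at *
    omega
  · intro i hi
    simp only [Nat.add_sub_cancel]
  · intro j hj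
    simp only [Finset.mem_range, Finset.mem_filter] at *
    omega
  · intro i hi
    simp only [Nat.add_sub_cancel]
    rw [mul_assoc, ← pow_add, ← mul_add]

/-- product with the hop multiplier -/
theorem sl_mul_hopC (W R off M : ℕ) (hoff : ∀ m < M, 2 * 3 ^ m ≤ off) (F : ℕ → ℕ) :
    sl W R F * hopC W off M = sl W (R + 2 * off) fun i => ∑ m ∈ Finset.range M,
      ((if off + 2 * 3 ^ m ≤ i ∧ i - (off + 2 * 3 ^ m) < R then F (i - (off + 2 * 3 ^ m)) else 0) +
       (if off - 2 * 3 ^ m ≤ i ∧ i - (off - 2 * 3 ^ m) < R then F (i - (off - 2 * 3 ^ m)) else 0)) := by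
  induction M with
  | zero =>
    simp only [hopC, Finset.range_zero, Finset.sum_empty, mul_zero, sl, zero_mul,
      Finset.sum_const_zero]
  | succ M ih =>
    have h1 := ih fun m hm => hoff m (by omega)
    have h2 := hoff M (by omega)
    have e1 := sl_mul_pow W R (2 * off) (off + 2 * 3 ^ M) F (by omega)
    have e2 := sl_mul_pow W R (2 * off) (off - 2 * 3 ^ M) F (by omega)
    simp only [hopC]
    rw [mul_add, mul_add, h1, e1, e2]
    unfold sl
    rw [← Finset.sum_add_distrib, ← Finset.sum_add_distrib]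
    refine Finset.sum_congr rfl fun i _ => ?_
    beta_reduce
    rw [Finset.sum_range_succ, add_mul, add_mul]

end Crest.Agent.R347
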