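import Crest.Agent.R347.ChG0
import Crest.Agent.R347.ChG1

/-!
# Row 347, Chebyshev numerics, piece G2: all hops by one multiplication and one mask

`pk_sl` (with `F i = f (cfg with index i)`, 0 for `i ≥ 3^(n+1)`), `sl_mul_hopC` with
`off = 2·3^(n-1)`, `M = n`, `sl_shr` (slots `< 2^W` since at most `2 n` values `< 2^b` are added), boundary terms
with `sl_shl`, `sl_shr` (shift `3^n - 1` slots), `sl_add`, `sl_and_mask`.  For `c ∈ S` the slot `idx c` contains
`∑_m f(slot idx c - 2·3^m) + f(slot idx c + 2·3^m)` and the nonzero terms belong to `y ∈ S` (support of `f`)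
with `idx y + 3^(m+1) = idx c + 3^m` or `idx y + 3^m = idx c + 3^(m+1)`: `hop_adj`, `hop_adj'`; conversely
`idx_hop`.  For fixed `c`, `i`, `j` there is at most one `y` with `Hop i j c y` (`Hop_unique`, NB1).
-/

set_option autoImplicit false

open Crest.MathPhysics.SpinChain Matrix

namespace Crest.Agent.R347

variable {n : ℕ}

namespace ChG2

/-- extension of a vector to all slot numbers -/
def exF (f : Cfg n → ℕ) (i : ℕ) : ℕ := ∑ y, if idx y = i then f y else 0

theorem exF_idx (f : Cfg n → ℕ) (c : Cfg n) : exF f (idx c) = f c := by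
  unfold exF
  simp only [idx_inj.eq_iff, Finset.sum_ite_eq', Finset.mem_univ, if_true]

theorem exF_big (f : Cfg n → ℕ) {i : ℕ} (h : 3 ^ (n + 1) ≤ i) : exF f i = 0 := by
  unfold exF
  refine Finset.sum_eq_zero fun y _ => if_neg fun he => ?_
  have := idx_lt y
  omega

theorem exF_lt {b : ℕ} (f : Cfg n → ℕ) (hf : ∀ c, f c < 2 ^ b) (i : ℕ) : exF f i < 2 ^ b := by
  by_cases h : i < 3 ^ (n + 1)
  · obtain ⟨c, rfl⟩ := idx_surj h
    rw [exF_idx]
    exact hf c
  · rw [exF_big f (not_lt.1 h)]
    positivity

theorem sum_congr_supp (f : Cfg n → ℕ) (P Q : Cfg n → Prop) [DecidablePred P] [DecidablePred Q]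
    (h : ∀ y, f y ≠ 0 → (P y ↔ Q y)) :
    (∑ y, if P y then f y else 0) = ∑ y, if Q y then f y else 0 := by
  refine Finset.sum_congr rfl fun y _ => ?_
  by_cases h0 : f y = 0
  · simp [h0]
  · simp only [h y h0]

theorem supp_in {me mo : ℕ} {f : Cfg n → ℕ} (sf : ∀ c, ¬ inS me mo c → f c = 0) {y : Cfg n}
    (h : f y ≠ 0) : inS me mo y := by
  by_contra hc
  exact h (sf y hc)

end ChG2

open ChG2 in
theorem hops_mask {W me mo b : ℕ} (hW : 0 < W) (hn : 1 ≤ n) (hme : me % 2 = 0) (hmo : mo % 2 = 1)
    (hb : (2 * n + 2) * 2 ^ b ≤ 2 ^ W) (f g1 g2 : Cfg n → ℕ)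
    (hf : ∀ c, f c < 2 ^ b) (hg1 : ∀ c, g1 c < 2 ^ b) (hg2 : ∀ c, g2 c < 2 ^ b)
    (sf : ∀ c, ¬ inS me mo c → f c = 0) (sg1 : ∀ c, ¬ inS me mo c → g1 c = 0)
    (sg2 : ∀ c, ¬ inS me mo c → g2 c = 0) :
    (bulkP W (n + 1) (pk W f) + (bshl W (n + 1) (pk W g1) + bshr W (n + 1) (pk W g2))) &&&
      pk W (fun c : Cfg n => if inS me mo c then 2 ^ W - 1 else 0) =
    pk W fun c => if inS me mo c then bhop f c + (hup g1 c + hdn g2 c) else 0 := by
  have h2b : 0 < 2 ^ b := by positivity
  set R := 3 ^ (n + 1) with hR
  set off := 2 * 3 ^ (n - 1) with hoff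
  set k := 3 ^ n - 1 with hk
  have h3n : 1 ≤ 3 ^ n := Nat.one_le_pow _ _ (by norm_num)
  have hkR : k ≤ R := by
    have : 3 ^ (n + 1) = 3 * 3 ^ n := by rw [pow_succ]; ring
    omega
  have hoffm : ∀ m < n, 2 * 3 ^ m ≤ off := by
    intro m hm
    exact Nat.mul_le_mul_left 2 (Nat.pow_le_pow_right (by norm_num) (by omega))
  have hFb : ∀ i, exF f i ≤ 2 ^ b - 1 := fun i => Nat.le_sub_one_of_lt (exF_lt f hf i)
  have hG1b : ∀ i, exF g1 i ≤ 2 ^ b - 1 := fun i => Nat.le_sub_one_of_lt (exF_lt g1 hg1 i)
  have hG2b : ∀ i, exF g2 i ≤ 2 ^ b - 1 := fun i => Nat.le_sub_one_of_lt (exF_lt g2 hg2 i)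
  have hbnd : (2 * n + 2) * (2 ^ b - 1) < 2 ^ W := by
    have h1 : (2 * n + 2) * (2 ^ b - 1) < (2 * n + 2) * 2 ^ b :=
      Nat.mul_lt_mul_of_pos_left (by omega) (by omega)
    omega
  -- bulk part
  set H1 : ℕ → ℕ := fun i => ∑ m ∈ Finset.range n,
    ((if 2 * 3 ^ m ≤ i then exF f (i - 2 * 3 ^ m) else 0) + exF f (i + 2 * 3 ^ m)) with hH1
  have hH1le : ∀ i, H1 i ≤ 2 * n * (2 ^ b - 1) := by
    intro i
    calc H1 i ≤ ∑ _m ∈ Finset.range n, 2 * (2 ^ b - 1) := by
          refine Finset.sum_le_sum fun m _ => ?_
          have h1 := hFb (i - 2 * 3 ^ m)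
          have h2 := hFb (i + 2 * 3 ^ m)
          split_ifs <;> omega
      _ = 2 * n * (2 ^ b - 1) := by
          rw [Finset.sum_const, Finset.card_range, smul_eq_mul]; ring
  have hbulk : bulkP W (n + 1) (pk W f) = sl W (R + off) H1 := by
    unfold bulkP
    have e1 : n + 1 - 2 = n - 1 := by omega
    have e2 : n + 1 - 1 = n := by omega
    rw [e1, e2, ← hoff, pk_sl W f (exF f) (exF_idx f), sl_mul_hopC W _ off n hoffm,
      show 3 ^ (n + 1) + 2 * off = R + off + off by rw [hR]; ring, sl_shr]
    · unfold sl
      refine Finset.sum_congr rfl fun i _ => ?_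
      congr 1
      rw [hH1]
      refine Finset.sum_congr rfl fun m hm => ?_
      have hm' := hoffm m (Finset.mem_range.1 hm)
      congr 1
      · have e3 : i + off - (off + 2 * 3 ^ m) = i - 2 * 3 ^ m := by omega
        rw [e3]
        by_cases h1 : 2 * 3 ^ m ≤ i
        · rw [if_pos h1]
          by_cases h2 : i - 2 * 3 ^ m < 3 ^ (n + 1)
          · rw [if_pos ⟨by omega, h2⟩]
          · rw [if_neg (fun h => h2 h.2), exF_big f (not_lt.1 h2)]
        · rw [if_neg h1, if_neg (fun h => h1 (by omega))]
      · have e3 : i + off - (off - 2 * 3 ^ m) = i + 2 * 3 ^ m := by omega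
        rw [e3]
        by_cases h2 : i + 2 * 3 ^ m < 3 ^ (n + 1)
        · rw [if_pos ⟨by omega, h2⟩]
        · rw [if_neg (fun h => h2 h.2), exF_big f (not_lt.1 h2)]
    · intro i
      refine lt_of_le_of_lt ?_ hbnd
      calc _ ≤ ∑ _m ∈ Finset.range n, 2 * (2 ^ b - 1) := by
            refine Finset.sum_le_sum fun m _ => ?_
            have h1 := hFb (i - (off + 2 * 3 ^ m))
            have h2 := hFb (i - (off - 2 * 3 ^ m))
            split_ifs <;> omega
        _ = 2 * n * (2 ^ b - 1) := by
            rw [Finset.sum_const, Finset.card_range, smul_eq_mul]; ring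
        _ ≤ (2 * n + 2) * (2 ^ b - 1) := Nat.mul_le_mul_right _ (by omega)
  -- boundary parts
  set H2 : ℕ → ℕ := fun i => if k ≤ i then exF g1 (i - k) else 0 with hH2
  have hH2le : ∀ i, H2 i ≤ 2 ^ b - 1 := by
    intro i
    simp only [hH2]
    have := hG1b (i - k)
    split_ifs <;> omega
  have hup' : bshl W (n + 1) (pk W g1) = sl W (R + k) H2 := by
    unfold bshl
    have e2 : n + 1 - 1 = n := by omega
    rw [e2, ← hk, pk_sl W g1 (exF g1) (exF_idx g1), sl_shl]
  set H3 : ℕ → ℕ := fun i => exF g2 (i + k) with hH3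
  have hH3le : ∀ i, H3 i ≤ 2 ^ b - 1 := fun i => hG2b _
  have hdn' : bshr W (n + 1) (pk W g2) = sl W (R - k) H3 := by
    unfold bshr
    have e2 : n + 1 - 1 = n := by omega
    rw [e2, ← hk, pk_sl W g2 (exF g2) (exF_idx g2),
      show 3 ^ (n + 1) = R - k + k by rw [← hR]; omega, sl_shr]
    intro i
    have h1 := exF_lt g2 hg2 i
    have h2 : 2 ^ b ≤ 2 ^ W := by
      have : 2 ^ b ≤ (2 * n + 2) * 2 ^ b := Nat.le_mul_of_pos_left _ (by omega)
      omega
    omega
  -- common range
  have hx1 : sl W (R + off) H1 = sl W (R + off + (R + k)) H1 := by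
    refine sl_ext W _ _ _ (by omega) fun i hi => ?_
    simp only [hH1]
    refine Finset.sum_eq_zero fun m hm => ?_
    have hm' := hoffm m (Finset.mem_range.1 hm)
    rw [exF_big f (by omega : 3 ^ (n + 1) ≤ i + 2 * 3 ^ m), exF_big f (by omega), ite_self,
      add_zero]
  have hx2 : sl W (R + k) H2 = sl W (R + off + (R + k)) H2 := by
    refine sl_ext W _ _ _ (by omega) fun i hi => ?_
    simp only [hH2]
    rw [exF_big g1 (by omega), ite_self]
  have hx3 : sl W (R - k) H3 = sl W (R + off + (R + k)) H3 := by
    refine sl_ext W _ _ _ (by omega) fun i hi => ?_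
    simp only [hH3]
    exact exF_big g2 (by omega)
  rw [hbulk, hup', hdn', hx1, hx2, hx3, sl_add, sl_add, sl_and_mask _ _ (by omega)]
  · congr 1
    funext c
    by_cases hc : inS me mo c
    · rw [if_pos hc, if_pos hc]
      congr 1
      · -- bulk
        simp only [hH1]
        unfold bhop
        rw [Finset.sum_range]
        refine Finset.sum_congr rfl fun j _ => ?_
        have e3 : 3 ^ ((j : ℕ) + 1) = 3 ^ (j : ℕ) + 2 * 3 ^ (j : ℕ) := by rw [pow_succ]; ring
        congr 1
        · have e4 : (if 2 * 3 ^ (j : ℕ) ≤ idx c then exF f (idx c - 2 * 3 ^ (j : ℕ)) else 0) =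
              ∑ y, if idx y + 2 * 3 ^ (j : ℕ) = idx c then f y else 0 := by
            by_cases h1 : 2 * 3 ^ (j : ℕ) ≤ idx c
            · rw [if_pos h1]
              unfold exF
              refine Finset.sum_congr rfl fun y _ => ?_
              refine if_congr ?_ rfl rfl
              omega
            · rw [if_neg h1]
              refine (Finset.sum_eq_zero fun y _ => if_neg ?_).symm
              omega
          rw [e4]
          refine sum_congr_supp f _ _ fun y hy => ?_
          have hy' := supp_in sf hy
          constructor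
          · intro h
            exact hop_adj' hme hmo j hc hy' (by omega)
          · intro h
            have h1 := idx_hop (Fin.castSucc_lt_succ).ne h
            rw [Fin.val_succ, Fin.val_castSucc] at h1
            omega
        · unfold exF
          refine sum_congr_supp f _ _ fun y hy => ?_
          have hy' := supp_in sf hy
          constructor
          · intro h
            exact hop_adj hme hmo j hc hy' (by omega)
          · intro h
            have h1 := idx_hop (Fin.castSucc_lt_succ).ne' h
            rw [Fin.val_succ, Fin.val_castSucc] at h1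
            omega
      · congr 1
        · simp only [hH2]
          unfold hup
          have e4 : (if k ≤ idx c then exF g1 (idx c - k) else 0) =
              ∑ y, if idx y + k = idx c then g1 y else 0 := by
            by_cases h1 : k ≤ idx c
            · rw [if_pos h1]
              unfold exF
              refine Finset.sum_congr rfl fun y _ => ?_
              refine if_congr ?_ rfl rfl
              omega
            · rw [if_neg h1]
              refine (Finset.sum_eq_zero fun y _ => if_neg ?_).symm
              omega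
          rw [e4]
          refine sum_congr_supp g1 _ _ fun y hy => ?_
          have hy' := supp_in sg1 hy
          constructor
          · intro h
            exact hop_bd' hn hme hmo hc hy' (by omega)
          · intro h
            have h1 := idx_hop (fun h0 => by
              have := congrArg Fin.val h0
              simp at this
              omega) h
            simp only [Fin.val_last, Fin.val_zero, pow_zero] at h1
            omega
        · simp only [hH3]
          unfold hdn exF
          refine sum_congr_supp g2 _ _ fun y hy => ?_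
          have hy' := supp_in sg2 hy
          constructor
          · intro h
            exact hop_bd hn hme hmo hc hy' (by omega)
          · intro h
            have h1 := idx_hop (fun h0 => by
              have := congrArg Fin.val h0
              simp at this
              omega) h
            simp only [Fin.val_last, Fin.val_zero, pow_zero] at h1
            omega
    · rw [if_neg hc, if_neg hc]
  · intro i
    have h1 := hH1le i
    have h2 := hH2le i
    have h3 := hH3le i
    have h4 : 2 * n * (2 ^ b - 1) + ((2 ^ b - 1) + (2 ^ b - 1)) = (2 * n + 2) * (2 ^ b - 1) := by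
      ring
    omega

end Crest.Agent.R347
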