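import Crest.Agent.R347.ND1

/-!
# Row 347 numerics, piece ND5: class masks

`oddP W L L` = xor over the sites of the mask `digit = 1`: all-ones slots where the number of ones is odd (`qcl c = 1`).
`dsP W L L = pk (∑ digits)` (`≤ 2 (n+1) < 32`); xor with the constant `L`; adding 31 and shifting by 5 gives 1 iff the xor is nonzero (xor `< 32`);
`Mtot c = 0 ↔ ∑ digits = n + 1`.
-/

set_option autoImplicit false

open Crest.MathPhysics.SpinChain Matrix

namespace Crest.Agent.R347

variable {n : ℕ}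

private theorem pk_zero5 (W : ℕ) : pk W (fun _ : Cfg n => 0) = 0 := by
  simp [pk]

private theorem ite_lt5 {W : ℕ} (p : Prop) [Decidable p] : (if p then 2 ^ W - 1 else 0) < 2 ^ W := by
  have h : 0 < 2 ^ W := by positivity
  split_ifs <;> omega

private theorem oddP_eq {W : ℕ} (hW : 0 < W) (m : ℕ) (hm : m ≤ n + 1) :
    oddP W (n + 1) m = pk W fun c : Cfg n =>
      if (Finset.univ.filter fun j : Fin (n + 1) => (j : ℕ) < m ∧ c j = 1).card % 2 = 1 then
        2 ^ W - 1 else 0 := by
  induction m with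
  | zero =>
    rw [oddP]
    simp [pk_zero5]
  | succ m ih =>
    rw [oddP, ih (by omega)]
    have hd := dm_eq hW (⟨m, by omega⟩ : Fin (n + 1)) 1
    simp only [Fin.val_one] at hd
    have hd' : dm W (n + 1) m 1 = pk W fun c : Cfg n => if c ⟨m, by omega⟩ = 1 then 2 ^ W - 1 else 0 := hd
    rw [hd', pk_xor _ _ (fun c => ite_lt5 _) (fun c => ite_lt5 _)]
    congr 1
    funext c
    have hcard : (Finset.univ.filter fun j : Fin (n + 1) => (j : ℕ) < m + 1 ∧ c j = 1).card =
        (Finset.univ.filter fun j : Fin (n + 1) => (j : ℕ) < m ∧ c j = 1).card +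
          (if c ⟨m, by omega⟩ = 1 then 1 else 0) := by
      by_cases h1 : c ⟨m, by omega⟩ = 1
      · rw [if_pos h1]
        have : (Finset.univ.filter fun j : Fin (n + 1) => (j : ℕ) < m + 1 ∧ c j = 1) =
            insert ⟨m, by omega⟩
              (Finset.univ.filter fun j : Fin (n + 1) => (j : ℕ) < m ∧ c j = 1) := by
          ext j
          simp only [Finset.mem_filter, Finset.mem_univ, true_and, Finset.mem_insert, Fin.ext_iff]
          constructor
          · rintro ⟨h2, h3⟩
            rcases Nat.lt_succ_iff_lt_or_eq.1 h2 with h | h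
            · exact Or.inr ⟨h, h3⟩
            · exact Or.inl h
          · rintro (h | ⟨h2, h3⟩)
            · refine ⟨by omega, ?_⟩
              have : j = ⟨m, by omega⟩ := Fin.ext h
              rw [this, h1]
            · exact ⟨by omega, h3⟩
        rw [this, Finset.card_insert_of_notMem (by simp)]
      · rw [if_neg h1]
        refine Eq.trans ?_ (Nat.add_zero _).symm
        congr 1
        ext j
        simp only [Finset.mem_filter, Finset.mem_univ, true_and]
        constructor
        · rintro ⟨h2, h3⟩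
          refine ⟨?_, h3⟩
          rcases Nat.lt_succ_iff_lt_or_eq.1 h2 with h | h
          · exact h
          · exact absurd (by rw [← h3]; congr 1; exact Fin.ext h.symm) h1
        · rintro ⟨h2, h3⟩
          exact ⟨by omega, h3⟩
    rw [hcard]
    by_cases h1 : c ⟨m, by omega⟩ = 1
    · rw [if_pos h1, if_pos h1]
      by_cases h2 : (Finset.univ.filter fun j : Fin (n + 1) => (j : ℕ) < m ∧ c j = 1).card % 2 = 1
      · rw [if_pos h2, if_neg (by omega), Nat.xor_self]
      · rw [if_neg h2, if_pos (by omega), Nat.zero_xor]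
    · rw [if_neg h1, if_neg h1, Nat.xor_zero]
      rfl

private theorem oddP_full {W : ℕ} (hW : 0 < W) :
    oddP W (n + 1) (n + 1) = pk W fun c : Cfg n => if qcl c = 1 then 2 ^ W - 1 else 0 := by
  rw [oddP_eq hW (n + 1) le_rfl]
  congr 1
  funext c
  have : (Finset.univ.filter fun j : Fin (n + 1) => (j : ℕ) < n + 1 ∧ c j = 1) =
      Finset.univ.filter fun j : Fin (n + 1) => c j = 1 := by
    ext j
    simp only [Finset.mem_filter, Finset.mem_univ, true_and]
    exact ⟨fun h => h.2, fun h => ⟨j.2, h⟩⟩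
  rw [this]
  rfl

private theorem full_eq {W : ℕ} (hW : 0 < W) :
    ones W (n + 1) * (2 ^ W - 1) = pk W fun _ : Cfg n => 2 ^ W - 1 := by
  rw [ones_eq hW, pk_mul]
  congr 1
  funext c
  rw [Nat.one_mul]

theorem cM0_eq {W : ℕ} (hW : 0 < W) :
    cM W (n + 1) 0 = pk W fun c : Cfg n => if qcl c = 0 then 2 ^ W - 1 else 0 := by
  have h0 : cM W (n + 1) 0 = ones W (n + 1) * (2 ^ W - 1) - oddP W (n + 1) (n + 1) := rfl
  rw [h0, oddP_full hW, full_eq hW, pk_sub _ _ (fun c => by split_ifs <;> omega)]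
  congr 1
  funext c
  have h2 : qcl c < 2 := Nat.mod_lt _ (by norm_num)
  by_cases h : qcl c = 1
  · rw [if_pos h, if_neg (by omega)]
    omega
  · rw [if_neg h, if_pos (by omega)]
    omega

theorem cM1_eq {W : ℕ} (hW : 0 < W) :
    cM W (n + 1) 1 = pk W fun c : Cfg n => if qcl c = 1 then 2 ^ W - 1 else 0 := by
  have h0 : cM W (n + 1) 1 = oddP W (n + 1) (n + 1) := rfl
  rw [h0, oddP_full hW]

private theorem dsP_eq {W : ℕ} (hW : 0 < W) (m : ℕ) (hm : m ≤ n + 1) :
    dsP W (n + 1) m = pk W fun c : Cfg n =>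
      ∑ j ∈ Finset.univ.filter (fun j : Fin (n + 1) => (j : ℕ) < m), (c j : ℕ) := by
  induction m with
  | zero =>
    rw [dsP]
    simp [pk_zero5]
  | succ m ih =>
    rw [dsP, ih (by omega)]
    have h1 : um W (n + 1) m 1 = pk W fun c : Cfg n => if c ⟨m, by omega⟩ = 1 then 1 else 0 :=
      um_eq hW (⟨m, by omega⟩ : Fin (n + 1)) 1
    have h2 : um W (n + 1) m 2 = pk W fun c : Cfg n => if c ⟨m, by omega⟩ = 2 then 1 else 0 :=
      um_eq hW (⟨m, by omega⟩ : Fin (n + 1)) 2
    rw [h1, h2, Nat.mul_comm 2, pk_mul, pk_add, pk_add]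
    congr 1
    funext c
    have hs : (Finset.univ.filter fun j : Fin (n + 1) => (j : ℕ) < m + 1) =
        insert ⟨m, by omega⟩ (Finset.univ.filter fun j : Fin (n + 1) => (j : ℕ) < m) := by
      ext j
      simp only [Finset.mem_filter, Finset.mem_univ, true_and, Finset.mem_insert, Fin.ext_iff]
      omega
    rw [hs, Finset.sum_insert (by simp), Nat.add_comm]
    congr 1
    generalize c ⟨m, _⟩ = d
    fin_cases d <;> rfl

private theorem dsP_full {W : ℕ} (hW : 0 < W) :
    dsP W (n + 1) (n + 1) = pk W fun c : Cfg n => ∑ j, (c j : ℕ) := by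
  rw [dsP_eq hW (n + 1) le_rfl]
  congr 1
  funext c
  congr 1
  ext j
  simp only [Finset.mem_filter, Finset.mem_univ, true_and, iff_true]
  exact j.2

private theorem digits_le (c : Cfg n) : ∑ j, (c j : ℕ) ≤ 2 * (n + 1) := by
  calc ∑ j, (c j : ℕ) ≤ ∑ _j : Fin (n + 1), 2 := Finset.sum_le_sum fun j _ => by
        have := (c j).2
        omega
    _ = 2 * (n + 1) := by simp [mul_comm]

private theorem Mtot_zero (c : Cfg n) : Mtot c = 0 ↔ ∑ j, (c j : ℕ) = n + 1 := by
  unfold Mtot
  rw [Finset.sum_sub_distrib]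
  simp only [Finset.sum_const, Finset.card_univ, Fintype.card_fin, nsmul_eq_mul, mul_one]
  rw [← Nat.cast_sum]
  omega

theorem zM_eq {W : ℕ} (hW : 7 ≤ W) (hn : n + 1 ≤ 15) :
    zM W (n + 1) = pk W fun c : Cfg n => if Mtot c = 0 then 2 ^ W - 1 else 0 := by
  have hW0 : 0 < W := by omega
  have hW7 : 2 ^ 7 ≤ 2 ^ W := Nat.pow_le_pow_right (by norm_num) hW
  have hx : ∀ c : Cfg n, (∑ j, (c j : ℕ)) ^^^ (n + 1) < 32 := fun c => by
    have h1 : ∑ j, (c j : ℕ) < 2 ^ 5 := lt_of_le_of_lt (digits_le c) (by omega)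
    have h2 : n + 1 < 2 ^ 5 := by omega
    exact Nat.xor_lt_two_pow h1 h2
  unfold zM
  have e1 : (n + 1) * ones W (n + 1) = pk W fun _ : Cfg n => n + 1 := by
    rw [ones_eq hW0, Nat.mul_comm, pk_mul]
    congr 1
    funext c
    rw [Nat.one_mul]
  have e2 : 31 * ones W (n + 1) = pk W fun _ : Cfg n => 31 := by
    rw [ones_eq hW0, Nat.mul_comm, pk_mul]
  have hone : pk W (fun _ : Cfg n => 1) =
      pk W (fun _ : Cfg n => 2 ^ (W - 5) - 1) &&& pk W (fun _ : Cfg n => 1) := by
    rw [pk_and _ _ (fun _ => by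
        have : 2 ^ (W - 5) ≤ 2 ^ W := Nat.pow_le_pow_right (by norm_num) (by omega)
        have h0 : 0 < 2 ^ (W - 5) := by positivity
        omega) (fun _ => by omega)]
    congr 1
    funext c
    obtain ⟨k, hk⟩ : ∃ k, W - 5 = k + 1 := ⟨W - 6, by omega⟩
    rw [hk, Nat.and_one_is_mod, pow_succ]
    have : 0 < 2 ^ k := by positivity
    omega
  rw [e1, e2, dsP_full hW0, pk_xor _ _ (fun c => by
      have := digits_le c
      omega) (fun c => by omega), pk_add]
  have e3 : (pk W (fun c : Cfg n => ((∑ j, (c j : ℕ)) ^^^ (n + 1)) + 31) >>> 5) &&& ones W (n + 1) =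
      pk W fun c : Cfg n => if Mtot c = 0 then 0 else 1 := by
    rw [ones_eq hW0, hone, ← Nat.and_assoc, pk_shr 5 (by omega) _ (fun c => by
      have := hx c
      omega), pk_and _ _ (fun c => by
      have := hx c
      omega) (fun c => by omega)]
    congr 1
    funext c
    have h32 := hx c
    by_cases h : Mtot c = 0
    · rw [if_pos h, (Mtot_zero c).1 h, Nat.xor_self]
      rfl
    · rw [if_neg h]
      have hne : (∑ j, (c j : ℕ)) ^^^ (n + 1) ≠ 0 := by
        rw [Ne, Nat.xor_eq_zero_iff, ← Mtot_zero]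
        exact h
      have : (((∑ j, (c j : ℕ)) ^^^ (n + 1)) + 31) / 2 ^ 5 = 1 := by
        omega
      rw [this]
      rfl
  rw [e3, ones_eq hW0, pk_sub _ _ (fun c => by split_ifs <;> omega), pk_mul]
  congr 1
  funext c
  by_cases h : Mtot c = 0
  · rw [if_pos h, if_pos h]
    omega
  · rw [if_neg h, if_neg h]
    omega

end Crest.Agent.R347
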