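import Crest.Agent.R347.ChDefs
import Crest.Agent.R347.ND5

/-!
# Row 347, Chebyshev numerics, piece G3: sector indicators

Same proof as `zM_eq` (ND5.lean): `dsP W L L` = packed digit sums, `xor` with `m` is 0 iff equal, both `< 32`.
-/

set_option autoImplicit false

open Crest.MathPhysics.SpinChain Matrix

namespace Crest.Agent.R347

variable {n : ℕ}

private theorem pk_zeroG3 (W : ℕ) : pk W (fun _ : Cfg n => 0) = 0 := by
  simp [pk]

private theorem dsP_eqG3 {W : ℕ} (hW : 0 < W) (m : ℕ) (hm : m ≤ n + 1) :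
    dsP W (n + 1) m = pk W fun c : Cfg n =>
      ∑ j ∈ Finset.univ.filter (fun j : Fin (n + 1) => (j : ℕ) < m), (c j : ℕ) := by
  induction m with
  | zero =>
    rw [dsP]
    simp [pk_zeroG3]
  | succ m ih =>
    rw [dsP, ih (by omega)]
    have h1 : um W (n + 1) m 1 = pk W fun c : Cfg n => if c ⟨m, by omega⟩ = 1 then 1 else 0 :=
      um_eq hW (⟨m, by omega⟩ : Fin (n + 1)) 1
    have h2 : um W (n + 1) m 2 = pk W fun c : Cfg n => if c ⟨m, by omega⟩ = 2 then 1 else 0 :=
      um_eq hW (⟨m, by omega⟩ : Fin (n + 1)) 2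
    rw [h1, h2, Nat.mul_comm 2, pk_mul, pk_add, pk_add]
    congr 1
    funext c
    have hs : (Finset.univ.filter fun j : Fin (n + 1) => (j : ℕ) < m + 1) =
        insert ⟨m, by omega⟩ (Finset.univ.filter fun j : Fin (n + 1) => (j : ℕ) < m) := by
      ext j
      simp only [Finset.mem_filter, Finset.mem_univ, true_and, Finset.mem_insert, Fin.ext_iff]
      omega
    rw [hs, Finset.sum_insert (by simp), Nat.add_comm]
    congr 1
    generalize c ⟨m, _⟩ = d
    fin_cases d <;> rfl

private theorem dsP_fullG3 {W : ℕ} (hW : 0 < W) :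
    dsP W (n + 1) (n + 1) = pk W fun c : Cfg n => dsm c := by
  rw [dsP_eqG3 hW (n + 1) le_rfl]
  congr 1
  funext c
  unfold dsm
  congr 1
  ext j
  simp only [Finset.mem_filter, Finset.mem_univ, true_and, iff_true]
  exact j.2

private theorem dsm_leG3 (c : Cfg n) : dsm c ≤ 2 * (n + 1) := by
  unfold dsm
  calc ∑ j, (c j : ℕ) ≤ ∑ _j : Fin (n + 1), 2 := Finset.sum_le_sum fun j _ => by
        have := (c j).2
        omega
    _ = 2 * (n + 1) := by simp [mul_comm]

theorem secI_eq {W : ℕ} (hW : 7 ≤ W) (hn : n + 1 ≤ 15) (m : ℕ) (hm : m < 32) :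
    secI W (n + 1) m = pk W fun c : Cfg n => if dsm c = m then 1 else 0 := by
  have hW0 : 0 < W := by omega
  have hW7 : 2 ^ 7 ≤ 2 ^ W := Nat.pow_le_pow_right (by norm_num) hW
  have hx : ∀ c : Cfg n, dsm c ^^^ m < 32 := fun c => by
    have h1 : dsm c < 2 ^ 5 := lt_of_le_of_lt (dsm_leG3 c) (by omega)
    have h2 : m < 2 ^ 5 := by omega
    exact Nat.xor_lt_two_pow h1 h2
  unfold secI
  have e1 : m * ones W (n + 1) = pk W fun _ : Cfg n => m := by
    rw [ones_eq hW0, Nat.mul_comm, pk_mul]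
    congr 1
    funext c
    rw [Nat.one_mul]
  have e2 : 31 * ones W (n + 1) = pk W fun _ : Cfg n => 31 := by
    rw [ones_eq hW0, Nat.mul_comm, pk_mul]
  have hone : pk W (fun _ : Cfg n => 1) =
      pk W (fun _ : Cfg n => 2 ^ (W - 5) - 1) &&& pk W (fun _ : Cfg n => 1) := by
    rw [pk_and _ _ (fun _ => by
        have : 2 ^ (W - 5) ≤ 2 ^ W := Nat.pow_le_pow_right (by norm_num) (by omega)
        have h0 : 0 < 2 ^ (W - 5) := by positivity
        omega) (fun _ => by omega)]
    congr 1
    funext c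
    obtain ⟨k, hk⟩ : ∃ k, W - 5 = k + 1 := ⟨W - 6, by omega⟩
    rw [hk, Nat.and_one_is_mod, pow_succ]
    have : 0 < 2 ^ k := by positivity
    omega
  rw [e1, e2, dsP_fullG3 hW0, pk_xor _ _ (fun c => by
      have := dsm_leG3 c
      omega) (fun c => by omega), pk_add]
  have e3 : (pk W (fun c : Cfg n => (dsm c ^^^ m) + 31) >>> 5) &&& ones W (n + 1) =
      pk W fun c : Cfg n => if dsm c = m then 0 else 1 := by
    rw [ones_eq hW0, hone, ← Nat.and_assoc, pk_shr 5 (by omega) _ (fun c => by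
      have := hx c
      omega), pk_and _ _ (fun c => by
      have := hx c
      omega) (fun c => by omega)]
    congr 1
    funext c
    have h32 := hx c
    by_cases h : dsm c = m
    · rw [if_pos h, h, Nat.xor_self]
      rfl
    · rw [if_neg h]
      have hne : dsm c ^^^ m ≠ 0 := by
        rw [Ne, Nat.xor_eq_zero_iff]
        exact h
      have : ((dsm c ^^^ m) + 31) / 2 ^ 5 = 1 := by
        omega
      rw [this]
      rfl
  rw [e3, ones_eq hW0, pk_sub _ _ (fun c => by split_ifs <;> omega)]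
  congr 1
  funext c
  by_cases h : dsm c = m
  · rw [if_pos h, if_pos h]
  · rw [if_neg h, if_neg h]

theorem fullM_eq {W : ℕ} (p : Cfg n → Prop) [DecidablePred p] :
    fullM W (pk W fun c => if p c then 1 else 0) = pk W fun c => if p c then 2 ^ W - 1 else 0 := by
  unfold fullM
  rw [pk_mul]
  congr 1
  funext c
  by_cases h : p c
  · rw [if_pos h, if_pos h, Nat.one_mul]
  · rw [if_neg h, if_neg h, Nat.zero_mul]

theorem runI_eq {W : ℕ} (hW : 7 ≤ W) (hn : n + 1 ≤ 15) {me mo : ℕ} (h1 : me < 32) (h2 : mo < 32)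
    (hme : me % 2 = 0) (hmo : mo % 2 = 1) :
    runI W (n + 1) me mo = pk W fun c : Cfg n => if inS me mo c then 1 else 0 := by
  unfold runI
  rw [secI_eq hW hn me h1, secI_eq hW hn mo h2, pk_add]
  congr 1
  funext c
  by_cases ha : dsm c = me
  · have hb : ¬ dsm c = mo := by
      intro hb
      omega
    rw [if_pos ha, if_neg hb, if_pos (show inS me mo c from Or.inl ha)]
  · by_cases hb : dsm c = mo
    · rw [if_neg ha, if_pos hb, if_pos (show inS me mo c from Or.inr hb)]
    · rw [if_neg ha, if_neg hb, if_neg (show ¬ inS me mo c from fun h => h.elim ha hb)]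

theorem dsm_parity (c : Cfg n) : dsm c % 2 = qcl c := by
  unfold dsm qcl
  rw [Finset.card_filter, Finset.sum_nat_mod, Finset.sum_nat_mod (f := fun j => if c j = 1 then 1 else 0)]
  congr 1
  refine Finset.sum_congr rfl fun j _ => ?_
  generalize c j = d
  fin_cases d <;> rfl

theorem Mtot_dsm (c : Cfg n) : Mtot c = (n + 1 : ℤ) - dsm c := by
  unfold Mtot dsm
  rw [Finset.sum_sub_distrib]
  simp only [Finset.sum_const, Finset.card_univ, Fintype.card_fin, nsmul_eq_mul, mul_one]
  push_cast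
  ring

theorem dsm_flp (c : Cfg n) : dsm (flp c) + dsm c = 2 * (n + 1) := by
  unfold dsm flp
  rw [← Finset.sum_add_distrib]
  calc ∑ j, ((Fin.rev (c j) : ℕ) + (c j : ℕ)) = ∑ _j : Fin (n + 1), 2 := by
        refine Finset.sum_congr rfl fun j _ => ?_
        generalize c j = d
        fin_cases d <;> rfl
    _ = 2 * (n + 1) := by simp [mul_comm]

end Crest.Agent.R347
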