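import Crest.Agent.R347.NDefs

/-!
# Row 347 numerics, piece NB1: symmetries of `Ex`

General principle: if `τ : XC n ≃ XC n` satisfies `KN (τ x) (τ y) = KN x y` then `Ex n t (τ x) (τ y) = Ex n t x y`
(`Matrix.reindexAlgEquiv`/`Matrix.submatrix` and `exp`; e.g. `Matrix.exp_conj` with a permutation matrix, or prove it for powers and pass to
the series). Apply to winding translation, `(c,k) ↦ (flp c, -k)`, `(c,k) ↦ (rvs c, -k)` and
`(c,k) ↦ (shf c, k - c 0)` (the boundary bond moves from `(last,0)` to `(0,1)`: the index at site 0 increases by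
(charge through the old bond) - (charge through the new bond)).  Transpose: `Hop i j c c' ↔ Hop j i c' c`.
-/

set_option autoImplicit false

open Crest.MathPhysics.SpinChain Matrix

namespace Crest.Agent.R347

namespace NB1aux

variable {n : ℕ}

/-- winding increment of the bond `(i, i + 1)` -/
def dl (i : Fin (n + 1)) : ZMod 4 := if i = Fin.last n then 1 else 0

/-- hop from `i` to `i + 1` -/
def tA (i : Fin (n + 1)) (x y : XC n) : ℕ :=
  if y.2 = x.2 + dl i ∧ Hop (i + 1) i x.1 y.1 then 1 else 0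

/-- hop from `i + 1` to `i` -/
def tB (i : Fin (n + 1)) (x y : XC n) : ℕ :=
  if x.2 = y.2 + dl i ∧ Hop i (i + 1) x.1 y.1 then 1 else 0

theorem castSucc_add_one' (j : Fin n) : Fin.castSucc j + 1 = Fin.succ j := by
  simp

theorem last_add_one' : Fin.last n + 1 = 0 := by
  simp

theorem KN_cyc (x y : XC n) : KN n x y = (if x = y then diagK x.1 else 0) +
    ∑ i : Fin (n + 1), (tA i x y + tB i x y) := by
  rw [Fin.sum_univ_castSucc]
  unfold KN tA tB dl
  simp only [Matrix.of_apply, castSucc_add_one', last_add_one', (Fin.castSucc_lt_last _).ne,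
    if_false, if_true, add_zero]
  rw [add_assoc]
  congr 2
  refine Finset.sum_congr rfl fun j _ => ?_
  rw [add_comm]
  simp only [eq_comm (a := y.2) (b := x.2)]

theorem diagK_cyc (c : Cfg n) : diagK c = ∑ i : Fin (n + 1), bd (c i) (c (i + 1)) := by
  rw [Fin.sum_univ_castSucc]
  unfold diagK
  simp only [castSucc_add_one', last_add_one']

theorem bd_comm : ∀ a b : Fin 3, bd a b = bd b a := by decide

theorem bd_rev : ∀ a b : Fin 3, bd (Fin.rev a) (Fin.rev b) = bd a b := by decide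

theorem Hop_symm' (i j : Fin (n + 1)) (c c' : Cfg n) : Hop i j c c' ↔ Hop j i c' c := by
  unfold Hop
  constructor
  · rintro ⟨h1, h2, h3⟩
    exact ⟨h2, h1, fun l hl1 hl2 => (h3 l hl2 hl1).symm⟩
  · rintro ⟨h1, h2, h3⟩
    exact ⟨h2, h1, fun l hl1 hl2 => (h3 l hl2 hl1).symm⟩

theorem Hop_flp (i j : Fin (n + 1)) (c c' : Cfg n) : Hop i j (flp c) (flp c') ↔ Hop j i c c' := by
  have hr : ∀ l, ((Fin.rev (c l) : Fin 3) : ℕ) = 2 - (c l : ℕ) := fun l => by
    rw [Fin.val_rev]; omega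
  have hr' : ∀ l, ((Fin.rev (c' l) : Fin 3) : ℕ) = 2 - (c' l : ℕ) := fun l => by
    rw [Fin.val_rev]; omega
  have hl : ∀ l, (c l : ℕ) < 3 := fun l => (c l).isLt
  have hl' : ∀ l, (c' l : ℕ) < 3 := fun l => (c' l).isLt
  unfold Hop flp
  rw [hr, hr, hr', hr']
  have h1 := hl i
  have h2 := hl j
  have h3 := hl' i
  have h4 := hl' j
  constructor
  · rintro ⟨e1, e2, e3⟩
    exact ⟨by omega, by omega, fun l hl1 hl2 => Fin.rev_injective (e3 l hl2 hl1)⟩
  · rintro ⟨e1, e2, e3⟩
    exact ⟨by omega, by omega, fun l hl1 hl2 => congrArg Fin.rev (e3 l hl2 hl1)⟩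

theorem Hop_rvs (i j : Fin (n + 1)) (c c' : Cfg n) :
    Hop i j (rvs c) (rvs c') ↔ Hop (Fin.rev i) (Fin.rev j) c c' := by
  unfold Hop rvs
  constructor
  · rintro ⟨h1, h2, h3⟩
    refine ⟨h1, h2, fun l hl1 hl2 => ?_⟩
    have := h3 (Fin.rev l) (fun h => hl1 (by rw [← h, Fin.rev_rev]))
      (fun h => hl2 (by rw [← h, Fin.rev_rev]))
    rwa [Fin.rev_rev] at this
  · rintro ⟨h1, h2, h3⟩
    exact ⟨h1, h2, fun l hl1 hl2 => h3 _ (fun h => hl1 (Fin.rev_injective h))
      (fun h => hl2 (Fin.rev_injective h))⟩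

theorem Hop_shf (i j : Fin (n + 1)) (c c' : Cfg n) :
    Hop i j (shf c) (shf c') ↔ Hop (i + 1) (j + 1) c c' := by
  unfold Hop shf
  constructor
  · rintro ⟨h1, h2, h3⟩
    refine ⟨h1, h2, fun l hl1 hl2 => ?_⟩
    have := h3 (l - 1) (fun h => hl1 (by rw [← h, sub_add_cancel]))
      (fun h => hl2 (by rw [← h, sub_add_cancel]))
    rwa [sub_add_cancel] at this
  · rintro ⟨h1, h2, h3⟩
    exact ⟨h1, h2, fun l hl1 hl2 => h3 _ (fun h => hl1 (add_right_cancel h))
      (fun h => hl2 (add_right_cancel h))⟩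

theorem diagK_flp (c : Cfg n) : diagK (flp c) = diagK c := by
  unfold diagK flp
  simp only [bd_rev]

theorem rvs_rvs (c : Cfg n) : rvs (rvs c) = c := by
  funext j; simp [rvs]

theorem flp_flp (c : Cfg n) : flp (flp c) = c := by
  funext j; simp [flp]

theorem flp_inj {c c' : Cfg n} (h : flp c = flp c') : c = c' := by
  rw [← flp_flp c, h, flp_flp]

theorem rvs_inj {c c' : Cfg n} (h : rvs c = rvs c') : c = c' := by
  rw [← rvs_rvs c, h, rvs_rvs]

theorem shf_inj {c c' : Cfg n} (h : shf c = shf c') : c = c' := by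
  funext j
  have := congrFun h (j - 1)
  simpa [shf] using this

theorem diagK_rvs (c : Cfg n) : diagK (rvs c) = diagK c := by
  unfold diagK rvs
  rw [Fin.rev_last, Fin.rev_zero, bd_comm (c 0)]
  congr 1
  rw [← Equiv.sum_comp Fin.revPerm]
  refine Finset.sum_congr rfl fun j _ => ?_
  rw [Fin.revPerm_apply, Fin.rev_castSucc, Fin.rev_succ, Fin.rev_rev, bd_comm]

theorem diagK_shf (c : Cfg n) : diagK (shf c) = diagK c := by
  rw [diagK_cyc, diagK_cyc]
  unfold shf
  exact Equiv.sum_comp (Equiv.addRight (1 : Fin (n + 1))) fun i => bd (c i) (c (i + 1))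

/-- the values under a hop -/
theorem Hop_val {i j : Fin (n + 1)} {c c' : Cfg n} (h : Hop i j c c') (l : Fin (n + 1)) :
    ((c' l : ℕ) : ℤ) = (c l : ℕ) + (if l = i then 1 else 0) - (if l = j then 1 else 0) := by
  obtain ⟨h1, h2, h3⟩ := h
  by_cases hi : l = i
  · subst hi
    by_cases hj : l = j
    · subst hj; omega
    · rw [if_pos rfl, if_neg hj]; omega
  · by_cases hj : l = j
    · subst hj
      rw [if_neg hi, if_pos rfl]; omega
    · rw [if_neg hi, if_neg hj, h3 l hi hj]; omega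

theorem Hop_mtot {i j : Fin (n + 1)} {c c' : Cfg n} (h : Hop i j c c') : Mtot c = Mtot c' := by
  unfold Mtot
  simp only [Hop_val h, Finset.sum_sub_distrib, Finset.sum_add_distrib, Finset.sum_ite_eq',
    Finset.mem_univ, if_true]
  ring

/-- a hop is determined by its bond -/
theorem Hop_unique {i j : Fin (n + 1)} {c c' c'' : Cfg n} (h : Hop i j c c') (h' : Hop i j c c'') :
    c' = c'' := by
  funext l
  have h1 := Hop_val h l
  have h2 := Hop_val h' l
  apply Fin.ext
  have : ((c' l : ℕ) : ℤ) = ((c'' l : ℕ) : ℤ) := by rw [h1, h2]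
  exact_mod_cast this

theorem dl_eq (i : Fin (n + 1)) : dl i = if i + 1 = 0 then 1 else 0 := by
  unfold dl
  have h : i = Fin.last n ↔ i + 1 = 0 := by
    constructor
    · rintro rfl; exact last_add_one'
    · intro h; rw [← last_add_one' (n := n)] at h; exact add_right_cancel h
  simp only [h]

theorem Hop_valZ {i j : Fin (n + 1)} {c c' : Cfg n} (h : Hop i j c c') (l : Fin (n + 1)) :
    ((c' l : ℕ) : ZMod 4) = ((c l : ℕ) : ZMod 4) + (if l = i then 1 else 0) -
      (if l = j then 1 else 0) := by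
  have h1 := congrArg (Int.cast : ℤ → ZMod 4) (Hop_val h l)
  push_cast at h1
  exact h1

theorem tA_shf (i : Fin (n + 1)) (c c' : Cfg n) (k k' : ZMod 4) :
    tA i (shf c, k - ((c 0 : ℕ) : ZMod 4)) (shf c', k' - ((c' 0 : ℕ) : ZMod 4)) =
      tA (i + 1) (c, k) (c', k') := by
  unfold tA
  simp only [Hop_shf]
  refine if_congr (and_congr_left fun h => ?_) rfl rfl
  have h1 := Hop_valZ h 0
  rw [dl_eq, dl_eq, h1]
  simp only [eq_comm (a := (0 : Fin (n + 1)))]
  constructor
  · intro h2; linear_combination h2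
  · intro h2; linear_combination h2

theorem tB_shf (i : Fin (n + 1)) (c c' : Cfg n) (k k' : ZMod 4) :
    tB i (shf c, k - ((c 0 : ℕ) : ZMod 4)) (shf c', k' - ((c' 0 : ℕ) : ZMod 4)) =
      tB (i + 1) (c, k) (c', k') := by
  unfold tB
  simp only [Hop_shf]
  refine if_congr (and_congr_left fun h => ?_) rfl rfl
  have h1 := Hop_valZ h 0
  rw [dl_eq, dl_eq, h1]
  simp only [eq_comm (a := (0 : Fin (n + 1)))]
  constructor
  · intro h2; linear_combination h2
  · intro h2; linear_combination h2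

theorem sum_ite_le_one {α : Type} [Fintype α] (P : α → Prop) [DecidablePred P] (Q : Prop)
    [Decidable Q] (h1 : ∀ a, P a → Q) (h2 : ∀ a b, P a → P b → a = b) :
    ∑ a, (if P a then 1 else 0 : ℕ) ≤ if Q then 1 else 0 := by
  by_cases hQ : Q
  · rw [if_pos hQ, Finset.sum_boole]
    refine Finset.card_le_one.2 fun a ha b hb => h2 a b ?_ ?_
    · simpa using ha
    · simpa using hb
  · rw [if_neg hQ]
    refine (Finset.sum_eq_zero fun a _ => ?_).le
    rw [if_neg fun h => hQ (h1 a h)]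

theorem sum_tA_le (i : Fin (n + 1)) (x : XC n) :
    ∑ y, tA i x y ≤ if (x.1 (i + 1) : ℕ) ≤ 1 ∧ 1 ≤ (x.1 i : ℕ) then 1 else 0 := by
  unfold tA
  refine sum_ite_le_one _ _ ?_ ?_
  · rintro y ⟨_, h1, h2, _⟩
    have := (y.1 (i + 1)).isLt
    omega
  · rintro y z ⟨h1, h2⟩ ⟨h3, h4⟩
    exact Prod.ext (Hop_unique h2 h4) (h1.trans h3.symm)

theorem sum_tB_le (i : Fin (n + 1)) (x : XC n) :
    ∑ y, tB i x y ≤ if (x.1 i : ℕ) ≤ 1 ∧ 1 ≤ (x.1 (i + 1) : ℕ) then 1 else 0 := by
  unfold tB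
  refine sum_ite_le_one _ _ ?_ ?_
  · rintro y ⟨_, h1, h2, _⟩
    have := (y.1 i).isLt
    omega
  · rintro y z ⟨h1, h2⟩ ⟨h3, h4⟩
    exact Prod.ext (Hop_unique h2 h4) (add_right_cancel (h1.symm.trans h3))

theorem bond_le : ∀ a b : Fin 3, bd a b + ((if (b : ℕ) ≤ 1 ∧ 1 ≤ (a : ℕ) then 1 else 0) +
    (if (a : ℕ) ≤ 1 ∧ 1 ≤ (b : ℕ) then 1 else 0)) ≤ 3 := by decide

theorem bd_le_two : ∀ a b : Fin 3, bd a b ≤ 2 := by decide

end NB1aux

theorem Hop_symm {n : ℕ} (i j : Fin (n + 1)) (c c' : Cfg n) : Hop i j c c' ↔ Hop j i c' c := by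
  exact NB1aux.Hop_symm' i j c c'

theorem KN_symm (n : ℕ) (x y : XC n) : KN n x y = KN n y x := by
  unfold KN
  simp only [Matrix.of_apply]
  have h1 : (if x = y then diagK x.1 else 0) = (if y = x then diagK y.1 else 0) := by
    by_cases h : x = y
    · subst h; rfl
    · rw [if_neg h, if_neg (Ne.symm h)]
  rw [h1]
  congr 1
  · congr 1
    refine Finset.sum_congr rfl fun j _ => ?_
    rw [add_comm]
    simp only [eq_comm (a := x.2) (b := y.2), Hop_symm _ _ x.1 y.1]
  · rw [add_comm]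
    simp only [Hop_symm _ _ x.1 y.1]

theorem KN_transl (n : ℕ) (c c' : Cfg n) (k k' s : ZMod 4) :
    KN n (c, k + s) (c', k' + s) = KN n (c, k) (c', k') := by
  unfold KN
  simp only [Matrix.of_apply, Prod.mk.injEq, add_left_inj, add_right_comm _ s (1 : ZMod 4)]

theorem KN_flp (n : ℕ) (c c' : Cfg n) (k k' : ZMod 4) :
    KN n (flp c, -k) (flp c', -k') = KN n (c, k) (c', k') := by
  unfold KN
  have hk : ∀ a b : ZMod 4, -a = -b + 1 ↔ b = a + 1 := fun a b => by
    constructor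
    · intro h; linear_combination h
    · intro h; linear_combination h
  have hinj : (flp c, -k) = (flp c', -k') ↔ (c, k) = (c', k') := by
    simp only [Prod.mk.injEq, neg_inj]
    exact and_congr_left' ⟨fun h => NB1aux.flp_inj h, fun h => congrArg flp h⟩
  simp only [Matrix.of_apply, hinj, NB1aux.diagK_flp, NB1aux.Hop_flp, hk, neg_inj]
  congr 1
  · congr 1
    exact Finset.sum_congr rfl fun j _ => add_comm _ _
  · exact add_comm _ _

theorem KN_rvs (n : ℕ) (c c' : Cfg n) (k k' : ZMod 4) :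
    KN n (rvs c, -k) (rvs c', -k') = KN n (c, k) (c', k') := by
  unfold KN
  have hk : ∀ a b : ZMod 4, -a = -b + 1 ↔ b = a + 1 := fun a b => by
    constructor
    · intro h; linear_combination h
    · intro h; linear_combination h
  have hinj : (rvs c, -k) = (rvs c', -k') ↔ (c, k) = (c', k') := by
    simp only [Prod.mk.injEq, neg_inj]
    exact and_congr_left' ⟨fun h => NB1aux.rvs_inj h, fun h => congrArg rvs h⟩
  simp only [Matrix.of_apply, hinj, NB1aux.diagK_rvs, NB1aux.Hop_rvs, hk, neg_inj, Fin.rev_castSucc,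
    Fin.rev_succ, Fin.rev_zero, Fin.rev_last]
  congr 1
  · congr 1
    rw [← Equiv.sum_comp Fin.revPerm]
    refine Finset.sum_congr rfl fun j _ => ?_
    rw [Fin.revPerm_apply, Fin.rev_rev, add_comm]
  · exact add_comm _ _

theorem KN_shf (n : ℕ) (hn : 2 ≤ n) (c c' : Cfg n) (k k' : ZMod 4) :
    KN n (shf c, k - ((c 0 : ℕ) : ZMod 4)) (shf c', k' - ((c' 0 : ℕ) : ZMod 4)) =
      KN n (c, k) (c', k') := by
  rw [NB1aux.KN_cyc, NB1aux.KN_cyc]
  congr 1
  · have hinj : (shf c, k - ((c 0 : ℕ) : ZMod 4)) = (shf c', k' - ((c' 0 : ℕ) : ZMod 4)) ↔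
        (c, k) = (c', k') := by
      simp only [Prod.mk.injEq]
      constructor
      · rintro ⟨h1, h2⟩
        have h3 := NB1aux.shf_inj h1
        subst h3
        exact ⟨rfl, sub_left_injective h2⟩
      · rintro ⟨rfl, rfl⟩
        exact ⟨rfl, rfl⟩
    simp only [hinj, NB1aux.diagK_shf]
  · simp only [NB1aux.tA_shf, NB1aux.tB_shf]
    exact Equiv.sum_comp (Equiv.addRight (1 : Fin (n + 1))) fun i =>
      NB1aux.tA i (c, k) (c', k') + NB1aux.tB i (c, k) (c', k')

/-- row sums -/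
theorem KN_rowsum (n : ℕ) (x : XC n) : ∑ y, KN n x y ≤ 3 * (n + 1) := by
  simp only [NB1aux.KN_cyc]
  rw [Finset.sum_add_distrib, Finset.sum_ite_eq, if_pos (Finset.mem_univ _), Finset.sum_comm,
    NB1aux.diagK_cyc, ← Finset.sum_add_distrib]
  calc _ ≤ ∑ _i : Fin (n + 1), 3 := by
        refine Finset.sum_le_sum fun i _ => ?_
        rw [Finset.sum_add_distrib]
        exact (Nat.add_le_add_left (Nat.add_le_add (NB1aux.sum_tA_le i x)
          (NB1aux.sum_tB_le i x)) _).trans (NB1aux.bond_le _ _)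
    _ = _ := by simp [mul_comm]

theorem diagK_le (n : ℕ) (c : Cfg n) : diagK c ≤ 2 * (n + 1) := by
  rw [NB1aux.diagK_cyc]
  calc _ ≤ ∑ _i : Fin (n + 1), 2 := Finset.sum_le_sum fun i _ => NB1aux.bd_le_two _ _
    _ = _ := by simp [mul_comm]

/-- conservation of the magnetisation -/
theorem KN_mtot (n : ℕ) (x y : XC n) (h : Mtot x.1 ≠ Mtot y.1) : KN n x y = 0 := by
  rw [NB1aux.KN_cyc, if_neg (fun h' => h (by rw [h'])), zero_add]
  refine Finset.sum_eq_zero fun i _ => ?_
  unfold NB1aux.tA NB1aux.tB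
  rw [if_neg (fun h' => h (NB1aux.Hop_mtot h'.2)), if_neg (fun h' => h (NB1aux.Hop_mtot h'.2)),
    add_zero]

end Crest.Agent.R347
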