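import Crest.Agent.R347.ND1

/-!
# Row 347 numerics, piece ND2: hops and the diagonal on packed vectors

Raising the index at `i` and lowering it at `j` changes `idx` by `3^i - 3^j`. After masking, every slot is moved by this
amount: `∑_c [mask] f c 2^(W idx c)`, divide/multiply by `2^(W |3^i - 3^j|)`.
`bdP`, `dP`: packed diagonal (values `≤ 2 (n+1) < 32`); bit plane `b`: `(pk D >>> b) &&& ones = pk (D / 2^b % 2)`
(for `D < 2^W`: bits shifted in from the next slot land at positions `≥ W - b`, so `&&& ones` is fine when `b < W`; `W ≥ 6`).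
-/

set_option autoImplicit false

open Crest.MathPhysics.SpinChain Matrix

namespace Crest.Agent.R347

variable {n : ℕ}

/-- hop of a vector: value at `c` = value at the configuration from which `c` arises -/
def hopF {n : ℕ} (i j : Fin (n + 1)) (f : Cfg n → ℕ) (c : Cfg n) : ℕ :=
  ∑ c' : Cfg n, if Hop i j c' c then f c' else 0

/-- slots of a hop -/
private theorem hop_idx {i j : Fin (n + 1)} (hij : i ≠ j) {c' c : Cfg n} (h : Hop i j c' c) :
    idx c + 3 ^ (j : ℕ) = idx c' + 3 ^ (i : ℕ) := by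
  obtain ⟨h1, h2, h3⟩ := h
  have e1 : ∑ l : Fin (n + 1), ((c l : ℕ) * 3 ^ (l : ℕ) + (if l = j then 3 ^ (j : ℕ) else 0)) =
      ∑ l : Fin (n + 1), ((c' l : ℕ) * 3 ^ (l : ℕ) + (if l = i then 3 ^ (i : ℕ) else 0)) := by
    refine Finset.sum_congr rfl fun l _ => ?_
    by_cases hi : l = i
    · subst hi
      rw [if_neg hij, if_pos rfl, h1]
      ring
    · by_cases hj : l = j
      · subst hj
        rw [if_pos rfl, if_neg hi, h2]
        ring
      · rw [if_neg hj, if_neg hi, h3 l hi hj]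
  rw [Finset.sum_add_distrib, Finset.sum_add_distrib, Finset.sum_ite_eq', Finset.sum_ite_eq',
    if_pos (Finset.mem_univ _), if_pos (Finset.mem_univ _)] at e1
  exact e1

private theorem hop_iff {i j : Fin (n + 1)} (hij : i ≠ j) (c' c : Cfg n) :
    Hop i j c' c ↔ ((c' i : ℕ) ≤ 1 ∧ 1 ≤ (c' j : ℕ)) ∧
      c = Function.update (Function.update c' i (c' i + 1)) j (c' j - 1) := by
  have ha : ∀ a : Fin 3, (a : ℕ) ≤ 1 → ((a + 1 : Fin 3) : ℕ) = (a : ℕ) + 1 := by decide
  have hb : ∀ a : Fin 3, 1 ≤ (a : ℕ) → ((a - 1 : Fin 3) : ℕ) + 1 = (a : ℕ) := by decide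
  constructor
  · rintro ⟨h1, h2, h3⟩
    have h4 : (c' i : ℕ) ≤ 1 := by have := (c i).2; omega
    have h5 : 1 ≤ (c' j : ℕ) := by omega
    refine ⟨⟨h4, h5⟩, ?_⟩
    funext l
    by_cases hj : l = j
    · subst hj
      rw [Function.update_self]
      apply Fin.ext
      have := hb _ h5
      omega
    · rw [Function.update_of_ne hj]
      by_cases hi : l = i
      · subst hi
        rw [Function.update_self]
        apply Fin.ext
        rw [ha _ h4, h1]
      · rw [Function.update_of_ne hi]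
        exact h3 l hi hj
  · rintro ⟨⟨h4, h5⟩, rfl⟩
    refine ⟨?_, ?_, ?_⟩
    · rw [Function.update_of_ne hij, Function.update_self, ha _ h4]
    · rw [Function.update_self]
      exact (hb _ h5).symm
    · intro l hi hj
      rw [Function.update_of_ne hj, Function.update_of_ne hi]

private theorem hop_sum {i j : Fin (n + 1)} (hij : i ≠ j) (c' : Cfg n) (x : ℕ) :
    ∑ c : Cfg n, (if Hop i j c' c then x else 0) =
      if (c' i : ℕ) ≤ 1 ∧ 1 ≤ (c' j : ℕ) then x else 0 := by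
  have e : ∀ c : Cfg n, (if Hop i j c' c then x else 0) =
      if c = Function.update (Function.update c' i (c' i + 1)) j (c' j - 1) then
        (if (c' i : ℕ) ≤ 1 ∧ 1 ≤ (c' j : ℕ) then x else 0) else 0 := by
    intro c
    by_cases h : Hop i j c' c
    · have h2 := (hop_iff hij c' c).1 h
      rw [if_pos h, if_pos h2.2, if_pos h2.1]
    · rw [if_neg h]
      by_cases h3 : c = Function.update (Function.update c' i (c' i + 1)) j (c' j - 1)
      · rw [if_pos h3]
        by_cases h4 : (c' i : ℕ) ≤ 1 ∧ 1 ≤ (c' j : ℕ)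
        · exact absurd ((hop_iff hij c' c).2 ⟨h4, h3⟩) h
        · rw [if_neg h4]
      · rw [if_neg h3]
  rw [Finset.sum_congr rfl fun c _ => e c, Finset.sum_ite_eq', if_pos (Finset.mem_univ _)]

private theorem hop_pk {W : ℕ} {i j : Fin (n + 1)} (hij : i ≠ j) (f : Cfg n → ℕ) (A B : ℕ)
    (hAB : ∀ c' c : Cfg n, Hop i j c' c → W * idx c + A = W * idx c' + B) :
    pk W (hopF i j f) * 2 ^ A =
      pk W (fun c => if (c i : ℕ) ≤ 1 ∧ 1 ≤ (c j : ℕ) then f c else 0) * 2 ^ B := by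
  unfold pk hopF
  rw [Finset.sum_mul, Finset.sum_mul]
  calc ∑ c : Cfg n, (∑ c' : Cfg n, if Hop i j c' c then f c' else 0) * 2 ^ (W * idx c) * 2 ^ A =
      ∑ c : Cfg n, ∑ c' : Cfg n, if Hop i j c' c then f c' * 2 ^ (W * idx c') * 2 ^ B else 0 := by
        refine Finset.sum_congr rfl fun c _ => ?_
        rw [Finset.sum_mul, Finset.sum_mul]
        refine Finset.sum_congr rfl fun c' _ => ?_
        by_cases h : Hop i j c' c
        · rw [if_pos h, if_pos h, mul_assoc, mul_assoc, ← pow_add, ← pow_add, hAB c' c h]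
        · rw [if_neg h, if_neg h, zero_mul, zero_mul]
    _ = ∑ c' : Cfg n, ∑ c : Cfg n, if Hop i j c' c then f c' * 2 ^ (W * idx c') * 2 ^ B else 0 :=
        Finset.sum_comm
    _ = _ := by
        refine Finset.sum_congr rfl fun c' _ => ?_
        rw [hop_sum hij]
        by_cases h : (c' i : ℕ) ≤ 1 ∧ 1 ≤ (c' j : ℕ)
        · simp only [if_pos h]
        · simp only [if_neg h, zero_mul]

theorem hopR_eq {W : ℕ} (hW : 0 < W) (i j : Fin (n + 1)) (hij : i < j) (f : Cfg n → ℕ)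
    (hf : ∀ c, f c < 2 ^ W) : hopR W (n + 1) i j (pk W f) = pk W (hopF i j f) := by
  have h3 : 3 ^ (i : ℕ) ≤ 3 ^ (j : ℕ) := Nat.pow_le_pow_right (by norm_num) hij.le
  unfold hopR
  rw [hm_eq hW, pk_mask f hf (fun c => (c i : ℕ) ≤ 1 ∧ 1 ≤ (c j : ℕ))]
  have key := hop_pk (W := W) hij.ne f (W * (3 ^ (j : ℕ) - 3 ^ (i : ℕ))) 0 (by
    intro c' c h
    have h1 := hop_idx hij.ne h
    rw [add_zero, ← mul_add]
    congr 1
    omega)
  rw [pow_zero, mul_one] at key
  rw [← key, Nat.shiftRight_eq_div_pow, Nat.mul_div_cancel _ (by positivity)]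

theorem hopL_eq {W : ℕ} (hW : 0 < W) (i j : Fin (n + 1)) (hij : j < i) (f : Cfg n → ℕ)
    (hf : ∀ c, f c < 2 ^ W) : hopL W (n + 1) i j (pk W f) = pk W (hopF i j f) := by
  have h3 : 3 ^ (j : ℕ) ≤ 3 ^ (i : ℕ) := Nat.pow_le_pow_right (by norm_num) hij.le
  unfold hopL
  rw [hm_eq hW, pk_mask f hf (fun c => (c i : ℕ) ≤ 1 ∧ 1 ≤ (c j : ℕ))]
  have key := hop_pk (W := W) hij.ne' f 0 (W * (3 ^ (i : ℕ) - 3 ^ (j : ℕ))) (by
    intro c' c h
    have h1 := hop_idx hij.ne' h
    rw [add_zero, ← mul_add]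
    congr 1
    omega)
  rw [pow_zero, mul_one] at key
  rw [key, Nat.shiftLeft_eq]

private theorem pk_sum {ι : Type} (W : ℕ) (s : Finset ι) (g : ι → Cfg n → ℕ) :
    ∑ k ∈ s, pk W (g k) = pk W fun c => ∑ k ∈ s, g k c := by
  unfold pk
  rw [Finset.sum_comm]
  refine Finset.sum_congr rfl fun c _ => ?_
  rw [Finset.sum_mul]

theorem intP_eq {W : ℕ} (hW : 0 < W) (f : Cfg n → ℕ) (hf : ∀ c, f c < 2 ^ W) :
    intP W (n + 1) (pk W f) n = pk W fun c => ∑ j : Fin n,
      (hopF (Fin.castSucc j) (Fin.succ j) f c + hopF (Fin.succ j) (Fin.castSucc j) f c) := by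
  have h1 : ∀ L a m : ℕ, intP W L a m =
      ∑ k ∈ Finset.range m, (hopR W L k (k + 1) a + hopL W L (k + 1) k a) := by
    intro L a m
    induction m with
    | zero => rfl
    | succ m ih => rw [Finset.sum_range_succ, ← ih]; rfl
  rw [h1, Finset.sum_range, ← pk_sum]
  refine Finset.sum_congr rfl fun j _ => ?_
  rw [← pk_add, ← hopR_eq hW (Fin.castSucc j) (Fin.succ j) (Fin.castSucc_lt_succ) f hf,
    ← hopL_eq hW (Fin.succ j) (Fin.castSucc j) (Fin.castSucc_lt_succ) f hf]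
  rfl

private theorem nd2_bd_le_two (a b : Fin 3) : bd a b ≤ 2 := by
  revert a b; decide

private theorem nd2_bd_bits (a b : Fin 3) :
    (((if a = 0 then 1 else 0) &&& (if b = 2 then 1 else 0)) |||
      ((if a = 2 then 1 else 0) &&& (if b = 0 then 1 else 0))) * 2 +
      ((if a = 1 then 1 else 0) ||| (if b = 1 then 1 else 0)) = bd a b := by
  revert a b; decide

private theorem nd2_diagK_le (c : Cfg n) : diagK c ≤ 2 * (n + 1) := by
  unfold diagK
  have h1 : ∑ j : Fin n, bd (c (Fin.castSucc j)) (c (Fin.succ j)) ≤ ∑ _j : Fin n, 2 :=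
    Finset.sum_le_sum fun j _ => nd2_bd_le_two _ _
  have h2 := nd2_bd_le_two (c (Fin.last n)) (c 0)
  simp only [Finset.sum_const, Finset.card_univ, Fintype.card_fin, smul_eq_mul] at h1
  omega

private theorem nd2_pow6 {W : ℕ} (hW : 6 ≤ W) : 64 ≤ 2 ^ W :=
  le_trans (by norm_num : 64 ≤ 2 ^ 6) (Nat.pow_le_pow_right (by norm_num) hW)

private theorem nd2_ite01_lt {W : ℕ} (hW : 6 ≤ W) (p : Prop) [Decidable p] :
    (if p then 1 else 0 : ℕ) < 2 ^ W := by
  have := nd2_pow6 hW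
  split_ifs <;> omega

private theorem nd2_bdP_eq {W : ℕ} (hW : 6 ≤ W) (i j : Fin (n + 1)) :
    bdP W (n + 1) i j = pk W fun c : Cfg n => bd (c i) (c j) := by
  have hW0 : 0 < W := by omega
  have h0 : ∀ i : Fin (n + 1), um W (n + 1) i 0 = pk W fun c : Cfg n => if c i = 0 then 1 else 0 :=
    fun i => um_eq hW0 i 0
  have h1 : ∀ i : Fin (n + 1), um W (n + 1) i 1 = pk W fun c : Cfg n => if c i = 1 then 1 else 0 :=
    fun i => um_eq hW0 i 1
  have h2 : ∀ i : Fin (n + 1), um W (n + 1) i 2 = pk W fun c : Cfg n => if c i = 2 then 1 else 0 :=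
    fun i => um_eq hW0 i 2
  have hand : ∀ x y : ℕ, x < 2 ^ W → x &&& y < 2 ^ W := fun x y hx =>
    lt_of_le_of_lt Nat.and_le_left hx
  unfold bdP
  rw [h0, h0, h1, h1, h2, h2]
  rw [pk_and _ _ (fun c => nd2_ite01_lt hW _) (fun c => nd2_ite01_lt hW _),
    pk_and _ _ (fun c => nd2_ite01_lt hW _) (fun c => nd2_ite01_lt hW _),
    pk_or _ _ (fun c => hand _ _ (nd2_ite01_lt hW _)) (fun c => hand _ _ (nd2_ite01_lt hW _)),
    pk_or _ _ (fun c => nd2_ite01_lt hW _) (fun c => nd2_ite01_lt hW _), Nat.mul_comm, pk_mul,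
    pk_add]
  congr 1
  funext c
  exact nd2_bd_bits (c i) (c j)

private theorem nd2_dP_eq {W : ℕ} (hW : 6 ≤ W) : ∀ (m : ℕ) (hm : m ≤ n), dP W (n + 1) m =
    pk W fun c : Cfg n => ∑ j : Fin m, bd (c (Fin.castSucc (Fin.castLE hm j)))
      (c (Fin.succ (Fin.castLE hm j)))
  | 0, hm => by
    unfold dP pk
    simp
  | m + 1, hm => by
    have ih := nd2_dP_eq hW m (by omega)
    have hb := nd2_bdP_eq (n := n) hW (⟨m, by omega⟩ : Fin (n + 1)) (⟨m + 1, by omega⟩ : Fin (n + 1))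
    show dP W (n + 1) m + bdP W (n + 1) m (m + 1) = _
    rw [ih]
    rw [show bdP W (n + 1) m (m + 1) = _ from hb, pk_add]
    congr 1
    funext c
    rw [Fin.sum_univ_castSucc]
    rfl

theorem diag_packed {W : ℕ} (hW : 6 ≤ W) (hn : n + 1 ≤ 15) :
    dP W (n + 1) n + bdP W (n + 1) n 0 = pk W fun c : Cfg n => diagK c := by
  rw [nd2_dP_eq hW n le_rfl]
  have hb : bdP W (n + 1) n 0 = _ := nd2_bdP_eq (n := n) hW (Fin.last n) 0
  rw [hb, pk_add]
  rfl

theorem Dm_eq {W : ℕ} (hW : 6 ≤ W) (hn : n + 1 ≤ 15) (b : ℕ) (hb : b < 5) :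
    Dm W (n + 1) b = pk W fun c : Cfg n => if diagK c / 2 ^ b % 2 = 1 then 2 ^ W - 1 else 0 := by
  have hW0 : 0 < W := by omega
  have h64 := nd2_pow6 hW
  have hD : ∀ c : Cfg n, diagK c < 2 ^ W := fun c => by
    have := nd2_diagK_le c
    omega
  unfold Dm
  rw [show n + 1 - 1 = n from rfl, diag_packed hW hn, ones_eq hW0]
  have hMW : 2 ^ (W - b) - 1 < 2 ^ W := by
    have : 2 ^ (W - b) ≤ 2 ^ W := Nat.pow_le_pow_right (by norm_num) (by omega)
    omega
  have hodd : (2 ^ (W - b) - 1) &&& 1 = 1 := by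
    rw [Nat.and_one_is_mod]
    obtain ⟨k, hk⟩ : ∃ k, W - b = k + 1 := ⟨W - b - 1, by omega⟩
    rw [hk, pow_succ]
    have : 0 < 2 ^ k := by positivity
    omega
  have hones : (pk W fun _ : Cfg n => 1) =
      (pk W fun _ : Cfg n => 2 ^ (W - b) - 1) &&& (pk W fun _ : Cfg n => 1) := by
    rw [pk_and _ _ (fun _ => hMW) (fun _ => by omega)]
    simp only [hodd]
  rw [hones, ← Nat.land_assoc, pk_shr b (by omega) _ hD]
  have hq : ∀ c : Cfg n, diagK c / 2 ^ b < 2 ^ W := fun c =>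
    lt_of_le_of_lt (Nat.div_le_self _ _) (hD c)
  rw [pk_and _ _ hq (fun _ => by omega), pk_mul]
  congr 1
  funext c
  rw [Nat.and_one_is_mod]
  rcases Nat.mod_two_eq_zero_or_one (diagK c / 2 ^ b) with h | h
  · rw [h]; simp
  · rw [h]; simp

theorem diagP_eq {W : ℕ} (hW : 6 ≤ W) (hn : n + 1 ≤ 15) (f : Cfg n → ℕ)
    (hf : ∀ c, f c < 2 ^ W) : diagP W (n + 1) (pk W f) = pk W fun c => diagK c * f c := by
  have hm : ∀ b < 5, pk W f &&& Dm W (n + 1) b =
      pk W fun c : Cfg n => if diagK c / 2 ^ b % 2 = 1 then f c else 0 := by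
    intro b hb
    rw [Dm_eq hW hn b hb]
    exact pk_mask f hf (fun c => diagK c / 2 ^ b % 2 = 1)
  unfold diagP
  rw [hm 0 (by norm_num), hm 1 (by norm_num), hm 2 (by norm_num), hm 3 (by norm_num),
    hm 4 (by norm_num)]
  simp only [Nat.shiftLeft_eq, pk_mul, pk_add]
  congr 1
  funext c
  have hD := nd2_diagK_le c
  have hD32 : diagK c < 32 := by omega
  generalize diagK c = D at hD32
  generalize f c = x
  have key : (if D / 2 ^ 0 % 2 = 1 then x else 0) + ((if D / 2 ^ 1 % 2 = 1 then x else 0) * 2 ^ 1 +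
      ((if D / 2 ^ 2 % 2 = 1 then x else 0) * 2 ^ 2 + ((if D / 2 ^ 3 % 2 = 1 then x else 0) * 2 ^ 3 +
      (if D / 2 ^ 4 % 2 = 1 then x else 0) * 2 ^ 4))) = D * x := by
    interval_cases D <;> simp <;> ring
  exact key

private theorem hop_symm {n : ℕ} (i j : Fin (n + 1)) (c c' : Cfg n) :
    Hop i j c c' ↔ Hop j i c' c := by
  unfold Hop
  constructor
  · rintro ⟨h1, h2, h3⟩
    exact ⟨h2, h1, fun l hl hl' => (h3 l hl' hl).symm⟩
  · rintro ⟨h1, h2, h3⟩
    exact ⟨h2, h1, fun l hl hl' => (h3 l hl' hl).symm⟩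

private theorem sum_hop {n : ℕ} (i j : Fin (n + 1)) (f : XC n → ℕ) (c : Cfg n) (m : ZMod 4) (P : ZMod 4 → Prop) [DecidablePred P] (hP : ∀ l, P l ↔ l = m) :
    ∑ y : XC n, (if P y.2 ∧ Hop i j c y.1 then 1 else 0) * f y =
      hopF j i (fun c => f (c, m)) c := by
  unfold hopF
  rw [Fintype.sum_prod_type]
  apply Finset.sum_congr rfl
  intro c' _
  rw [Finset.sum_eq_single m]
  · by_cases h : Hop i j c c'
    · rw [if_pos ⟨(hP m).2 rfl, h⟩, if_pos ((hop_symm i j c c').1 h), one_mul]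
    · rw [if_neg (fun h' => h h'.2), if_neg (fun h' => h ((hop_symm i j c c').2 h')), zero_mul]
  · intro l _ hl
    rw [if_neg (fun h' => hl ((hP l).1 h'.1)), zero_mul]
  · intro h
    exact absurd (Finset.mem_univ _) h

/-- `K f`, component `k` -/
theorem KP_eq {W : ℕ} (hW : 6 ≤ W) (hn1 : 1 ≤ n) (hn : n + 1 ≤ 15) (f : XC n → ℕ)
    (hf : ∀ x, f x < 2 ^ W) (k : ZMod 4) :
    KP W (n + 1) (pk W fun c => f (c, k - 1)) (pk W fun c => f (c, k)) (pk W fun c => f (c, k + 1)) =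
      pk W fun c => (KN n).mulVec f (c, k) := by
  have hW0 : 0 < W := by omega
  have hlt : (0 : Fin (n + 1)) < Fin.last n := by
    rw [Fin.lt_def]
    simp
    omega
  have e1 := intP_eq (n := n) hW0 (fun c => f (c, k)) (fun c => hf _)
  have e2 := diagP_eq (n := n) hW hn (fun c => f (c, k)) (fun c => hf _)
  have e3 := hopL_eq (n := n) hW0 (Fin.last n) 0 hlt (fun c => f (c, k + 1)) (fun c => hf _)
  have e4 := hopR_eq (n := n) hW0 0 (Fin.last n) hlt (fun c => f (c, k - 1)) (fun c => hf _)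
  have e5 : ((Fin.last n : Fin (n + 1)) : ℕ) = n := Fin.val_last n
  have e6 : ((0 : Fin (n + 1)) : ℕ) = 0 := rfl
  rw [e5, e6] at e3 e4
  unfold KP
  rw [Nat.add_sub_cancel, e1, e2, e3, e4, pk_add, pk_add, pk_add]
  congr 1
  funext c
  have key : (KN n).mulVec f (c, k) = ∑ y : XC n,
      ((if (c, k) = y then diagK c else 0) * f y +
      ∑ j : Fin n, ((if y.2 = k ∧ Hop (Fin.castSucc j) (Fin.succ j) c y.1 then 1 else 0) * f y +
        (if y.2 = k ∧ Hop (Fin.succ j) (Fin.castSucc j) c y.1 then 1 else 0) * f y) +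
      ((if y.2 = k + 1 ∧ Hop 0 (Fin.last n) c y.1 then 1 else 0) * f y +
        (if k = y.2 + 1 ∧ Hop (Fin.last n) 0 c y.1 then 1 else 0) * f y)) := by
    show ∑ y : XC n, KN n (c, k) y * f y = _
    apply Finset.sum_congr rfl
    intro y _
    have hK : KN n (c, k) y = (if (c, k) = y then diagK c else 0) +
      (∑ j : Fin n, ((if k = y.2 ∧ Hop (Fin.castSucc j) (Fin.succ j) c y.1 then 1 else 0) +
        (if k = y.2 ∧ Hop (Fin.succ j) (Fin.castSucc j) c y.1 then 1 else 0))) +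
      ((if y.2 = k + 1 ∧ Hop 0 (Fin.last n) c y.1 then 1 else 0) +
        (if k = y.2 + 1 ∧ Hop (Fin.last n) 0 c y.1 then 1 else 0)) := rfl
    rw [hK, add_mul, add_mul, Finset.sum_mul, add_mul]
    congr 2
    apply Finset.sum_congr rfl
    intro j _
    rw [add_mul]
    simp only [eq_comm (a := k)]
  have k1 : ∑ y : XC n, (if (c, k) = y then diagK c else 0) * f y = diagK c * f (c, k) := by
    rw [Finset.sum_eq_single (c, k)]
    · rw [if_pos rfl]
    · intro y _ hy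
      rw [if_neg (fun h => hy h.symm), zero_mul]
    · intro h
      exact absurd (Finset.mem_univ _) h
  have k2 : ∑ y : XC n, (if y.2 = k + 1 ∧ Hop 0 (Fin.last n) c y.1 then 1 else 0) * f y =
      hopF (Fin.last n) 0 (fun c => f (c, k + 1)) c :=
    sum_hop 0 (Fin.last n) f c (k + 1) (fun l => l = k + 1) (fun l => Iff.rfl)
  have k3 : ∑ y : XC n, (if k = y.2 + 1 ∧ Hop (Fin.last n) 0 c y.1 then 1 else 0) * f y =
      hopF 0 (Fin.last n) (fun c => f (c, k - 1)) c :=
    sum_hop (Fin.last n) 0 f c (k - 1) (fun l => k = l + 1)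
      (fun l => ⟨fun h => by rw [h]; ring, fun h => by rw [h]; ring⟩)
  have k4 : ∀ j : Fin n, ∑ y : XC n,
      ((if y.2 = k ∧ Hop (Fin.castSucc j) (Fin.succ j) c y.1 then 1 else 0) * f y +
        (if y.2 = k ∧ Hop (Fin.succ j) (Fin.castSucc j) c y.1 then 1 else 0) * f y) =
      hopF (Fin.castSucc j) (Fin.succ j) (fun c => f (c, k)) c +
        hopF (Fin.succ j) (Fin.castSucc j) (fun c => f (c, k)) c := by
    intro j
    rw [Finset.sum_add_distrib, add_comm]
    congr 1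
    · exact sum_hop _ _ f c k (fun l => l = k) (fun l => Iff.rfl)
    · exact sum_hop _ _ f c k (fun l => l = k) (fun l => Iff.rfl)
  have k5 : ∑ y : XC n, ∑ j : Fin n,
      ((if y.2 = k ∧ Hop (Fin.castSucc j) (Fin.succ j) c y.1 then 1 else 0) * f y +
        (if y.2 = k ∧ Hop (Fin.succ j) (Fin.castSucc j) c y.1 then 1 else 0) * f y) =
      ∑ j : Fin n, (hopF (Fin.castSucc j) (Fin.succ j) (fun c => f (c, k)) c +
        hopF (Fin.succ j) (Fin.castSucc j) (fun c => f (c, k)) c) := by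
    rw [Finset.sum_comm]
    exact Finset.sum_congr rfl (fun j _ => k4 j)
  have k6 : ∑ y : XC n, ((if y.2 = k + 1 ∧ Hop 0 (Fin.last n) c y.1 then 1 else 0) * f y +
        (if k = y.2 + 1 ∧ Hop (Fin.last n) 0 c y.1 then 1 else 0) * f y) =
      hopF (Fin.last n) 0 (fun c => f (c, k + 1)) c +
        hopF 0 (Fin.last n) (fun c => f (c, k - 1)) c := by
    rw [Finset.sum_add_distrib, k2, k3]
  rw [Finset.sum_add_distrib, Finset.sum_add_distrib, k1, k5, k6] at key
  rw [key]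
  ring

end Crest.Agent.R347
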