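import Crest.Agent.R347.ChG2
import Crest.Agent.R347.ChG3
import Crest.Agent.R347.ND2
import Crest.Agent.R347.NB1

/-!
# Row 347, Chebyshev numerics, piece G4: one application of the operator on biased packed vectors

`β = 2^B`.  `pB u` has slots `u + β ∈ [0, 2β)` on `S`.  `opP (pB u) pl = pk (on S: diag·(u+β) + hops of (u+β))`
by `hops_mask` (with `b = B + 1`; `(2 n + 2) 2^(B+1) ≤ 20·2^(B+1) ≤ 2^(B+6)`) and `diagP_eq` (ND2).
`opP` of `runI` = the same with `u + β` replaced by 1.  So `opP (pB u) + cst - minus(pB u)` has the slots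
`K u + β(plus(1) - minus(1)) + 32 β + h + β minus(1) - β plus(1) = K u + 32 β + h`.  All subtractions are slotwise
legal (`pk_sub`): `β plus(1) ≤ 30 β ≤ 32 β` (`plus(1) ≤ diag + 2(n+1) ≤ 3 (n+1) ≤ 30`), and the last one since
`|K u| ≤ 30 β`.
-/

set_option autoImplicit false

open Crest.MathPhysics.SpinChain Matrix

namespace Crest.Agent.R347

variable {n W B r s h me mo : ℕ}

/-- row sums: `diag + number of neighbours ≤ 3 (n+1)` -/
theorem row_sum_le (c : Cfg n) :
    blk (R := ℕ) (fun _ => 1) c + (hup (fun _ => 1) c + hdn (fun _ => 1) c) ≤ 3 * (n + 1) := by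
  have h1 : ∀ i j : Fin (n + 1), (∑ y, if Hop i j c y then (1 : ℕ) else 0) ≤
      if (c i : ℕ) ≤ 1 ∧ 1 ≤ (c j : ℕ) then 1 else 0 := fun i j =>
    NB1aux.sum_ite_le_one _ _ (by rintro y ⟨h1, h2, _⟩; have := (y i).isLt; omega)
      (fun a b ha hb => NB1aux.Hop_unique ha hb)
  have h2 : blk (R := ℕ) (fun _ => 1) c + (hup (fun _ => 1) c + hdn (fun _ => 1) c) =
      diagK c + ∑ i : Fin (n + 1), ((∑ y, if Hop (i + 1) i c y then (1 : ℕ) else 0) +
        (∑ y, if Hop i (i + 1) c y then (1 : ℕ) else 0)) := by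
    unfold blk bhop hup hdn
    rw [Fin.sum_univ_castSucc]
    simp only [NB1aux.castSucc_add_one', NB1aux.last_add_one', Nat.cast_id, mul_one]
    rw [add_assoc, Finset.sum_add_distrib, Finset.sum_add_distrib]
    ring
  rw [h2, NB1aux.diagK_cyc, ← Finset.sum_add_distrib]
  calc _ ≤ ∑ _i : Fin (n + 1), 3 := by
        refine Finset.sum_le_sum fun i _ => ?_
        exact (Nat.add_le_add_left (Nat.add_le_add (h1 _ _) (h1 _ _)) _).trans (NB1aux.bond_le _ _)
    _ = _ := by simp [mul_comm]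

private theorem ite_sum_bound (P : Cfg n → Prop) [DecidablePred P] (u : Cfg n → ℤ) (b : ℤ)
    (hu : ∀ c, |u c| ≤ b) :
    |∑ y, if P y then u y else 0| ≤ ((∑ y, if P y then (1 : ℕ) else 0 : ℕ) : ℤ) * b := by
  refine (Finset.abs_sum_le_sum_abs _ _).trans ?_
  push_cast
  rw [Finset.sum_mul]
  refine Finset.sum_le_sum fun y _ => ?_
  by_cases h : P y
  · rw [if_pos h, if_pos h, one_mul]; exact hu y
  · rw [if_neg h, if_neg h, zero_mul, abs_zero]

private theorem hup_bound (u : Cfg n → ℤ) (b : ℤ) (hu : ∀ c, |u c| ≤ b) (c : Cfg n) :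
    |hup u c| ≤ ((hup (fun _ => 1) c : ℕ) : ℤ) * b := ite_sum_bound _ u b hu

private theorem hdn_bound (u : Cfg n → ℤ) (b : ℤ) (hu : ∀ c, |u c| ≤ b) (c : Cfg n) :
    |hdn u c| ≤ ((hdn (fun _ => 1) c : ℕ) : ℤ) * b := ite_sum_bound _ u b hu

private theorem blk_bound (u : Cfg n → ℤ) (b : ℤ) (hu : ∀ c, |u c| ≤ b) (c : Cfg n) :
    |blk u c| ≤ ((blk (fun _ => 1) c : ℕ) : ℤ) * b := by
  unfold blk
  push_cast
  rw [mul_one, add_mul]
  refine (abs_add_le _ _).trans (add_le_add ?_ ?_)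
  · rw [abs_mul, Nat.abs_cast]
    exact mul_le_mul_of_nonneg_left (hu c) (Nat.cast_nonneg _)
  · unfold bhop
    refine (Finset.abs_sum_le_sum_abs _ _).trans ?_
    rw [Nat.cast_sum, Finset.sum_mul]
    refine Finset.sum_le_sum fun j _ => ?_
    rw [Nat.cast_add, add_mul]
    exact (abs_add_le _ _).trans (add_le_add (ite_sum_bound _ u b hu) (ite_sum_bound _ u b hu))

private theorem tot_bound (c : Cfg n) (b x y z : ℤ) (hb : 0 ≤ b)
    (hx : x ≤ ((blk (fun _ => 1) c : ℕ) : ℤ) * b) (hy : y ≤ ((hup (fun _ => 1) c : ℕ) : ℤ) * b)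
    (hz : z ≤ ((hdn (fun _ => 1) c : ℕ) : ℤ) * b) : x + (y + z) ≤ 3 * (n + 1) * b := by
  have h1 : ((blk (R := ℕ) (fun _ => 1) c + (hup (fun _ => 1) c + hdn (fun _ => 1) c) : ℕ) : ℤ) ≤
      ((3 * (n + 1) : ℕ) : ℤ) := by exact_mod_cast row_sum_le c
  have h2 := mul_le_mul_of_nonneg_right h1 hb
  push_cast at h2
  linarith [add_mul ((blk (R := ℕ) (fun _ => 1) c : ℕ) : ℤ)
    (((hup (R := ℕ) (fun _ => 1) c : ℕ) : ℤ) + ((hdn (R := ℕ) (fun _ => 1) c : ℕ) : ℤ)) b,
    add_mul ((hup (R := ℕ) (fun _ => 1) c : ℕ) : ℤ) ((hdn (R := ℕ) (fun _ => 1) c : ℕ) : ℤ) b]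

theorem K02_bound (z : Bool) (u : Cfg n → ℤ) (b : ℤ) (hu : ∀ c, |u c| ≤ b) (c : Cfg n) :
    |K02 z u c| ≤ 3 * (n + 1) * b := by
  have hb : 0 ≤ b := (abs_nonneg _).trans (hu c)
  have key : |K02 z u c| ≤ |blk u c| + (|hup u c| + |hdn u c|) := by
    unfold K02
    refine (abs_add_le _ _).trans (add_le_add le_rfl ?_)
    cases z
    · simpa using abs_add_le (hup u c) (hdn u c)
    · simp only [if_true, abs_neg]
      exact abs_add_le _ _
  exact key.trans (tot_bound c b _ _ _ hb (blk_bound u b hu c) (hup_bound u b hu c)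
    (hdn_bound u b hu c))

theorem K1_bound (u : Cfg n × Bool → ℤ) (b : ℤ) (hu : ∀ x, |u x| ≤ b) (x : Cfg n × Bool) :
    |K1 u x| ≤ 3 * (n + 1) * b := by
  have hb : 0 ≤ b := (abs_nonneg _).trans (hu x)
  obtain ⟨c, d⟩ := x
  cases d
  · have key : |K1 u (c, false)| ≤ |blk (fun c => u (c, false)) c| +
        (|hup (fun c => u (c, true)) c| + |hdn (fun c => u (c, true)) c|) := by
      unfold K1
      simp only [Bool.false_eq_true, if_false]
      exact (abs_add_le _ _).trans (add_le_add le_rfl (abs_sub _ _))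
    exact key.trans (tot_bound c b _ _ _ hb (blk_bound _ b (fun c => hu _) c)
      (hup_bound _ b (fun c => hu _) c) (hdn_bound _ b (fun c => hu _) c))
  · have key : |K1 u (c, true)| ≤ |blk (fun c => u (c, true)) c| +
        (|hup (fun c => u (c, false)) c| + |hdn (fun c => u (c, false)) c|) := by
      unfold K1
      simp only [if_true]
      refine (abs_add_le _ _).trans (add_le_add le_rfl ?_)
      rw [add_comm |hup _ _|]
      exact abs_sub _ _
    exact key.trans (tot_bound c b _ _ _ hb (blk_bound _ b (fun c => hu _) c)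
      (hup_bound _ b (fun c => hu _) c) (hdn_bound _ b (fun c => hu _) c))

private theorem hop_supp {i j : Fin (n + 1)} (hij : i ≠ j) (u : Cfg n → ℤ)
    (hu : ∀ c, ¬ inS me mo c → u c = 0) (c : Cfg n) (hc : ¬ inS me mo c) :
    (∑ y, if Hop i j c y then u y else 0) = 0 := by
  refine Finset.sum_eq_zero fun y _ => ?_
  by_cases h : Hop i j c y
  · rw [if_pos h]
    refine hu y fun hy => hc ?_
    unfold inS at hy ⊢
    rwa [dsm_hop hij h] at hy
  · rw [if_neg h]

private theorem blk_supp (u : Cfg n → ℤ) (hu : ∀ c, ¬ inS me mo c → u c = 0) (c : Cfg n)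
    (hc : ¬ inS me mo c) : blk u c = 0 := by
  unfold blk bhop
  rw [hu c hc, mul_zero, zero_add]
  refine Finset.sum_eq_zero fun j _ => ?_
  rw [hop_supp (Fin.castSucc_lt_succ (i := j)).ne u hu c hc,
    hop_supp (Fin.castSucc_lt_succ (i := j)).ne' u hu c hc, add_zero]

private theorem zero_ne_last' (hn : 1 ≤ n) : (0 : Fin (n + 1)) ≠ Fin.last n := by
  intro h
  have := congrArg Fin.val h
  simp at this
  omega

private theorem hup_supp (hn : 1 ≤ n) (u : Cfg n → ℤ) (hu : ∀ c, ¬ inS me mo c → u c = 0)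
    (c : Cfg n) (hc : ¬ inS me mo c) : hup u c = 0 :=
  hop_supp (zero_ne_last' hn) u hu c hc

private theorem hdn_supp (hn : 1 ≤ n) (u : Cfg n → ℤ) (hu : ∀ c, ¬ inS me mo c → u c = 0)
    (c : Cfg n) (hc : ¬ inS me mo c) : hdn u c = 0 :=
  hop_supp (zero_ne_last' hn).symm u hu c hc

theorem K02_supp (hn : 1 ≤ n) (z : Bool) (u : Cfg n → ℤ) (hu : ∀ c, ¬ inS me mo c → u c = 0)
    (c : Cfg n) (hc : ¬ inS me mo c) : K02 z u c = 0 := by
  unfold K02
  rw [blk_supp u hu c hc, hup_supp hn u hu c hc, hdn_supp hn u hu c hc]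
  simp

theorem K1_supp (hn : 1 ≤ n) (u : Cfg n × Bool → ℤ) (hu : ∀ x, ¬ inS me mo x.1 → u x = 0)
    (x : Cfg n × Bool) (hx : ¬ inS me mo x.1) : K1 u x = 0 := by
  unfold K1
  have e : ∀ d : Bool, ∀ c, ¬ inS me mo c → (fun c => u (c, d)) c = 0 := fun d c hc => hu (c, d) hc
  rw [blk_supp _ (e true) x.1 hx, blk_supp _ (e false) x.1 hx, hup_supp hn _ (e true) x.1 hx,
    hup_supp hn _ (e false) x.1 hx, hdn_supp hn _ (e true) x.1 hx, hdn_supp hn _ (e false) x.1 hx]
  simp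

private theorem g4b_cast_blk (f : Cfg n → ℕ) (c : Cfg n) :
    ((blk f c : ℕ) : ℤ) = blk (fun c => (f c : ℤ)) c := by
  unfold blk bhop
  push_cast
  rfl

private theorem g4b_cast_hup (f : Cfg n → ℕ) (c : Cfg n) :
    ((hup f c : ℕ) : ℤ) = hup (fun c => (f c : ℤ)) c := by
  unfold hup
  push_cast
  rfl

private theorem g4b_cast_hdn (f : Cfg n → ℕ) (c : Cfg n) :
    ((hdn f c : ℕ) : ℤ) = hdn (fun c => (f c : ℤ)) c := by
  unfold hdn
  push_cast
  rfl

private theorem g4b_sum_lin (P : Cfg n → Prop) [DecidablePred P] (u v : Cfg n → ℤ) (b : ℤ) :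
    ∑ y, (if P y then u y + b * v y else 0) =
      ∑ y, (if P y then u y else 0) + b * ∑ y, (if P y then v y else 0) := by
  rw [Finset.mul_sum, ← Finset.sum_add_distrib]
  refine Finset.sum_congr rfl fun y _ => ?_
  split_ifs <;> simp

private theorem g4b_hup_lin (u v : Cfg n → ℤ) (b : ℤ) (c : Cfg n) :
    hup (fun c => u c + b * v c) c = hup u c + b * hup v c := by
  unfold hup
  exact g4b_sum_lin _ u v b

private theorem g4b_hdn_lin (u v : Cfg n → ℤ) (b : ℤ) (c : Cfg n) :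
    hdn (fun c => u c + b * v c) c = hdn u c + b * hdn v c := by
  unfold hdn
  exact g4b_sum_lin _ u v b

private theorem g4b_blk_lin (u v : Cfg n → ℤ) (b : ℤ) (c : Cfg n) :
    blk (fun c => u c + b * v c) c = blk u c + b * blk v c := by
  unfold blk bhop
  simp only [g4b_sum_lin]
  rw [show ∑ j : Fin n, ((∑ y, (if Hop (Fin.castSucc j) (Fin.succ j) c y then u y else 0) +
      b * ∑ y, (if Hop (Fin.castSucc j) (Fin.succ j) c y then v y else 0)) +
      (∑ y, (if Hop (Fin.succ j) (Fin.castSucc j) c y then u y else 0) +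
      b * ∑ y, (if Hop (Fin.succ j) (Fin.castSucc j) c y then v y else 0))) =
      ∑ j : Fin n, (∑ y, (if Hop (Fin.castSucc j) (Fin.succ j) c y then u y else 0) +
        ∑ y, (if Hop (Fin.succ j) (Fin.castSucc j) c y then u y else 0)) +
      b * ∑ j : Fin n, (∑ y, (if Hop (Fin.castSucc j) (Fin.succ j) c y then v y else 0) +
        ∑ y, (if Hop (Fin.succ j) (Fin.castSucc j) c y then v y else 0)) from by
    rw [Finset.mul_sum, ← Finset.sum_add_distrib]
    exact Finset.sum_congr rfl fun j _ => by ring]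
  ring

private theorem g4b_hup_mono (f g : Cfg n → ℕ) (hfg : ∀ c, f c ≤ g c) (c : Cfg n) :
    hup f c ≤ hup g c := by
  unfold hup
  refine Finset.sum_le_sum fun y _ => ?_
  split_ifs
  · exact hfg y
  · exact le_rfl

private theorem g4b_hdn_mono (f g : Cfg n → ℕ) (hfg : ∀ c, f c ≤ g c) (c : Cfg n) :
    hdn f c ≤ hdn g c := by
  unfold hdn
  refine Finset.sum_le_sum fun y _ => ?_
  split_ifs
  · exact hfg y
  · exact le_rfl

private theorem g4b_blk_mono (f g : Cfg n → ℕ) (hfg : ∀ c, f c ≤ g c) (c : Cfg n) :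
    blk f c ≤ blk g c := by
  unfold blk bhop
  refine add_le_add (Nat.mul_le_mul_left _ (hfg c)) (Finset.sum_le_sum fun j _ =>
    add_le_add (Finset.sum_le_sum fun y _ => ?_) (Finset.sum_le_sum fun y _ => ?_))
  · split_ifs
    · exact hfg y
    · exact le_rfl
  · split_ifs
    · exact hfg y
    · exact le_rfl

private theorem g4b_pk_zero (W : ℕ) : pk W (fun _ : Cfg n => 0) = 0 := by
  unfold pk
  simp

/-- the packed operator -/
private theorem g4b_opP {b : ℕ} (hn1 : 1 ≤ n) (hn : n + 1 ≤ 15) (hW : 7 ≤ W) (h1 : me < 32)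
    (h2 : mo < 32) (hme : me % 2 = 0) (hmo : mo % 2 = 1)
    (hb : (2 * n + 2) * 2 ^ b ≤ 2 ^ W) (f g1 g2 : Cfg n → ℕ)
    (hf : ∀ c, f c < 2 ^ b) (hg1 : ∀ c, g1 c < 2 ^ b) (hg2 : ∀ c, g2 c < 2 ^ b)
    (sf : ∀ c, ¬ inS me mo c → f c = 0) (sg1 : ∀ c, ¬ inS me mo c → g1 c = 0)
    (sg2 : ∀ c, ¬ inS me mo c → g2 c = 0) :
    opP W (n + 1) me mo (pk W f) (bshl W (n + 1) (pk W g1) + bshr W (n + 1) (pk W g2)) =
      pk W fun c => if inS me mo c then blk f c + (hup g1 c + hdn g2 c) else 0 := by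
  have hbW : 2 ^ b ≤ 2 ^ W := by nlinarith [Nat.zero_le (2 ^ b)]
  unfold opP
  rw [runI_eq hW hn h1 h2 hme hmo, fullM_eq (inS me mo),
    hops_mask (by omega) hn1 hme hmo hb f g1 g2 hf hg1 hg2 sf sg1 sg2,
    diagP_eq (by omega) hn f (fun c => (hf c).trans_le hbW), pk_add]
  congr 1
  funext c
  by_cases hc : inS me mo c
  · rw [if_pos hc, if_pos hc]
    unfold blk
    simp only [Nat.cast_id]
    ring
  · rw [if_neg hc, if_neg hc, sf c hc, mul_zero, add_zero]

/-- the masked boundary terms -/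
private theorem g4b_mnP {b : ℕ} (hn1 : 1 ≤ n) (hn : n + 1 ≤ 15) (hW : 7 ≤ W) (h1 : me < 32)
    (h2 : mo < 32) (hme : me % 2 = 0) (hmo : mo % 2 = 1)
    (hb : (2 * n + 2) * 2 ^ b ≤ 2 ^ W) (g1 g2 : Cfg n → ℕ)
    (hg1 : ∀ c, g1 c < 2 ^ b) (hg2 : ∀ c, g2 c < 2 ^ b)
    (sg1 : ∀ c, ¬ inS me mo c → g1 c = 0)
    (sg2 : ∀ c, ¬ inS me mo c → g2 c = 0) :
    mnP W (n + 1) me mo (bshl W (n + 1) (pk W g1) + bshr W (n + 1) (pk W g2)) =
      pk W fun c => if inS me mo c then hup g1 c + hdn g2 c else 0 := by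
  have h := hops_mask (n := n) (W := W) (me := me) (mo := mo) (b := b) (by omega) hn1 hme hmo hb
    (fun _ => 0) g1 g2 (fun _ => by positivity) hg1 hg2 (fun _ _ => rfl) sg1 sg2
  have h0 : bulkP W (n + 1) (pk W (fun _ : Cfg n => 0)) = 0 := by
    rw [g4b_pk_zero]
    unfold bulkP
    simp
  have hb0 : ∀ c : Cfg n, bhop (fun _ : Cfg n => (0 : ℕ)) c = 0 := by
    intro c
    unfold bhop
    simp
  rw [h0, zero_add] at h
  unfold mnP
  rw [runI_eq hW hn h1 h2 hme hmo, fullM_eq (inS me mo), h]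
  simp only [hb0, zero_add]

theorem n02P_eq (ok : ChOK n W B r s h) (h1 : me < 32) (h2 : mo < 32) (hme : me % 2 = 0)
    (hmo : mo % 2 = 1) (z : Bool) (u : Cfg n → ℤ) (hu : Adm B me mo u) :
    n02P W (n + 1) B h me mo z (pB W B me mo u) =
      pk W fun c => if inS me mo c then (K02 z u c + 32 * 2 ^ B + h).toNat else 0 := by
  have hn1 : 1 ≤ n := by have := ok.hn1; omega
  have hn10 := ok.hn
  have hn15 : n + 1 ≤ 15 := by omega
  have hB := ok.hB
  have hB1 := ok.hB1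
  have hW : 7 ≤ W := by omega
  have hβ : 0 < 2 ^ B := by positivity
  have hb : (2 * n + 2) * 2 ^ (B + 1) ≤ 2 ^ W := by
    calc (2 * n + 2) * 2 ^ (B + 1) ≤ 32 * 2 ^ (B + 1) := Nat.mul_le_mul_right _ (by omega)
      _ = 2 ^ (B + 6) := by ring
      _ ≤ 2 ^ W := Nat.pow_le_pow_right (by norm_num) hB
  set f : Cfg n → ℕ := fun c => if inS me mo c then (u c + 2 ^ B).toNat else 0 with hf
  set I : Cfg n → ℕ := fun c => if inS me mo c then 1 else 0 with hI
  have hfc : ∀ c, (f c : ℤ) = u c + 2 ^ B * (I c : ℤ) := by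
    intro c
    simp only [hf, hI]
    by_cases hc : inS me mo c
    · rw [if_pos hc, if_pos hc, Int.toNat_of_nonneg (by have := hu.lo c; linarith)]
      push_cast
      ring
    · rw [if_neg hc, if_neg hc, hu.supp c hc]
      simp
  have hflt : ∀ c, f c < 2 ^ (B + 1) := by
    intro c
    have hh : (f c : ℤ) < 2 ^ (B + 1) := by
      rw [hfc]
      have h3 := hu.hi c
      have h4 : (I c : ℤ) ≤ 1 := by
        simp only [hI]
        split_ifs <;> simp
      have h5 : (2 : ℤ) ^ B * (I c : ℤ) ≤ 2 ^ B * 1 := mul_le_mul_of_nonneg_left h4 (by positivity)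
      rw [pow_succ]
      linarith
    exact_mod_cast hh
  have hIlt : ∀ c, I c < 2 ^ (B + 1) := by
    intro c
    have : 1 < 2 ^ (B + 1) := Nat.one_lt_two_pow (by omega)
    simp only [hI]
    split_ifs <;> omega
  have sf : ∀ c, ¬ inS me mo c → f c = 0 := fun c hc => if_neg hc
  have sI : ∀ c, ¬ inS me mo c → I c = 0 := fun c hc => if_neg hc
  have hI1 : ∀ c, I c ≤ 1 := by
    intro c
    simp only [hI]
    split_ifs <;> omega
  have hrow : ∀ c, blk I c + (hup I c + hdn I c) ≤ 30 := by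
    intro c
    have h3 := row_sum_le (n := n) c
    have h4 := g4b_blk_mono I (fun _ => 1) hI1 c
    have h5 := g4b_hup_mono I (fun _ => 1) hI1 c
    have h6 := g4b_hdn_mono I (fun _ => 1) hI1 c
    omega
  -- linearity
  have ebf : ∀ c, ((blk f c : ℕ) : ℤ) = blk u c + 2 ^ B * ((blk I c : ℕ) : ℤ) := by
    intro c
    rw [g4b_cast_blk, g4b_cast_blk, ← g4b_blk_lin]
    congr 1
    funext c
    exact hfc c
  have euf : ∀ c, ((hup f c : ℕ) : ℤ) = hup u c + 2 ^ B * ((hup I c : ℕ) : ℤ) := by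
    intro c
    rw [g4b_cast_hup, g4b_cast_hup, ← g4b_hup_lin]
    congr 1
    funext c
    exact hfc c
  have edf : ∀ c, ((hdn f c : ℕ) : ℤ) = hdn u c + 2 ^ B * ((hdn I c : ℕ) : ℤ) := by
    intro c
    rw [g4b_cast_hdn, g4b_cast_hdn, ← g4b_hdn_lin]
    congr 1
    funext c
    exact hfc c
  have hP : pB W B me mo u = pk W f := rfl
  have hRI : runI W (n + 1) me mo = pk W I := runI_eq hW hn15 h1 h2 hme hmo
  have hz : pk W (fun _ : Cfg n => 0) = 0 := g4b_pk_zero W
  have hzsh : bshl W (n + 1) (pk W fun _ : Cfg n => 0) + bshr W (n + 1) (pk W fun _ : Cfg n => 0) =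
      0 := by
    rw [hz]
    unfold bshl bshr
    simp
  have hub : ∀ c, |u c| ≤ (2 : ℤ) ^ B := fun c => abs_le.2 ⟨hu.lo c, (hu.hi c).le⟩
  have hKb : ∀ z c, |K02 z u c| ≤ 30 * 2 ^ B := by
    intro z c
    refine (K02_bound z u (2 ^ B) hub c).trans ?_
    refine mul_le_mul_of_nonneg_right ?_ (by positivity)
    have : ((n : ℤ) + 1) ≤ 10 := by exact_mod_cast hn10
    linarith
  cases z
  · -- `κ = 0`
    show n0P W (n + 1) B h me mo (pB W B me mo u) = _
    unfold n0P cstP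
    rw [hP, hRI, g4b_opP hn1 hn15 hW h1 h2 hme hmo hb f f f hflt hflt hflt sf sf sf,
      g4b_opP hn1 hn15 hW h1 h2 hme hmo hb I I I hIlt hIlt hIlt sI sI sI, mul_zero, add_zero,
      Nat.mul_comm (32 * 2 ^ B + h) (pk W I), Nat.mul_comm (2 ^ B) (pk W _), pk_mul, pk_mul]
    rw [pk_sub _ _ (by
      intro c
      by_cases hc : inS me mo c
      · simp only [if_pos hc, hI, one_mul]
        have h3 := hrow c
        simp only [hI] at h3
        calc (blk (fun c => if inS me mo c then 1 else 0) c +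
            (hup (fun c => if inS me mo c then 1 else 0) c +
              hdn (fun c => if inS me mo c then 1 else 0) c)) * 2 ^ B ≤ 30 * 2 ^ B :=
              Nat.mul_le_mul_right _ h3
          _ ≤ 32 * 2 ^ B + h := by omega
      · simp only [if_neg hc, zero_mul]
        exact Nat.zero_le _), pk_add]
    congr 1
    funext c
    by_cases hc : inS me mo c
    · simp only [if_pos hc]
      have hIc : I c = 1 := if_pos hc
      rw [hIc, one_mul]
      have h3 : (blk I c + (hup I c + hdn I c)) * 2 ^ B ≤ 32 * 2 ^ B + h := by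
        have := Nat.mul_le_mul_right (2 ^ B) (hrow c)
        omega
      symm
      rw [← Int.toNat_natCast (blk f c + (hup f c + hdn f c) +
        (32 * 2 ^ B + h - (blk I c + (hup I c + hdn I c)) * 2 ^ B))]
      congr 1
      rw [Nat.cast_add, Nat.cast_sub h3]
      push_cast
      rw [ebf, euf, edf]
      unfold K02
      simp only [Bool.false_eq_true, if_false]
      ring
    · have hIc : I c = 0 := if_neg hc
      simp only [if_neg hc, hIc, zero_mul, Nat.sub_zero, add_zero]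
  · -- `κ = 2`
    show n2P W (n + 1) B h me mo (pB W B me mo u) = _
    unfold n2P cstP
    rw [hP, hRI]
    have e1 := g4b_opP hn1 hn15 hW h1 h2 hme hmo hb f (fun _ => 0) (fun _ => 0) hflt
      (fun _ => by positivity) (fun _ => by positivity) sf (fun _ _ => rfl) (fun _ _ => rfl)
    have e2 := g4b_opP hn1 hn15 hW h1 h2 hme hmo hb I (fun _ => 0) (fun _ => 0) hIlt
      (fun _ => by positivity) (fun _ => by positivity) sI (fun _ _ => rfl) (fun _ _ => rfl)
    rw [hzsh] at e1 e2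
    have hu0 : ∀ c : Cfg n, hup (fun _ : Cfg n => (0 : ℕ)) c = 0 := by
      intro c; unfold hup; simp
    have hd0 : ∀ c : Cfg n, hdn (fun _ : Cfg n => (0 : ℕ)) c = 0 := by
      intro c; unfold hdn; simp
    simp only [hu0, hd0, add_zero] at e1 e2
    rw [e1, e2, g4b_mnP hn1 hn15 hW h1 h2 hme hmo hb I I hIlt hIlt sI sI,
      g4b_mnP hn1 hn15 hW h1 h2 hme hmo hb f f hflt hflt sf sf,
      Nat.mul_comm (32 * 2 ^ B + h) (pk W I), Nat.mul_comm (2 ^ B) (pk W _),
      Nat.mul_comm (2 ^ B) (pk W _), pk_mul, pk_mul, pk_mul, pk_add]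
    have h30 : ∀ c, blk I c * 2 ^ B ≤ 32 * 2 ^ B + h + (hup I c + hdn I c) * 2 ^ B := by
      intro c
      have h3 : blk I c ≤ 30 := by have := hrow c; omega
      have := Nat.mul_le_mul_right (2 ^ B) h3
      omega
    rw [pk_sub _ _ (by
      intro c
      by_cases hc : inS me mo c
      · have hIc : I c = 1 := if_pos hc
        simp only [if_pos hc, hIc, one_mul]
        exact h30 c
      · simp only [if_neg hc, zero_mul]
        exact Nat.zero_le _), pk_add]
    have hkey : ∀ c, ((blk f c + (32 * 2 ^ B + h + (hup I c + hdn I c) * 2 ^ B -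
        blk I c * 2 ^ B) : ℕ) : ℤ) = K02 true u c + 32 * 2 ^ B + h + ((hup f c + hdn f c : ℕ) : ℤ) := by
      intro c
      rw [Nat.cast_add, Nat.cast_sub (h30 c)]
      push_cast
      rw [ebf, euf, edf]
      unfold K02
      simp only [if_true]
      ring
    have hge : ∀ c, hup f c + hdn f c ≤ blk f c + (32 * 2 ^ B + h + (hup I c + hdn I c) * 2 ^ B -
        blk I c * 2 ^ B) := by
      intro c
      have h3 := hkey c
      have h4 := (abs_le.1 (hKb true c)).1
      have h5 : (0 : ℤ) < 2 ^ B := by positivity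
      have h6 : (0 : ℤ) ≤ (h : ℤ) := Int.natCast_nonneg h
      have h7 : ((hup f c + hdn f c : ℕ) : ℤ) ≤ ((blk f c + (32 * 2 ^ B + h +
        (hup I c + hdn I c) * 2 ^ B - blk I c * 2 ^ B) : ℕ) : ℤ) := by
        rw [h3]
        linarith
      exact_mod_cast h7
    rw [pk_sub _ _ (by
      intro c
      by_cases hc : inS me mo c
      · have hIc : I c = 1 := if_pos hc
        simp only [if_pos hc, hIc, one_mul]
        exact hge c
      · simp only [if_neg hc]
        exact Nat.zero_le _)]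
    congr 1
    funext c
    by_cases hc : inS me mo c
    · have hIc : I c = 1 := if_pos hc
      simp only [if_pos hc, hIc, one_mul]
      symm
      rw [← Int.toNat_natCast (blk f c + (32 * 2 ^ B + h + (hup I c + hdn I c) * 2 ^ B -
        blk I c * 2 ^ B) - (hup f c + hdn f c))]
      congr 1
      rw [Nat.cast_sub (hge c), hkey c]
      ring
    · have hIc : I c = 0 := if_neg hc
      simp only [if_neg hc, hIc, zero_mul, add_zero, Nat.zero_sub]

private theorem h16_hup_cast (g : Cfg n → ℕ) (c : Cfg n) :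
    ((hup g c : ℕ) : ℤ) = hup (fun y => (g y : ℤ)) c := by
  unfold hup
  push_cast
  rfl

private theorem h16_hdn_cast (g : Cfg n → ℕ) (c : Cfg n) :
    ((hdn g c : ℕ) : ℤ) = hdn (fun y => (g y : ℤ)) c := by
  unfold hdn
  push_cast
  rfl

private theorem h16_blk_cast (g : Cfg n → ℕ) (c : Cfg n) :
    ((blk g c : ℕ) : ℤ) = blk (fun y => (g y : ℤ)) c := by
  unfold blk bhop
  push_cast
  rfl

private theorem h16_hup_lin (A b : Cfg n → ℤ) (β : ℤ) (c : Cfg n) :
    hup (fun y => A y + β * b y) c = hup A c + β * hup b c := by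
  unfold hup
  rw [Finset.mul_sum, ← Finset.sum_add_distrib]
  refine Finset.sum_congr rfl fun y _ => ?_
  split_ifs <;> simp

private theorem h16_hdn_lin (A b : Cfg n → ℤ) (β : ℤ) (c : Cfg n) :
    hdn (fun y => A y + β * b y) c = hdn A c + β * hdn b c := by
  unfold hdn
  rw [Finset.mul_sum, ← Finset.sum_add_distrib]
  refine Finset.sum_congr rfl fun y _ => ?_
  split_ifs <;> simp

private theorem h16_blk_lin (A b : Cfg n → ℤ) (β : ℤ) (c : Cfg n) :
    blk (fun y => A y + β * b y) c = blk A c + β * blk b c := by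
  have h : bhop (fun y => A y + β * b y) c = bhop A c + β * bhop b c := by
    unfold bhop
    rw [Finset.mul_sum, ← Finset.sum_add_distrib]
    refine Finset.sum_congr rfl fun j _ => ?_
    rw [mul_add, Finset.mul_sum, Finset.mul_sum]
    have e : ∀ (p : Cfg n → Prop) [DecidablePred p],
        (∑ y, if p y then A y + β * b y else 0) =
          (∑ y, if p y then A y else 0) + ∑ y, β * (if p y then b y else 0) := by
      intro p _
      rw [← Finset.sum_add_distrib]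
      refine Finset.sum_congr rfl fun y _ => ?_
      split_ifs <;> simp
    rw [e, e]
    ring
  unfold blk
  rw [h]
  ring

private theorem h16_mono (f g : Cfg n → ℕ) (h : ∀ c, f c ≤ g c) (c : Cfg n) :
    blk f c ≤ blk g c ∧ hup f c ≤ hup g c ∧ hdn f c ≤ hdn g c := by
  have e : ∀ (p : Cfg n → Prop) [DecidablePred p],
      (∑ y, if p y then f y else 0) ≤ ∑ y, if p y then g y else 0 := by
    intro p _
    refine Finset.sum_le_sum fun y _ => ?_
    split_ifs
    · exact h y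
    · exact le_rfl
  refine ⟨?_, e _, e _⟩
  unfold blk bhop
  refine Nat.add_le_add (Nat.mul_le_mul le_rfl (h c)) (Finset.sum_le_sum fun j _ => ?_)
  exact Nat.add_le_add (e _) (e _)

private theorem h16_sizes (ok : ChOK n W B r s h) : 0 < W ∧ 1 ≤ n ∧ 7 ≤ W ∧ n + 1 ≤ 15 ∧
    (2 * n + 2) * 2 ^ (B + 1) ≤ 2 ^ W ∧ (2 : ℕ) ^ (B + 1) ≤ 2 ^ W := by
  have h1 := ok.hn1
  have h2 := ok.hn
  have h3 := ok.hB1
  have h4 := ok.hB
  refine ⟨by omega, by omega, by omega, by omega, ?_, Nat.pow_le_pow_right (by norm_num) (by omega)⟩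
  calc (2 * n + 2) * 2 ^ (B + 1) ≤ 2 ^ 5 * 2 ^ (B + 1) := Nat.mul_le_mul (by omega) le_rfl
    _ = 2 ^ (B + 6) := by rw [← pow_add]; congr 1; omega
    _ ≤ 2 ^ W := Nat.pow_le_pow_right (by norm_num) h4

private theorem h16_mask (ok : ChOK n W B r s h) (h1 : me < 32) (h2 : mo < 32) (hme : me % 2 = 0)
    (hmo : mo % 2 = 1) (f g1 g2 : Cfg n → ℕ)
    (hf : ∀ c, f c < 2 ^ (B + 1)) (hg1 : ∀ c, g1 c < 2 ^ (B + 1)) (hg2 : ∀ c, g2 c < 2 ^ (B + 1))
    (sf : ∀ c, ¬ inS me mo c → f c = 0) (sg1 : ∀ c, ¬ inS me mo c → g1 c = 0)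
    (sg2 : ∀ c, ¬ inS me mo c → g2 c = 0) :
    (bulkP W (n + 1) (pk W f) + (bshl W (n + 1) (pk W g1) + bshr W (n + 1) (pk W g2))) &&&
      fullM W (runI W (n + 1) me mo) =
    pk W fun c => if inS me mo c then bhop f c + (hup g1 c + hdn g2 c) else 0 := by
  obtain ⟨e1, e2, e3, e4, e5, e6⟩ := h16_sizes ok
  rw [runI_eq e3 e4 h1 h2 hme hmo, fullM_eq]
  exact hops_mask e1 e2 hme hmo e5 f g1 g2 hf hg1 hg2 sf sg1 sg2

private theorem h16_op (ok : ChOK n W B r s h) (h1 : me < 32) (h2 : mo < 32) (hme : me % 2 = 0)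
    (hmo : mo % 2 = 1) (f g1 g2 : Cfg n → ℕ)
    (hf : ∀ c, f c < 2 ^ (B + 1)) (hg1 : ∀ c, g1 c < 2 ^ (B + 1)) (hg2 : ∀ c, g2 c < 2 ^ (B + 1))
    (sf : ∀ c, ¬ inS me mo c → f c = 0) (sg1 : ∀ c, ¬ inS me mo c → g1 c = 0)
    (sg2 : ∀ c, ¬ inS me mo c → g2 c = 0) :
    opP W (n + 1) me mo (pk W f) (bshl W (n + 1) (pk W g1) + bshr W (n + 1) (pk W g2)) =
    pk W fun c => if inS me mo c then blk f c + (hup g1 c + hdn g2 c) else 0 := by
  obtain ⟨e1, e2, e3, e4, e5, e6⟩ := h16_sizes ok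
  unfold opP
  rw [h16_mask ok h1 h2 hme hmo f g1 g2 hf hg1 hg2 sf sg1 sg2,
    diagP_eq (by omega) e4 f (fun c => (hf c).trans_le e6), pk_add]
  congr 1
  funext c
  by_cases hc : inS me mo c
  · rw [if_pos hc, if_pos hc]
    unfold blk
    push_cast
    ring
  · rw [if_neg hc, if_neg hc, sf c hc, mul_zero, add_zero]

private theorem h16_mn (ok : ChOK n W B r s h) (h1 : me < 32) (h2 : mo < 32) (hme : me % 2 = 0)
    (hmo : mo % 2 = 1) (g1 g2 : Cfg n → ℕ)
    (hg1 : ∀ c, g1 c < 2 ^ (B + 1)) (hg2 : ∀ c, g2 c < 2 ^ (B + 1))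
    (sg1 : ∀ c, ¬ inS me mo c → g1 c = 0)
    (sg2 : ∀ c, ¬ inS me mo c → g2 c = 0) :
    mnP W (n + 1) me mo (bshl W (n + 1) (pk W g1) + bshr W (n + 1) (pk W g2)) =
    pk W fun c => if inS me mo c then (hup g1 c + hdn g2 c) else 0 := by
  have h0 : pk W (fun _ : Cfg n => 0) = 0 := by simp [pk]
  have hb : bulkP W (n + 1) 0 = 0 := by
    unfold bulkP
    rw [zero_mul, Nat.zero_shiftRight]
  have := h16_mask ok h1 h2 hme hmo (fun _ => 0) g1 g2 (fun _ => by positivity) hg1 hg2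
    (fun _ _ => rfl) sg1 sg2
  rw [h0, hb, zero_add] at this
  unfold mnP
  rw [this]
  congr 1
  funext c
  have e : bhop (fun _ : Cfg n => 0) c = 0 := by
    unfold bhop
    simp
  rw [e, zero_add]

/-- general form -/
private theorem h16_core (ok : ChOK n W B r s h) (h1 : me < 32) (h2 : mo < 32) (hme : me % 2 = 0)
    (hmo : mo % 2 = 1) (f a1 a2 b1 b2 c1 c2 d1 d2 : Cfg n → ℕ) (u A1 A2 D1 D2 : Cfg n → ℤ)
    (X : Cfg n → ℤ)
    (hf : ∀ c, f c < 2 ^ (B + 1)) (ha1 : ∀ c, a1 c < 2 ^ (B + 1)) (ha2 : ∀ c, a2 c < 2 ^ (B + 1))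
    (hb1 : ∀ c, b1 c < 2 ^ (B + 1)) (hb2 : ∀ c, b2 c < 2 ^ (B + 1))
    (hc1 : ∀ c, c1 c < 2 ^ (B + 1)) (hc2 : ∀ c, c2 c < 2 ^ (B + 1))
    (hd1 : ∀ c, d1 c < 2 ^ (B + 1)) (hd2 : ∀ c, d2 c < 2 ^ (B + 1))
    (sf : ∀ c, ¬ inS me mo c → f c = 0) (sa1 : ∀ c, ¬ inS me mo c → a1 c = 0)
    (sa2 : ∀ c, ¬ inS me mo c → a2 c = 0) (sb1 : ∀ c, ¬ inS me mo c → b1 c = 0)
    (sb2 : ∀ c, ¬ inS me mo c → b2 c = 0) (sc1 : ∀ c, ¬ inS me mo c → c1 c = 0)
    (sc2 : ∀ c, ¬ inS me mo c → c2 c = 0) (sd1 : ∀ c, ¬ inS me mo c → d1 c = 0)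
    (sd2 : ∀ c, ¬ inS me mo c → d2 c = 0)
    (lb1 : ∀ c, b1 c ≤ 1) (lb2 : ∀ c, b2 c ≤ 1)
    (ef : ∀ c, (f c : ℤ) = u c + 2 ^ B * ((if inS me mo c then 1 else 0 : ℕ) : ℤ))
    (ea1 : ∀ c, (a1 c : ℤ) = A1 c + 2 ^ B * (b1 c : ℤ))
    (ea2 : ∀ c, (a2 c : ℤ) = A2 c + 2 ^ B * (b2 c : ℤ))
    (ed1 : ∀ c, (d1 c : ℤ) = D1 c + 2 ^ B * (c1 c : ℤ))
    (ed2 : ∀ c, (d2 c : ℤ) = D2 c + 2 ^ B * (c2 c : ℤ))
    (hX : ∀ c, X c = blk u c + (hup A1 c + hdn A2 c) - (hup D1 c + hdn D2 c))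
    (hXb : ∀ c, |X c| ≤ 3 * (n + 1) * 2 ^ B) :
    (opP W (n + 1) me mo (pk W f) (bshl W (n + 1) (pk W a1) + bshr W (n + 1) (pk W a2)) +
      cstP W (n + 1) B h me mo
        (opP W (n + 1) me mo (runI W (n + 1) me mo)
          (bshl W (n + 1) (pk W b1) + bshr W (n + 1) (pk W b2)))
        (mnP W (n + 1) me mo (bshl W (n + 1) (pk W c1) + bshr W (n + 1) (pk W c2)))) -
      mnP W (n + 1) me mo (bshl W (n + 1) (pk W d1) + bshr W (n + 1) (pk W d2)) =
    pk W fun c => if inS me mo c then (X c + 32 * 2 ^ B + h).toNat else 0 := by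
  obtain ⟨e1, e2, e3, e4, e5, e6⟩ := h16_sizes ok
  have hn10 := ok.hn
  have hBpos : (1 : ℕ) < 2 ^ (B + 1) := Nat.one_lt_two_pow (by omega)
  set I1 : Cfg n → ℕ := fun c => if inS me mo c then 1 else 0 with hI1
  have hIb : ∀ c, I1 c < 2 ^ (B + 1) := fun c => by
    simp only [hI1]; split_ifs <;> omega
  have hI1' : ∀ c, I1 c ≤ 1 := fun c => by
    simp only [hI1]; split_ifs <;> omega
  have sI : ∀ c, ¬ inS me mo c → I1 c = 0 := fun c hc => by
    simp only [hI1]; rw [if_neg hc]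
  rw [h16_op ok h1 h2 hme hmo f a1 a2 hf ha1 ha2 sf sa1 sa2, runI_eq e3 e4 h1 h2 hme hmo,
    h16_op ok h1 h2 hme hmo I1 b1 b2 hIb hb1 hb2 sI sb1 sb2,
    h16_mn ok h1 h2 hme hmo c1 c2 hc1 hc2 sc1 sc2, h16_mn ok h1 h2 hme hmo d1 d2 hd1 hd2 sd1 sd2]
  unfold cstP
  rw [runI_eq e3 e4 h1 h2 hme hmo]
  rw [mul_comm (32 * 2 ^ B + h), mul_comm (2 ^ B) (pk W _), mul_comm (2 ^ B) (pk W _)]
  rw [pk_mul, pk_mul, pk_mul, pk_add]
  -- the plus part is small
  have hplus : ∀ c, blk I1 c + (hup b1 c + hdn b2 c) ≤ 30 := by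
    intro c
    have k1 := (h16_mono I1 (fun _ => 1) hI1' c).1
    have k2 := (h16_mono b1 (fun _ => 1) lb1 c).2.1
    have k3 := (h16_mono b2 (fun _ => 1) lb2 c).2.2
    have k4 := row_sum_le c
    omega
  rw [pk_sub]
  swap
  · intro c
    by_cases hc : inS me mo c
    · simp only [if_pos hc]
      have := hplus c
      have k : (blk I1 c + (hup b1 c + hdn b2 c)) * 2 ^ B ≤ 30 * 2 ^ B := Nat.mul_le_mul this le_rfl
      have : 30 * 2 ^ B ≤ 32 * 2 ^ B := Nat.mul_le_mul (by norm_num) le_rfl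
      omega
    · simp only [if_neg hc]
      omega
  rw [pk_add]
  have key : ∀ c, inS me mo c →
      (((blk f c + (hup a1 c + hdn a2 c)) + ((1 * (32 * 2 ^ B + h) + (hup c1 c + hdn c2 c) * 2 ^ B) -
        (blk I1 c + (hup b1 c + hdn b2 c)) * 2 ^ B) : ℕ) : ℤ) =
      X c + 32 * 2 ^ B + h + ((hup d1 c + hdn d2 c : ℕ) : ℤ) := by
    intro c hc
    have k : (blk I1 c + (hup b1 c + hdn b2 c)) * 2 ^ B ≤
        1 * (32 * 2 ^ B + h) + (hup c1 c + hdn c2 c) * 2 ^ B := by
      have k1 : (blk I1 c + (hup b1 c + hdn b2 c)) * 2 ^ B ≤ 30 * 2 ^ B :=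
        Nat.mul_le_mul (hplus c) le_rfl
      have : 30 * 2 ^ B ≤ 32 * 2 ^ B := Nat.mul_le_mul (by norm_num) le_rfl
      omega
    push_cast [Nat.cast_sub k]
    simp only [h16_blk_cast, h16_hup_cast, h16_hdn_cast]
    have q1 : (fun y => (f y : ℤ)) = fun y => u y + 2 ^ B * (I1 y : ℤ) := funext ef
    have q2 : (fun y => (a1 y : ℤ)) = fun y => A1 y + 2 ^ B * (b1 y : ℤ) := funext ea1
    have q3 : (fun y => (a2 y : ℤ)) = fun y => A2 y + 2 ^ B * (b2 y : ℤ) := funext ea2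
    have q4 : (fun y => (d1 y : ℤ)) = fun y => D1 y + 2 ^ B * (c1 y : ℤ) := funext ed1
    have q5 : (fun y => (d2 y : ℤ)) = fun y => D2 y + 2 ^ B * (c2 y : ℤ) := funext ed2
    rw [q1, q2, q3, q4, q5, h16_blk_lin, h16_hup_lin, h16_hdn_lin, h16_hup_lin, h16_hdn_lin, hX c]
    ring
  have hpos : ∀ c, 0 ≤ X c + 32 * 2 ^ B + h := by
    intro c
    have k1 := (abs_le.1 (hXb c)).1
    have k2 : (3 * ((n : ℤ) + 1)) * 2 ^ B ≤ 30 * 2 ^ B :=
      mul_le_mul_of_nonneg_right (by omega) (by positivity)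
    have k3 : (0 : ℤ) ≤ 2 ^ B := by positivity
    have k4 : (0 : ℤ) ≤ (h : ℤ) := by positivity
    linarith
  rw [pk_sub]
  swap
  · intro c
    by_cases hc : inS me mo c
    · simp only [if_pos hc]
      have k1 := key c hc
      have k2 := hpos c
      omega
    · simp only [if_neg hc]
      omega
  congr 1
  funext c
  by_cases hc : inS me mo c
  · simp only [if_pos hc]
    have k1 := key c hc
    have k2 := hpos c
    omega
  · simp only [if_neg hc]
    omega

private theorem h16_adm {u : Cfg n → ℤ} (hu : Adm B me mo u) :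
    (∀ c, (if inS me mo c then (u c + 2 ^ B).toNat else 0) < 2 ^ (B + 1)) ∧
    (∀ c, (((if inS me mo c then (u c + 2 ^ B).toNat else 0 : ℕ)) : ℤ) =
      u c + 2 ^ B * ((if inS me mo c then 1 else 0 : ℕ) : ℤ)) := by
  constructor
  · intro c
    have k1 := hu.lo c
    have k2 := hu.hi c
    have k3 : (0 : ℕ) < 2 ^ (B + 1) := by positivity
    split_ifs
    · have e : (2 : ℤ) ^ (B + 1) = 2 * 2 ^ B := by ring
      have : ((u c + 2 ^ B).toNat : ℤ) < ((2 ^ (B + 1) : ℕ) : ℤ) := by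
        rw [Int.toNat_of_nonneg (by linarith)]
        push_cast
        linarith
      exact_mod_cast this
    · exact k3
  · intro c
    have k1 := hu.lo c
    split_ifs with hc
    · rw [Int.toNat_of_nonneg (by linarith)]
      push_cast
      ring
    · rw [hu.supp c hc]
      simp

theorem n1aP_eq (ok : ChOK n W B r s h) (h1 : me < 32) (h2 : mo < 32) (hme : me % 2 = 0)
    (hmo : mo % 2 = 1) (u : Cfg n × Bool → ℤ) (hu : Adm B me mo fun c => u (c, false))
    (hu' : Adm B me mo fun c => u (c, true)) :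
    n1aP W (n + 1) B h me mo (pB W B me mo fun c => u (c, false))
        (pB W B me mo fun c => u (c, true)) =
      pk W fun c => if inS me mo c then (K1 u (c, false) + 32 * 2 ^ B + h).toNat else 0 := by
  obtain ⟨e1, e2, e3, e4, e5, e6⟩ := h16_sizes ok
  have hBpos : (1 : ℕ) < 2 ^ (B + 1) := Nat.one_lt_two_pow (by omega)
  have h0 : pk W (fun _ : Cfg n => 0) = 0 := by simp [pk]
  have hl0 : bshl W (n + 1) 0 = 0 := by unfold bshl; rw [Nat.zero_shiftLeft]
  have hr0 : bshr W (n + 1) 0 = 0 := by unfold bshr; rw [Nat.zero_shiftRight]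
  have hz : ∀ c : Cfg n, (fun _ : Cfg n => (0 : ℕ)) c < 2 ^ (B + 1) := fun _ => by positivity
  have hI : ∀ c : Cfg n, (if inS me mo c then 1 else 0 : ℕ) < 2 ^ (B + 1) := fun c => by
    split_ifs <;> omega
  have hX : ∀ c, |K1 u (c, false)| ≤ 3 * (n + 1) * 2 ^ B := by
    intro c
    refine K1_bound u (2 ^ B) ?_ (c, false)
    rintro ⟨y, k⟩
    have k1 := hu.lo y
    have k2 := hu.hi y
    have k3 := hu'.lo y
    have k4 := hu'.hi y
    rw [abs_le]
    cases k
    · exact ⟨k1, k2.le⟩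
    · exact ⟨k3, k4.le⟩
  have := h16_core ok h1 h2 hme hmo
    (fun c => if inS me mo c then (u (c, false) + 2 ^ B).toNat else 0)
    (fun c => if inS me mo c then (u (c, true) + 2 ^ B).toNat else 0) (fun _ => 0)
    (fun c => if inS me mo c then 1 else 0) (fun _ => 0)
    (fun _ => 0) (fun c => if inS me mo c then 1 else 0)
    (fun _ => 0) (fun c => if inS me mo c then (u (c, true) + 2 ^ B).toNat else 0)
    (fun c => u (c, false)) (fun c => u (c, true)) (fun _ => 0) (fun _ => 0) (fun c => u (c, true))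
    (fun c => K1 u (c, false))
    (h16_adm hu).1 (h16_adm hu').1 hz hI hz hz hI hz (h16_adm hu').1
    (fun c hc => by simp [hc]) (fun c hc => by simp [hc]) (fun _ _ => rfl)
    (fun c hc => by simp [hc]) (fun _ _ => rfl) (fun _ _ => rfl) (fun c hc => by simp [hc])
    (fun _ _ => rfl) (fun c hc => by simp [hc])
    (fun c => by split_ifs <;> omega) (fun _ => by omega)
    (h16_adm hu).2 (h16_adm hu').2 (fun _ => by simp) (fun _ => by simp) (h16_adm hu').2
    (fun c => by simp [K1, hup, hdn]; ring) hX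
  rw [h0, hr0, hl0, add_zero, add_zero, zero_add, zero_add, ← runI_eq e3 e4 h1 h2 hme hmo] at this
  unfold n1aP pB
  exact this

theorem n1bP_eq (ok : ChOK n W B r s h) (h1 : me < 32) (h2 : mo < 32) (hme : me % 2 = 0)
    (hmo : mo % 2 = 1) (u : Cfg n × Bool → ℤ) (hu : Adm B me mo fun c => u (c, false))
    (hu' : Adm B me mo fun c => u (c, true)) :
    n1bP W (n + 1) B h me mo (pB W B me mo fun c => u (c, false))
        (pB W B me mo fun c => u (c, true)) =
      pk W fun c => if inS me mo c then (K1 u (c, true) + 32 * 2 ^ B + h).toNat else 0 := by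
  obtain ⟨e1, e2, e3, e4, e5, e6⟩ := h16_sizes ok
  have hBpos : (1 : ℕ) < 2 ^ (B + 1) := Nat.one_lt_two_pow (by omega)
  have h0 : pk W (fun _ : Cfg n => 0) = 0 := by simp [pk]
  have hl0 : bshl W (n + 1) 0 = 0 := by unfold bshl; rw [Nat.zero_shiftLeft]
  have hr0 : bshr W (n + 1) 0 = 0 := by unfold bshr; rw [Nat.zero_shiftRight]
  have hz : ∀ c : Cfg n, (fun _ : Cfg n => (0 : ℕ)) c < 2 ^ (B + 1) := fun _ => by positivity
  have hI : ∀ c : Cfg n, (if inS me mo c then 1 else 0 : ℕ) < 2 ^ (B + 1) := fun c => by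
    split_ifs <;> omega
  have hX : ∀ c, |K1 u (c, true)| ≤ 3 * (n + 1) * 2 ^ B := by
    intro c
    refine K1_bound u (2 ^ B) ?_ (c, true)
    rintro ⟨y, k⟩
    have k1 := hu.lo y
    have k2 := hu.hi y
    have k3 := hu'.lo y
    have k4 := hu'.hi y
    rw [abs_le]
    cases k
    · exact ⟨k1, k2.le⟩
    · exact ⟨k3, k4.le⟩
  have := h16_core ok h1 h2 hme hmo
    (fun c => if inS me mo c then (u (c, true) + 2 ^ B).toNat else 0)
    (fun _ => 0) (fun c => if inS me mo c then (u (c, false) + 2 ^ B).toNat else 0)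
    (fun _ => 0) (fun c => if inS me mo c then 1 else 0)
    (fun c => if inS me mo c then 1 else 0) (fun _ => 0)
    (fun c => if inS me mo c then (u (c, false) + 2 ^ B).toNat else 0) (fun _ => 0)
    (fun c => u (c, true)) (fun _ => 0) (fun c => u (c, false)) (fun c => u (c, false)) (fun _ => 0)
    (fun c => K1 u (c, true))
    (h16_adm hu').1 hz (h16_adm hu).1 hz hI hI hz (h16_adm hu).1 hz
    (fun c hc => by simp [hc]) (fun _ _ => rfl) (fun c hc => by simp [hc])
    (fun _ _ => rfl) (fun c hc => by simp [hc]) (fun c hc => by simp [hc]) (fun _ _ => rfl)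
    (fun c hc => by simp [hc]) (fun _ _ => rfl)
    (fun _ => by omega) (fun c => by split_ifs <;> omega)
    (h16_adm hu').2 (fun _ => by simp) (h16_adm hu).2 (h16_adm hu).2 (fun _ => by simp)
    (fun c => by simp [K1, hup, hdn]; ring) hX
  rw [h0, hr0, hl0, zero_add, zero_add, add_zero, add_zero, ← runI_eq e3 e4 h1 h2 hme hmo] at this
  unfold n1bP pB
  exact this

end Crest.Agent.R347
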