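import Crest.Agent.R347.ND2
import Crest.Agent.R347.NB1

/-!
# Row 347 numerics, piece ND3: the packed Horner recursion

`stP W starts = pk W (indicator)` if the start indices are distinct and `< 3^(n+1)`.  If `runP … ≠ 0` then no check failed, so all
intermediate vectors have entries `< 2^B`, and `3 (n+1) 2^B ≤ 2^W` (row sums `KN_rowsum`) excludes overflow: `runP` follows
`List.foldl (loStep A)`.
-/

set_option autoImplicit false

open Crest.MathPhysics.SpinChain Matrix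

namespace Crest.Agent.R347

variable {n : ℕ}

/-- the four packed components -/
def cmp (W : ℕ) (f : XC n → ℕ) (k : ZMod 4) : ℕ := pk W fun c => f (c, k)

theorem shP_eq {W : ℕ} (hW : 0 < W) (s : ℕ) (hs : s ≤ W) (f : Cfg n → ℕ) (hf : ∀ c, f c < 2 ^ W) :
    shP W (n + 1) s (pk W f) = pk W fun c => f c / 2 ^ s := by
  unfold shP
  rw [ones_eq hW, pk_mul]
  simp only [one_mul]
  exact pk_shr s hs f hf

theorem hiM_eq {W : ℕ} (hW : 0 < W) (B : ℕ) :
    hiM W (n + 1) B = pk W fun _ : Cfg n => 2 ^ W - 2 ^ B := by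
  unfold hiM
  rw [ones_eq hW, pk_mul]
  simp only [one_mul]

private theorem mulVec_lt {B : ℕ} (f : XC n → ℕ) (hf : ∀ x, f x < 2 ^ B) (x : XC n) :
    (KN n).mulVec f x ≤ 3 * (n + 1) * 2 ^ B := by
  unfold Matrix.mulVec dotProduct
  calc ∑ y, KN n x y * f y ≤ ∑ y, KN n x y * 2 ^ B :=
        Finset.sum_le_sum fun y _ => Nat.mul_le_mul_left _ (hf y).le
    _ = (∑ y, KN n x y) * 2 ^ B := by rw [Finset.sum_mul]
    _ ≤ 3 * (n + 1) * 2 ^ B := Nat.mul_le_mul_right _ (KN_rowsum n x)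

private theorem loStep_lt {W B : ℕ} (hB : 3 * (n + 1) * 2 ^ B + 2 ^ B ≤ 2 ^ W) (A : Finset (Cfg n))
    (f : XC n → ℕ) (hf : ∀ x, f x < 2 ^ B) (p : ℕ × ℕ) (hp : p.2 < 2 ^ B) (x : XC n) :
    loStep A f p x < 2 ^ W := by
  have h1 := mulVec_lt f hf x
  have h2 : (KN n).mulVec f x / 2 ^ p.1 ≤ (KN n).mulVec f x := Nat.div_le_self _ _
  have h3 : startv A p.2 x ≤ p.2 := by
    unfold startv
    split_ifs <;> omega
  unfold loStep
  omega

private theorem step_cmp {W B : ℕ} (hW : 6 ≤ W) (hn1 : 1 ≤ n) (hn : n + 1 ≤ 15)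
    (hB : 3 * (n + 1) * 2 ^ B + 2 ^ B ≤ 2 ^ W) (A : Finset (Cfg n)) (f : XC n → ℕ)
    (hf : ∀ x, f x < 2 ^ B) (s t : ℕ) (hs : s ≤ W) (k : ZMod 4) (hk : k ≠ 0) :
    shP W (n + 1) s (KP W (n + 1) (cmp W f (k - 1)) (cmp W f k) (cmp W f (k + 1))) =
      cmp W (loStep A f (s, t)) k := by
  have hf' : ∀ x, f x < 2 ^ W := by
    intro x
    have := hf x
    omega
  unfold cmp
  rw [KP_eq hW hn1 hn f hf' k, shP_eq (by omega) s hs _ (fun c => by
    have h1 := mulVec_lt f hf (c, k)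
    have h2 : 0 < 2 ^ B := by positivity
    omega)]
  congr 1
  funext c
  unfold loStep startv
  rw [if_neg (fun h => hk h.2), add_zero]

private theorem step_cmp0 {W B : ℕ} (hW : 6 ≤ W) (hn1 : 1 ≤ n) (hn : n + 1 ≤ 15)
    (hB : 3 * (n + 1) * 2 ^ B + 2 ^ B ≤ 2 ^ W) (A : Finset (Cfg n)) (f : XC n → ℕ)
    (hf : ∀ x, f x < 2 ^ B) (s t : ℕ) (hs : s ≤ W) :
    shP W (n + 1) s (KP W (n + 1) (cmp W f (0 - 1)) (cmp W f 0) (cmp W f (0 + 1))) +
      t * (pk W fun c => if c ∈ A then 1 else 0) =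
      cmp W (loStep A f (s, t)) 0 := by
  have hf' : ∀ x, f x < 2 ^ W := by
    intro x
    have := hf x
    omega
  unfold cmp
  rw [KP_eq hW hn1 hn f hf' 0, shP_eq (by omega) s hs _ (fun c => by
    have h1 := mulVec_lt f hf (c, 0)
    have h2 : 0 < 2 ^ B := by positivity
    omega), mul_comm t, pk_mul, pk_add]
  congr 1
  funext c
  unfold loStep startv
  by_cases hc : c ∈ A
  · rw [if_pos hc, if_pos ⟨hc, rfl⟩, one_mul]
  · rw [if_neg hc, if_neg (fun h => hc h.1), zero_mul]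

theorem runP_eq {W B : ℕ} (hW : 6 ≤ W) (hn1 : 1 ≤ n) (hn : n + 1 ≤ 15)
    (hB : 3 * (n + 1) * 2 ^ B + 2 ^ B ≤ 2 ^ W) (A : Finset (Cfg n)) (st : ℕ)
    (hst : st = pk W fun c => if c ∈ A then 1 else 0) (k : ℕ → ℕ → ℕ → ℕ → ℕ) (l : List (ℕ × ℕ))
    (hl : ∀ p ∈ l, p.1 ≤ W ∧ p.2 < 2 ^ B) (f : XC n → ℕ) (hf : ∀ x, f x < 2 ^ B)
    (h : runP W (n + 1) B st k l (cmp W f 0) (cmp W f 1) (cmp W f 2) (cmp W f 3) ≠ 0) :
    (∀ x, l.foldl (loStep A) f x < 2 ^ B) ∧
      runP W (n + 1) B st k l (cmp W f 0) (cmp W f 1) (cmp W f 2) (cmp W f 3) =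
        k (cmp W (l.foldl (loStep A) f) 0) (cmp W (l.foldl (loStep A) f) 1)
          (cmp W (l.foldl (loStep A) f) 2) (cmp W (l.foldl (loStep A) f) 3) := by
  have hW0 : 0 < W := by omega
  have hBW : B ≤ W := by
    by_contra hc
    have h1 : 2 ^ W ≤ 2 ^ B := Nat.pow_le_pow_right (by norm_num) (by omega)
    have h2 : 0 < 3 * (n + 1) * 2 ^ B := by positivity
    omega
  induction l generalizing f with
  | nil => exact ⟨hf, rfl⟩
  | cons p l ih =>
    obtain ⟨s, t⟩ := p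
    obtain ⟨hs, ht⟩ := hl (s, t) List.mem_cons_self
    have e0 := step_cmp0 hW hn1 hn hB A f hf s t hs
    have e1 := step_cmp hW hn1 hn hB A f hf s t hs 1 (by decide)
    have e2 := step_cmp hW hn1 hn hB A f hf s t hs 2 (by decide)
    have e3 := step_cmp hW hn1 hn hB A f hf s t hs 3 (by decide)
    rw [show (0 : ZMod 4) - 1 = 3 from by decide, show (0 : ZMod 4) + 1 = 1 from by decide,
      ← hst] at e0
    rw [show (1 : ZMod 4) - 1 = 0 from by decide, show (1 : ZMod 4) + 1 = 2 from by decide] at e1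
    rw [show (2 : ZMod 4) - 1 = 1 from by decide, show (2 : ZMod 4) + 1 = 3 from by decide] at e2
    rw [show (3 : ZMod 4) - 1 = 2 from by decide, show (3 : ZMod 4) + 1 = 0 from by decide] at e3
    set f' := loStep A f (s, t) with hf'
    have hf'W : ∀ x, f' x < 2 ^ W := loStep_lt hB A f hf (s, t) ht
    have hrun : runP W (n + 1) B st k ((s, t) :: l) (cmp W f 0) (cmp W f 1) (cmp W f 2) (cmp W f 3) =
        bif Nat.beq ((cmp W f' 0 ||| (cmp W f' 1 ||| (cmp W f' 2 ||| cmp W f' 3))) &&&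
          hiM W (n + 1) B) 0
        then runP W (n + 1) B st k l (cmp W f' 0) (cmp W f' 1) (cmp W f' 2) (cmp W f' 3) else 0 := by
      rw [runP, e0, e1, e2, e3]
    rw [hrun] at h ⊢
    cases hb : Nat.beq ((cmp W f' 0 ||| (cmp W f' 1 ||| (cmp W f' 2 ||| cmp W f' 3))) &&&
          hiM W (n + 1) B) 0 with
    | false =>
      rw [hb, cond_false] at h
      exact absurd rfl h
    | true =>
      rw [hb, cond_true] at h
      rw [cond_true]
      have hcheck := Nat.eq_of_beq_eq_true hb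
      have hor : ∀ (u v : Cfg n → ℕ), (∀ c, u c < 2 ^ W) → (∀ c, v c < 2 ^ W) →
          ∀ c, u c ||| v c < 2 ^ W := fun u v hu hv c => Nat.or_lt_two_pow (hu c) (hv c)
      have g0 : ∀ c, f' (c, 0) < 2 ^ W := fun c => hf'W _
      have g1 : ∀ c, f' (c, 1) < 2 ^ W := fun c => hf'W _
      have g2 : ∀ c, f' (c, 2) < 2 ^ W := fun c => hf'W _
      have g3 : ∀ c, f' (c, 3) < 2 ^ W := fun c => hf'W _
      unfold cmp at hcheck
      rw [pk_or _ _ g2 g3, pk_or _ _ g1 (hor _ _ g2 g3),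
        pk_or _ _ g0 (hor _ _ g1 (hor _ _ g2 g3)), hiM_eq hW0] at hcheck
      have hlt := pk_check B hBW _ (hor _ _ g0 (hor _ _ g1 (hor _ _ g2 g3))) hcheck
      have hf'B : ∀ x, f' x < 2 ^ B := by
        rintro ⟨c, j⟩
        have h1 := hlt c
        have a0 : f' (c, 0) ≤ f' (c, 0) ||| (f' (c, 1) ||| (f' (c, 2) ||| f' (c, 3))) :=
          Nat.left_le_or
        have a1 : f' (c, 1) ≤ f' (c, 0) ||| (f' (c, 1) ||| (f' (c, 2) ||| f' (c, 3))) :=
          Nat.left_le_or.trans Nat.right_le_or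
        have a2 : f' (c, 2) ≤ f' (c, 0) ||| (f' (c, 1) ||| (f' (c, 2) ||| f' (c, 3))) :=
          (Nat.left_le_or.trans Nat.right_le_or).trans Nat.right_le_or
        have a3 : f' (c, 3) ≤ f' (c, 0) ||| (f' (c, 1) ||| (f' (c, 2) ||| f' (c, 3))) :=
          (Nat.right_le_or.trans Nat.right_le_or).trans Nat.right_le_or
        have hj : j = 0 ∨ j = 1 ∨ j = 2 ∨ j = 3 := by
          revert j; decide
        rcases hj with rfl | rfl | rfl | rfl
        · exact a0.trans_lt h1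
        · exact a1.trans_lt h1
        · exact a2.trans_lt h1
        · exact a3.trans_lt h1
      exact ih (fun p hp => hl p (List.mem_cons_of_mem _ hp)) f' hf'B h

/-- composition of segments -/
theorem runP_append (W L B st : ℕ) (k : ℕ → ℕ → ℕ → ℕ → ℕ) (l l' : List (ℕ × ℕ)) (a b c d : ℕ) :
    runP W L B st k (l ++ l') a b c d = runP W L B st (runP W L B st k l') l a b c d := by
  induction l generalizing a b c d with
  | nil => rfl
  | cons p l ih =>
    obtain ⟨s, t⟩ := p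
    rw [List.cons_append, runP, runP]
    beta_reduce
    rw [ih]

end Crest.Agent.R347
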