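import Crest.Agent.R347.ChG3
import Crest.Agent.R347.ND3

/-!
# Row 347, Chebyshev numerics, piece G5: the new vector

`β = 2^B`, `cb = r 2^(B+5-s) ≤ 6β`.  `N1` = slots `x + 32β + h` on `S` with `|x| ≤ 30 β` (so `< 2^(B+6)`), `N1 * r`
has slots `< 2^W`; `shP_eq` (ND3): slots `(r (x + 32β + h)) / 2^s = cb + (r x + r h) / 2^s` (floor; `2^s` divides
`r·32β`).  Then `Q = .. + g e + (12β - cb) - (2 b1 + b2 + 3β) = new + 9β`, no borrow since
`cb + floor + 12β - cb ≥ 12β - cb ≥ 6β ≥ 2 P1 + P2` (`floor ≥ -cb`), and `Q < 2^(B+6)`.  `xor` with `8β` on `S`: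
if no bit `≥ B+1` remains then `Q = 8β + y`, `y < 2β`, `y = new + β`.  Off `S` everything is 0
(`(r·0 + r h)/2^s = 0`).  Last step: the same with `21β - cb`, `2 P1 + 2 P2 < 8β`, `xor 16β`.
-/

set_option autoImplicit false

open Crest.MathPhysics.SpinChain Matrix

namespace Crest.Agent.R347

variable {n W B r s h me mo : ℕ}

private theorem newP_scal {B r s h g : ℕ} (hs : s ≤ B)
    (hc : r * 2 ^ (B + 5 - s) ≤ 6 * 2 ^ B) (hh2 : h < 2 ^ B) (hg : g < 2 ^ B) (e x b1 b2 : ℤ)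
    (he : e = 0 ∨ e = 1) (hx : |x| ≤ 30 * 2 ^ B) (l1 : -(2 ^ B : ℤ) ≤ b1) (u1 : b1 < 2 ^ B)
    (l2 : -(2 ^ B : ℤ) ≤ b2) (u2 : b2 < 2 ^ B) :
    (x + 32 * 2 ^ B + h).toNat < 2 ^ (B + 6) ∧
    (b1 + 2 ^ B).toNat * 2 + (b2 + 2 ^ B).toNat ≤
      (x + 32 * 2 ^ B + h).toNat * r / 2 ^ s + (e.toNat * g + 1 * (12 * 2 ^ B - r * 2 ^ (B + 5 - s))) ∧
    (x + 32 * 2 ^ B + h).toNat * r / 2 ^ s + (e.toNat * g + 1 * (12 * 2 ^ B - r * 2 ^ (B + 5 - s))) <
      2 ^ (B + 6) ∧
    (((x + 32 * 2 ^ B + h).toNat * r / 2 ^ s + (e.toNat * g + 1 * (12 * 2 ^ B - r * 2 ^ (B + 5 - s))) -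
      ((b1 + 2 ^ B).toNat * 2 + (b2 + 2 ^ B).toNat) : ℕ) : ℤ) =
      (g * e + (r * x + r * h) / 2 ^ s - 2 * b1 - b2) + 9 * 2 ^ B := by
  have h64 : 2 ^ (B + 6) = 64 * 2 ^ B := by rw [pow_add]; ring
  have hcb : r * 2 ^ (B + 5 - s) * 2 ^ s = 32 * 2 ^ B * r := by
    rw [mul_assoc, ← pow_add, show B + 5 - s + s = B + 5 by omega, pow_add]; ring
  have hZ : (2 : ℤ) ^ B = ((2 ^ B : ℕ) : ℤ) := by push_cast; rfl
  have hZs : (2 : ℤ) ^ s = ((2 ^ s : ℕ) : ℤ) := by push_cast; rfl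
  have hRpos : 0 < 2 ^ s := by positivity
  rw [hZ] at hx l1 u1 l2 u2
  rw [hZ, hZs, h64]
  generalize hcbv : r * 2 ^ (B + 5 - s) = cb at *
  generalize 2 ^ B = β at *
  generalize 2 ^ s = R at *
  rw [abs_le] at hx
  obtain ⟨hx1, hx2⟩ := hx
  generalize hN : (x + 32 * (β : ℤ) + h).toNat = N
  have hNZ : (N : ℤ) = x + 32 * (β : ℤ) + h := by
    rw [← hN, Int.toNat_of_nonneg (by omega)]
  have hNlt : N < 64 * β := by omega
  generalize hk : N * r / R = k
  have hkZ : (k : ℤ) = cb + (r * x + r * h) / (R : ℤ) := by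
    rw [← hk]
    push_cast
    rw [hNZ]
    have e1 : (x + 32 * (β : ℤ) + h) * r = (r * x + r * h) + cb * R := by
      have e2 : (cb : ℤ) * R = 32 * β * r := by exact_mod_cast hcb
      rw [e2]; ring
    rw [e1, Int.add_mul_ediv_right _ _ (by omega)]
    ring
  have hklt : k ≤ 2 * cb := by
    rw [← hk]
    apply Nat.div_le_of_le_mul
    calc N * r ≤ 64 * β * r := Nat.mul_le_mul_right r hNlt.le
      _ = 2 * (32 * β * r) := by ring
      _ = 2 * (cb * R) := by rw [hcb]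
      _ = R * (2 * cb) := by ring
  generalize (r * x + r * h) / (R : ℤ) = F at *
  rcases he with rfl | rfl
  · simp only [Int.toNat_zero, zero_mul, mul_zero, one_mul]
    refine ⟨hNlt, by omega, by omega, by omega⟩
  · simp only [Int.toNat_one, one_mul, mul_one]
    refine ⟨hNlt, by omega, by omega, by omega⟩

private theorem newP_xor (B y : ℕ) (hy : y < 2 ^ (B + 1)) : y ^^^ (8 * 2 ^ B) = y + 8 * 2 ^ B := by
  have h8 : 8 * 2 ^ B = 2 ^ (B + 3) := by rw [pow_add]; ring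
  have hy4 : y < 2 ^ (B + 3) := lt_of_lt_of_le hy (Nat.pow_le_pow_right (by norm_num) (by omega))
  rw [h8]
  have h3 : y + 2 ^ (B + 3) = 2 ^ (B + 3) ||| y := by
    have h4 := Nat.two_pow_add_eq_or_of_lt hy4 1
    rw [mul_one] at h4
    rw [← h4, Nat.add_comm]
  rw [h3]
  apply Nat.eq_of_testBit_eq
  intro j
  rw [Nat.testBit_xor, Nat.testBit_or, Nat.testBit_two_pow]
  by_cases hj : B + 3 = j
  · subst hj
    rw [Nat.testBit_lt_two_pow hy4]
    simp
  · simp [hj]

theorem newP_spec (ok : ChOK n W B r s h) (h1 : me < 32) (h2 : mo < 32) (hme : me % 2 = 0)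
    (hmo : mo % 2 = 1) (e x b1 b2 : Cfg n → ℤ) (he : ∀ c, e c = 0 ∨ e c = 1)
    (heS : ∀ c, ¬ inS me mo c → e c = 0) (hx : ∀ c, |x c| ≤ 30 * 2 ^ B)
    (hxS : ∀ c, ¬ inS me mo c → x c = 0)
    (hb1 : Adm B me mo b1) (hb2 : Adm B me mo b2) (g : ℕ) (hg : g < 2 ^ B) (P : ℕ)
    (hP : P = newP W (n + 1) B r s me mo (pk W fun c => (e c).toNat) g
      (pk W fun c => if inS me mo c then (x c + 32 * 2 ^ B + h).toNat else 0)
      (pB W B me mo b1) (pB W B me mo b2))
    (hchk : P &&& hiM W (n + 1) (B + 1) = 0) :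
    Adm B me mo (stepZ r s h g e x b1 b2) ∧ P = pB W B me mo (stepZ r s h g e x b1 b2) := by
  obtain ⟨hn1, hn, hB1, hB, hrW, hr0, hs, hc, hh, hh2, hW3, hcf⟩ := ok
  have hW0 : 0 < W := by omega
  have hBW : 2 ^ (B + 6) ≤ 2 ^ W := Nat.pow_le_pow_right (by norm_num) hB
  have h64 : 2 ^ (B + 6) = 64 * 2 ^ B := by rw [pow_add]; ring
  have hsc := fun c : Cfg n => newP_scal (r := r) hs hc hh2 hg (e c) (x c) (b1 c) (b2 c) (he c) (hx c)
    (hb1.lo c) (hb1.hi c) (hb2.lo c) (hb2.hi c)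
  have hoff : ∀ c, ¬ inS me mo c → stepZ r s h g e x b1 b2 c = 0 := by
    intro c hcS
    unfold stepZ
    rw [heS c hcS, hxS c hcS, hb1.supp c hcS, hb2.supp c hcS]
    have : ((r : ℤ) * 0 + r * h) / 2 ^ s = 0 := by
      apply Int.ediv_eq_zero_of_lt
      · positivity
      · rw [mul_zero, zero_add]; exact_mod_cast hh
    rw [this]
    ring
  -- packed form
  have hPk : P = pk W fun c : Cfg n =>
      ((if inS me mo c then (x c + 32 * 2 ^ B + h).toNat else 0) * r / 2 ^ s +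
        ((e c).toNat * g + (if inS me mo c then 1 else 0) * (12 * 2 ^ B - r * 2 ^ (B + 5 - s))) -
        ((if inS me mo c then (b1 c + 2 ^ B).toNat else 0) * 2 +
          (if inS me mo c then (b2 c + 2 ^ B).toNat else 0))) ^^^
        ((if inS me mo c then 1 else 0) * (8 * 2 ^ B)) := by
    rw [hP]
    unfold newP pB
    rw [runI_eq (by omega) (by omega) h1 h2 hme hmo, pk_mul]
    rw [shP_eq hW0 s (by omega) _ (fun c => by
      split_ifs with hcS
      · calc (x c + 32 * 2 ^ B + h).toNat * r < 2 ^ (B + 6) * r :=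
              Nat.mul_lt_mul_of_pos_right (hsc c).1 hr0
          _ ≤ 2 ^ W := by rw [Nat.mul_comm]; exact hrW
      · rw [Nat.zero_mul]; positivity)]
    rw [Nat.mul_comm g, pk_mul, Nat.mul_comm (12 * 2 ^ B - r * 2 ^ (B + 5 - s)), pk_mul, pk_add, pk_add,
      Nat.mul_comm 2, pk_mul, pk_add, pk_sub _ _ (fun c => by
      by_cases hcS : inS me mo c
      · simp only [if_pos hcS]
        exact (hsc c).2.1
      · simp only [if_neg hcS, Nat.zero_mul, Nat.add_zero]
        exact Nat.zero_le _), Nat.mul_comm (8 * 2 ^ B), pk_mul, pk_xor _ _ (fun c => by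
      by_cases hcS : inS me mo c
      · simp only [if_pos hcS]
        have := (hsc c).2.2.1
        omega
      · simp only [if_neg hcS, heS c hcS]
        simp) (fun c => by
      split_ifs <;> omega)]
  have hlt : ∀ c : Cfg n, ((if inS me mo c then (x c + 32 * 2 ^ B + h).toNat else 0) * r / 2 ^ s +
        ((e c).toNat * g + (if inS me mo c then 1 else 0) * (12 * 2 ^ B - r * 2 ^ (B + 5 - s))) -
        ((if inS me mo c then (b1 c + 2 ^ B).toNat else 0) * 2 +
          (if inS me mo c then (b2 c + 2 ^ B).toNat else 0))) ^^^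
        ((if inS me mo c then 1 else 0) * (8 * 2 ^ B)) < 2 ^ W := by
    intro c
    apply Nat.xor_lt_two_pow
    · by_cases hcS : inS me mo c
      · simp only [if_pos hcS]
        have := (hsc c).2.2.1
        omega
      · simp only [if_neg hcS, heS c hcS]
        simp
    · split_ifs <;> omega
  rw [hPk, hiM_eq hW0] at hchk
  have hck := pk_check (B + 1) (by omega) _ hlt hchk
  have hval : ∀ c, inS me mo c → stepZ r s h g e x b1 b2 c + 2 ^ B =
      (((if inS me mo c then (x c + 32 * 2 ^ B + h).toNat else 0) * r / 2 ^ s +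
        ((e c).toNat * g + (if inS me mo c then 1 else 0) * (12 * 2 ^ B - r * 2 ^ (B + 5 - s))) -
        ((if inS me mo c then (b1 c + 2 ^ B).toNat else 0) * 2 +
          (if inS me mo c then (b2 c + 2 ^ B).toNat else 0))) ^^^
        ((if inS me mo c then 1 else 0) * (8 * 2 ^ B)) : ℕ) := by
    intro c hcS
    have h3 := hck c
    simp only [if_pos hcS, Nat.one_mul] at h3 ⊢
    have h4 := (hsc c).2.2.2
    rw [Nat.one_mul] at h4
    generalize (x c + 32 * 2 ^ B + h).toNat * r / 2 ^ s +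
        ((e c).toNat * g + (12 * 2 ^ B - r * 2 ^ (B + 5 - s))) -
        ((b1 c + 2 ^ B).toNat * 2 + (b2 c + 2 ^ B).toNat) = Q at h3 h4 ⊢
    generalize hy : Q ^^^ (8 * 2 ^ B) = y at h3 ⊢
    have hQ : Q = y + 8 * 2 ^ B := by
      rw [← newP_xor B y h3, ← hy, Nat.xor_assoc, Nat.xor_self, Nat.xor_zero]
    rw [hQ] at h4
    unfold stepZ
    push_cast at h4
    linarith
  refine ⟨⟨hoff, ?_, ?_⟩, ?_⟩
  · intro c
    by_cases hcS : inS me mo c
    · have h3 := hval c hcS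
      have h5 : (0 : ℤ) ≤ stepZ r s h g e x b1 b2 c + 2 ^ B := by
        rw [h3]; exact Int.natCast_nonneg _
      linarith
    · rw [hoff c hcS]
      have : (0 : ℤ) < 2 ^ B := by positivity
      linarith
  · intro c
    by_cases hcS : inS me mo c
    · have h3 := hval c hcS
      have h5 : stepZ r s h g e x b1 b2 c + 2 ^ B < 2 ^ (B + 1) := by
        rw [h3]; exact_mod_cast hck c
      rw [pow_succ] at h5
      linarith
    · rw [hoff c hcS]
      positivity
  · rw [hPk]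
    unfold pB
    congr 1
    funext c
    by_cases hcS : inS me mo c
    · rw [if_pos hcS, hval c hcS, Int.toNat_natCast]
      simp only [if_pos hcS]
    · simp only [if_neg hcS, heS c hcS]
      simp

private theorem lastP_scal {B r s h g : ℕ} (hs : s ≤ B)
    (hc : r * 2 ^ (B + 5 - s) ≤ 6 * 2 ^ B) (hh2 : h < 2 ^ B) (hg : g < 2 ^ B) (e x b1 b2 : ℤ)
    (he : e = 0 ∨ e = 1) (hx : |x| ≤ 30 * 2 ^ B) (l1 : -(2 ^ B : ℤ) ≤ b1) (u1 : b1 < 2 ^ B)
    (l2 : -(2 ^ B : ℤ) ≤ b2) (u2 : b2 < 2 ^ B) :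
    (x + 32 * 2 ^ B + h).toNat < 2 ^ (B + 6) ∧
    (b1 + 2 ^ B).toNat * 2 + (b2 + 2 ^ B).toNat * 2 ≤
      (x + 32 * 2 ^ B + h).toNat * r / 2 ^ s + (e.toNat * g + 1 * (21 * 2 ^ B - r * 2 ^ (B + 5 - s))) ∧
    (x + 32 * 2 ^ B + h).toNat * r / 2 ^ s + (e.toNat * g + 1 * (21 * 2 ^ B - r * 2 ^ (B + 5 - s))) <
      2 ^ (B + 6) ∧
    (((x + 32 * 2 ^ B + h).toNat * r / 2 ^ s + (e.toNat * g + 1 * (21 * 2 ^ B - r * 2 ^ (B + 5 - s))) -
      ((b1 + 2 ^ B).toNat * 2 + (b2 + 2 ^ B).toNat * 2) : ℕ) : ℤ) =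
      (g * e + (r * x + r * h) / 2 ^ s - 2 * b1 - 2 * b2) + 17 * 2 ^ B := by
  have h64 : 2 ^ (B + 6) = 64 * 2 ^ B := by rw [pow_add]; ring
  have hcb : r * 2 ^ (B + 5 - s) * 2 ^ s = 32 * 2 ^ B * r := by
    rw [mul_assoc, ← pow_add, show B + 5 - s + s = B + 5 by omega, pow_add]; ring
  have hZ : (2 : ℤ) ^ B = ((2 ^ B : ℕ) : ℤ) := by push_cast; rfl
  have hZs : (2 : ℤ) ^ s = ((2 ^ s : ℕ) : ℤ) := by push_cast; rfl
  have hRpos : 0 < 2 ^ s := by positivity
  rw [hZ] at hx l1 u1 l2 u2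
  rw [hZ, hZs, h64]
  generalize hcbv : r * 2 ^ (B + 5 - s) = cb at *
  generalize 2 ^ B = β at *
  generalize 2 ^ s = R at *
  rw [abs_le] at hx
  obtain ⟨hx1, hx2⟩ := hx
  generalize hN : (x + 32 * (β : ℤ) + h).toNat = N
  have hNZ : (N : ℤ) = x + 32 * (β : ℤ) + h := by
    rw [← hN, Int.toNat_of_nonneg (by omega)]
  have hNlt : N < 64 * β := by omega
  generalize hk : N * r / R = k
  have hkZ : (k : ℤ) = cb + (r * x + r * h) / (R : ℤ) := by
    rw [← hk]
    push_cast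
    rw [hNZ]
    have e1 : (x + 32 * (β : ℤ) + h) * r = (r * x + r * h) + cb * R := by
      have e2 : (cb : ℤ) * R = 32 * β * r := by exact_mod_cast hcb
      rw [e2]; ring
    rw [e1, Int.add_mul_ediv_right _ _ (by omega)]
    ring
  have hklt : k ≤ 2 * cb := by
    rw [← hk]
    apply Nat.div_le_of_le_mul
    calc N * r ≤ 64 * β * r := Nat.mul_le_mul_right r hNlt.le
      _ = 2 * (32 * β * r) := by ring
      _ = 2 * (cb * R) := by rw [hcb]
      _ = R * (2 * cb) := by ring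
  generalize (r * x + r * h) / (R : ℤ) = F at *
  rcases he with rfl | rfl
  · simp only [Int.toNat_zero, zero_mul, mul_zero, one_mul]
    refine ⟨hNlt, by omega, by omega, by omega⟩
  · simp only [Int.toNat_one, one_mul, mul_one]
    refine ⟨hNlt, by omega, by omega, by omega⟩

private theorem lastP_xor (B y : ℕ) (hy : y < 2 ^ (B + 1)) : y ^^^ (16 * 2 ^ B) = y + 16 * 2 ^ B := by
  have h16 : 16 * 2 ^ B = 2 ^ (B + 4) := by rw [pow_add]; ring
  have hy4 : y < 2 ^ (B + 4) := lt_of_lt_of_le hy (Nat.pow_le_pow_right (by norm_num) (by omega))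
  rw [h16]
  have h3 : y + 2 ^ (B + 4) = 2 ^ (B + 4) ||| y := by
    have h4 := Nat.two_pow_add_eq_or_of_lt hy4 1
    rw [mul_one] at h4
    rw [← h4, Nat.add_comm]
  rw [h3]
  apply Nat.eq_of_testBit_eq
  intro j
  rw [Nat.testBit_xor, Nat.testBit_or, Nat.testBit_two_pow]
  by_cases hj : B + 4 = j
  · subst hj
    rw [Nat.testBit_lt_two_pow hy4]
    simp
  · simp [hj]

theorem lastP_spec (ok : ChOK n W B r s h) (h1 : me < 32) (h2 : mo < 32) (hme : me % 2 = 0)
    (hmo : mo % 2 = 1) (e x b1 b2 : Cfg n → ℤ) (he : ∀ c, e c = 0 ∨ e c = 1)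
    (heS : ∀ c, ¬ inS me mo c → e c = 0) (hx : ∀ c, |x c| ≤ 30 * 2 ^ B)
    (hxS : ∀ c, ¬ inS me mo c → x c = 0)
    (hb1 : Adm B me mo b1) (hb2 : Adm B me mo b2) (g : ℕ) (hg : g < 2 ^ B) (P : ℕ)
    (hP : P = lastP W (n + 1) B r s me mo (pk W fun c => (e c).toNat) g
      (pk W fun c => if inS me mo c then (x c + 32 * 2 ^ B + h).toNat else 0)
      (pB W B me mo b1) (pB W B me mo b2))
    (hchk : P &&& hiM W (n + 1) (B + 1) = 0) :
    Adm B me mo (lastZ r s h g e x b1 b2) ∧ P = pB W B me mo (lastZ r s h g e x b1 b2) := by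
  obtain ⟨hn1, hn, hB1, hB, hrW, hr0, hs, hc, hh, hh2, hW3, hcf⟩ := ok
  have hW0 : 0 < W := by omega
  have hBW : 2 ^ (B + 6) ≤ 2 ^ W := Nat.pow_le_pow_right (by norm_num) hB
  have h64 : 2 ^ (B + 6) = 64 * 2 ^ B := by rw [pow_add]; ring
  have hsc := fun c : Cfg n => lastP_scal (r := r) hs hc hh2 hg (e c) (x c) (b1 c) (b2 c) (he c) (hx c)
    (hb1.lo c) (hb1.hi c) (hb2.lo c) (hb2.hi c)
  have hoff : ∀ c, ¬ inS me mo c → lastZ r s h g e x b1 b2 c = 0 := by
    intro c hcS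
    unfold lastZ
    rw [heS c hcS, hxS c hcS, hb1.supp c hcS, hb2.supp c hcS]
    have : ((r : ℤ) * 0 + r * h) / 2 ^ s = 0 := by
      apply Int.ediv_eq_zero_of_lt
      · positivity
      · rw [mul_zero, zero_add]; exact_mod_cast hh
    rw [this]
    ring
  -- packed form
  have hPk : P = pk W fun c : Cfg n =>
      ((if inS me mo c then (x c + 32 * 2 ^ B + h).toNat else 0) * r / 2 ^ s +
        ((e c).toNat * g + (if inS me mo c then 1 else 0) * (21 * 2 ^ B - r * 2 ^ (B + 5 - s))) -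
        ((if inS me mo c then (b1 c + 2 ^ B).toNat else 0) * 2 +
          (if inS me mo c then (b2 c + 2 ^ B).toNat else 0) * 2)) ^^^
        ((if inS me mo c then 1 else 0) * (16 * 2 ^ B)) := by
    rw [hP]
    unfold lastP pB
    rw [runI_eq (by omega) (by omega) h1 h2 hme hmo, pk_mul]
    rw [shP_eq hW0 s (by omega) _ (fun c => by
      split_ifs with hcS
      · calc (x c + 32 * 2 ^ B + h).toNat * r < 2 ^ (B + 6) * r :=
              Nat.mul_lt_mul_of_pos_right (hsc c).1 hr0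
          _ ≤ 2 ^ W := by rw [Nat.mul_comm]; exact hrW
      · rw [Nat.zero_mul]; positivity)]
    rw [Nat.mul_comm g, pk_mul, Nat.mul_comm (21 * 2 ^ B - r * 2 ^ (B + 5 - s)), pk_mul, pk_add, pk_add,
      Nat.mul_comm 2, pk_mul, Nat.mul_comm 2, pk_mul, pk_add, pk_sub _ _ (fun c => by
      by_cases hcS : inS me mo c
      · simp only [if_pos hcS]
        exact (hsc c).2.1
      · simp only [if_neg hcS, Nat.zero_mul, Nat.add_zero]
        exact Nat.zero_le _), Nat.mul_comm (16 * 2 ^ B), pk_mul, pk_xor _ _ (fun c => by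
      by_cases hcS : inS me mo c
      · simp only [if_pos hcS]
        have := (hsc c).2.2.1
        omega
      · simp only [if_neg hcS, heS c hcS]
        simp) (fun c => by
      split_ifs <;> omega)]
  have hlt : ∀ c : Cfg n, ((if inS me mo c then (x c + 32 * 2 ^ B + h).toNat else 0) * r / 2 ^ s +
        ((e c).toNat * g + (if inS me mo c then 1 else 0) * (21 * 2 ^ B - r * 2 ^ (B + 5 - s))) -
        ((if inS me mo c then (b1 c + 2 ^ B).toNat else 0) * 2 +
          (if inS me mo c then (b2 c + 2 ^ B).toNat else 0) * 2)) ^^^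
        ((if inS me mo c then 1 else 0) * (16 * 2 ^ B)) < 2 ^ W := by
    intro c
    apply Nat.xor_lt_two_pow
    · by_cases hcS : inS me mo c
      · simp only [if_pos hcS]
        have := (hsc c).2.2.1
        omega
      · simp only [if_neg hcS, heS c hcS]
        simp
    · split_ifs <;> omega
  rw [hPk, hiM_eq hW0] at hchk
  have hck := pk_check (B + 1) (by omega) _ hlt hchk
  have hval : ∀ c, inS me mo c → lastZ r s h g e x b1 b2 c + 2 ^ B =
      (((if inS me mo c then (x c + 32 * 2 ^ B + h).toNat else 0) * r / 2 ^ s +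
        ((e c).toNat * g + (if inS me mo c then 1 else 0) * (21 * 2 ^ B - r * 2 ^ (B + 5 - s))) -
        ((if inS me mo c then (b1 c + 2 ^ B).toNat else 0) * 2 +
          (if inS me mo c then (b2 c + 2 ^ B).toNat else 0) * 2)) ^^^
        ((if inS me mo c then 1 else 0) * (16 * 2 ^ B)) : ℕ) := by
    intro c hcS
    have h3 := hck c
    simp only [if_pos hcS, Nat.one_mul] at h3 ⊢
    have h4 := (hsc c).2.2.2
    rw [Nat.one_mul] at h4
    generalize (x c + 32 * 2 ^ B + h).toNat * r / 2 ^ s +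
        ((e c).toNat * g + (21 * 2 ^ B - r * 2 ^ (B + 5 - s))) -
        ((b1 c + 2 ^ B).toNat * 2 + (b2 c + 2 ^ B).toNat * 2) = Q at h3 h4 ⊢
    generalize hy : Q ^^^ (16 * 2 ^ B) = y at h3 ⊢
    have hQ : Q = y + 16 * 2 ^ B := by
      rw [← lastP_xor B y h3, ← hy, Nat.xor_assoc, Nat.xor_self, Nat.xor_zero]
    rw [hQ] at h4
    unfold lastZ
    push_cast at h4
    linarith
  refine ⟨⟨hoff, ?_, ?_⟩, ?_⟩
  · intro c
    by_cases hcS : inS me mo c
    · have h3 := hval c hcS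
      have h5 : (0 : ℤ) ≤ lastZ r s h g e x b1 b2 c + 2 ^ B := by
        rw [h3]; exact Int.natCast_nonneg _
      linarith
    · rw [hoff c hcS]
      have : (0 : ℤ) < 2 ^ B := by positivity
      linarith
  · intro c
    by_cases hcS : inS me mo c
    · have h3 := hval c hcS
      have h5 : lastZ r s h g e x b1 b2 c + 2 ^ B < 2 ^ (B + 1) := by
        rw [h3]; exact_mod_cast hck c
      rw [pow_succ] at h5
      linarith
    · rw [hoff c hcS]
      positivity
  · rw [hPk]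
    unfold pB
    congr 1
    funext c
    by_cases hcS : inS me mo c
    · rw [if_pos hcS, hval c hcS, Int.toNat_natCast]
      simp only [if_pos hcS]
    · simp only [if_neg hcS, heS c hcS]
      simp

end Crest.Agent.R347
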