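import Crest.Agent.R347.NB1

/-!
# Row 347 numerics, piece NB2: symmetries of `Ex` (from those of `KN`)
-/

set_option autoImplicit false

open Crest.MathPhysics.SpinChain Matrix

namespace Crest.Agent.R347

/-- matrices invariant under a permutation -/
private def invSub {X : Type} [Fintype X] [DecidableEq X] (τ : X ≃ X) :
    Subalgebra ℝ (Matrix X X ℝ) where
  carrier := {M | ∀ x y, M (τ x) (τ y) = M x y}
  mul_mem' := by
    intro a b ha hb x y
    rw [mul_apply, mul_apply, ← Equiv.sum_comp τ]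
    exact Finset.sum_congr rfl fun z _ => by rw [ha, hb]
  add_mem' := by
    intro a b ha hb x y
    rw [Matrix.add_apply, Matrix.add_apply, ha, hb]
  algebraMap_mem' := by
    intro r x y
    rw [algebraMap_matrix_apply, algebraMap_matrix_apply]
    by_cases h : x = y
    · rw [if_pos h, if_pos (congrArg τ h)]
    · rw [if_neg h, if_neg (fun h' => h (τ.injective h'))]

private theorem invSub_closed {X : Type} [Fintype X] [DecidableEq X] (τ : X ≃ X) :
    IsClosed (invSub τ : Set (Matrix X X ℝ)) := by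
  have : (invSub τ : Set (Matrix X X ℝ)) = ⋂ x : X, ⋂ y : X, {M | M (τ x) (τ y) = M x y} := by
    ext M
    simp only [Set.mem_iInter]
    rfl
  rw [this]
  refine isClosed_iInter fun i => isClosed_iInter fun j => ?_
  exact isClosed_eq (continuous_id.matrix_elem _ _) (continuous_id.matrix_elem _ _)

/-- general principle -/
theorem Ex_equiv (n : ℕ) (t : ℝ) (τ : XC n ≃ XC n) (h : ∀ x y, KN n (τ x) (τ y) = KN n x y)
    (x y : XC n) : Ex n t (τ x) (τ y) = Ex n t x y := by
  have h1 : t • KR n ∈ invSub τ := by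
    intro x y
    simp only [KR, Matrix.smul_apply, Matrix.map_apply, h]
  have h2 : Ex n t ∈ invSub τ := NormedSpace.exp_mem (R := ℝ) (invSub_closed τ) h1
  exact h2 x y

private theorem Ex_inj (n : ℕ) (t : ℝ) (τ : XC n → XC n) (hτ : Function.Injective τ)
    (h : ∀ x y, KN n (τ x) (τ y) = KN n x y) (x y : XC n) : Ex n t (τ x) (τ y) = Ex n t x y :=
  Ex_equiv n t (Equiv.ofBijective τ (Finite.injective_iff_bijective.1 hτ)) h x y

theorem Ex_transl (n : ℕ) (t : ℝ) (c c' : Cfg n) (k k' s : ZMod 4) :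
    Ex n t (c, k + s) (c', k' + s) = Ex n t (c, k) (c', k') := by
  refine Ex_inj n t (fun x => (x.1, x.2 + s)) ?_ (fun x y => KN_transl n x.1 y.1 x.2 y.2 s)
    (c, k) (c', k')
  rintro ⟨a, b⟩ ⟨a', b'⟩ h
  simp only [Prod.mk.injEq, add_left_inj] at h
  rw [h.1, h.2]

theorem Ex_symm (n : ℕ) (t : ℝ) (x y : XC n) : Ex n t x y = Ex n t y x := by
  have h1 : (t • KR n).IsSymm := by
    ext x y
    simp only [KR, transpose_apply, Matrix.smul_apply, Matrix.map_apply]
    rw [KN_symm]
  have h2 : (Ex n t).IsSymm := h1.exp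
  exact (h2.apply x y).symm

private theorem flp_inj (n : ℕ) : Function.Injective (flp : Cfg n → Cfg n) := by
  intro a b h
  funext j
  have := congrFun h j
  exact Fin.rev_injective this

private theorem rvs_inj (n : ℕ) : Function.Injective (rvs : Cfg n → Cfg n) := by
  intro a b h
  funext j
  have := congrFun h (Fin.rev j)
  simpa [rvs] using this

private theorem shf_inj (n : ℕ) : Function.Injective (shf : Cfg n → Cfg n) := by
  intro a b h
  funext j
  have := congrFun h (j - 1)
  simpa [shf] using this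

theorem Ex_flp (n : ℕ) (t : ℝ) (c c' : Cfg n) (k k' : ZMod 4) :
    Ex n t (flp c, -k) (flp c', -k') = Ex n t (c, k) (c', k') := by
  refine Ex_inj n t (fun x => (flp x.1, -x.2)) ?_ (fun x y => KN_flp n x.1 y.1 x.2 y.2)
    (c, k) (c', k')
  rintro ⟨a, b⟩ ⟨a', b'⟩ h
  simp only [Prod.mk.injEq, neg_inj] at h
  rw [flp_inj n h.1, h.2]

theorem Ex_rvs (n : ℕ) (t : ℝ) (c c' : Cfg n) (k k' : ZMod 4) :
    Ex n t (rvs c, -k) (rvs c', -k') = Ex n t (c, k) (c', k') := by
  refine Ex_inj n t (fun x => (rvs x.1, -x.2)) ?_ (fun x y => KN_rvs n x.1 y.1 x.2 y.2)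
    (c, k) (c', k')
  rintro ⟨a, b⟩ ⟨a', b'⟩ h
  simp only [Prod.mk.injEq, neg_inj] at h
  rw [rvs_inj n h.1, h.2]

theorem Ex_shf (n : ℕ) (hn : 2 ≤ n) (t : ℝ) (c c' : Cfg n) (k k' : ZMod 4) :
    Ex n t (shf c, k - ((c 0 : ℕ) : ZMod 4)) (shf c', k' - ((c' 0 : ℕ) : ZMod 4)) =
      Ex n t (c, k) (c', k') := by
  refine Ex_inj n t (fun x => (shf x.1, x.2 - ((x.1 0 : ℕ) : ZMod 4))) ?_
    (fun x y => KN_shf n hn x.1 y.1 x.2 y.2) (c, k) (c', k')
  rintro ⟨a, b⟩ ⟨a', b'⟩ h
  simp only [Prod.mk.injEq] at h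
  have h1 := shf_inj n h.1
  subst h1
  simpa using h.2

theorem Ex_mul (n : ℕ) (s t : ℝ) : Ex n (s + t) = Ex n s * Ex n t := by
  unfold Ex
  rw [add_smul]
  exact Matrix.exp_add_of_commute _ _ ((Commute.refl (KR n)).smul_left s |>.smul_right t)

/-- nonnegative matrices -/
private def nnSub (X : Type) : AddSubmonoid (Matrix X X ℝ) where
  carrier := {M | ∀ x y, 0 ≤ M x y}
  zero_mem' := fun _ _ => le_rfl
  add_mem' := fun ha hb x y => add_nonneg (ha x y) (hb x y)

theorem Ex_nonneg (n : ℕ) (t : ℝ) (ht : 0 ≤ t) (x y : XC n) : 0 ≤ Ex n t x y := by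
  have h0 : t • KR n ∈ nnSub (XC n) := by
    intro x y
    simp only [KR, Matrix.smul_apply, Matrix.map_apply, smul_eq_mul]
    positivity
  have hp : ∀ k : ℕ, (t • KR n) ^ k ∈ nnSub (XC n) := by
    intro k
    induction k with
    | zero =>
      intro x y
      rw [pow_zero, one_apply]
      split_ifs <;> norm_num
    | succ k ih =>
      intro x y
      rw [pow_succ, mul_apply]
      exact Finset.sum_nonneg fun z _ => mul_nonneg (ih _ _) (h0 _ _)
  have hc : IsClosed (nnSub (XC n) : Set (Matrix (XC n) (XC n) ℝ)) := by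
    have : (nnSub (XC n) : Set (Matrix (XC n) (XC n) ℝ)) =
        ⋂ x : XC n, ⋂ y : XC n, {M | 0 ≤ M x y} := by
      ext M
      simp only [Set.mem_iInter]
      rfl
    rw [this]
    refine isClosed_iInter fun i => isClosed_iInter fun j => ?_
    exact isClosed_le continuous_const (continuous_id.matrix_elem _ _)
  have h2 : Ex n t ∈ nnSub (XC n) := by
    unfold Ex
    rw [NormedSpace.exp_eq_tsum ℝ]
    refine tsum_mem hc fun k => ?_
    intro x y
    rw [Matrix.smul_apply, smul_eq_mul]
    exact mul_nonneg (by positivity) (hp k x y)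
  exact h2 x y

/-- matrices vanishing off the blocks -/
private def blkSub {X : Type} [Fintype X] [DecidableEq X] (b : X → ℤ) :
    Subalgebra ℝ (Matrix X X ℝ) where
  carrier := {M | ∀ x y, b x ≠ b y → M x y = 0}
  mul_mem' := by
    intro p q hp hq x y h
    rw [mul_apply]
    refine Finset.sum_eq_zero fun z _ => ?_
    by_cases hz : b x = b z
    · rw [hq z y (by rw [← hz]; exact h), mul_zero]
    · rw [hp x z hz, zero_mul]
  add_mem' := by
    intro p q hp hq x y h
    rw [Matrix.add_apply, hp x y h, hq x y h, add_zero]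
  algebraMap_mem' := by
    intro r x y h
    rw [algebraMap_matrix_apply, if_neg (fun h' => h (congrArg b h'))]

/-- `Ex` vanishes between different magnetisation sectors -/
theorem Ex_mtot (n : ℕ) (t : ℝ) (x y : XC n) (h : Mtot x.1 ≠ Mtot y.1) : Ex n t x y = 0 := by
  have h1 : t • KR n ∈ blkSub (fun x : XC n => Mtot x.1) := by
    intro x y hxy
    simp only [KR, Matrix.smul_apply, Matrix.map_apply]
    rw [KN_mtot n x y hxy]
    simp
  have hc : IsClosed (blkSub (fun x : XC n => Mtot x.1) : Set (Matrix (XC n) (XC n) ℝ)) := by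
    have : (blkSub (fun x : XC n => Mtot x.1) : Set (Matrix (XC n) (XC n) ℝ)) =
        ⋂ x : XC n, ⋂ y : XC n, ⋂ _ : Mtot x.1 ≠ Mtot y.1, {M | M x y = 0} := by
      ext M
      simp only [Set.mem_iInter]
      rfl
    rw [this]
    refine isClosed_iInter fun i => isClosed_iInter fun j => isClosed_iInter fun _ => ?_
    exact isClosed_eq (continuous_id.matrix_elem _ _) continuous_const
  have h2 : Ex n t ∈ blkSub (fun x : XC n => Mtot x.1) :=
    NormedSpace.exp_mem (R := ℝ) hc h1
  exact h2 x y h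

end Crest.Agent.R347
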