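import Crest.Agent.R347.ChDefs
import Crest.Agent.R347.NB1
import Crest.Agent.R347.NB2

/-!
# Row 347, Chebyshev numerics, piece K: the embeddings into vectors on `XC n`

`KR n` has the entries of `KN n` (NDefs): for `f : XC n → ℝ`, component `k`:
`(KR f)(c, k) = diag f(c,k) + bulk hops f(.,k) + hup f(., k+1) + hdn f(., k-1)`.
`u02`, `u1`: `Ex n t` commutes with the shift of the winding number (NB files: `Ex` entries depend on the
difference of the winding numbers) and `X02 z (ind0 A)`, `X1 (ind1 A)` are combinations of shifts of the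
indicator of `A × {0}`; `Ex` is symmetric.
-/

set_option autoImplicit false
set_option linter.unusedSimpArgs false

open Crest.MathPhysics.SpinChain Matrix

namespace Crest.Agent.R347

variable {n : ℕ}

theorem chk_sum_aux (k0 : ZMod 4) (P : Cfg n → Prop) [DecidablePred P] (f : XC n → ℝ) :
    ∑ y : XC n, (if y.2 = k0 ∧ P y.1 then (1 : ℝ) else 0) * f y =
      ∑ c, if P c then f (c, k0) else 0 := by
  rw [Fintype.sum_prod_type]
  refine Finset.sum_congr rfl fun c _ => ?_
  by_cases h : P c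
  · simp [h]
  · simp [h]

theorem KR_apply (f : XC n → ℝ) (c : Cfg n) (k : ZMod 4) :
    (KR n *ᵥ f) (c, k) = blk (fun c => f (c, k)) c +
      (hup (fun c => f (c, k + 1)) c + hdn (fun c => f (c, k - 1)) c) := by
  have e : ∀ y : XC n, KR n (c, k) y * f y =
      (if y.2 = k ∧ y.1 = c then (1 : ℝ) else 0) * (diagK c * f y) +
      (∑ j : Fin n, ((if y.2 = k ∧ Hop (Fin.castSucc j) (Fin.succ j) c y.1 then (1 : ℝ) else 0) * f y +
        (if y.2 = k ∧ Hop (Fin.succ j) (Fin.castSucc j) c y.1 then (1 : ℝ) else 0) * f y)) +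
      ((if y.2 = k + 1 ∧ Hop 0 (Fin.last n) c y.1 then (1 : ℝ) else 0) * f y +
        (if y.2 = k - 1 ∧ Hop (Fin.last n) 0 c y.1 then (1 : ℝ) else 0) * f y) := by
    intro y
    obtain ⟨c', k'⟩ := y
    have e1 : (KR n (c, k) (c', k') : ℝ) = (KN n (c, k) (c', k') : ℝ) := rfl
    have e2 : (k = k' + 1) ↔ (k' = k - 1) := by
      constructor
      · intro h; rw [h]; ring
      · intro h; rw [h]; ring
    have e3 : ((c, k) = (c', k')) ↔ (k' = k ∧ c' = c) := by
      rw [Prod.mk.injEq]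
      constructor
      · rintro ⟨h1, h2⟩; exact ⟨h2.symm, h1.symm⟩
      · rintro ⟨h1, h2⟩; exact ⟨h2.symm, h1.symm⟩
    rw [e1]
    unfold KN
    simp only [Matrix.of_apply, e2, e3, eq_comm (a := k) (b := k')]
    push_cast
    rw [add_mul, add_mul, Finset.sum_mul]
    congr 1
    · congr 1
      · split_ifs <;> simp
      · refine Finset.sum_congr rfl fun j _ => ?_
        rw [add_mul]
    · rw [add_mul]
  unfold Matrix.mulVec dotProduct
  rw [Finset.sum_congr rfl fun y _ => e y]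
  rw [Finset.sum_add_distrib, Finset.sum_add_distrib, Finset.sum_add_distrib, Finset.sum_comm]
  rw [chk_sum_aux, chk_sum_aux]
  rw [chk_sum_aux k (fun c' => c' = c) (fun y => diagK c * f y)]
  unfold blk bhop hup hdn
  congr 1
  congr 1
  · simp
  · refine Finset.sum_congr rfl fun j _ => ?_
    rw [Finset.sum_add_distrib, chk_sum_aux, chk_sum_aux]

theorem blk_neg (u : Cfg n → ℝ) (c : Cfg n) : blk (fun c => -u c) c = -blk u c := by
  unfold blk bhop
  rw [mul_neg, neg_add, ← Finset.sum_neg_distrib]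
  congr 1
  refine Finset.sum_congr rfl fun j _ => ?_
  rw [neg_add, ← Finset.sum_neg_distrib, ← Finset.sum_neg_distrib]
  congr 1 <;> · refine Finset.sum_congr rfl fun y _ => ?_
                split_ifs <;> simp

theorem hup_neg (u : Cfg n → ℝ) (c : Cfg n) : hup (fun c => -u c) c = -hup u c := by
  unfold hup
  rw [← Finset.sum_neg_distrib]
  refine Finset.sum_congr rfl fun y _ => ?_
  split_ifs <;> simp

theorem hdn_neg (u : Cfg n → ℝ) (c : Cfg n) : hdn (fun c => -u c) c = -hdn u c := by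
  unfold hdn
  rw [← Finset.sum_neg_distrib]
  refine Finset.sum_congr rfl fun y _ => ?_
  split_ifs <;> simp

theorem KR_X02 (z : Bool) (u : Cfg n → ℝ) : KR n *ᵥ X02 z u = X02 z (K02 z u) := by
  funext x
  obtain ⟨c, k⟩ := x
  rw [KR_apply]
  cases z
  · simp [X02, K02]
  · have hk : k = 0 ∨ k = 1 ∨ k = 2 ∨ k = 3 := by revert k; decide
    rcases hk with rfl | rfl | rfl | rfl
    · have h1 : ((0 : ZMod 4) + 1 = 1 ∨ (0 : ZMod 4) + 1 = 3) := by decide
      have h2 : ((0 : ZMod 4) - 1 = 1 ∨ (0 : ZMod 4) - 1 = 3) := by decide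
      have h3 : ¬ ((0 : ZMod 4) = 1 ∨ (0 : ZMod 4) = 3) := by decide
      simp only [X02, K02, h1, h2, h3, and_true, and_false, if_true, if_false, hup_neg, hdn_neg]
      ring
    · have h1 : ¬ ((1 : ZMod 4) + 1 = 1 ∨ (1 : ZMod 4) + 1 = 3) := by decide
      have h2 : ¬ ((1 : ZMod 4) - 1 = 1 ∨ (1 : ZMod 4) - 1 = 3) := by decide
      simp only [X02, K02, h1, h2, or_true, true_or, and_true, and_false, if_true, if_false, blk_neg]
      ring
    · have h1 : ((2 : ZMod 4) + 1 = 1 ∨ (2 : ZMod 4) + 1 = 3) := by decide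
      have h2 : ((2 : ZMod 4) - 1 = 1 ∨ (2 : ZMod 4) - 1 = 3) := by decide
      have h3 : ¬ ((2 : ZMod 4) = 1 ∨ (2 : ZMod 4) = 3) := by decide
      simp only [X02, K02, h1, h2, h3, and_true, and_false, if_true, if_false, hup_neg, hdn_neg]
      ring
    · have h1 : ¬ ((3 : ZMod 4) + 1 = 1 ∨ (3 : ZMod 4) + 1 = 3) := by decide
      have h2 : ¬ ((3 : ZMod 4) - 1 = 1 ∨ (3 : ZMod 4) - 1 = 3) := by decide
      simp only [X02, K02, h1, h2, or_true, true_or, and_true, and_false, if_true, if_false, blk_neg]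
      ring

theorem X1_zero (u : Cfg n × Bool → ℝ) (c : Cfg n) : X1 u (c, 0) = u (c, false) := by
  simp [X1]

theorem X1_one (u : Cfg n × Bool → ℝ) (c : Cfg n) : X1 u (c, 1) = u (c, true) := by
  have h1 : ¬ ((1 : ZMod 4) = 0) := by decide
  simp only [X1, h1, if_false, if_true]

theorem X1_two (u : Cfg n × Bool → ℝ) (c : Cfg n) : X1 u (c, 2) = -u (c, false) := by
  have h1 : ¬ ((2 : ZMod 4) = 0) := by decide
  have h2 : ¬ ((2 : ZMod 4) = 1) := by decide
  simp only [X1, h1, h2, if_false, if_true]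

theorem X1_three (u : Cfg n × Bool → ℝ) (c : Cfg n) : X1 u (c, 3) = -u (c, true) := by
  have h1 : ¬ ((3 : ZMod 4) = 0) := by decide
  have h2 : ¬ ((3 : ZMod 4) = 1) := by decide
  have h3 : ¬ ((3 : ZMod 4) = 2) := by decide
  simp only [X1, h1, h2, h3, if_false]

theorem KR_X1 (u : Cfg n × Bool → ℝ) : KR n *ᵥ X1 u = X1 (K1 u) := by
  funext x
  obtain ⟨c, k⟩ := x
  rw [KR_apply]
  have hk : k = 0 ∨ k = 1 ∨ k = 2 ∨ k = 3 := by revert k; decide
  rcases hk with rfl | rfl | rfl | rfl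
  · rw [show (0 : ZMod 4) + 1 = 1 by decide, show (0 : ZMod 4) - 1 = 3 by decide]
    simp only [X1_zero, X1_one, X1_two, X1_three, hup_neg, hdn_neg, blk_neg, K1]
    simp
    ring
  · rw [show (1 : ZMod 4) + 1 = 2 by decide, show (1 : ZMod 4) - 1 = 0 by decide]
    simp only [X1_zero, X1_one, X1_two, X1_three, hup_neg, hdn_neg, blk_neg, K1]
    simp
    ring
  · rw [show (2 : ZMod 4) + 1 = 3 by decide, show (2 : ZMod 4) - 1 = 1 by decide]
    simp only [X1_zero, X1_one, X1_two, X1_three, hup_neg, hdn_neg, blk_neg, K1]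
    simp
    ring
  · rw [show (3 : ZMod 4) + 1 = 0 by decide, show (3 : ZMod 4) - 1 = 2 by decide]
    simp only [X1_zero, X1_one, X1_two, X1_three, hup_neg, hdn_neg, blk_neg, K1]
    simp
    ring

theorem sum_z4 (F : ZMod 4 → ℝ) : ∑ k : ZMod 4, F k = F 0 + F 1 + F 2 + F 3 :=
  Fin.sum_univ_four F

theorem n2_X02 (z : Bool) (u : Cfg n → ℝ) : ChA.n2 (X02 z u) = 2 * ChA.n2 u := by
  have h : ∑ x : XC n, X02 z u x * X02 z u x = 4 * ∑ c, u c * u c := by
    rw [Fintype.sum_prod_type, Finset.mul_sum]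
    refine Finset.sum_congr rfl fun c _ => ?_
    have h1 : ∀ k : ZMod 4, X02 z u (c, k) * X02 z u (c, k) = u c * u c := by
      intro k
      unfold X02
      split_ifs <;> ring
    rw [Finset.sum_congr rfl fun k _ => h1 k, sum_z4]
    ring
  unfold ChA.n2
  rw [h, Real.sqrt_mul (by norm_num)]
  congr 1
  rw [show (4 : ℝ) = 2 ^ 2 by norm_num, Real.sqrt_sq (by norm_num)]

theorem n2_X1 (u : Cfg n × Bool → ℝ) : ChA.n2 (X1 u) = Real.sqrt 2 * ChA.n2 u := by
  have h : ∑ x : XC n, X1 u x * X1 u x = 2 * ∑ x, u x * u x := by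
    rw [Fintype.sum_prod_type, Fintype.sum_prod_type, Finset.mul_sum]
    refine Finset.sum_congr rfl fun c _ => ?_
    rw [sum_z4, X1_zero, X1_one, X1_two, X1_three, Fintype.sum_bool]
    ring
  unfold ChA.n2
  rw [h, Real.sqrt_mul (by norm_num)]

/-- `Ex` on a product vector -/
theorem Ex_prod (A : Finset (Cfg n)) (g : ZMod 4 → ℝ) (f : XC n → ℝ)
    (hf : ∀ c k, f (c, k) = if c ∈ A then g k else 0) (c : Cfg n) (k : ZMod 4) :
    (Ex n (17 / 4) *ᵥ f) (c, k) =
      g 0 * vA n A (c, k) + g 1 * vA n A (c, k - 1) + g 2 * vA n A (c, k - 2) +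
        g 3 * vA n A (c, k - 3) := by
  have e : ∀ (c' : Cfg n) (k' : ZMod 4),
      Ex n (17 / 4) (c, k) (c', k') = Ex n (17 / 4) (c', 0) (c, k - k') := by
    intro c' k'
    have h := Ex_transl n (17 / 4) c' c 0 (k - k') k'
    rw [zero_add, sub_add_cancel] at h
    rw [← h, Ex_symm]
  have h1 : (Ex n (17 / 4) *ᵥ f) (c, k) = ∑ k' : ZMod 4, g k' * vA n A (c, k - k') := by
    unfold Matrix.mulVec dotProduct
    rw [Fintype.sum_prod_type, Finset.sum_comm]
    refine Finset.sum_congr rfl fun k' _ => ?_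
    unfold vA
    rw [Finset.mul_sum, ← Finset.sum_filter_add_sum_filter_not Finset.univ (fun c' => c' ∈ A)]
    have e2 : ∑ c' ∈ Finset.univ.filter (fun c' => ¬ c' ∈ A),
        Ex n (17 / 4) (c, k) (c', k') * f (c', k') = 0 := by
      refine Finset.sum_eq_zero fun c' hc' => ?_
      rw [hf, if_neg (Finset.mem_filter.1 hc').2, mul_zero]
    rw [e2, add_zero, Finset.filter_mem_eq_inter, Finset.univ_inter]
    refine Finset.sum_congr rfl fun c' hc' => ?_
    rw [hf, if_pos hc']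
    beta_reduce
    rw [e, mul_comm]
  rw [h1, sum_z4, sub_zero]

theorem Ex_X02 (z : Bool) (A : Finset (Cfg n)) :
    Ex n (17 / 4) *ᵥ X02 z (ind0 A) = X02 z (u02 n z A) := by
  funext x
  obtain ⟨c, k⟩ := x
  rw [Ex_prod A (fun k => if z = true ∧ (k = 1 ∨ k = 3) then -1 else 1) (X02 z (ind0 A)) ?_ c k]
  · have hk : k = 0 ∨ k = 1 ∨ k = 2 ∨ k = 3 := by revert k; decide
    have a01 : ¬ ((0 : ZMod 4) = 1) := by decide
    have a03 : ¬ ((0 : ZMod 4) = 3) := by decide
    have a21 : ¬ ((2 : ZMod 4) = 1) := by decide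
    have a23 : ¬ ((2 : ZMod 4) = 3) := by decide
    have a31 : ¬ ((3 : ZMod 4) = 1) := by decide
    rcases hk with rfl | rfl | rfl | rfl
    · rw [show (0 : ZMod 4) - 1 = 3 by decide, show (0 : ZMod 4) - 2 = 2 by decide,
        show (0 : ZMod 4) - 3 = 1 by decide]
      cases z <;> simp [X02, u02, a01, a03, a21, a23, a31] <;> ring
    · rw [show (1 : ZMod 4) - 1 = 0 by decide, show (1 : ZMod 4) - 2 = 3 by decide,
        show (1 : ZMod 4) - 3 = 2 by decide]
      cases z <;> simp [X02, u02, a01, a03, a21, a23, a31] <;> ring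
    · rw [show (2 : ZMod 4) - 1 = 1 by decide, show (2 : ZMod 4) - 2 = 0 by decide,
        show (2 : ZMod 4) - 3 = 3 by decide]
      cases z <;> simp [X02, u02, a01, a03, a21, a23, a31] <;> ring
    · rw [show (3 : ZMod 4) - 1 = 2 by decide, show (3 : ZMod 4) - 2 = 1 by decide,
        show (3 : ZMod 4) - 3 = 0 by decide]
      cases z <;> simp [X02, u02, a01, a03, a21, a23, a31] <;> ring
  · intro c k
    unfold X02 ind0
    simp only
    split_ifs <;> simp_all

theorem Ex_X1 (A : Finset (Cfg n)) : Ex n (17 / 4) *ᵥ X1 (ind1 A) = X1 (u1 n A) := by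
  funext x
  obtain ⟨c, k⟩ := x
  have a01 : ¬ ((0 : ZMod 4) = 1) := by decide
  have a02 : ¬ ((0 : ZMod 4) = 2) := by decide
  have a10 : ¬ ((1 : ZMod 4) = 0) := by decide
  have a12 : ¬ ((1 : ZMod 4) = 2) := by decide
  have a20 : ¬ ((2 : ZMod 4) = 0) := by decide
  have a21 : ¬ ((2 : ZMod 4) = 1) := by decide
  have a30 : ¬ ((3 : ZMod 4) = 0) := by decide
  have a31 : ¬ ((3 : ZMod 4) = 1) := by decide
  have a32 : ¬ ((3 : ZMod 4) = 2) := by decide
  rw [Ex_prod A (fun k => if k = 0 then 1 else if k = 2 then -1 else 0) (X1 (ind1 A)) ?_ c k]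
  · have hk : k = 0 ∨ k = 1 ∨ k = 2 ∨ k = 3 := by revert k; decide
    rcases hk with rfl | rfl | rfl | rfl
    · rw [show (0 : ZMod 4) - 1 = 3 by decide, show (0 : ZMod 4) - 2 = 2 by decide,
        show (0 : ZMod 4) - 3 = 1 by decide, X1_zero]
      simp [u1, a01, a02, a10, a12, a20, a21, a30, a31, a32] <;> ring
    · rw [show (1 : ZMod 4) - 1 = 0 by decide, show (1 : ZMod 4) - 2 = 3 by decide,
        show (1 : ZMod 4) - 3 = 2 by decide, X1_one]
      simp [u1, a01, a02, a10, a12, a20, a21, a30, a31, a32] <;> ring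
    · rw [show (2 : ZMod 4) - 1 = 1 by decide, show (2 : ZMod 4) - 2 = 0 by decide,
        show (2 : ZMod 4) - 3 = 3 by decide, X1_two]
      simp [u1, a01, a02, a10, a12, a20, a21, a30, a31, a32] <;> ring
    · rw [show (3 : ZMod 4) - 1 = 2 by decide, show (3 : ZMod 4) - 2 = 1 by decide,
        show (3 : ZMod 4) - 3 = 0 by decide, X1_three]
      simp [u1, a01, a02, a10, a12, a20, a21, a30, a31, a32] <;> ring
  · intro c k
    have hk : k = 0 ∨ k = 1 ∨ k = 2 ∨ k = 3 := by revert k; decide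
    rcases hk with rfl | rfl | rfl | rfl
    · rw [X1_zero]; simp [ind1]
    · rw [X1_one]; simp [ind1, a10, a12]
    · rw [X1_two]; by_cases h : c ∈ A <;> simp [ind1, a20, h]
    · rw [X1_three]; simp [ind1, a30, a32]

/-- linearity -/
theorem X02_lin (z : Bool) (a : ℝ) (u v : Cfg n → ℝ) :
    X02 z (u - a • v) = X02 z u - a • X02 z v := by
  funext x
  simp only [X02, Pi.sub_apply, Pi.smul_apply, smul_eq_mul]
  split_ifs <;> ring

theorem X1_lin (a : ℝ) (u v : Cfg n × Bool → ℝ) : X1 (u - a • v) = X1 u - a • X1 v := by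
  funext x
  simp only [X1, Pi.sub_apply, Pi.smul_apply, smul_eq_mul]
  split_ifs <;> ring

end Crest.Agent.R347
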