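import Crest.Agent.R347.NB3

/-!
# Row 347 numerics, piece NB4: runs (sets `A` of start configurations with distinct magnetisations)

`vA n A = ∑_(c∈A) vA n {c}`, and `vA n {c} (c', k) = 0` unless `Mtot c' = Mtot c` (`Ex_mtot`), so products
`vA n A (c',·) vA n A (c',·)` have no cross terms; class: `Mtot c = (n+1) - ∑ c_j` and the number of sites with
`c_j ≠ 1` has the parity of `Mtot c`, so `qcl c = 1 ↔ ¬ (Even (Mtot c) ↔ Even (n+1))`.  For the flipped sums only `c ∈ A` with `Mtot c = 0`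
contribute on both sides (`Mtot (flp c) = - Mtot c`).
-/

set_option autoImplicit false

open Crest.MathPhysics.SpinChain Matrix

namespace Crest.Agent.R347

/-- combination of the sums of class `q` -/
noncomputable def combq (k : ZMod 4) (e : ℕ → ℝ) (q : ℕ) : ℝ :=
  e (5 * q) + e (5 * q + 1) + (if k = 0 then 2 * e (5 * q + 2)
    else if k = 2 then -2 * e (5 * q + 2) else -4 * (e (5 * q + 3) + e (5 * q + 4)))

/-- sign of the class `q` -/
def sgq (n : ℕ) (ε : Bool) (q : ℕ) : ℝ := if ε ∧ (n + 1 + q) % 2 = 1 then -1 else 1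

private theorem nb4_zero {n : ℕ} (c c' : Cfg n) (k : ZMod 4) (h : Mtot c ≠ Mtot c') :
    vA n {c} (c', k) = 0 := by
  unfold vA
  rw [Finset.sum_singleton]
  exact Ex_mtot n _ (c, 0) (c', k) h

private theorem nb4_none {n : ℕ} (A : Finset (Cfg n)) (c' : Cfg n) (k : ZMod 4)
    (h : ∀ c ∈ A, Mtot c ≠ Mtot c') : vA n A (c', k) = 0 := by
  unfold vA
  exact Finset.sum_eq_zero fun c hc => Ex_mtot n _ (c, 0) (c', k) (h c hc)

private theorem nb4_eq {n : ℕ} (A : Finset (Cfg n))
    (hA : ∀ c ∈ A, ∀ c' ∈ A, Mtot c = Mtot c' → c = c') (c0 c' : Cfg n) (h0 : c0 ∈ A)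
    (hM : Mtot c0 = Mtot c') (k : ZMod 4) : vA n A (c', k) = vA n {c0} (c', k) := by
  unfold vA
  rw [Finset.sum_singleton, Finset.sum_eq_single c0]
  · intro c hc hne
    refine Ex_mtot n _ (c, 0) (c', k) fun e => hne ?_
    exact hA c hc c0 h0 (e.trans hM.symm)
  · intro h; exact absurd h0 h

private theorem quad_congr {n : ℕ} (k : ZMod 4) (v w : XC n → ℝ) (c' : Cfg n)
    (h : ∀ k', v (c', k') = w (c', k')) : quad k v c' = quad k w c' := by
  unfold quad
  rw [h 0, h 1, h 2, h 3]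

private theorem quad_zero {n : ℕ} (k : ZMod 4) (v : XC n → ℝ) (c' : Cfg n)
    (h : ∀ k', v (c', k') = 0) : quad k v c' = 0 := by
  unfold quad
  rw [h 0, h 1, h 2, h 3]
  split_ifs <;> ring

private theorem mtot_parity {n : ℕ} (c : Cfg n) :
    Even (Mtot c) ↔ Even (n + 1 + qcl c) := by
  have h1 : ∀ j : Fin (n + 1), Even ((1 - ((c j : ℕ) : ℤ)) - (1 + if c j = 1 then 1 else 0)) := by
    intro j
    generalize c j = x
    fin_cases x <;> decide
  have h2 : Even (∑ j : Fin (n + 1), ((1 - ((c j : ℕ) : ℤ)) - (1 + if c j = 1 then 1 else 0))) := by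
    refine Finset.sum_induction _ Even (fun a b ha hb => ha.add hb) (by simp) (fun j _ => h1 j)
  rw [Finset.sum_sub_distrib] at h2
  have h3 : ∑ j : Fin (n + 1), ((1 : ℤ) + if c j = 1 then 1 else 0) =
      (n + 1 : ℤ) + ((Finset.univ.filter fun j => c j = 1).card : ℤ) := by
    rw [Finset.sum_add_distrib, Finset.sum_boole]
    simp
  rw [h3] at h2
  have h4 : Even (Mtot c) ↔ Even ((n + 1 : ℤ) + ((Finset.univ.filter fun j => c j = 1).card : ℤ)) := by
    have := Int.even_sub.mp h2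
    exact this
  rw [h4]
  unfold qcl
  rw [← Int.even_coe_nat]
  push_cast
  rw [Int.even_add, Int.even_add (m := (n : ℤ) + 1)]
  have : Even (((Finset.univ.filter fun j => c j = 1).card : ℤ)) ↔
      Even (((Finset.univ.filter fun j => c j = 1).card : ℤ) % 2) := by
    rw [Int.even_iff, Int.even_iff, Int.emod_emod]
  rw [this]

private theorem sgM_eq_sgq {n : ℕ} (ε : Bool) (c : Cfg n) : sgM ε c = sgq n ε (qcl c) := by
  unfold sgM sgq
  have h : (¬ Even (Mtot c)) ↔ (n + 1 + qcl c) % 2 = 1 := by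
    rw [mtot_parity, Nat.not_even_iff]
  simp only [h]

private theorem comb0 {n : ℕ} (k : ZMod 4) (v : XC n → ℝ) :
    combq k (exq n v) 0 = ∑ c : Cfg n, if qcl c = 0 then quad k v c else 0 := by
  have e0 : exq n v 0 = ∑ c : Cfg n, if qcl c = 0 then (v (c, 0) + v (c, 2)) * (v (c, 0) + v (c, 2)) else 0 := rfl
  have e1 : exq n v 1 = ∑ c : Cfg n, if qcl c = 0 then (v (c, 1) + v (c, 3)) * (v (c, 1) + v (c, 3)) else 0 := rfl
  have e2 : exq n v 2 = ∑ c : Cfg n, if qcl c = 0 then (v (c, 0) + v (c, 2)) * (v (c, 1) + v (c, 3)) else 0 := rfl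
  have e3 : exq n v 3 = ∑ c : Cfg n, if qcl c = 0 then v (c, 0) * v (c, 2) else 0 := rfl
  have e4 : exq n v 4 = ∑ c : Cfg n, if qcl c = 0 then v (c, 1) * v (c, 3) else 0 := rfl
  unfold combq
  simp only [mul_zero, zero_add]
  rw [e0, e1, e2, e3, e4]
  split_ifs with h1 h2
  · rw [Finset.mul_sum, ← Finset.sum_add_distrib, ← Finset.sum_add_distrib]
    refine Finset.sum_congr rfl fun c _ => ?_
    unfold quad
    rw [if_pos h1]
    split_ifs <;> ring
  · rw [Finset.mul_sum, ← Finset.sum_add_distrib, ← Finset.sum_add_distrib]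
    refine Finset.sum_congr rfl fun c _ => ?_
    unfold quad
    rw [if_neg h1, if_pos h2]
    split_ifs <;> ring
  · rw [mul_add, Finset.mul_sum, Finset.mul_sum, ← Finset.sum_add_distrib,
      ← Finset.sum_add_distrib, ← Finset.sum_add_distrib]
    refine Finset.sum_congr rfl fun c _ => ?_
    unfold quad
    rw [if_neg h1, if_neg h2]
    split_ifs <;> ring

private theorem comb1 {n : ℕ} (k : ZMod 4) (v : XC n → ℝ) :
    combq k (exq n v) 1 = ∑ c : Cfg n, if qcl c = 1 then quad k v c else 0 := by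
  have e0 : exq n v 5 = ∑ c : Cfg n, if qcl c = 1 then (v (c, 0) + v (c, 2)) * (v (c, 0) + v (c, 2)) else 0 := rfl
  have e1 : exq n v 6 = ∑ c : Cfg n, if qcl c = 1 then (v (c, 1) + v (c, 3)) * (v (c, 1) + v (c, 3)) else 0 := rfl
  have e2 : exq n v 7 = ∑ c : Cfg n, if qcl c = 1 then (v (c, 0) + v (c, 2)) * (v (c, 1) + v (c, 3)) else 0 := rfl
  have e3 : exq n v 8 = ∑ c : Cfg n, if qcl c = 1 then v (c, 0) * v (c, 2) else 0 := rfl
  have e4 : exq n v 9 = ∑ c : Cfg n, if qcl c = 1 then v (c, 1) * v (c, 3) else 0 := rfl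
  unfold combq
  simp only [mul_one, Nat.reduceAdd]
  rw [e0, e1, e2, e3, e4]
  split_ifs with h1 h2
  · rw [Finset.mul_sum, ← Finset.sum_add_distrib, ← Finset.sum_add_distrib]
    refine Finset.sum_congr rfl fun c _ => ?_
    unfold quad
    rw [if_pos h1]
    split_ifs <;> ring
  · rw [Finset.mul_sum, ← Finset.sum_add_distrib, ← Finset.sum_add_distrib]
    refine Finset.sum_congr rfl fun c _ => ?_
    unfold quad
    rw [if_neg h1, if_pos h2]
    split_ifs <;> ring
  · rw [mul_add, Finset.mul_sum, Finset.mul_sum, ← Finset.sum_add_distrib,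
      ← Finset.sum_add_distrib, ← Finset.sum_add_distrib]
    refine Finset.sum_congr rfl fun c _ => ?_
    unfold quad
    rw [if_neg h1, if_neg h2]
    split_ifs <;> ring

theorem run_diag {n : ℕ} (k : ZMod 4) (ε : Bool) (A : Finset (Cfg n))
    (hA : ∀ c ∈ A, ∀ c' ∈ A, Mtot c = Mtot c' → c = c') :
    ∑ c ∈ A, sgM ε c * ∑ j : ZMod 4, chiR k j * Ex n (17 / 2) (c, 0) (c, j) =
      sgq n ε 0 * combq k (exq n (vA n A)) 0 + sgq n ε 1 * combq k (exq n (vA n A)) 1 := by
  have h1 : ∑ c ∈ A, sgM ε c * ∑ j : ZMod 4, chiR k j * Ex n (17 / 2) (c, 0) (c, j) =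
      ∑ c' : Cfg n, ∑ c ∈ A, sgM ε c * quad k (vA n {c}) c' := by
    rw [Finset.sum_comm]
    refine Finset.sum_congr rfl fun c _ => ?_
    rw [diag_quad, Finset.mul_sum]
  have h2 : ∀ c' : Cfg n, ∑ c ∈ A, sgM ε c * quad k (vA n {c}) c' =
      sgq n ε (qcl c') * quad k (vA n A) c' := by
    intro c'
    by_cases h : ∃ c0 ∈ A, Mtot c0 = Mtot c'
    · obtain ⟨c0, h0, hM⟩ := h
      rw [Finset.sum_eq_single c0]
      · rw [quad_congr k (vA n A) (vA n {c0}) c' (fun k' => nb4_eq A hA c0 c' h0 hM k'),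
          ← sgM_eq_sgq]
        unfold sgM
        rw [hM]
      · intro c hc hne
        rw [quad_zero, mul_zero]
        intro k'
        refine nb4_zero c c' k' fun e => hne ?_
        exact hA c hc c0 h0 (e.trans hM.symm)
      · intro h; exact absurd h0 h
    · push Not at h
      rw [quad_zero k (vA n A) c' (fun k' => nb4_none A c' k' h), mul_zero]
      refine Finset.sum_eq_zero fun c hc => ?_
      rw [quad_zero, mul_zero]
      intro k'
      exact nb4_zero c c' k' (h c hc)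
  rw [h1, Finset.sum_congr rfl (fun c' _ => h2 c'), comb0, comb1, Finset.mul_sum, Finset.mul_sum,
    ← Finset.sum_add_distrib]
  refine Finset.sum_congr rfl fun c' _ => ?_
  have h3 : qcl c' = 0 ∨ qcl c' = 1 := by
    unfold qcl
    exact Nat.mod_two_eq_zero_or_one _
  rcases h3 with h | h
  · rw [h]; simp
  · rw [h]; simp

private theorem mtot_flp {n : ℕ} (c : Cfg n) : Mtot (flp c) = - Mtot c := by
  unfold Mtot flp
  rw [← Finset.sum_neg_distrib]
  refine Finset.sum_congr rfl fun j _ => ?_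
  generalize c j = x
  fin_cases x <;> rfl

private theorem flp_flp' {n : ℕ} (c : Cfg n) : flp (flp c) = c := by
  funext j
  simp [flp]

/-- `P + s Q` -/
private noncomputable def Sx {n : ℕ} (s : ℝ) (v : XC n → ℝ) (c : Cfg n) : ℝ :=
  (v (c, 0) + v (c, 2)) + s * (v (c, 1) + v (c, 3))

private theorem Sx_congr {n : ℕ} (s : ℝ) (v w : XC n → ℝ) (c' : Cfg n)
    (h : ∀ k', v (c', k') = w (c', k')) : Sx s v c' = Sx s w c' := by
  unfold Sx
  rw [h 0, h 1, h 2, h 3]

private theorem Sx_zero {n : ℕ} (s : ℝ) (v : XC n → ℝ) (c' : Cfg n)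
    (h : ∀ k', v (c', k') = 0) : Sx s v c' = 0 := by
  unfold Sx
  rw [h 0, h 1, h 2, h 3]
  ring

theorem run_flip {n : ℕ} (A : Finset (Cfg n))
    (hA : ∀ c ∈ A, ∀ c' ∈ A, Mtot c = Mtot c' → c = c') :
    ∑ c ∈ A, ∑ j : ZMod 4, chiR (kap n 2) j * Ex n (17 / 2) (flp c, 0) (c, j) =
      exq n (vA n A) 10 + exq n (vA n A) 11 + (if Even n then 2 else -2) * exq n (vA n A) 12 := by
  obtain ⟨s, hs⟩ : ∃ s : ℝ, s = if Even n then 1 else -1 := ⟨_, rfl⟩
  have hss : s * s = 1 := by rw [hs]; split_ifs <;> norm_num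
  have h1 : ∑ c ∈ A, ∑ j : ZMod 4, chiR (kap n 2) j * Ex n (17 / 2) (flp c, 0) (c, j) =
      ∑ c' : Cfg n, ∑ c ∈ A, Sx s (vA n {c}) c' * Sx s (vA n {c}) (flp c') := by
    refine Eq.trans (b := ∑ c ∈ A, ∑ c' : Cfg n, Sx s (vA n {c}) c' * Sx s (vA n {c}) (flp c'))
      ?_ Finset.sum_comm
    refine Finset.sum_congr rfl fun c _ => ?_
    rw [flip_quad]
    simp only [← hs]
    rfl
  have h2 : ∀ c' : Cfg n, ∑ c ∈ A, Sx s (vA n {c}) c' * Sx s (vA n {c}) (flp c') =
      if Mtot c' = 0 then Sx s (vA n A) c' * Sx s (vA n A) (flp c') else 0 := by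
    intro c'
    split_ifs with hc'
    · have hf : Mtot (flp c') = Mtot c' := by rw [mtot_flp, hc', neg_zero]
      by_cases h : ∃ c0 ∈ A, Mtot c0 = Mtot c'
      · obtain ⟨c0, h0, hM⟩ := h
        rw [Finset.sum_eq_single c0]
        · rw [Sx_congr s (vA n A) (vA n {c0}) c' (fun k' => nb4_eq A hA c0 c' h0 hM k'),
            Sx_congr s (vA n A) (vA n {c0}) (flp c')
              (fun k' => nb4_eq A hA c0 (flp c') h0 (hM.trans hf.symm) k')]
        · intro c hc hne
          rw [Sx_zero, zero_mul]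
          intro k'
          refine nb4_zero c c' k' fun e => hne ?_
          exact hA c hc c0 h0 (e.trans hM.symm)
        · intro h; exact absurd h0 h
      · push Not at h
        rw [Sx_zero s (vA n A) c' (fun k' => nb4_none A c' k' h), zero_mul]
        refine Finset.sum_eq_zero fun c hc => ?_
        rw [Sx_zero, zero_mul]
        intro k'
        exact nb4_zero c c' k' (h c hc)
    · refine Finset.sum_eq_zero fun c hc => ?_
      by_cases h : Mtot c = Mtot c'
      · rw [Sx_zero s (vA n {c}) (flp c'), mul_zero]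
        intro k'
        refine nb4_zero c (flp c') k' fun e => hc' ?_
        rw [mtot_flp, h] at e
        omega
      · rw [Sx_zero s (vA n {c}) c', zero_mul]
        intro k'
        exact nb4_zero c c' k' h
  rw [h1, Finset.sum_congr rfl (fun c' _ => h2 c')]
  obtain ⟨v, hv⟩ : ∃ v, v = vA n A := ⟨_, rfl⟩
  rw [← hv]
  have e10 : exq n v 10 = ∑ c : Cfg n, if Mtot c = 0 then
      (v (c, 0) + v (c, 2)) * (v (flp c, 0) + v (flp c, 2)) else 0 := rfl
  have e11 : exq n v 11 = ∑ c : Cfg n, if Mtot c = 0 then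
      (v (c, 1) + v (c, 3)) * (v (flp c, 1) + v (flp c, 3)) else 0 := rfl
  have e12 : exq n v 12 = ∑ c : Cfg n, if Mtot c = 0 then
      (v (c, 0) + v (c, 2)) * (v (flp c, 1) + v (flp c, 3)) else 0 := rfl
  have e12' : exq n v 12 = ∑ c : Cfg n, if Mtot c = 0 then
      (v (flp c, 0) + v (flp c, 2)) * (v (c, 1) + v (c, 3)) else 0 := by
    rw [e12]
    let e : Cfg n ≃ Cfg n := ⟨flp, flp, flp_flp', flp_flp'⟩
    rw [← Equiv.sum_comp e]
    refine Finset.sum_congr rfl fun c _ => ?_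
    change (if Mtot (flp c) = 0 then
      (v (flp c, 0) + v (flp c, 2)) * (v (flp (flp c), 1) + v (flp (flp c), 3)) else 0) = _
    rw [flp_flp']
    have h0 : (Mtot (flp c) = 0) ↔ (Mtot c = 0) := by rw [mtot_flp, neg_eq_zero]
    simp only [h0]
  have h3 : (if Even n then (2 : ℝ) else -2) * exq n v 12 = s * exq n v 12 + s * exq n v 12 := by
    rw [hs]; split_ifs <;> ring
  rw [h3]
  nth_rw 2 [e12']
  rw [e12, e10, e11, Finset.mul_sum, Finset.mul_sum, ← Finset.sum_add_distrib,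
    ← Finset.sum_add_distrib, ← Finset.sum_add_distrib]
  refine Finset.sum_congr rfl fun c _ => ?_
  split_ifs with h
  · unfold Sx
    linear_combination ((v (c, 1) + v (c, 3)) * (v (flp c, 1) + v (flp c, 3))) * hss
  · ring

end Crest.Agent.R347
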