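import Crest.Agent.R347.ChDefs
import Crest.Agent.R347.NB4
import Crest.Agent.R347.ChG3

/-!
# Row 347, Chebyshev numerics, piece L: relation to the exact sums `exq`, `combq`

Pure algebra from the definitions of `exq` (NDefs) and `combq` (NB4); `run_diag`, `run_flip` (NB4) for the set
`A = {c0, c1}` with `c0` in an even and `c1` in an odd sector (so different `Mtot`); the equations for
`ε = false` and `ε = true` separate the two members (`sgM true c0 = sgq n true 0`, `sgM true c1 = sgq n true 1`,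
opposite signs).  Flip: `Ex n _ (flp c, 0) (c, j) = 0` if `Mtot c ≠ 0` (NB: `Ex_mtot`).
-/

set_option autoImplicit false

open Crest.MathPhysics.SpinChain Matrix

namespace Crest.Agent.R347

variable {n : ℕ}

theorem combq_u02 (z : Bool) (A : Finset (Cfg n)) (q : ℕ) (hq : q < 2) :
    combq (if z then 2 else 0) (exq n (vA n A)) q =
      ∑ c : Cfg n, if qcl c = q then u02 n z A c * u02 n z A c else 0 := by
  generalize hv : vA n A = v
  have hu : ∀ c, u02 n z A c = v (c, 0) + v (c, 2) + (if z then -(v (c, 1) + v (c, 3))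
      else v (c, 1) + v (c, 3)) := by
    intro c; unfold u02; rw [hv]
  have e0 : exq n v 0 = ∑ c : Cfg n, if qcl c = 0 then (v (c, 0) + v (c, 2)) * (v (c, 0) + v (c, 2)) else 0 := rfl
  have e1 : exq n v 1 = ∑ c : Cfg n, if qcl c = 0 then (v (c, 1) + v (c, 3)) * (v (c, 1) + v (c, 3)) else 0 := rfl
  have e2 : exq n v 2 = ∑ c : Cfg n, if qcl c = 0 then (v (c, 0) + v (c, 2)) * (v (c, 1) + v (c, 3)) else 0 := rfl
  have e5 : exq n v 5 = ∑ c : Cfg n, if qcl c = 1 then (v (c, 0) + v (c, 2)) * (v (c, 0) + v (c, 2)) else 0 := rfl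
  have e6 : exq n v 6 = ∑ c : Cfg n, if qcl c = 1 then (v (c, 1) + v (c, 3)) * (v (c, 1) + v (c, 3)) else 0 := rfl
  have e7 : exq n v 7 = ∑ c : Cfg n, if qcl c = 1 then (v (c, 0) + v (c, 2)) * (v (c, 1) + v (c, 3)) else 0 := rfl
  have h20 : (2 : ZMod 4) ≠ 0 := by decide
  have hq' : q = 0 ∨ q = 1 := by omega
  unfold combq
  rcases hq' with rfl | rfl
  · simp only [mul_zero, zero_add]
    rw [e0, e1, e2]
    cases z
    · simp only [Bool.false_eq_true, if_false, if_true]
      rw [Finset.mul_sum, ← Finset.sum_add_distrib, ← Finset.sum_add_distrib]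
      refine Finset.sum_congr rfl fun c _ => ?_
      rw [hu c]
      by_cases h : qcl c = 0
      · simp only [h, if_true, Bool.false_eq_true, if_false]; ring
      · simp only [h, if_false]; ring
    · simp only [if_true, h20, if_false]
      rw [Finset.mul_sum, ← Finset.sum_add_distrib, ← Finset.sum_add_distrib]
      refine Finset.sum_congr rfl fun c _ => ?_
      rw [hu c]
      by_cases h : qcl c = 0
      · simp only [h, if_true]; ring
      · simp only [h, if_false]; ring
  · simp only [mul_one, Nat.reduceAdd]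
    rw [e5, e6, e7]
    cases z
    · simp only [Bool.false_eq_true, if_false, if_true]
      rw [Finset.mul_sum, ← Finset.sum_add_distrib, ← Finset.sum_add_distrib]
      refine Finset.sum_congr rfl fun c _ => ?_
      rw [hu c]
      by_cases h : qcl c = 1
      · simp only [h, if_true, Bool.false_eq_true, if_false]; ring
      · simp only [h, if_false]; ring
    · simp only [if_true, h20, if_false]
      rw [Finset.mul_sum, ← Finset.sum_add_distrib, ← Finset.sum_add_distrib]
      refine Finset.sum_congr rfl fun c _ => ?_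
      rw [hu c]
      by_cases h : qcl c = 1
      · simp only [h, if_true]; ring
      · simp only [h, if_false]; ring

theorem combq_u1 (k : ZMod 4) (hk : k = 1 ∨ k = 3) (A : Finset (Cfg n)) (q : ℕ) (hq : q < 2) :
    combq k (exq n (vA n A)) q = ∑ c : Cfg n, if qcl c = q then
      u1 n A (c, false) * u1 n A (c, false) + u1 n A (c, true) * u1 n A (c, true) else 0 := by
  generalize hv : vA n A = v
  have huf : ∀ c, u1 n A (c, false) = v (c, 0) - v (c, 2) := by
    intro c; unfold u1; rw [hv]; simp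
  have hut : ∀ c, u1 n A (c, true) = v (c, 1) - v (c, 3) := by
    intro c; unfold u1; rw [hv]; simp
  have e0 : exq n v 0 = ∑ c : Cfg n, if qcl c = 0 then (v (c, 0) + v (c, 2)) * (v (c, 0) + v (c, 2)) else 0 := rfl
  have e1 : exq n v 1 = ∑ c : Cfg n, if qcl c = 0 then (v (c, 1) + v (c, 3)) * (v (c, 1) + v (c, 3)) else 0 := rfl
  have e3 : exq n v 3 = ∑ c : Cfg n, if qcl c = 0 then v (c, 0) * v (c, 2) else 0 := rfl
  have e4 : exq n v 4 = ∑ c : Cfg n, if qcl c = 0 then v (c, 1) * v (c, 3) else 0 := rfl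
  have e5 : exq n v 5 = ∑ c : Cfg n, if qcl c = 1 then (v (c, 0) + v (c, 2)) * (v (c, 0) + v (c, 2)) else 0 := rfl
  have e6 : exq n v 6 = ∑ c : Cfg n, if qcl c = 1 then (v (c, 1) + v (c, 3)) * (v (c, 1) + v (c, 3)) else 0 := rfl
  have e8 : exq n v 8 = ∑ c : Cfg n, if qcl c = 1 then v (c, 0) * v (c, 2) else 0 := rfl
  have e9 : exq n v 9 = ∑ c : Cfg n, if qcl c = 1 then v (c, 1) * v (c, 3) else 0 := rfl
  have hk0 : k ≠ 0 := by rcases hk with rfl | rfl <;> decide
  have hk2 : k ≠ 2 := by rcases hk with rfl | rfl <;> decide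
  have hq' : q = 0 ∨ q = 1 := by omega
  unfold combq
  rw [if_neg hk0, if_neg hk2]
  rcases hq' with rfl | rfl
  · simp only [mul_zero, zero_add]
    rw [e0, e1, e3, e4, mul_add, Finset.mul_sum, Finset.mul_sum, ← Finset.sum_add_distrib,
      ← Finset.sum_add_distrib, ← Finset.sum_add_distrib]
    refine Finset.sum_congr rfl fun c _ => ?_
    rw [huf c, hut c]
    by_cases h : qcl c = 0
    · simp only [h, if_true]; ring
    · simp only [h, if_false]; ring
  · simp only [mul_one, Nat.reduceAdd]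
    rw [e5, e6, e8, e9, mul_add, Finset.mul_sum, Finset.mul_sum, ← Finset.sum_add_distrib,
      ← Finset.sum_add_distrib, ← Finset.sum_add_distrib]
    refine Finset.sum_congr rfl fun c _ => ?_
    rw [huf c, hut c]
    by_cases h : qcl c = 1
    · simp only [h, if_true]; ring
    · simp only [h, if_false]; ring

private theorem clFlpFlp (c : Cfg n) : flp (flp c) = c := by
  funext j
  unfold flp
  rw [Fin.rev_rev]

private theorem clFlpM (c : Cfg n) : Mtot (flp c) = - Mtot c := by
  unfold Mtot flp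
  rw [← Finset.sum_neg_distrib]
  refine Finset.sum_congr rfl fun j _ => ?_
  generalize c j = x
  fin_cases x <;> rfl

theorem flip_u02 (A : Finset (Cfg n)) :
    exq n (vA n A) 10 + exq n (vA n A) 11 + (if Even n then 2 else -2) * exq n (vA n A) 12 =
      ∑ c : Cfg n, if Mtot c = 0 then
        u02 n (decide (¬ Even n)) A c * u02 n (decide (¬ Even n)) A (flp c) else 0 := by
  generalize hv : vA n A = v
  have hu : ∀ z c, u02 n z A c = v (c, 0) + v (c, 2) + (if z then -(v (c, 1) + v (c, 3))
      else v (c, 1) + v (c, 3)) := by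
    intro z c; unfold u02; rw [hv]
  have e10 : exq n v 10 = ∑ c : Cfg n, if Mtot c = 0 then
      (v (c, 0) + v (c, 2)) * (v (flp c, 0) + v (flp c, 2)) else 0 := rfl
  have e11 : exq n v 11 = ∑ c : Cfg n, if Mtot c = 0 then
      (v (c, 1) + v (c, 3)) * (v (flp c, 1) + v (flp c, 3)) else 0 := rfl
  have e12 : exq n v 12 = ∑ c : Cfg n, if Mtot c = 0 then
      (v (c, 0) + v (c, 2)) * (v (flp c, 1) + v (flp c, 3)) else 0 := rfl
  have e12' : exq n v 12 = ∑ c : Cfg n, if Mtot c = 0 then
      (v (c, 1) + v (c, 3)) * (v (flp c, 0) + v (flp c, 2)) else 0 := by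
    rw [e12]
    refine Finset.sum_bij' (fun c _ => flp c) (fun c _ => flp c) (fun _ _ => Finset.mem_univ _)
      (fun _ _ => Finset.mem_univ _) (fun c _ => clFlpFlp c) (fun c _ => clFlpFlp c) ?_
    intro c _
    rw [clFlpM, clFlpFlp]
    by_cases h : Mtot c = 0
    · rw [if_pos h, if_pos (by rw [h]; rfl)]; ring
    · rw [if_neg h, if_neg (by omega)]
  by_cases hn : Even n
  · have hz : decide (¬ Even n) = false := by simp [hn]
    rw [hz, if_pos hn]
    have : (2 : ℝ) * exq n v 12 = exq n v 12 + exq n v 12 := by ring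
    rw [this]
    nth_rewrite 2 [e12']
    rw [e10, e11, e12, ← Finset.sum_add_distrib, ← Finset.sum_add_distrib, ← Finset.sum_add_distrib]
    refine Finset.sum_congr rfl fun c _ => ?_
    rw [hu false c, hu false (flp c)]
    by_cases h : Mtot c = 0
    · simp only [h, if_true, Bool.false_eq_true, if_false]; ring
    · simp only [h, if_false]; ring
  · have hz : decide (¬ Even n) = true := by simp [hn]
    rw [hz, if_neg hn]
    have : (-2 : ℝ) * exq n v 12 = (-1) * exq n v 12 + (-1) * exq n v 12 := by ring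
    rw [this]
    nth_rewrite 2 [e12']
    rw [e10, e11, e12, Finset.mul_sum, Finset.mul_sum, ← Finset.sum_add_distrib, ← Finset.sum_add_distrib,
      ← Finset.sum_add_distrib]
    refine Finset.sum_congr rfl fun c _ => ?_
    rw [hu true c, hu true (flp c)]
    by_cases h : Mtot c = 0
    · simp only [h, if_true]; ring
    · simp only [h, if_false]; ring

private theorem clMtot (c : Cfg n) : Mtot c = ((n + 1 : ℕ) : ℤ) - (dsm c : ℤ) := by
  unfold Mtot dsm
  rw [Finset.sum_sub_distrib]
  push_cast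
  simp

private theorem clFlp (c : Cfg n) : Mtot (flp c) = - Mtot c := by
  unfold Mtot flp
  rw [← Finset.sum_neg_distrib]
  refine Finset.sum_congr rfl fun j _ => ?_
  generalize c j = x
  fin_cases x <;> rfl

private theorem clPair (c0 c1 : Cfg n) (h0 : dsm c0 % 2 = 0) (h1 : dsm c1 % 2 = 1) :
    ∀ c ∈ ({c0, c1} : Finset (Cfg n)), ∀ c' ∈ ({c0, c1} : Finset (Cfg n)),
      Mtot c = Mtot c' → c = c' := by
  intro c hc c' hc' h
  rw [clMtot, clMtot] at h
  simp only [Finset.mem_insert, Finset.mem_singleton] at hc hc'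
  rcases hc with rfl | rfl <;> rcases hc' with rfl | rfl
  · rfl
  · omega
  · omega
  · rfl

private theorem clSg0 (c0 : Cfg n) (h0 : dsm c0 % 2 = 0) (ε : Bool) : sgM ε c0 = sgq n ε 0 := by
  unfold sgM sgq
  have h : (¬ Even (Mtot c0)) ↔ (n + 1 + 0) % 2 = 1 := by
    rw [clMtot, Int.not_even_iff]
    omega
  simp only [h]

private theorem clSg1 (c1 : Cfg n) (h1 : dsm c1 % 2 = 1) (ε : Bool) : sgM ε c1 = sgq n ε 1 := by
  unfold sgM sgq
  have h : (¬ Even (Mtot c1)) ↔ (n + 1 + 1) % 2 = 1 := by
    rw [clMtot, Int.not_even_iff]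
    omega
  simp only [h]

private theorem clNe (c0 c1 : Cfg n) (h0 : dsm c0 % 2 = 0) (h1 : dsm c1 % 2 = 1) : c0 ≠ c1 := by
  rintro rfl
  omega

/-- the two members of a run separately -/
theorem diag_pair (k : ZMod 4) (c0 c1 : Cfg n) (h0 : dsm c0 % 2 = 0) (h1 : dsm c1 % 2 = 1) :
    (∑ j : ZMod 4, chiR k j * Ex n (17 / 2) (c0, 0) (c0, j) =
      combq k (exq n (vA n {c0, c1})) 0) ∧
    (∑ j : ZMod 4, chiR k j * Ex n (17 / 2) (c1, 0) (c1, j) =
      combq k (exq n (vA n {c0, c1})) 1) := by
  have hf := run_diag (n := n) k false {c0, c1} (clPair c0 c1 h0 h1)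
  have ht := run_diag (n := n) k true {c0, c1} (clPair c0 c1 h0 h1)
  rw [Finset.sum_pair (clNe c0 c1 h0 h1), clSg0 c0 h0, clSg1 c1 h1] at hf ht
  have f0 : sgq n false 0 = 1 := by simp [sgq]
  have f1 : sgq n false 1 = 1 := by simp [sgq]
  rw [f0, f1] at hf
  rcases Nat.mod_two_eq_zero_or_one (n + 1) with hn | hn
  · have t0 : sgq n true 0 = 1 := by
      unfold sgq
      rw [if_neg]
      rintro ⟨_, h⟩
      omega
    have t1 : sgq n true 1 = -1 := by
      unfold sgq
      rw [if_pos]
      exact ⟨rfl, by omega⟩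
    rw [t0, t1] at ht
    constructor <;> linarith
  · have t0 : sgq n true 0 = -1 := by
      unfold sgq
      rw [if_pos]
      exact ⟨rfl, by omega⟩
    have t1 : sgq n true 1 = 1 := by
      unfold sgq
      rw [if_neg]
      rintro ⟨_, h⟩
      omega
    rw [t0, t1] at ht
    constructor <;> linarith

/-- flip term: zero unless the digit sum is `n + 1` -/
theorem flip_zero (c : Cfg n) (hc : dsm c ≠ n + 1) :
    ∑ j : ZMod 4, chiR (kap n 2) j * Ex n (17 / 2) (flp c, 0) (c, j) = 0 := by
  refine Finset.sum_eq_zero fun j _ => ?_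
  rw [Ex_mtot n _ (flp c, 0) (c, j), mul_zero]
  change Mtot (flp c) ≠ Mtot c
  rw [clFlp, clMtot]
  omega

/-- flip term of the member of a run with digit sum `n + 1` -/
theorem flip_pair (c0 c1 : Cfg n) (h0 : dsm c0 % 2 = 0) (h1 : dsm c1 % 2 = 1) :
    (∑ j : ZMod 4, chiR (kap n 2) j * Ex n (17 / 2) (flp c0, 0) (c0, j)) +
      (∑ j : ZMod 4, chiR (kap n 2) j * Ex n (17 / 2) (flp c1, 0) (c1, j)) =
      ∑ c : Cfg n, if Mtot c = 0 then
        u02 n (decide (¬ Even n)) {c0, c1} c * u02 n (decide (¬ Even n)) {c0, c1} (flp c)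
      else 0 := by
  rw [← flip_u02, ← run_flip (n := n) {c0, c1} (clPair c0 c1 h0 h1),
    Finset.sum_pair (clNe c0 c1 h0 h1)]

end Crest.Agent.R347
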