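import Crest.Agent.R347.ChG4
import Crest.Agent.R347.ChG5

/-!
# Row 347, Chebyshev numerics, piece R: the packed recursion computes `runZ`

Induction on the list of coefficients; `n02P_eq`, `n1aP_eq`, `n1bP_eq` + `newP_spec`, `lastP_spec` (bounds and
supports from `K02_bound`, `K02_supp`, `K1_bound`, `K1_supp`; `3 (n+1) ≤ 30`).  If a check fails the result
is 0.  For two components `(V ||| U) &&& hiM = 0` gives both checks.
-/

set_option autoImplicit false

open Crest.MathPhysics.SpinChain Matrix

namespace Crest.Agent.R347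

variable {n W B r s h me mo : ℕ}

private theorem chR_adm_abs {u : Cfg n → ℤ} (hu : Adm B me mo u) (c : Cfg n) : |u c| ≤ 2 ^ B :=
  abs_le.2 ⟨hu.lo c, (hu.hi c).le⟩

private theorem chR_bound {X : ℤ} (hn : n + 1 ≤ 10) (hX : |X| ≤ 3 * (n + 1) * 2 ^ B) :
    |X| ≤ 30 * 2 ^ B := by
  refine hX.trans ?_
  exact mul_le_mul_of_nonneg_right (by omega) (by positivity)

private theorem chR_K02 (ok : ChOK n W B r s h) (z : Bool) (b1 : Cfg n → ℤ)
    (hb1 : Adm B me mo b1) :
    (∀ c, |K02 z b1 c| ≤ 30 * 2 ^ B) ∧ (∀ c, ¬ inS me mo c → K02 z b1 c = 0) := by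
  have hn1 := ok.hn1
  exact ⟨fun c => chR_bound ok.hn (K02_bound z b1 (2 ^ B) (chR_adm_abs hb1) c),
    fun c hc => K02_supp (by omega) z b1 hb1.supp c hc⟩

private theorem chR_K1 (ok : ChOK n W B r s h) (b1 : Cfg n × Bool → ℤ)
    (hb1 : ∀ t, Adm B me mo fun c => b1 (c, t)) :
    (∀ x, |K1 b1 x| ≤ 30 * 2 ^ B) ∧ (∀ x : Cfg n × Bool, ¬ inS me mo x.1 → K1 b1 x = 0) := by
  have hn1 := ok.hn1
  refine ⟨fun x => chR_bound ok.hn (K1_bound b1 (2 ^ B) ?_ x),
    fun x hx => K1_supp (me := me) (mo := mo) (by omega) b1 ?_ x hx⟩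
  · rintro ⟨y, t⟩
    exact chR_adm_abs (hb1 t) y
  · rintro ⟨y, t⟩ hy
    exact (hb1 t).supp y hy

theorem run1P_spec (ok : ChOK n W B r s h) (h1 : me < 32) (h2 : mo < 32) (hme : me % 2 = 0)
    (hmo : mo % 2 = 1) (z : Bool) (k : ℕ → ℕ) (e : Cfg n → ℤ) (he : ∀ c, e c = 0 ∨ e c = 1)
    (heS : ∀ c, ¬ inS me mo c → e c = 0) (st : ℕ) (hst : st = pk W fun c => (e c).toNat) :
    ∀ (gs : List ℕ), (∀ g ∈ gs, g < 2 ^ B) → ∀ (b1 b2 : Cfg n → ℤ), Adm B me mo b1 →
      Adm B me mo b2 →
      run1P W (n + 1) B r s h me mo st z k gs (pB W B me mo b1) (pB W B me mo b2) ≠ 0 →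
      Adm B me mo (runZ (K02 z) r s h e gs b1 b2) ∧
      run1P W (n + 1) B r s h me mo st z k gs (pB W B me mo b1) (pB W B me mo b2) =
        k (pB W B me mo (runZ (K02 z) r s h e gs b1 b2)) := by
  subst hst
  intro gs
  induction gs with
  | nil =>
    intro _ b1 b2 _ _ hne
    exact absurd rfl hne
  | cons g l ih =>
    intro hgs b1 b2 hb1 hb2 hne
    have hg : g < 2 ^ B := hgs g (by simp)
    obtain ⟨hx, hxS⟩ := chR_K02 (r := r) ok z b1 hb1
    cases l with
    | nil =>
      rw [run1P] at hne ⊢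
      rw [n02P_eq ok h1 h2 hme hmo z b1 hb1] at hne ⊢
      generalize hP : lastP W (n + 1) B r s me mo (pk W fun c => (e c).toNat) g
        (pk W fun c => if inS me mo c then (K02 z b1 c + 32 * 2 ^ B + h).toNat else 0)
        (pB W B me mo b1) (pB W B me mo b2) = P at hne ⊢
      cases hb : Nat.beq (P &&& hiM W (n + 1) (B + 1)) 0 with
      | false => simp only [hb, cond_false] at hne; exact absurd rfl hne
      | true =>
        have hchk : P &&& hiM W (n + 1) (B + 1) = 0 := Nat.eq_of_beq_eq_true hb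
        obtain ⟨k1, k2⟩ := lastP_spec ok h1 h2 hme hmo e (K02 z b1) b1 b2 he heS hx hxS hb1 hb2 g hg
          P hP.symm hchk
        simp only [hb, cond_true]
        rw [runZ]
        exact ⟨k1, by rw [k2]⟩
    | cons g' l =>
      rw [run1P] at hne ⊢
      rw [n02P_eq ok h1 h2 hme hmo z b1 hb1] at hne ⊢
      generalize hP : newP W (n + 1) B r s me mo (pk W fun c => (e c).toNat) g
        (pk W fun c => if inS me mo c then (K02 z b1 c + 32 * 2 ^ B + h).toNat else 0)
        (pB W B me mo b1) (pB W B me mo b2) = P at hne ⊢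
      cases hb : Nat.beq (P &&& hiM W (n + 1) (B + 1)) 0 with
      | false => simp only [hb, cond_false] at hne; exact absurd rfl hne
      | true =>
        have hchk : P &&& hiM W (n + 1) (B + 1) = 0 := Nat.eq_of_beq_eq_true hb
        obtain ⟨k1, k2⟩ := newP_spec ok h1 h2 hme hmo e (K02 z b1) b1 b2 he heS hx hxS hb1 hb2 g hg
          P hP.symm hchk
        simp only [hb, cond_true] at hne ⊢
        rw [k2] at hne ⊢
        rw [runZ]
        exact ih (fun g'' hg'' => hgs g'' (by simp only [List.mem_cons] at hg'' ⊢; tauto)) _ _ k1 hb1 hne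

private theorem chR_or {a b c : ℕ} (h : (a ||| b) &&& c = 0) : a &&& c = 0 ∧ b &&& c = 0 := by
  rw [Nat.and_or_distrib_right, Nat.or_eq_zero_iff] at h
  exact h

theorem run2P_spec (ok : ChOK n W B r s h) (h1 : me < 32) (h2 : mo < 32) (hme : me % 2 = 0)
    (hmo : mo % 2 = 1) (k : ℕ → ℕ → ℕ) (e : Cfg n × Bool → ℤ)
    (he : ∀ x, e x = 0 ∨ e x = 1) (he1 : ∀ c, e (c, true) = 0)
    (heS : ∀ x, ¬ inS me mo x.1 → e x = 0) (st : ℕ)
    (hst : st = pk W fun c => (e (c, false)).toNat) :
    ∀ (gs : List ℕ), (∀ g ∈ gs, g < 2 ^ B) → ∀ (b1 b2 : Cfg n × Bool → ℤ),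
      (∀ t, Adm B me mo fun c => b1 (c, t)) → (∀ t, Adm B me mo fun c => b2 (c, t)) →
      run2P W (n + 1) B r s h me mo st k gs (pB W B me mo fun c => b1 (c, false))
        (pB W B me mo fun c => b2 (c, false)) (pB W B me mo fun c => b1 (c, true))
        (pB W B me mo fun c => b2 (c, true)) ≠ 0 →
      (∀ t, Adm B me mo fun c => runZ K1 r s h e gs b1 b2 (c, t)) ∧
      run2P W (n + 1) B r s h me mo st k gs (pB W B me mo fun c => b1 (c, false))
        (pB W B me mo fun c => b2 (c, false)) (pB W B me mo fun c => b1 (c, true))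
        (pB W B me mo fun c => b2 (c, true)) =
        k (pB W B me mo fun c => runZ K1 r s h e gs b1 b2 (c, false))
          (pB W B me mo fun c => runZ K1 r s h e gs b1 b2 (c, true)) := by
  subst hst
  intro gs
  induction gs with
  | nil =>
    intro _ b1 b2 _ _ hne
    exact absurd rfl hne
  | cons g l ih =>
    intro hgs b1 b2 hb1 hb2 hne
    have hg : g < 2 ^ B := hgs g (by simp)
    have hg0 : 0 < 2 ^ B := by positivity
    obtain ⟨hx, hxS⟩ := chR_K1 (r := r) ok b1 hb1
    have hef : ∀ c, e (c, false) = 0 ∨ e (c, false) = 1 := fun c => he _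
    have hefS : ∀ c, ¬ inS me mo c → e (c, false) = 0 := fun c hc => heS (c, false) hc
    cases l with
    | nil =>
      rw [run2P] at hne ⊢
      rw [n1aP_eq ok h1 h2 hme hmo b1 (hb1 false) (hb1 true),
        n1bP_eq ok h1 h2 hme hmo b1 (hb1 false) (hb1 true)] at hne ⊢
      generalize hP : lastP W (n + 1) B r s me mo (pk W fun c => (e (c, false)).toNat) g
        (pk W fun c => if inS me mo c then (K1 b1 (c, false) + 32 * 2 ^ B + h).toNat else 0)
        (pB W B me mo fun c => b1 (c, false)) (pB W B me mo fun c => b2 (c, false)) = P at hne ⊢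
      generalize hQ : lastP W (n + 1) B r s me mo (pk W fun c => (e (c, false)).toNat) 0
        (pk W fun c => if inS me mo c then (K1 b1 (c, true) + 32 * 2 ^ B + h).toNat else 0)
        (pB W B me mo fun c => b1 (c, true)) (pB W B me mo fun c => b2 (c, true)) = Q at hne ⊢
      cases hb : Nat.beq ((P ||| Q) &&& hiM W (n + 1) (B + 1)) 0 with
      | false => simp only [hb, cond_false] at hne; exact absurd rfl hne
      | true =>
        obtain ⟨hcP, hcQ⟩ := chR_or (Nat.eq_of_beq_eq_true hb)
        obtain ⟨k1, k2⟩ := lastP_spec ok h1 h2 hme hmo (fun c => e (c, false))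
          (fun c => K1 b1 (c, false)) (fun c => b1 (c, false)) (fun c => b2 (c, false)) hef hefS
          (fun c => hx _) (fun c hc => hxS (c, false) hc) (hb1 false) (hb2 false) g hg P hP.symm hcP
        obtain ⟨k3, k4⟩ := lastP_spec ok h1 h2 hme hmo (fun c => e (c, false))
          (fun c => K1 b1 (c, true)) (fun c => b1 (c, true)) (fun c => b2 (c, true)) hef hefS
          (fun c => hx _) (fun c hc => hxS (c, true) hc) (hb1 true) (hb2 true) 0 hg0 Q hQ.symm hcQ
        simp only [hb, cond_true]
        have e1 : (fun c => runZ K1 r s h e [g] b1 b2 (c, false)) =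
            lastZ r s h g (fun c => e (c, false)) (fun c => K1 b1 (c, false))
              (fun c => b1 (c, false)) (fun c => b2 (c, false)) := by
          funext c; rw [runZ]; rfl
        have e2 : (fun c => runZ K1 r s h e [g] b1 b2 (c, true)) =
            lastZ r s h 0 (fun c => e (c, false)) (fun c => K1 b1 (c, true))
              (fun c => b1 (c, true)) (fun c => b2 (c, true)) := by
          funext c; rw [runZ]; simp only [lastZ, he1, mul_zero, Nat.cast_zero, zero_mul]
        refine ⟨fun t => ?_, ?_⟩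
        · cases t
          · rw [e1]; exact k1
          · rw [e2]; exact k3
        · rw [e1, e2, k2, k4]
    | cons g' l =>
      rw [run2P] at hne ⊢
      rw [n1aP_eq ok h1 h2 hme hmo b1 (hb1 false) (hb1 true),
        n1bP_eq ok h1 h2 hme hmo b1 (hb1 false) (hb1 true)] at hne ⊢
      generalize hP : newP W (n + 1) B r s me mo (pk W fun c => (e (c, false)).toNat) g
        (pk W fun c => if inS me mo c then (K1 b1 (c, false) + 32 * 2 ^ B + h).toNat else 0)
        (pB W B me mo fun c => b1 (c, false)) (pB W B me mo fun c => b2 (c, false)) = P at hne ⊢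
      generalize hQ : newP W (n + 1) B r s me mo (pk W fun c => (e (c, false)).toNat) 0
        (pk W fun c => if inS me mo c then (K1 b1 (c, true) + 32 * 2 ^ B + h).toNat else 0)
        (pB W B me mo fun c => b1 (c, true)) (pB W B me mo fun c => b2 (c, true)) = Q at hne ⊢
      cases hb : Nat.beq ((P ||| Q) &&& hiM W (n + 1) (B + 1)) 0 with
      | false => simp only [hb, cond_false] at hne; exact absurd rfl hne
      | true =>
        obtain ⟨hcP, hcQ⟩ := chR_or (Nat.eq_of_beq_eq_true hb)
        obtain ⟨k1, k2⟩ := newP_spec ok h1 h2 hme hmo (fun c => e (c, false))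
          (fun c => K1 b1 (c, false)) (fun c => b1 (c, false)) (fun c => b2 (c, false)) hef hefS
          (fun c => hx _) (fun c hc => hxS (c, false) hc) (hb1 false) (hb2 false) g hg P hP.symm hcP
        obtain ⟨k3, k4⟩ := newP_spec ok h1 h2 hme hmo (fun c => e (c, false))
          (fun c => K1 b1 (c, true)) (fun c => b1 (c, true)) (fun c => b2 (c, true)) hef hefS
          (fun c => hx _) (fun c hc => hxS (c, true) hc) (hb1 true) (hb2 true) 0 hg0 Q hQ.symm hcQ
        simp only [hb, cond_true] at hne ⊢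
        have e1 : stepZ r s h g (fun c => e (c, false)) (fun c => K1 b1 (c, false))
              (fun c => b1 (c, false)) (fun c => b2 (c, false)) =
            fun c => stepZ r s h g e (K1 b1) b1 b2 (c, false) := rfl
        have e2 : stepZ r s h 0 (fun c => e (c, false)) (fun c => K1 b1 (c, true))
              (fun c => b1 (c, true)) (fun c => b2 (c, true)) =
            fun c => stepZ r s h g e (K1 b1) b1 b2 (c, true) := by
          funext c
          simp only [stepZ, he1, mul_zero, Nat.cast_zero, zero_mul]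
        rw [e1] at k1 k2
        rw [e2] at k3 k4
        rw [k2, k4] at hne ⊢
        rw [runZ]
        exact ih (fun g'' hg'' => hgs g'' (by simp only [List.mem_cons] at hg'' ⊢; tauto)) _ _
          (fun t => by cases t; exacts [k1, k3]) hb1 hne

/-- the zero vector -/
theorem pB_zero (hW : 7 ≤ W) (hn : n + 1 ≤ 15) (h1 : me < 32) (h2 : mo < 32) (hme : me % 2 = 0)
    (hmo : mo % 2 = 1) :
    2 ^ B * runI W (n + 1) me mo = pB W B me mo fun _ : Cfg n => 0 := by
  rw [runI_eq hW hn h1 h2 hme hmo, Nat.mul_comm, pk_mul]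
  unfold pB
  congr 1
  funext c
  by_cases hc : inS me mo c
  · rw [if_pos hc, if_pos hc, one_mul, zero_add]
    have : ((2 : ℤ) ^ B) = ((2 ^ B : ℕ) : ℤ) := by push_cast; rfl
    rw [this, Int.toNat_natCast]
  · rw [if_neg hc, if_neg hc, zero_mul]

end Crest.Agent.R347
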