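import Crest.Agent.R347.ChK
import Crest.Agent.R347.ChC
import Crest.Agent.R347.ChA
import Crest.Agent.R347.ChG4
import Crest.Agent.R347.ChR

/-!
# Row 347, Chebyshev numerics, piece M: the computed vector is close to `2^(-σ) u02`, `2^(-σ) u1`

Unfold `runZ` into a sequence: `b k` for `k = D, …, 1` the iterates (`b (D+1) = b (D+2) = 0`), `b 0` the step with
coefficient `g_0`, and `runZ = b 0 - b 2`.  Apply `ChA.cheb_main` with `A = KR n`, `Lam = 4·2^s/r`, `t = 17/4`,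
`S = 2^(-σ)`, `s = X02 z (ind0 A)` (resp. `X1 (ind1 A)`), vectors `X02 z (b k)` (resp. `X1`): `KR_X02`, `KR_X1`.
Rounding: `(r K + r h)/2^s` (floor) differs from `(r/2^s) K` by at most `m/2^s`, `m = max(r h, 2^s - r h)`, and is
exact (0) off `S` (`K02_supp`; iterates vanish off `S` by induction), so `n2 ≤ (m/2^s) sqrt(4 |S|) ≤ E`.
`n2 (X02 z (ind0 A)) = 2 sqrt |A| ≤ 3`, `n2 (X1 (ind1 A)) = sqrt 2 sqrt |A| ≤ 3` for `|A| ≤ 2`.
Finally `n2_X02`, `n2_X1`, `Ex_X02`, `Ex_X1` (`Ex n t = exp (t • KR n)`).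
-/

set_option autoImplicit false

open Crest.MathPhysics.SpinChain Matrix

namespace Crest.Agent.R347

variable {n : ℕ}

/-- the Clenshaw sequence: `cb k` is the iterate after the coefficient `g_k`, `gs = [g_D, …, g_0]` -/
def clenZ {ι : Type} (K : (ι → ℤ) → ι → ℤ) (r s h : ℕ) (e : ι → ℤ) (g : ℕ → ℕ) (D : ℕ) :
    ℕ → (ι → ℤ) × (ι → ℤ)
  | 0 => (fun _ => 0, fun _ => 0)
  | i + 1 =>
    let p := clenZ K r s h e g D i
    (stepZ r s h (g (D - i)) e (K p.1) p.1 p.2, p.1)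

private theorem runZ_clenZ_aux {ι : Type} (K : (ι → ℤ) → ι → ℤ) (r s h : ℕ) (e : ι → ℤ) (D : ℕ)
    (g : ℕ → ℕ) : ∀ (l : List ℕ) (i : ℕ), l ≠ [] →
      (∀ k < l.length, g (D - (i + k)) = l.getD k 0) →
      runZ K r s h e l (clenZ K r s h e g D i).1 (clenZ K r s h e g D i).2 = fun x =>
        (clenZ K r s h e g D (i + l.length)).1 x - (clenZ K r s h e g D (i + l.length - 1)).2 x
  | [], _, hl, _ => absurd rfl hl
  | [a], i, _, hg => by
    have h0 : g (D - i) = a := by simpa using hg 0 (by simp)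
    funext x
    have e1 : i + [a].length = i + 1 := by simp
    rw [e1, Nat.add_sub_cancel]
    simp only [runZ, lastZ, clenZ, stepZ, h0]
    ring
  | a :: b :: l, i, _, hg => by
    have h0 : g (D - i) = a := by simpa using hg 0 (by simp)
    have h1 := runZ_clenZ_aux K r s h e D g (b :: l) (i + 1) (by simp) fun k hk => by
      have := hg (k + 1) (by simp only [List.length_cons] at hk ⊢; omega)
      rw [show i + 1 + k = i + (k + 1) by omega, this]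
      simp
    have e1 : i + (a :: b :: l).length = i + 1 + (b :: l).length := by
      simp only [List.length_cons]; omega
    rw [e1, ← h1]
    simp only [runZ, clenZ, h0]

/-- `runZ` in terms of the Clenshaw sequence: after `D + 1` steps `b0 - b2` -/
theorem runZ_clenZ {ι : Type} (K : (ι → ℤ) → ι → ℤ) (r s h : ℕ) (e : ι → ℤ) (D : ℕ) (hD : 1 ≤ D)
    (gs : List ℕ) (hgs : gs.length = D + 1) :
    runZ K r s h e gs (fun _ => 0) (fun _ => 0) = fun x =>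
      (clenZ K r s h e (fun j => gs.getD (D - j) 0) D (D + 1)).1 x -
        (clenZ K r s h e (fun j => gs.getD (D - j) 0) D (D - 1)).1 x := by
  have hne : gs ≠ [] := by
    intro h0
    rw [h0] at hgs
    simp at hgs
  have h1 := runZ_clenZ_aux K r s h e D (fun j => gs.getD (D - j) 0) gs 0 hne fun k hk => by
    rw [hgs] at hk
    simp only [zero_add]
    rw [show D - (D - k) = k by omega]
  rw [hgs] at h1
  obtain ⟨d, rfl⟩ : ∃ d, D = d + 1 := ⟨D - 1, by omega⟩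
  simp only [zero_add, Nat.add_sub_cancel] at h1 ⊢
  exact h1

private theorem h16_rec {ι : Type} (K : (ι → ℤ) → ι → ℤ) (r s h : ℕ) (e : ι → ℤ) (g : ℕ → ℕ)
    (D k : ℕ) (hk : k ≤ D) :
    (clenZ K r s h e g D (D + 1 - k)).1 = stepZ r s h (g k) e
      (K (clenZ K r s h e g D (D + 1 - (k + 1))).1) (clenZ K r s h e g D (D + 1 - (k + 1))).1
      (clenZ K r s h e g D (D + 1 - (k + 2))).1 := by
  obtain ⟨i, rfl⟩ := Nat.exists_eq_add_of_le hk
  cases i with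
  | zero =>
    have e1 : k + 0 + 1 - k = 1 := by omega
    have e2 : k + 0 + 1 - (k + 1) = 0 := by omega
    have e3 : k + 0 + 1 - (k + 2) = 0 := by omega
    rw [e1, e2, e3]
    rfl
  | succ j =>
    have e1 : k + (j + 1) + 1 - k = j + 1 + 1 := by omega
    have e2 : k + (j + 1) + 1 - (k + 1) = j + 1 := by omega
    have e3 : k + (j + 1) + 1 - (k + 2) = j := by omega
    rw [e1, e2, e3]
    have e4 : k + (j + 1) - (j + 1) = k := by omega
    show stepZ r s h (g (k + (j + 1) - (j + 1))) e _ _ _ = _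
    rw [e4]
    rfl

private theorem h16_supp {ι : Type} (p : ι → Prop) (K : (ι → ℤ) → ι → ℤ)
    (hK : ∀ u : ι → ℤ, (∀ c, ¬ p c → u c = 0) → ∀ c, ¬ p c → K u c = 0) (r s h : ℕ)
    (hh : r * h < 2 ^ s) (e : ι → ℤ) (he : ∀ c, ¬ p c → e c = 0) (g : ℕ → ℕ) (D i : ℕ) :
    (∀ c, ¬ p c → (clenZ K r s h e g D i).1 c = 0) ∧
      (∀ c, ¬ p c → (clenZ K r s h e g D i).2 c = 0) := by
  induction i with
  | zero => exact ⟨fun _ _ => rfl, fun _ _ => rfl⟩
  | succ i ih =>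
    refine ⟨fun c hc => ?_, ih.1⟩
    show stepZ r s h (g (D - i)) e (K (clenZ K r s h e g D i).1) (clenZ K r s h e g D i).1
      (clenZ K r s h e g D i).2 c = 0
    unfold stepZ
    rw [he c hc, hK _ ih.1 c hc, ih.1 c hc, ih.2 c hc]
    have : ((r : ℤ) * 0 + r * h) / 2 ^ s = 0 := by
      rw [mul_zero, zero_add]
      refine Int.ediv_eq_zero_of_lt (by positivity) ?_
      exact_mod_cast hh
    rw [this]
    ring

private theorem h16_floor (r s h m : ℕ) (hm1 : r * h ≤ m) (hm2 : 2 ^ s ≤ m + r * h) (K : ℤ) :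
    |((((r : ℤ) * K + r * h) / 2 ^ s : ℤ) : ℝ) - (r : ℝ) * K / 2 ^ s| ≤ (m : ℝ) / 2 ^ s := by
  have hp : (0 : ℝ) < 2 ^ s := by positivity
  have hpz : (0 : ℤ) < 2 ^ s := by positivity
  have h1 : ((((r : ℤ) * K + r * h) / 2 ^ s : ℤ) : ℝ) * 2 ^ s ≤ (r : ℝ) * K + r * h := by
    have := Int.ediv_mul_le ((r : ℤ) * K + r * h) hpz.ne'
    exact_mod_cast this
  have h2 : (r : ℝ) * K + r * h < (((((r : ℤ) * K + r * h) / 2 ^ s : ℤ) : ℝ) + 1) * 2 ^ s := by
    have := Int.lt_ediv_add_one_mul_self ((r : ℤ) * K + r * h) hpz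
    exact_mod_cast this
  have h3 : (r : ℝ) * h ≤ m := by exact_mod_cast hm1
  have h4 : (2 : ℝ) ^ s ≤ m + r * h := by exact_mod_cast hm2
  generalize ((((r : ℤ) * K + r * h) / 2 ^ s : ℤ) : ℝ) = q at *
  rw [abs_le]
  constructor
  · rw [neg_le, neg_sub, ← sub_nonneg]
    have : (m : ℝ) / 2 ^ s - ((r : ℝ) * K / 2 ^ s - q) = (m - (r * K - q * 2 ^ s)) / 2 ^ s := by
      field_simp
    rw [this]
    refine div_nonneg ?_ hp.le
    nlinarith
  · rw [← sub_nonneg]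
    have : (m : ℝ) / 2 ^ s - (q - (r : ℝ) * K / 2 ^ s) = (m - (q * 2 ^ s - r * K)) / 2 ^ s := by
      field_simp
    rw [this]
    refine div_nonneg ?_ hp.le
    nlinarith

private theorem h16_K02_cast (z : Bool) (u : Cfg n → ℤ) (c : Cfg n) :
    ((K02 z u c : ℤ) : ℝ) = K02 z (fun y => (u y : ℝ)) c := by
  unfold K02 blk bhop hup hdn
  cases z <;> push_cast <;> simp

theorem close02 {r s h D N0 σ τ me mo : ℕ} {E M0 m : ℕ} (hn : 1 ≤ n)
    (hsym : (KR n).IsSymm) (hpsd : ∀ f : XC n → ℝ, 0 ≤ f ⬝ᵥ (KR n *ᵥ f))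
    (hup : ∀ f : XC n → ℝ, f ⬝ᵥ (KR n *ᵥ f) ≤ 5 / 2 * (n + 1) * (f ⬝ᵥ f))
    (hr : 0 < r) (hL : 5 * (n + 1) * r ≤ 8 * 2 ^ s) (hh : r * h < 2 ^ s)
    (hm1 : r * h ≤ m) (hm2 : 2 ^ s ≤ m + r * h) (hD : 1 ≤ D)
    (hE : 4 * M0 * m ^ 2 ≤ E ^ 2 * 4 ^ s)
    (hM : (Finset.univ.filter fun c : Cfg n => inS me mo c).card ≤ M0)
    {gs : List ℕ} (hg : gamC r s D N0 σ τ gs = true)
    (z : Bool) (A : Finset (Cfg n)) (hA : A.card ≤ 2) (hAS : ∀ c ∈ A, inS me mo c) :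
    2 * ChA.n2 (fun c => (runZ (K02 z) r s h (ind0 A) gs (fun _ => 0) (fun _ => 0) c : ℝ) -
      1 / 2 ^ σ * u02 n z A c) ≤ (2 * D + 1) * E + 3 * (2 * D + 2 + τ) := by
  obtain ⟨hlen, G⟩ := gam_sound hg
  set g : ℕ → ℕ := fun j => gs.getD (D - j) 0 with hgdef
  set eZ : Cfg n → ℤ := ind0 A with heZ
  set bZ : ℕ → Cfg n → ℤ := fun k => (clenZ (K02 z) r s h eZ g D (D + 1 - k)).1 with hbZ
  have hrun : runZ (K02 z) r s h eZ gs (fun _ => 0) (fun _ => 0) = fun x => bZ 0 x - bZ 2 x := by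
    rw [runZ_clenZ (K02 z) r s h eZ D hD gs hlen]
    funext x
    simp only [hbZ]
    have e1 : D + 1 - 2 = D - 1 := by omega
    rw [e1]
    rfl
  have hr' : (0 : ℝ) < r := by exact_mod_cast hr
  have h2s : (0 : ℝ) < 2 ^ s := by positivity
  have hLpos : (0 : ℝ) < 4 * 2 ^ s / r := by positivity
  have hA' : ∀ c, ¬ inS me mo c → eZ c = 0 := by
    intro c hc
    simp only [heZ, ind0]
    rw [if_neg fun h' => hc (hAS c h')]
  have hKs : ∀ u : Cfg n → ℤ, (∀ c, ¬ inS me mo c → u c = 0) → ∀ c, ¬ inS me mo c → K02 z u c = 0 :=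
    fun u hu c hc => K02_supp hn z u hu c hc
  have hbs : ∀ k c, ¬ inS me mo c → bZ k c = 0 := fun k c hc =>
    (h16_supp (inS me mo) (K02 z) hKs r s h hh eZ hA' g D (D + 1 - k)).1 c hc
  have hrec : ∀ k ≤ D, bZ k = stepZ r s h (g k) eZ (K02 z (bZ (k + 1))) (bZ (k + 1)) (bZ (k + 2)) :=
    fun k hk => h16_rec (K02 z) r s h eZ g D k hk
  have hb1 : bZ (D + 1) = fun _ => 0 := by
    simp only [hbZ]
    rw [Nat.sub_self]
    rfl
  have hb2 : bZ (D + 2) = fun _ => 0 := by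
    simp only [hbZ]
    rw [show D + 1 - (D + 2) = 0 by omega]
    rfl
  -- real embedding
  set X : (Cfg n → ℤ) → XC n → ℝ := fun u => X02 z (fun c => (u c : ℝ)) with hXdef
  have hX0 : X (fun _ => 0) = 0 := by
    funext x
    simp [hXdef, X02]
  have hXs : X eZ = X02 z (ind0 A) := by
    simp only [hXdef, heZ]
    congr 1
    funext c
    simp [ind0]
  have hns : ChA.n2 (X02 z (ind0 (R := ℝ) A)) ≤ 3 := by
    rw [n2_X02]
    have h1 : ∑ c : Cfg n, ind0 (R := ℝ) A c * ind0 A c = A.card := by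
      have : ∀ c : Cfg n, ind0 (R := ℝ) A c * ind0 A c = if c ∈ A then 1 else 0 := by
        intro c
        unfold ind0
        split_ifs <;> simp
      rw [Finset.sum_congr rfl fun c _ => this c]
      simp
    unfold ChA.n2
    rw [h1]
    have h2 : (A.card : ℝ) ≤ 2 := by exact_mod_cast hA
    have h3 : Real.sqrt (A.card : ℝ) ≤ 3 / 2 := by
      rw [Real.sqrt_le_left (by norm_num)]
      linarith
    linarith
  have hE0 : (0 : ℝ) ≤ E := by positivity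
  have hb : ∀ k ≤ D, ChA.n2 (X (bZ k) - (((g k : ℕ) : ℝ) • X eZ +
      (4 / (4 * 2 ^ s / (r : ℝ))) • (KR n *ᵥ X (bZ (k + 1))) - (2 : ℝ) • X (bZ (k + 1)) -
      X (bZ (k + 2)))) ≤ (E : ℝ) := by
    intro k hk
    have hdiff : X (bZ k) - (((g k : ℕ) : ℝ) • X eZ +
        (4 / (4 * 2 ^ s / (r : ℝ))) • (KR n *ᵥ X (bZ (k + 1))) - (2 : ℝ) • X (bZ (k + 1)) -
        X (bZ (k + 2))) = X02 z (fun c =>
          ((((r : ℤ) * K02 z (bZ (k + 1)) c + r * h) / 2 ^ s : ℤ) : ℝ) -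
            (r : ℝ) * K02 z (bZ (k + 1)) c / 2 ^ s) := by
      have e1 : KR n *ᵥ X (bZ (k + 1)) = X02 z (fun c => ((K02 z (bZ (k + 1)) c : ℤ) : ℝ)) := by
        simp only [hXdef]
        rw [KR_X02]
        congr 1
        funext c
        exact (h16_K02_cast z (bZ (k + 1)) c).symm
      have e2 : (4 : ℝ) / (4 * 2 ^ s / (r : ℝ)) = r / 2 ^ s := by
        field_simp
      rw [e1, e2]
      funext x
      have e3 : (bZ k x.1 : ℝ) = g k * (eZ x.1 : ℝ) +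
          ((((r : ℤ) * K02 z (bZ (k + 1)) x.1 + r * h) / 2 ^ s : ℤ) : ℝ) - 2 * (bZ (k + 1) x.1 : ℝ) -
            (bZ (k + 2) x.1 : ℝ) := by
        have := congrFun (hrec k hk) x.1
        unfold stepZ at this
        rw [this]
        push_cast
        ring
      simp only [Pi.sub_apply, Pi.add_apply, Pi.smul_apply, smul_eq_mul, hXdef, X02]
      split_ifs
      · rw [e3]; ring
      · rw [e3]; ring
    rw [hdiff, n2_X02]
    set δ : Cfg n → ℝ := fun c =>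
          ((((r : ℤ) * K02 z (bZ (k + 1)) c + r * h) / 2 ^ s : ℤ) : ℝ) -
            (r : ℝ) * K02 z (bZ (k + 1)) c / 2 ^ s with hδ
    have hδ1 : ∀ c, |δ c| ≤ (m : ℝ) / 2 ^ s := fun c => h16_floor r s h m hm1 hm2 _
    have hδ0 : ∀ c, ¬ inS me mo c → δ c = 0 := by
      intro c hc
      simp only [hδ]
      rw [hKs _ (hbs (k + 1)) c hc]
      have : ((r : ℤ) * 0 + r * h) / 2 ^ s = 0 := by
        rw [mul_zero, zero_add]
        refine Int.ediv_eq_zero_of_lt (by positivity) ?_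
        exact_mod_cast hh
      rw [this]
      simp
    have hsum : ∑ c : Cfg n, δ c * δ c ≤ M0 * ((m : ℝ) / 2 ^ s) ^ 2 := by
      have h1 : ∑ c : Cfg n, δ c * δ c ≤
          ∑ c : Cfg n, if inS me mo c then ((m : ℝ) / 2 ^ s) ^ 2 else 0 := by
        refine Finset.sum_le_sum fun c _ => ?_
        split_ifs with hc
        · calc δ c * δ c = |δ c| ^ 2 := by rw [sq_abs, pow_two]
            _ ≤ _ := pow_le_pow_left₀ (abs_nonneg (δ c)) (hδ1 c) 2
        · rw [hδ0 c hc, mul_zero]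
      refine h1.trans ?_
      rw [← Finset.sum_filter, Finset.sum_const, nsmul_eq_mul]
      refine mul_le_mul_of_nonneg_right ?_ (by positivity)
      exact_mod_cast hM
    unfold ChA.n2
    have h4 : (4 : ℝ) * M0 * (m : ℝ) ^ 2 ≤ (E : ℝ) ^ 2 * 4 ^ s := by exact_mod_cast hE
    have h5 : (2 * Real.sqrt (∑ c : Cfg n, δ c * δ c)) ^ 2 ≤ (E : ℝ) ^ 2 := by
      rw [mul_pow, Real.sq_sqrt (Finset.sum_nonneg fun c _ => mul_self_nonneg _)]
      have h6 : (2 : ℝ) ^ 2 * (M0 * ((m : ℝ) / 2 ^ s) ^ 2) ≤ (E : ℝ) ^ 2 := by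
        rw [div_pow, ← pow_mul, mul_comm s 2, pow_mul]
        norm_num
        rw [← mul_assoc, ← mul_div_assoc, div_le_iff₀ (by positivity)]
        linarith
      calc (2 : ℝ) ^ 2 * ∑ c : Cfg n, δ c * δ c ≤ 2 ^ 2 * (M0 * ((m : ℝ) / 2 ^ s) ^ 2) :=
            mul_le_mul_of_nonneg_left hsum (by norm_num)
        _ ≤ _ := h6
    exact abs_le_of_sq_le_sq' h5 hE0 |>.2
  have hup' : ∀ f : XC n → ℝ, f ⬝ᵥ (KR n *ᵥ f) ≤ 4 * 2 ^ s / (r : ℝ) * (f ⬝ᵥ f) := by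
    intro f
    refine (hup f).trans ?_
    refine mul_le_mul_of_nonneg_right ?_ ?_
    · rw [le_div_iff₀ hr']
      have : (5 : ℝ) * (n + 1) * r ≤ 8 * 2 ^ s := by exact_mod_cast hL
      linarith
    · exact Finset.sum_nonneg fun x _ => mul_self_nonneg _
  have main := ChA.cheb_main (KR n) hsym (4 * 2 ^ s / (r : ℝ)) (17 / 4) hLpos (by norm_num) hpsd hup'
    (X eZ) (1 / 2 ^ σ) (by positivity) D N0 G.hD (fun j => ((g j : ℕ) : ℝ)) G.hg
    (fun k => X (bZ k)) (by simp only [hb1, hX0]) (by simp only [hb2, hX0]) E hb (τ + 1) G.ht2 G.htau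
  have e5 : (X (bZ 0) - X (bZ 2)) - ((1 : ℝ) / 2 ^ σ) • (NormedSpace.exp ((17 / 4 : ℝ) • KR n) *ᵥ X eZ) =
      X02 z (fun c => (runZ (K02 z) r s h eZ gs (fun _ => 0) (fun _ => 0) c : ℝ) -
        1 / 2 ^ σ * u02 n z A c) := by
    have e6 : NormedSpace.exp ((17 / 4 : ℝ) • KR n) *ᵥ X eZ = X02 z (u02 n z A) := by
      rw [hXs]
      exact Ex_X02 z A
    rw [e6, hrun]
    funext x
    simp only [Pi.sub_apply, Pi.smul_apply, smul_eq_mul, hXdef, X02]
    push_cast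
    split_ifs <;> ring
  rw [e5, n2_X02, hXs] at main
  refine main.trans ?_
  have hDτ : (0 : ℝ) ≤ 2 * D + 1 + (τ + 1) := by positivity
  have := mul_le_mul_of_nonneg_left hns hDτ
  linarith

private theorem h90_K1_cast (u : Cfg n × Bool → ℤ) (x : Cfg n × Bool) :
    ((K1 u x : ℤ) : ℝ) = K1 (fun y => (u y : ℝ)) x := by
  unfold K1 blk bhop hup hdn
  obtain ⟨c, t⟩ := x
  cases t <;> push_cast <;> simp

theorem close1 {r s h D N0 σ τ me mo : ℕ} {E M0 m : ℕ} (hn : 1 ≤ n)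
    (hsym : (KR n).IsSymm) (hpsd : ∀ f : XC n → ℝ, 0 ≤ f ⬝ᵥ (KR n *ᵥ f))
    (hup : ∀ f : XC n → ℝ, f ⬝ᵥ (KR n *ᵥ f) ≤ 5 / 2 * (n + 1) * (f ⬝ᵥ f))
    (hr : 0 < r) (hL : 5 * (n + 1) * r ≤ 8 * 2 ^ s) (hh : r * h < 2 ^ s)
    (hm1 : r * h ≤ m) (hm2 : 2 ^ s ≤ m + r * h) (hD : 1 ≤ D)
    (hE : 4 * M0 * m ^ 2 ≤ E ^ 2 * 4 ^ s)
    (hM : (Finset.univ.filter fun c : Cfg n => inS me mo c).card ≤ M0)
    {gs : List ℕ} (hg : gamC r s D N0 σ τ gs = true)
    (A : Finset (Cfg n)) (hA : A.card ≤ 2) (hAS : ∀ c ∈ A, inS me mo c) :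
    Real.sqrt 2 * ChA.n2 (fun x => (runZ K1 r s h (ind1 A) gs (fun _ => 0) (fun _ => 0) x : ℝ) -
      1 / 2 ^ σ * u1 n A x) ≤ (2 * D + 1) * E + 3 * (2 * D + 2 + τ) := by
  obtain ⟨hlen, G⟩ := gam_sound hg
  set g : ℕ → ℕ := fun j => gs.getD (D - j) 0 with hgdef
  set eZ : Cfg n × Bool → ℤ := ind1 A with heZ
  set bZ : ℕ → Cfg n × Bool → ℤ := fun k => (clenZ K1 r s h eZ g D (D + 1 - k)).1 with hbZ
  have hrun : runZ K1 r s h eZ gs (fun _ => 0) (fun _ => 0) = fun x => bZ 0 x - bZ 2 x := by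
    rw [runZ_clenZ K1 r s h eZ D hD gs hlen]
    funext x
    simp only [hbZ]
    have e1 : D + 1 - 2 = D - 1 := by omega
    rw [e1]
    rfl
  have hr' : (0 : ℝ) < r := by exact_mod_cast hr
  have h2s : (0 : ℝ) < 2 ^ s := by positivity
  have hLpos : (0 : ℝ) < 4 * 2 ^ s / r := by positivity
  have hA' : ∀ c : Cfg n × Bool, ¬ inS me mo c.1 → eZ c = 0 := by
    intro c hc
    simp only [heZ, ind1]
    rw [if_neg fun h' => hc (hAS c.1 h'.1)]
  have hKs : ∀ u : Cfg n × Bool → ℤ, (∀ c, ¬ inS me mo c.1 → u c = 0) → ∀ c, ¬ inS me mo c.1 → K1 u c = 0 :=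
    fun u hu c hc => K1_supp hn u hu c hc
  have hbs : ∀ (k : ℕ) (c : Cfg n × Bool), ¬ inS me mo c.1 → bZ k c = 0 := fun k c hc =>
    (h16_supp (fun x : Cfg n × Bool => inS me mo x.1) K1 hKs r s h hh eZ hA' g D (D + 1 - k)).1 c hc
  have hrec : ∀ k ≤ D, bZ k = stepZ r s h (g k) eZ (K1 (bZ (k + 1))) (bZ (k + 1)) (bZ (k + 2)) :=
    fun k hk => h16_rec K1 r s h eZ g D k hk
  have hb1 : bZ (D + 1) = fun _ => 0 := by
    simp only [hbZ]
    rw [Nat.sub_self]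
    rfl
  have hb2 : bZ (D + 2) = fun _ => 0 := by
    simp only [hbZ]
    rw [show D + 1 - (D + 2) = 0 by omega]
    rfl
  -- real embedding
  set X : (Cfg n × Bool → ℤ) → XC n → ℝ := fun u => X1 (fun c => (u c : ℝ)) with hXdef
  have hX0 : X (fun _ => 0) = 0 := by
    funext x
    simp [hXdef, X1]
  have hXs : X eZ = X1 (ind1 A) := by
    simp only [hXdef, heZ]
    congr 1
    funext c
    simp [ind1]
  have hs2 : Real.sqrt 2 * Real.sqrt 2 = 2 := Real.mul_self_sqrt (by norm_num)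
  have hns : ChA.n2 (X1 (ind1 (R := ℝ) A)) ≤ 3 := by
    rw [n2_X1]
    have h1 : ∑ x : Cfg n × Bool, ind1 (R := ℝ) A x * ind1 A x = A.card := by
      rw [Fintype.sum_prod_type]
      have : ∀ c : Cfg n, ∑ t : Bool, ind1 (R := ℝ) A (c, t) * ind1 A (c, t) = if c ∈ A then 1 else 0 := by
        intro c
        rw [Fintype.sum_bool]
        unfold ind1
        by_cases hc : c ∈ A <;> simp [hc]
      rw [Finset.sum_congr rfl fun c _ => this c]
      simp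
    unfold ChA.n2
    rw [h1]
    have h2 : (A.card : ℝ) ≤ 2 := by exact_mod_cast hA
    have h3 : Real.sqrt (A.card : ℝ) ≤ Real.sqrt 2 := Real.sqrt_le_sqrt h2
    have h4 : Real.sqrt 2 * Real.sqrt (A.card : ℝ) ≤ Real.sqrt 2 * Real.sqrt 2 :=
      mul_le_mul_of_nonneg_left h3 (Real.sqrt_nonneg _)
    linarith
  have hE0 : (0 : ℝ) ≤ E := by positivity
  have hb : ∀ k ≤ D, ChA.n2 (X (bZ k) - (((g k : ℕ) : ℝ) • X eZ +
      (4 / (4 * 2 ^ s / (r : ℝ))) • (KR n *ᵥ X (bZ (k + 1))) - (2 : ℝ) • X (bZ (k + 1)) -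
      X (bZ (k + 2)))) ≤ (E : ℝ) := by
    intro k hk
    have hdiff : X (bZ k) - (((g k : ℕ) : ℝ) • X eZ +
        (4 / (4 * 2 ^ s / (r : ℝ))) • (KR n *ᵥ X (bZ (k + 1))) - (2 : ℝ) • X (bZ (k + 1)) -
        X (bZ (k + 2))) = X1 (fun c =>
          ((((r : ℤ) * K1 (bZ (k + 1)) c + r * h) / 2 ^ s : ℤ) : ℝ) -
            (r : ℝ) * K1 (bZ (k + 1)) c / 2 ^ s) := by
      have e1 : KR n *ᵥ X (bZ (k + 1)) = X1 (fun c => ((K1 (bZ (k + 1)) c : ℤ) : ℝ)) := by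
        simp only [hXdef]
        rw [KR_X1]
        congr 1
        funext c
        exact (h90_K1_cast (bZ (k + 1)) c).symm
      have e2 : (4 : ℝ) / (4 * 2 ^ s / (r : ℝ)) = r / 2 ^ s := by
        field_simp
      rw [e1, e2]
      have e3 : ∀ y : Cfg n × Bool, (bZ k y : ℝ) = g k * (eZ y : ℝ) +
          ((((r : ℤ) * K1 (bZ (k + 1)) y + r * h) / 2 ^ s : ℤ) : ℝ) - 2 * (bZ (k + 1) y : ℝ) -
            (bZ (k + 2) y : ℝ) := by
        intro y
        have := congrFun (hrec k hk) y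
        unfold stepZ at this
        rw [this]
        push_cast
        ring
      funext x
      simp only [Pi.sub_apply, Pi.add_apply, Pi.smul_apply, smul_eq_mul, hXdef, X1]
      split_ifs
      · rw [e3]; ring
      · rw [e3]; ring
      · rw [e3]; ring
      · rw [e3]; ring
    rw [hdiff, n2_X1]
    set δ : Cfg n × Bool → ℝ := fun c =>
          ((((r : ℤ) * K1 (bZ (k + 1)) c + r * h) / 2 ^ s : ℤ) : ℝ) -
            (r : ℝ) * K1 (bZ (k + 1)) c / 2 ^ s with hδ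
    have hδ1 : ∀ c, |δ c| ≤ (m : ℝ) / 2 ^ s := fun c => h16_floor r s h m hm1 hm2 _
    have hδ0 : ∀ c : Cfg n × Bool, ¬ inS me mo c.1 → δ c = 0 := by
      intro c hc
      simp only [hδ]
      rw [hKs _ (hbs (k + 1)) c hc]
      have : ((r : ℤ) * 0 + r * h) / 2 ^ s = 0 := by
        rw [mul_zero, zero_add]
        refine Int.ediv_eq_zero_of_lt (by positivity) ?_
        exact_mod_cast hh
      rw [this]
      simp
    have hsum : ∑ c : Cfg n × Bool, δ c * δ c ≤ 2 * (M0 * ((m : ℝ) / 2 ^ s) ^ 2) := by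
      have h1 : ∑ c : Cfg n × Bool, δ c * δ c ≤
          ∑ c : Cfg n × Bool, if inS me mo c.1 then ((m : ℝ) / 2 ^ s) ^ 2 else 0 := by
        refine Finset.sum_le_sum fun c _ => ?_
        split_ifs with hc
        · calc δ c * δ c = |δ c| ^ 2 := by rw [sq_abs, pow_two]
            _ ≤ _ := pow_le_pow_left₀ (abs_nonneg (δ c)) (hδ1 c) 2
        · rw [hδ0 c hc, mul_zero]
      refine h1.trans ?_
      rw [Fintype.sum_prod_type]
      simp only [Fintype.sum_bool, ← two_mul]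
      rw [← Finset.mul_sum, ← Finset.sum_filter, Finset.sum_const, nsmul_eq_mul]
      refine mul_le_mul_of_nonneg_left ?_ (by norm_num)
      refine mul_le_mul_of_nonneg_right ?_ (by positivity)
      exact_mod_cast hM
    unfold ChA.n2
    have h4 : (4 : ℝ) * M0 * (m : ℝ) ^ 2 ≤ (E : ℝ) ^ 2 * 4 ^ s := by exact_mod_cast hE
    have h5 : (Real.sqrt 2 * Real.sqrt (∑ c : Cfg n × Bool, δ c * δ c)) ^ 2 ≤ (E : ℝ) ^ 2 := by
      rw [mul_pow, Real.sq_sqrt (Finset.sum_nonneg fun c _ => mul_self_nonneg _),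
        Real.sq_sqrt (by norm_num : (0 : ℝ) ≤ 2)]
      have h6 : (2 : ℝ) ^ 2 * (M0 * ((m : ℝ) / 2 ^ s) ^ 2) ≤ (E : ℝ) ^ 2 := by
        rw [div_pow, ← pow_mul, mul_comm s 2, pow_mul]
        norm_num
        rw [← mul_assoc, ← mul_div_assoc, div_le_iff₀ (by positivity)]
        linarith
      calc (2 : ℝ) * ∑ c : Cfg n × Bool, δ c * δ c ≤ 2 * (2 * (M0 * ((m : ℝ) / 2 ^ s) ^ 2)) :=
            mul_le_mul_of_nonneg_left hsum (by norm_num)
        _ = 2 ^ 2 * (M0 * ((m : ℝ) / 2 ^ s) ^ 2) := by ring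
        _ ≤ _ := h6
    exact abs_le_of_sq_le_sq' h5 hE0 |>.2
  have hup' : ∀ f : XC n → ℝ, f ⬝ᵥ (KR n *ᵥ f) ≤ 4 * 2 ^ s / (r : ℝ) * (f ⬝ᵥ f) := by
    intro f
    refine (hup f).trans ?_
    refine mul_le_mul_of_nonneg_right ?_ ?_
    · rw [le_div_iff₀ hr']
      have : (5 : ℝ) * (n + 1) * r ≤ 8 * 2 ^ s := by exact_mod_cast hL
      linarith
    · exact Finset.sum_nonneg fun x _ => mul_self_nonneg _
  have main := ChA.cheb_main (KR n) hsym (4 * 2 ^ s / (r : ℝ)) (17 / 4) hLpos (by norm_num) hpsd hup'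
    (X eZ) (1 / 2 ^ σ) (by positivity) D N0 G.hD (fun j => ((g j : ℕ) : ℝ)) G.hg
    (fun k => X (bZ k)) (by simp only [hb1, hX0]) (by simp only [hb2, hX0]) E hb (τ + 1) G.ht2 G.htau
  have e5 : (X (bZ 0) - X (bZ 2)) - ((1 : ℝ) / 2 ^ σ) • (NormedSpace.exp ((17 / 4 : ℝ) • KR n) *ᵥ X eZ) =
      X1 (fun c => (runZ K1 r s h eZ gs (fun _ => 0) (fun _ => 0) c : ℝ) -
        1 / 2 ^ σ * u1 n A c) := by
    have e6 : NormedSpace.exp ((17 / 4 : ℝ) • KR n) *ᵥ X eZ = X1 (u1 n A) := by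
      rw [hXs]
      exact Ex_X1 A
    rw [e6, hrun]
    funext x
    simp only [Pi.sub_apply, Pi.smul_apply, smul_eq_mul, hXdef, X1]
    push_cast
    split_ifs <;> ring
  rw [e5, n2_X1, hXs] at main
  refine main.trans ?_
  have hDτ : (0 : ℝ) ≤ 2 * D + 1 + (τ + 1) := by positivity
  have := mul_le_mul_of_nonneg_left hns hDτ
  linarith

end Crest.Agent.R347
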