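import Mathlib.Data.Nat.Notation

/-!
# Row 347, numerics: packed-vector arithmetic (definitions evaluated by the kernel)
-/

set_option autoImplicit false

namespace Crest.Agent.R347

/-- `∑_{i < m} 2^(p i)` -/
def rep (m p : ℕ) : ℕ := (2 ^ (p * m) - 1) / (2 ^ p - 1)
/-- the constant vector 1 -/
def ones (W L : ℕ) : ℕ := rep (3 ^ L) W
/-- indicator vector of `digit i = a` -/
def um (W L i a : ℕ) : ℕ := 2 ^ (a * 3 ^ i * W) * (rep (3 ^ i) W * rep (3 ^ (L - 1 - i)) (W * 3 ^ (i + 1)))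
/-- full mask of `digit i = a` -/
def dm (W L i a : ℕ) : ℕ := um W L i a * (2 ^ W - 1)
/-- mask: digit `i` can be raised and digit `j` can be lowered -/
def hm (W L i j : ℕ) : ℕ := (dm W L i 0 ||| dm W L i 1) &&& (dm W L j 1 ||| dm W L j 2)
/-- hop: raise digit `i`, lower digit `j`, `i < j` -/
def hopR (W L i j a : ℕ) : ℕ := (a &&& hm W L i j) >>> (W * (3 ^ j - 3 ^ i))
/-- hop: raise digit `i`, lower digit `j`, `j < i` -/
def hopL (W L i j a : ℕ) : ℕ := (a &&& hm W L i j) <<< (W * (3 ^ i - 3 ^ j))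
/-- interior hops of the bonds `(0,1), …, (m-1,m)` -/
def intP (W L a : ℕ) : ℕ → ℕ
  | 0 => 0
  | m + 1 => intP W L a m + (hopR W L m (m + 1) a + hopL W L (m + 1) m a)
/-- diagonal of one bond (packed) -/
def bdP (W L i j : ℕ) : ℕ :=
  2 * ((um W L i 0 &&& um W L j 2) ||| (um W L i 2 &&& um W L j 0)) + (um W L i 1 ||| um W L j 1)
/-- diagonal of the bonds `(0,1), …, (m-1,m)` (packed) -/
def dP (W L : ℕ) : ℕ → ℕ
  | 0 => 0
  | m + 1 => dP W L m + bdP W L m (m + 1)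
/-- bit plane `b` of the diagonal as a mask -/
def Dm (W L b : ℕ) : ℕ :=
  (((dP W L (L - 1) + bdP W L (L - 1) 0) >>> b) &&& ones W L) * (2 ^ W - 1)
/-- the diagonal part -/
def diagP (W L a : ℕ) : ℕ :=
  (a &&& Dm W L 0) + (((a &&& Dm W L 1) <<< 1) + (((a &&& Dm W L 2) <<< 2) +
    (((a &&& Dm W L 3) <<< 3) + ((a &&& Dm W L 4) <<< 4))))
/-- component `k` of `K r`, from `p = r_(k-1)`, `a = r_k`, `q = r_(k+1)` -/
def KP (W L p a q : ℕ) : ℕ :=
  intP W L a (L - 1) + (diagP W L a + (hopL W L (L - 1) 0 q + hopR W L 0 (L - 1) p))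
/-- slotwise division by `2^s` -/
def shP (W L s a : ℕ) : ℕ := (a >>> s) &&& (ones W L * (2 ^ (W - s) - 1))
/-- mask of the high bits: slots `≥ 2^B` -/
def hiM (W L B : ℕ) : ℕ := ones W L * (2 ^ W - 2 ^ B)

/-- Horner recursion on packed vectors; returns 0 when an entry exceeds `2^B` -/
def runP (W L B st : ℕ) (k : ℕ → ℕ → ℕ → ℕ → ℕ) :
    List (ℕ × ℕ) → ℕ → ℕ → ℕ → ℕ → ℕ
  | [], a, b, c, d => k a b c d
  | (s, t) :: l, a, b, c, d =>
    (fun a' b' c' d' => bif Nat.beq ((a' ||| (b' ||| (c' ||| d'))) &&& hiM W L B) 0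
      then runP W L B st k l a' b' c' d' else 0)
      (shP W L s (KP W L d a b) + t * st) (shP W L s (KP W L a b c)) (shP W L s (KP W L b c d))
      (shP W L s (KP W L c d a))

/-- flip of digit `i` -/
def flipD (W L i a : ℕ) : ℕ :=
  ((a &&& dm W L i 0) <<< (W * (2 * 3 ^ i))) ||| ((a &&& dm W L i 1) |||
    ((a &&& dm W L i 2) >>> (W * (2 * 3 ^ i))))
/-- flip of the digits `< m` -/
def flipP (W L a : ℕ) : ℕ → ℕ
  | 0 => a
  | m + 1 => flipD W L m (flipP W L a m)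
/-- `∑_c f(c) g(c̄)` -/
def cf1 (W L e a b : ℕ) : ℕ :=
  (((a &&& dm W L 0 e) * (b &&& dm W L 0 (2 - e))) >>> (W * (3 ^ L - 1))) % 2 ^ (3 * W)
def cf (W L a b : ℕ) : ℕ := cf1 W L 0 a b + (cf1 W L 1 a b + cf1 W L 2 a b)

/-- mask: number of digits `< m` equal to 1 is odd -/
def oddP (W L : ℕ) : ℕ → ℕ
  | 0 => 0
  | m + 1 => oddP W L m ^^^ dm W L m 1
/-- digit sum (digits `< m`) -/
def dsP (W L : ℕ) : ℕ → ℕ
  | 0 => 0
  | m + 1 => dsP W L m + (um W L m 1 + 2 * um W L m 2)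
/-- mask of `M = 0` -/
def zM (W L : ℕ) : ℕ :=
  (ones W L - ((((dsP W L L ^^^ (L * ones W L)) + 31 * ones W L) >>> 5) &&& ones W L)) * (2 ^ W - 1)
/-- masks of the two classes: parity of the number of digits equal to 1 -/
def cM (W L q : ℕ) : ℕ := bif Nat.beq q 1 then oddP W L L else ones W L * (2 ^ W - 1) - oddP W L L

/-- the 13 sums, slots of 200 bits -/
def res13 (W L a b c d P Q rP rQ rc rd : ℕ) : ℕ :=
  cf W L (P &&& cM W L 0) rP + (cf W L (Q &&& cM W L 0) rQ <<< 200) +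
  (cf W L (P &&& cM W L 0) rQ <<< 400) + (cf W L (a &&& cM W L 0) rc <<< 600) +
  (cf W L (b &&& cM W L 0) rd <<< 800) +
  (cf W L (P &&& cM W L 1) rP <<< 1000) + (cf W L (Q &&& cM W L 1) rQ <<< 1200) +
  (cf W L (P &&& cM W L 1) rQ <<< 1400) + (cf W L (a &&& cM W L 1) rc <<< 1600) +
  (cf W L (b &&& cM W L 1) rd <<< 1800) +
  (cf W L (P &&& zM W L) P <<< 2000) + (cf W L (Q &&& zM W L) Q <<< 2200) +
  (cf W L (P &&& zM W L) Q <<< 2400)

def res26 (W L EM a b c d : ℕ) : ℕ :=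
  (fun P Q rc rd o =>
    (fun rP rQ =>
      res13 W L a b c d P Q rP rQ rc rd +
        (res13 W L (a + o) (b + o) (c + o) (d + o) (P + 2 * o) (Q + 2 * o) (rP + 2 * o)
          (rQ + 2 * o) (rc + o) (rd + o) <<< 2600))
      (flipP W L P L) (flipP W L Q L))
    (a + c) (b + d) (flipP W L c L) (flipP W L d L) (EM * ones W L)

/-- packed error recursion (all four components are equal) -/
def errP (W L B : ℕ) : List (ℕ × ℕ) → ℕ → ℕ
  | [], a => a
  | (s, _) :: l, a =>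
    (fun a' => bif Nat.beq (a' &&& hiM W L B) 0 then errP W L B l a' else 0)
      (shP W L s (KP W L a a a) + 3 * ones W L)

/-- certificate: the error recursion started with `e0` ends below `EM` -/
def errOK (W L B e0 EM : ℕ) (l : List (ℕ × ℕ)) : Bool :=
  (fun r => (bif Nat.beq r 0 then false else true) &&
    (Nat.blt e0 (2 ^ B) && Nat.beq ((r + (2 ^ (W - 1) - 1 - EM) * ones W L) &&&
      (2 ^ (W - 1) * ones W L)) 0)) (errP W L B l (e0 * ones W L))

/-- start vector from the list of indices -/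
def stP (W : ℕ) : List ℕ → ℕ
  | [] => 0
  | i :: l => 2 ^ (W * i) + stP W l

/-- pack four components (`X` bits each) -/
def pack4 (X a b c d : ℕ) : ℕ := a + (b <<< X + (c <<< (2 * X) + d <<< (3 * X)))
/-- component `i` of a packed quadruple -/
def un4 (X v i : ℕ) : ℕ := (v >>> (X * i)) % 2 ^ X

/-- totals over the runs: `rs` = list of (size, starts, value) -/
def tots (rs : List (ℕ × List ℕ × ℕ)) (i : ℕ) : ℕ :=
  match rs with
  | [] => 0
  | r :: l => r.1 * ((r.2.2 >>> (200 * i)) % 2 ^ 200) + tots l i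

end Crest.Agent.R347
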