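import Mathlib.Data.Int.Notation
import Crest.Agent.R347.NumCore

/-!
# Row 347, numerics: the final interval check (integers)
-/

set_option autoImplicit false

namespace Crest.Agent.R347

/-- lower (`s = 0`, `t = 13`) / upper (`s = 13`, `t = 0`) bound of the combination of the sums of class `q` -/
def cmbI (k : ℕ) (tot : ℕ → ℕ) (s t q : ℕ) : ℤ :=
  (tot (s + 5 * q) : ℤ) + (tot (s + 5 * q + 1) : ℤ) +
    (if k = 0 then 2 * (tot (s + 5 * q + 2) : ℤ) else if k = 2 then -2 * (tot (t + 5 * q + 2) : ℤ)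
      else -4 * ((tot (t + 5 * q + 3) : ℤ) + (tot (t + 5 * q + 4) : ℤ)))

/-- with the sign of the class; `par = (n + 1 + q) % 2` -/
def clsI (n : ℕ) (ε : Bool) (k : ℕ) (tot : ℕ → ℕ) (s t q : ℕ) : ℤ :=
  if ε && Nat.beq ((n + 1 + q) % 2) 1 then -cmbI k tot t s q else cmbI k tot s t q

/-- `κ'` as a natural number -/
def kapN (n κ : ℕ) : ℕ := (κ + (if n % 2 = 0 then 2 else 0)) % 4

/-- bound of a diagonal trace -/
def trI (n : ℕ) (ε : Bool) (κ : ℕ) (tot : ℕ → ℕ) (s t : ℕ) : ℤ :=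
  clsI n ε (kapN n κ) tot s t 0 + clsI n ε (kapN n κ) tot s t 1

/-- bound of the flipped trace: `(-1)^(n+1) (e10 + e11 ± 2 e12)` -/
def flI (n : ℕ) (tot : ℕ → ℕ) (s t : ℕ) : ℤ :=
  if n % 2 = 0 then -((tot (t + 10) : ℤ) + tot (t + 11) + 2 * tot (t + 12))
  else (tot (s + 10) : ℤ) + tot (s + 11) - 2 * tot (t + 12)

/-- `|x - a| ≤ d` from `lo 2^(2T) ≤ x 2^(2σ) ≤ hi 2^(2T)` -/
def inI (σ T : ℕ) (lo hi d a : ℤ) : Bool :=
  decide ((a - d) * 2 ^ (2 * σ) ≤ lo * 2 ^ (2 * T)) && decide (hi * 2 ^ (2 * T) ≤ (a + d) * 2 ^ (2 * σ))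

/-- the final check -/
def numCheck (n σ T : ℕ) (tot : ℕ → ℕ) (d a0 a1 a2 b0 b1 b2 dd : ℤ) : Bool :=
  inI σ T (trI n false 0 tot 0 13) (trI n false 0 tot 13 0) d a0 &&
  (inI σ T (trI n false 1 tot 0 13) (trI n false 1 tot 13 0) d a1 &&
  (inI σ T (trI n false 2 tot 0 13) (trI n false 2 tot 13 0) d a2 &&
  (inI σ T (trI n true 0 tot 0 13) (trI n true 0 tot 13 0) d b0 &&
  (inI σ T (trI n true 1 tot 0 13) (trI n true 1 tot 13 0) d b1 &&
  (inI σ T (trI n true 2 tot 0 13) (trI n true 2 tot 13 0) d b2 &&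
  inI σ T (flI n tot 0 13) (flI n tot 13 0) d dd)))))

end Crest.Agent.R347
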