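import Mathlib.Data.Nat.Notation

/-!
# Row 347, numerics: orbit certificate (definitions evaluated by the kernel)
-/

set_option autoImplicit false

namespace Crest.Agent.R347

/-- shift of the slot number (`L` digits in base 3) -/
def shN (L i : ℕ) : ℕ := i / 3 + (i % 3) * 3 ^ (L - 1)
/-- flip -/
def flN (L i : ℕ) : ℕ := 3 ^ L - 1 - i
/-- reversal of the lowest `m` digits -/
def rvN : ℕ → ℕ → ℕ
  | 0, _ => 0
  | m + 1, i => (i % 3) * 3 ^ m + rvN m (i / 3)
/-- `i, sh i, …, sh^(m-1) i` -/
def shL (L : ℕ) : ℕ → ℕ → List ℕ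
  | 0, _ => []
  | m + 1, i => i :: shL L m (shN L i)
/-- the `4 L` images -/
def imgs (L i : ℕ) : List ℕ :=
  shL L L i ++ (shL L L (flN L i) ++ (shL L L (rvN L i) ++ shL L L (rvN L (flN L i))))
/-- membership -/
def memN (i : ℕ) : List ℕ → Bool
  | [] => false
  | j :: l => bif Nat.beq i j then true else memN i l
/-- number of distinct elements -/
def dcount : List ℕ → ℕ
  | [] => 0
  | j :: l => bif memN j l then dcount l else Nat.succ (dcount l)
/-- union of bits -/
def bits : List ℕ → ℕ
  | [] => 0
  | j :: l => (1 <<< j) ||| bits l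
/-- checks for the start indices of one run -/
def chkL (L sz : ℕ) : List ℕ → Bool
  | [] => true
  | i :: l => (bif Nat.beq sz (4 * L) then true else Nat.ble (dcount (imgs L i)) sz) &&
      (Nat.blt i (3 ^ L) && chkL L sz l)
/-- checks for all runs -/
def chkR (L : ℕ) : List (ℕ × List ℕ) → Bool
  | [] => true
  | r :: l => chkL L r.1 r.2 && chkR L l
/-- union of the images, one run -/
def bitL (L : ℕ) : List ℕ → ℕ
  | [] => 0
  | i :: l => bits (imgs L i) ||| bitL L l
/-- union of the images, all runs -/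
def bitR (L : ℕ) : List (ℕ × List ℕ) → ℕ
  | [] => 0
  | r :: l => bitL L r.2 ||| bitR L l
/-- total number -/
def cntR : List (ℕ × List ℕ) → ℕ
  | [] => 0
  | r :: l => r.1 * r.2.length + cntR l
/-- the certificate -/
def orbOK (L : ℕ) (runs : List (ℕ × List ℕ)) : Bool :=
  chkR L runs && (Nat.beq (bitR L runs) (2 ^ (3 ^ L) - 1) && Nat.beq (cntR runs) (3 ^ L))
/-- magnetisation check: the digit sums of the start indices of each run are distinct -/
def dsum : ℕ → ℕ → ℕ
  | 0, _ => 0
  | m + 1, i => i % 3 + dsum m (i / 3)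
/-- all digit sums distinct -/
def dsd (L : ℕ) : List ℕ → Bool
  | [] => true
  | i :: l => (bif memN (dsum L i) (l.map (dsum L)) then false else true) && dsd L l
def dsR (L : ℕ) : List (ℕ × List ℕ) → Bool
  | [] => true
  | r :: l => dsd L r.2 && dsR L l

end Crest.Agent.R347
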