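import Mathlib.Data.Int.Notation
import Crest.Agent.R347.ChGam
import Crest.Agent.R347.NumChk
import Crest.Agent.R347.OrbCore

/-!
# Row 347, numerics (ring), Chebyshev version: run records and final check (evaluated by the kernel)
-/

set_option autoImplicit false

namespace Crest.Agent.R347

/-- a run: even member (orbit size `sz0`, index `c0`), odd member (`sz1`, `c1`); size 0 = dummy member;
sectors `me`, `mo`; outputs for `κ = 0, 1, 2`; six upper bounds of square roots -/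
structure CRun where
  sz0 : ℕ
  c0 : ℕ
  sz1 : ℕ
  c1 : ℕ
  me : ℕ
  mo : ℕ
  v0 : ℕ
  v1 : ℕ
  v2 : ℕ
  q : List ℕ

/-- field of 200 bits -/
def fld (v i : ℕ) : ℕ := (v >>> (200 * i)) % 2 ^ 200
/-- output for `κ` -/
def CRun.v (R : CRun) (κ : ℕ) : ℕ := bif Nat.beq κ 0 then R.v0 else bif Nat.beq κ 1 then R.v1 else R.v2
/-- size of the member of parity `q` -/
def CRun.sz (R : CRun) (q : ℕ) : ℕ := bif Nat.beq q 0 then R.sz0 else R.sz1
/-- sector of the member of parity `q` -/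
def CRun.sec (R : CRun) (q : ℕ) : ℕ := bif Nat.beq q 0 then R.me else R.mo
/-- bound of the square root -/
def CRun.rho (R : CRun) (κ q : ℕ) : ℕ := R.q.getD (2 * κ + q) 0

/-- square root checks -/
def sqC (R : CRun) (κ : ℕ) : Bool :=
  Nat.ble (fld (R.v κ) 0) (R.rho κ 0 * R.rho κ 0) && Nat.ble (fld (R.v κ) 1) (R.rho κ 1 * R.rho κ 1)

/-- cheap checks of a run -/
def metaOK (L : ℕ) (R : CRun) : Bool :=
  (Nat.blt R.c0 (3 ^ L) && (Nat.blt R.c1 (3 ^ L) && (Nat.beq (dsum L R.c0) R.me &&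
    (Nat.beq (dsum L R.c1) R.mo && (Nat.beq (R.me % 2) 0 && (Nat.beq (R.mo % 2) 1 &&
    (Nat.blt R.me 32 && Nat.blt R.mo 32))))))) && (sqC R 0 && (sqC R 1 && sqC R 2))

/-- cheap checks of all runs -/
def metaL (L : ℕ) : List CRun → Bool
  | [] => true
  | R :: l => metaOK L R && metaL L l

/-- the three certificates of a run -/
def runOKC (W L B r s h : ℕ) (gs : List ℕ) (R : CRun) : Prop :=
  chkC1 W L B r s h R.me R.mo gs [R.c0, R.c1] false (Nat.beq (L % 2) 1) R.v0 = true ∧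
  chkC2 W L B r s h R.me R.mo gs [R.c0, R.c1] R.v1 = true ∧
  chkC1 W L B r s h R.me R.mo gs [R.c0, R.c1] true (Nat.beq (L % 2) 0) R.v2 = true

/-- certificates of all runs -/
def allC (W L B r s h : ℕ) (gs : List ℕ) : List CRun → Prop
  | [] => True
  | R :: l => runOKC W L B r s h gs R ∧ allC W L B r s h gs l

/-- list of orbit representatives -/
def orbL : List CRun → List (ℕ × List ℕ)
  | [] => []
  | R :: l => (bif Nat.beq R.sz0 0 then [] else [(R.sz0, [R.c0])]) ++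
      ((bif Nat.beq R.sz1 0 then [] else [(R.sz1, [R.c1])]) ++ orbL l)

/-- `∑ size · N(κ, q)` -/
def sumN (κ q : ℕ) : List CRun → ℕ
  | [] => 0
  | R :: l => R.sz q * fld (R.v κ) q + sumN κ q l
/-- `∑ size · δ (2 ρ + δ)` -/
def sumE (κ q δ : ℕ) : List CRun → ℕ
  | [] => 0
  | R :: l => R.sz q * (δ * (2 * R.rho κ q + δ)) + sumE κ q δ l
/-- flip term: `κ = 2` for even `L`, `κ = 0` for odd `L`, only runs with the sector `L` -/
def sumF (L : ℕ) : List CRun → ℤ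
  | [] => 0
  | R :: l => (bif Nat.beq (R.sec (L % 2)) L then
      (R.sz (L % 2) : ℤ) * (((R.v (2 - 2 * (L % 2)) >>> 400 : ℕ) : ℤ) - 2 ^ 199) else 0) + sumF L l
/-- error of the flip term -/
def sumG (L δ : ℕ) : List CRun → ℕ
  | [] => 0
  | R :: l => (bif Nat.beq (R.sec (L % 2)) L then
      R.sz (L % 2) * (δ * (2 * R.rho (2 - 2 * (L % 2)) (L % 2) + δ)) else 0) + sumG L δ l

/-- `κ'` as index: `0 ↦ 0`, `2 ↦ 2`, `1, 3 ↦ 1` -/
def kapI (n κ : ℕ) : ℕ :=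
  bif Nat.beq (kapN n κ) 0 then 0 else bif Nat.beq (kapN n κ) 2 then 2 else 1
/-- value of a trace -/
def valC (n : ℕ) (ε : Bool) (κ : ℕ) (rs : List CRun) : ℤ :=
  (bif (ε && Nat.beq ((n + 1) % 2) 1) then -(sumN (kapI n κ) 0 rs : ℤ) else (sumN (kapI n κ) 0 rs : ℤ)) +
  (bif (ε && Nat.beq ((n + 1 + 1) % 2) 1) then -(sumN (kapI n κ) 1 rs : ℤ)
    else (sumN (kapI n κ) 1 rs : ℤ))
/-- error of a trace -/
def errC (n d02 d1 κ : ℕ) (rs : List CRun) : ℕ :=
  bif Nat.beq (kapI n κ) 1 then sumE 1 0 d1 rs + sumE 1 1 d1 rs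
  else sumE (kapI n κ) 0 d02 rs + sumE (kapI n κ) 1 d02 rs
/-- `|val 4^σ - a| + err 4^σ ≤ d` -/
def inC (σ : ℕ) (val : ℤ) (err : ℕ) (d a : ℤ) : Bool :=
  decide (val * 4 ^ σ + (err : ℤ) * 4 ^ σ ≤ a + d) && decide (a - d ≤ val * 4 ^ σ - (err : ℤ) * 4 ^ σ)
/-- the final check -/
def finC (n σ d02 d1 : ℕ) (rs : List CRun) (d a0 a1 a2 b0 b1 b2 dd : ℤ) : Bool :=
  inC σ (valC n false 0 rs) (errC n d02 d1 0 rs) d a0 &&
  (inC σ (valC n false 1 rs) (errC n d02 d1 1 rs) d a1 &&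
  (inC σ (valC n false 2 rs) (errC n d02 d1 2 rs) d a2 &&
  (inC σ (valC n true 0 rs) (errC n d02 d1 0 rs) d b0 &&
  (inC σ (valC n true 1 rs) (errC n d02 d1 1 rs) d b1 &&
  (inC σ (valC n true 2 rs) (errC n d02 d1 2 rs) d b2 &&
  inC σ (bif Nat.beq (n % 2) 0 then -sumF (n + 1) rs else sumF (n + 1) rs) (sumG (n + 1) d02 rs) d
    dd)))))

end Crest.Agent.R347
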