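import Crest.Agent.R347.ChRun

/-!
# Row 347, numerics (ring), Chebyshev version: lists of certificates
-/

set_option autoImplicit false

namespace Crest.Agent.R347

theorem allC_nil {W L B r s h : ℕ} {gs : List ℕ} : allC W L B r s h gs [] := trivial

theorem allC_cons {W L B r s h : ℕ} {gs : List ℕ} {R : CRun} {l : List CRun}
    (h0 : chkC1 W L B r s h R.me R.mo gs [R.c0, R.c1] false (Nat.beq (L % 2) 1) R.v0 = true)
    (h1 : chkC2 W L B r s h R.me R.mo gs [R.c0, R.c1] R.v1 = true)
    (h2 : chkC1 W L B r s h R.me R.mo gs [R.c0, R.c1] true (Nat.beq (L % 2) 0) R.v2 = true)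
    (hl : allC W L B r s h gs l) : allC W L B r s h gs (R :: l) :=
  ⟨⟨h0, h1, h2⟩, hl⟩

theorem allC_append {W L B r s h : ℕ} {gs : List ℕ} : ∀ {l l' : List CRun},
    allC W L B r s h gs l → allC W L B r s h gs l' → allC W L B r s h gs (l ++ l')
  | [], _, _, h' => h'
  | _ :: _, _, h, h' => ⟨h.1, allC_append h.2 h'⟩

end Crest.Agent.R347
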