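import Crest.Agent.R347.ChCert
import Crest.Agent.R347.ChDefs
import Crest.Agent.R347.ChC

/-!
# Row 347, Chebyshev method: the integer recursion `runZ` and `cheb_cert`

`X` is a linear embedding that intertwines the integer operator `K` with the real matrix `A`
(`A (X u) = X (K u)`), `Lam = 2^(s+2) / r`.
-/

set_option autoImplicit false

namespace Crest.Agent.R347.ChA

open Matrix Finset

/-- the sequence behind `runZ` -/
theorem runZ_seq {ι : Type} (K : (ι → ℤ) → ι → ℤ) (r s h : ℕ) (e : ι → ℤ) :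
    ∀ (l : List ℕ), l ≠ [] → ∀ b1 b2 : ι → ℤ, ∃ b : ℕ → ι → ℤ, b l.length = b1 ∧
      b (l.length + 1) = b2 ∧
      (∀ k < l.length, b k = stepZ r s h (l.reverse.getD k 0) e (K (b (k + 1))) (b (k + 1))
        (b (k + 2))) ∧
      runZ K r s h e l b1 b2 = fun x => b 0 x - b 2 x
  | [], hl, _, _ => absurd rfl hl
  | [g], _, b1, b2 => by
    refine ⟨fun k => if k = 0 then stepZ r s h g e (K b1) b1 b2 else if k = 1 then b1 else b2,
      by simp, by simp, ?_, ?_⟩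
    · intro k hk
      have : k = 0 := by simpa using hk
      subst this
      simp
    · funext x
      simp [runZ, lastZ, stepZ]
      ring
  | g :: g' :: l, _, b1, b2 => by
    obtain ⟨b, hb1, hb2, hb, hr⟩ := runZ_seq K r s h e (g' :: l) (by simp)
      (stepZ r s h g e (K b1) b1 b2) b1
    refine ⟨fun k => if k = (g' :: l).length + 2 then b2 else b k, ?_, ?_, ?_, ?_⟩
    · have : (g :: g' :: l).length ≠ (g' :: l).length + 2 := by simp
      simp only [if_neg this]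
      exact hb2
    · have : (g :: g' :: l).length + 1 = (g' :: l).length + 2 := by simp
      simp only [if_pos this]
    · intro k hk
      have hk' : k < (g' :: l).length + 1 := by simpa using hk
      have n1 : k ≠ (g' :: l).length + 2 := by omega
      have n2' : k + 1 ≠ (g' :: l).length + 2 := by omega
      simp only [if_neg n1, if_neg n2']
      rcases Nat.lt_or_ge k (g' :: l).length with h1 | h1
      · have n3 : k + 2 ≠ (g' :: l).length + 2 := by omega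
        simp only [if_neg n3]
        rw [hb k h1]
        congr 1
        have e0 : (g :: g' :: l).reverse = (g' :: l).reverse ++ [g] := List.reverse_cons
        rw [e0, List.getD_append _ _ _ _ (by rw [List.length_reverse]; exact h1)]
      · have e1 : k = (g' :: l).length := by omega
        subst e1
        simp only [if_true]
        rw [hb1, hb2]
        congr 1
        have e0 : (g :: g' :: l).reverse = (g' :: l).reverse ++ [g] := List.reverse_cons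
        rw [e0, List.getD_append_right _ _ _ _ (by rw [List.length_reverse]), List.length_reverse]
        simp
    · rw [runZ, hr]
      funext x
      have n0 : (0 : ℕ) ≠ (g' :: l).length + 2 := by omega
      have n2' : (2 : ℕ) ≠ (g' :: l).length + 2 := by simp
      simp only [if_neg n0, if_neg n2']

variable {i : Type*} [Fintype i] [DecidableEq i]

/-- cast of an integer vector -/
def cst {ι : Type} (u : ι → ℤ) : ι → ℝ := fun x => (u x : ℝ)

/-- rounding error of one step -/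
theorem step_err {ι : Type} (r s h : ℕ) (hrh : r * h < 2 ^ s) (g : ℕ) (e Ku b1 b2 : ι → ℤ)
    (η : ℝ) (h1 : (r * h : ℝ) / 2 ^ s ≤ η) (h2 : 1 - (r * h : ℝ) / 2 ^ s ≤ η) (x : ι) :
    |((stepZ r s h g e Ku b1 b2 x : ℤ) : ℝ) - ((g : ℝ) * e x + (r : ℝ) / 2 ^ s * Ku x -
      2 * b1 x - b2 x)| ≤ η ∧
    (Ku x = 0 → ((stepZ r s h g e Ku b1 b2 x : ℤ) : ℝ) - ((g : ℝ) * e x + (r : ℝ) / 2 ^ s * Ku x -
      2 * b1 x - b2 x) = 0) := by
  have hp : (0 : ℝ) < 2 ^ s := by positivity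
  have e1 : ((stepZ r s h g e Ku b1 b2 x : ℤ) : ℝ) - ((g : ℝ) * e x + (r : ℝ) / 2 ^ s * Ku x -
      2 * b1 x - b2 x) = (((r * Ku x + r * h) / 2 ^ s : ℤ) : ℝ) - (r : ℝ) / 2 ^ s * Ku x := by
    rw [stepZ]; push_cast; ring
  rw [e1]
  constructor
  · set z : ℤ := r * Ku x + r * h with hz
    have hp' : (0 : ℤ) < 2 ^ s := by positivity
    have f1 : (2 ^ s : ℤ) * (z / 2 ^ s) ≤ z := Int.mul_ediv_self_le hp'.ne'
    have f2 : z < (2 ^ s : ℤ) * (z / 2 ^ s) + 2 ^ s := by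
      have := Int.lt_mul_ediv_self_add (x := z) hp'
      exact this
    have f1' : (2 ^ s : ℝ) * ((z / 2 ^ s : ℤ) : ℝ) ≤ (z : ℝ) := by exact_mod_cast f1
    have f2' : (z : ℝ) < (2 ^ s : ℝ) * ((z / 2 ^ s : ℤ) : ℝ) + 2 ^ s := by exact_mod_cast f2
    have hzr : (z : ℝ) = r * Ku x + r * h := by rw [hz]; push_cast; ring
    rw [hzr] at f1' f2'
    have g1 : ((z / 2 ^ s : ℤ) : ℝ) - (r : ℝ) / 2 ^ s * Ku x ≤ (r * h : ℝ) / 2 ^ s := by
      rw [div_mul_eq_mul_div, sub_le_iff_le_add, ← add_div, le_div_iff₀ hp]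
      linarith
    have g2 : (r * h : ℝ) / 2 ^ s - 1 ≤ ((z / 2 ^ s : ℤ) : ℝ) - (r : ℝ) / 2 ^ s * Ku x := by
      rw [div_mul_eq_mul_div, le_sub_iff_add_le, sub_add_eq_add_sub, ← add_div, sub_le_iff_le_add,
        div_le_iff₀ hp]
      linarith
    rw [abs_le]
    constructor
    · linarith
    · exact g1.trans h1
  · intro hK
    rw [hK]
    have : ((r : ℤ) * 0 + r * h) / 2 ^ s = 0 := by
      rw [mul_zero, zero_add]
      exact Int.ediv_eq_zero_of_lt (by positivity) (by exact_mod_cast hrh)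
    rw [this]
    simp

/-- **Run of the integer recursion**, coefficients abstract.  `D + 1 = gs.length`,
`Lam = 2^(s+2)/r`; `S` = support set of the rounding errors. -/
theorem runZ_core {ι : Type} [Fintype ι] [DecidableEq ι] (A : Matrix i i ℝ) (hs : A.IsSymm)
    (r s h : ℕ) (hr : 0 < r) (hrh : r * h < 2 ^ s) (t : ℝ) (ht : 0 ≤ t)
    (h0 : ∀ f : i → ℝ, 0 ≤ f ⬝ᵥ (A *ᵥ f))
    (h1 : ∀ f : i → ℝ, f ⬝ᵥ (A *ᵥ f) ≤ (2 ^ (s + 2) / r : ℝ) * (f ⬝ᵥ f))
    (K : (ι → ℤ) → ι → ℤ) (X : (ι → ℝ) →ₗ[ℝ] (i → ℝ))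
    (hX : ∀ u : ι → ℤ, A *ᵥ X (cst u) = X (cst (K u))) (c : ℝ) (hc : 0 ≤ c)
    (hXn : ∀ f : ι → ℝ, n2 (X f) ≤ c * n2 f)
    (e : ι → ℤ) (S : Finset ι) (hS : ∀ u : ι → ℤ, (∀ x ∉ S, u x = 0) → ∀ x ∉ S, K u x = 0)
    (heS : ∀ x ∉ S, e x = 0)
    (D N0 : ℕ) (gs : List ℕ) (hgl : gs.length = D + 1) (Sc : ℝ) (hSc : 0 < Sc) (tau : ℝ)
    (hD : D ≤ N0)
    (hg : ∀ j ≤ D, |((gs.reverse.getD j 0 : ℕ) : ℝ) - Sc * ∑ n ∈ range (N0 + 1),
      (t * (2 ^ (s + 2) / r : ℝ) / 4) ^ n / (n.factorial : ℝ) *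
      (if j ≤ n then ((2 * n).choose (n - j) : ℝ) else 0)| ≤ 1)
    (ht2 : t * (2 ^ (s + 2) / r : ℝ) < N0 + 2)
    (htau : Sc * (∑ n ∈ range (N0 + 1), (t * (2 ^ (s + 2) / r : ℝ) / 4) ^ n / (n.factorial : ℝ) *
        ∑ j ∈ Ioc D n, 2 * ((2 * n).choose (n - j) : ℝ)) +
      Sc * ((t * (2 ^ (s + 2) / r : ℝ)) ^ (N0 + 1) / ((N0 + 1).factorial : ℝ) *
        ((N0 + 2) / (N0 + 2 - t * (2 ^ (s + 2) / r : ℝ)))) ≤ tau)
    (η : ℝ) (hη1 : (r * h : ℝ) / 2 ^ s ≤ η) (hη2 : 1 - (r * h : ℝ) / 2 ^ s ≤ η) :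
    n2 (X (cst (runZ K r s h e gs (fun _ => 0) (fun _ => 0))) -
      Sc • (NormedSpace.exp (t • A) *ᵥ X (cst e))) ≤
      (2 * D + 1) * (c * (η * Real.sqrt (S.card : ℝ))) + (2 * D + 1 + tau) * n2 (X (cst e)) := by
  have hr' : (0 : ℝ) < r := by exact_mod_cast hr
  have hL : (0 : ℝ) < 2 ^ (s + 2) / r := by positivity
  obtain ⟨b, hb1, hb2, hb, hrun⟩ := runZ_seq K r s h e gs (by intro h'; simp [h'] at hgl)
    (fun _ => 0) (fun _ => 0)
  rw [hgl] at hb1 hb2 hb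
  -- support
  have hsupp : ∀ k ≤ D + 2, ∀ x ∉ S, b k x = 0 := by
    have key : ∀ m, m ≤ D + 1 → (∀ x ∉ S, b (D + 1 - m) x = 0) ∧ ∀ x ∉ S, b (D + 2 - m) x = 0 := by
      intro m
      induction m with
      | zero =>
        intro _
        refine ⟨fun x _ => ?_, fun x _ => ?_⟩
        · rw [Nat.sub_zero, hb1]
        · rw [Nat.sub_zero, show D + 2 = D + 1 + 1 by rfl, hb2]
      | succ m ih =>
        intro hm
        obtain ⟨i1, i2⟩ := ih (by omega)
        refine ⟨fun x hx => ?_, fun x hx => ?_⟩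
        · have hk := hb (D + 1 - (m + 1)) (by omega)
          rw [hk]
          have e1 : D + 1 - (m + 1) + 1 = D + 1 - m := by omega
          have e2 : D + 1 - (m + 1) + 2 = D + 2 - m := by omega
          rw [e1, e2, stepZ, heS x hx, i1 x hx, i2 x hx, hS _ i1 x hx]
          simp only [mul_zero, zero_add, sub_zero]
          exact Int.ediv_eq_zero_of_lt (by positivity) (by exact_mod_cast hrh)
        · have e2 : D + 2 - (m + 1) = D + 1 - m := by omega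
          rw [e2]; exact i1 x hx
    intro k hk x hx
    rcases Nat.lt_or_ge k (D + 2) with h' | h'
    · have := (key (D + 1 - k) (by omega)).1 x hx
      rwa [show D + 1 - (D + 1 - k) = k by omega] at this
    · have e1 : k = D + 1 + 1 := by omega
      rw [e1, hb2]
  have hz : X (cst (fun _ : ι => (0 : ℤ))) = 0 := by
    have : cst (fun _ : ι => (0 : ℤ)) = 0 := by funext x; simp [cst]
    rw [this, map_zero]
  have hmain := cheb_main A hs (2 ^ (s + 2) / r : ℝ) t hL ht h0 h1 (X (cst e)) Sc hSc D N0 hD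
    (fun k => ((gs.reverse.getD k 0 : ℕ) : ℝ)) hg (fun k => X (cst (b k)))
    (by simp only [hb1, hz]) (by simp only [show D + 2 = D + 1 + 1 by rfl, hb2, hz])
    (c * (η * Real.sqrt (S.card : ℝ))) ?_ tau ht2 htau
  · have e1 : X (cst (runZ K r s h e gs (fun _ => 0) (fun _ => 0))) =
        X (cst (b 0)) - X (cst (b 2)) := by
      rw [hrun, ← map_sub]
      congr 1
      funext x
      simp [cst]
    rw [e1]
    exact hmain
  · intro k hk
    have hb' := hb k (by omega)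
    -- the error vector
    set er : ι → ℝ := fun x => ((b k x : ℤ) : ℝ) - (((gs.reverse.getD k 0 : ℕ) : ℝ) * e x +
      (r : ℝ) / 2 ^ s * K (b (k + 1)) x - 2 * b (k + 1) x - b (k + 2) x) with her
    have e4 : (4 : ℝ) / (2 ^ (s + 2) / r) = r / 2 ^ s := by
      rw [pow_add]; field_simp; norm_num
    have e5 : X (cst (b k)) - (((gs.reverse.getD k 0 : ℕ) : ℝ) • X (cst e) +
        (4 / (2 ^ (s + 2) / r : ℝ)) • (A *ᵥ X (cst (b (k + 1)))) -
        (2 : ℝ) • X (cst (b (k + 1))) - X (cst (b (k + 2)))) = X er := by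
      rw [hX, e4, ← map_smul, ← map_smul, ← map_smul, ← map_add, ← map_sub, ← map_sub, ← map_sub]
      congr 1
    simp only [e5]
    refine (hXn er).trans (mul_le_mul_of_nonneg_left ?_ hc)
    have hη0 : 0 ≤ η := le_trans (by positivity) hη1
    have hle : ∀ x, |er x| ≤ η ∧ (x ∉ S → er x = 0) := by
      intro x
      have hse := step_err r s h hrh (gs.reverse.getD k 0) e (K (b (k + 1))) (b (k + 1))
        (b (k + 2)) η hη1 hη2 x
      rw [← hb'] at hse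
      refine ⟨hse.1, fun hxS => hse.2 ?_⟩
      exact hS _ (fun y hy => hsupp (k + 1) (by omega) y hy) x hxS
    have hsum : ∑ x, er x * er x ≤ (η ^ 2) * (S.card : ℝ) := by
      have : ∑ x, er x * er x = ∑ x ∈ S, er x * er x := by
        refine (sum_subset (subset_univ S) fun x _ hxS => ?_).symm
        rw [(hle x).2 hxS]; simp
      rw [this]
      calc ∑ x ∈ S, er x * er x ≤ ∑ x ∈ S, η ^ 2 := by
            refine sum_le_sum fun x _ => ?_
            have := (hle x).1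
            rw [← pow_two, ← sq_abs]
            exact pow_le_pow_left₀ (abs_nonneg _) this 2
        _ = (η ^ 2) * (S.card : ℝ) := by rw [sum_const, nsmul_eq_mul]; ring
    rw [n2]
    calc Real.sqrt (∑ x, er x * er x) ≤ Real.sqrt ((η ^ 2) * (S.card : ℝ)) :=
          Real.sqrt_le_sqrt hsum
      _ = η * Real.sqrt (S.card : ℝ) := by
          rw [Real.sqrt_mul (by positivity), Real.sqrt_sq hη0]

/-- **Run of the integer recursion**, coefficients checked by `chkCoef`. -/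
theorem runZ_cheb {ι : Type} [Fintype ι] [DecidableEq ι] (A : Matrix i i ℝ) (hs : A.IsSymm)
    (r s h : ℕ) (hr : 0 < r) (hrh : r * h < 2 ^ s) (t : ℝ) (ht : 0 ≤ t)
    (h0 : ∀ f : i → ℝ, 0 ≤ f ⬝ᵥ (A *ᵥ f))
    (h1 : ∀ f : i → ℝ, f ⬝ᵥ (A *ᵥ f) ≤ (2 ^ (s + 2) / r : ℝ) * (f ⬝ᵥ f))
    (K : (ι → ℤ) → ι → ℤ) (X : (ι → ℝ) →ₗ[ℝ] (i → ℝ))
    (hX : ∀ u : ι → ℤ, A *ᵥ X (cst u) = X (cst (K u))) (c : ℝ) (hc : 0 ≤ c)
    (hXn : ∀ f : ι → ℝ, n2 (X f) ≤ c * n2 f)
    (e : ι → ℤ) (S : Finset ι) (hS : ∀ u : ι → ℤ, (∀ x ∉ S, u x = 0) → ∀ x ∉ S, K u x = 0)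
    (heS : ∀ x ∉ S, e x = 0)
    (u v sn sd D N0 tau : ℕ) (gs : List ℕ) (hgl : gs.length = D + 1)
    (hx : t * (2 ^ (s + 2) / r : ℝ) / 4 = (u : ℝ) / v)
    (hchk : chkCoef u v sn sd D N0 tau gs = true)
    (η : ℝ) (hη1 : (r * h : ℝ) / 2 ^ s ≤ η) (hη2 : 1 - (r * h : ℝ) / 2 ^ s ≤ η) :
    n2 (X (cst (runZ K r s h e gs (fun _ => 0) (fun _ => 0))) -
      ((sn : ℝ) / sd) • (NormedSpace.exp (t • A) *ᵥ X (cst e))) ≤
      (2 * D + 1) * (c * (η * Real.sqrt (S.card : ℝ))) +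
        (2 * D + 1 + tau) * n2 (X (cst e)) := by
  simp only [chkCoef, Bool.and_eq_true] at hchk
  obtain ⟨⟨hsn, hG⟩, hT⟩ := hchk
  have hsn' : 0 < sn := by simpa using hsn
  have hG' := hG
  simp only [chkG, Bool.and_eq_true, Nat.blt_eq, Nat.ble_eq] at hG'
  obtain ⟨⟨⟨⟨hv, hsd⟩, hDN⟩, _⟩, _⟩ := hG'
  have hT' := hT
  simp only [chkT, Bool.and_eq_true, Nat.blt_eq, Nat.ble_eq] at hT'
  obtain ⟨⟨_, h4⟩, _⟩ := hT'
  have hx4 : t * (2 ^ (s + 2) / r : ℝ) = 4 * ((u : ℝ) / v) := by rw [← hx]; ring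
  have hv' : (0 : ℝ) < v := by exact_mod_cast hv
  have ht2 : t * (2 ^ (s + 2) / r : ℝ) < N0 + 2 := by
    rw [hx4, mul_div_assoc', div_lt_iff₀ hv']
    exact_mod_cast h4
  refine runZ_core A hs r s h hr hrh t ht h0 h1 K X hX c hc hXn e S hS heS D N0 gs hgl
    ((sn : ℝ) / sd) (div_pos (by exact_mod_cast hsn') (by exact_mod_cast hsd)) tau hDN ?_ ht2 ?_
    η hη1 hη2
  · intro j hj
    rw [hx]
    exact chkG_sound u v sn sd D N0 gs.reverse hG j hj
  · rw [hx, hx4]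
    exact chkT_sound u v sn sd D N0 tau hT

theorem getD_rev (gs : List ℕ) (D k : ℕ) (hgl : gs.length = D + 1) (hk : k ≤ D) :
    gs.reverse.getD k 0 = gs.getD (D - k) 0 := by
  rw [List.getD_eq_getElem _ _ (by rw [List.length_reverse]; omega), List.getElem_reverse,
    List.getD_eq_getElem _ _ (by omega)]
  congr 1
  omega

/-- **Run of the integer recursion**, coefficients from `GamOK`; `E` bounds the rounding. -/
theorem runZ_gam {ι : Type} [Fintype ι] [DecidableEq ι] (A : Matrix i i ℝ) (hs : A.IsSymm)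
    (r s h : ℕ) (hr : 0 < r) (hrh : r * h < 2 ^ s)
    (h0 : ∀ f : i → ℝ, 0 ≤ f ⬝ᵥ (A *ᵥ f))
    (h1 : ∀ f : i → ℝ, f ⬝ᵥ (A *ᵥ f) ≤ (4 * 2 ^ s / r : ℝ) * (f ⬝ᵥ f))
    (K : (ι → ℤ) → ι → ℤ) (X : (ι → ℝ) →ₗ[ℝ] (i → ℝ))
    (hX : ∀ u : ι → ℤ, A *ᵥ X (cst u) = X (cst (K u))) (c : ℝ) (hc : 0 ≤ c)
    (hXn : ∀ f : ι → ℝ, n2 (X f) ≤ c * n2 f)
    (e : ι → ℤ) (S : Finset ι) (hS : ∀ u : ι → ℤ, (∀ x ∉ S, u x = 0) → ∀ x ∉ S, K u x = 0)
    (heS : ∀ x ∉ S, e x = 0)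
    (D N0 σ : ℕ) (gs : List ℕ) (hgl : gs.length = D + 1) (tau : ℝ)
    (hg : GamOK r s D N0 σ tau fun j => ((gs.getD (D - j) 0 : ℕ) : ℝ))
    (m : ℕ) (hm1 : r * h ≤ m) (hm2 : 2 ^ s ≤ m + r * h) :
    n2 (X (cst (runZ K r s h e gs (fun _ => 0) (fun _ => 0))) -
      (1 / 2 ^ σ : ℝ) • (NormedSpace.exp ((17 / 4 : ℝ) • A) *ᵥ X (cst e))) ≤
      (2 * D + 1) * (c * ((m : ℝ) / 2 ^ s * Real.sqrt (S.card : ℝ))) +
        (2 * D + 1 + tau) * n2 (X (cst e)) := by
  have eL : (4 * 2 ^ s / r : ℝ) = 2 ^ (s + 2) / r := by rw [pow_add]; ring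
  have hp : (0 : ℝ) < 2 ^ s := by positivity
  rw [eL] at h1
  have q1 := hg.hg
  have q2 := hg.ht2
  have q3 := hg.htau
  rw [eL] at q2 q3
  refine runZ_core A hs r s h hr hrh (17 / 4) (by norm_num) h0 h1 K X hX c hc hXn e S hS heS D N0
    gs hgl (1 / 2 ^ σ) (by positivity) tau hg.hD ?_ q2 q3 _ ?_ ?_
  · intro j hj
    rw [getD_rev gs D j hgl hj]
    have := q1 j hj
    rw [eL] at this
    exact this
  · rw [div_le_div_iff_of_pos_right hp]
    exact_mod_cast hm1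
  · rw [sub_le_iff_le_add, ← add_div, le_div_iff₀ hp, one_mul]
    exact_mod_cast hm2

end Crest.Agent.R347.ChA
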