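import Crest.Agent.R347.NB1

/-!
# Row 347 numerics, part S: spectral bounds of `KR n`: symmetric, `0 ≤ KR n ≤ (5/2) (n+1)` (Schur test)
-/

set_option autoImplicit false

open Crest.MathPhysics.SpinChain Matrix

namespace Crest.Agent.R347

namespace ChS

open NB1aux

/-- Schur test -/
theorem schur {X : Type*} [Fintype X] (M : X → X → ℝ) (hM : ∀ x y, 0 ≤ M x y)
    (hs : ∀ x y, M x y = M y x) (ψ : X → ℝ) (hψ : ∀ x, 0 < ψ x) (d : X → ℝ)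
    (h : ∀ x, ∑ y, M x y * ψ y ≤ d x * ψ x) (f : X → ℝ) :
    |∑ x, ∑ y, f x * M x y * f y| ≤ ∑ x, d x * f x ^ 2 := by
  have hpt : ∀ x y, |f x * M x y * f y| ≤
      (f x ^ 2 * (M x y * ψ y / ψ x) + f y ^ 2 * (M y x * ψ x / ψ y)) / 2 := by
    intro x y
    have hx := hψ x
    have hy := hψ y
    have h1 : |f x * M x y * f y| = M x y * (|f x| * |f y|) := by
      rw [abs_mul, abs_mul, abs_of_nonneg (hM x y)]; ring
    have h2 : 2 * (|f x| * |f y|) ≤ f x ^ 2 * (ψ y / ψ x) + f y ^ 2 * (ψ x / ψ y) := by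
      have h3 : f x ^ 2 * (ψ y / ψ x) + f y ^ 2 * (ψ x / ψ y) - 2 * (|f x| * |f y|) =
          (|f x| * ψ y - |f y| * ψ x) ^ 2 / (ψ x * ψ y) := by
        rw [← sq_abs (f x), ← sq_abs (f y)]
        field_simp
        ring
      have h4 : 0 ≤ (|f x| * ψ y - |f y| * ψ x) ^ 2 / (ψ x * ψ y) := by positivity
      linarith
    rw [h1, ← hs x y]
    have h5 := mul_le_mul_of_nonneg_left h2 (hM x y)
    have h6 : f x ^ 2 * (M x y * ψ y / ψ x) + f y ^ 2 * (M x y * ψ x / ψ y) =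
        M x y * (f x ^ 2 * (ψ y / ψ x) + f y ^ 2 * (ψ x / ψ y)) := by ring
    rw [h6]
    linarith
  calc |∑ x, ∑ y, f x * M x y * f y| ≤ ∑ x, ∑ y, |f x * M x y * f y| :=
        (Finset.abs_sum_le_sum_abs _ _).trans
          (Finset.sum_le_sum fun x _ => Finset.abs_sum_le_sum_abs _ _)
    _ ≤ ∑ x, ∑ y, (f x ^ 2 * (M x y * ψ y / ψ x) + f y ^ 2 * (M y x * ψ x / ψ y)) / 2 :=
        Finset.sum_le_sum fun x _ => Finset.sum_le_sum fun y _ => hpt x y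
    _ = (∑ x, ∑ y, f x ^ 2 * (M x y * ψ y / ψ x) +
          ∑ x, ∑ y, f y ^ 2 * (M y x * ψ x / ψ y)) / 2 := by
        simp only [← Finset.sum_div, Finset.sum_add_distrib]
    _ = ∑ x, ∑ y, f x ^ 2 * (M x y * ψ y / ψ x) := by
        rw [Finset.sum_comm (f := fun x y => f y ^ 2 * (M y x * ψ x / ψ y))]
        ring
    _ ≤ ∑ x, d x * f x ^ 2 := by
        refine Finset.sum_le_sum fun x _ => ?_
        have hx := hψ x
        have e : ∑ y, f x ^ 2 * (M x y * ψ y / ψ x) = f x ^ 2 * ((∑ y, M x y * ψ y) / ψ x) := by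
          rw [Finset.sum_div, Finset.mul_sum]
        rw [e, mul_comm (d x)]
        refine mul_le_mul_of_nonneg_left ?_ (sq_nonneg _)
        rw [div_le_iff₀ hx]
        exact h x

variable {n : ℕ}

/-- hopping part of the bond `(i, i+1)` -/
noncomputable def ob (i : Fin (n + 1)) (x y : XC n) : ℝ := (tA i x y : ℝ) + (tB i x y : ℝ)

/-- diagonal part of the bond `(i, i+1)` -/
noncomputable def db (i : Fin (n + 1)) (x : XC n) : ℝ := (bd (x.1 i) (x.1 (i + 1)) : ℝ)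

theorem tA_symm (i : Fin (n + 1)) (x y : XC n) : tA i x y = tB i y x := by
  unfold tA tB
  simp only [Hop_symm (i + 1) i x.1 y.1]

theorem ob_symm (i : Fin (n + 1)) (x y : XC n) : ob i x y = ob i y x := by
  unfold ob
  rw [tA_symm i x y, tA_symm i y x, add_comm]

theorem ob_nonneg (i : Fin (n + 1)) (x y : XC n) : 0 ≤ ob i x y := by
  unfold ob
  positivity

theorem KR_eq (x y : XC n) : KR n x y = (if x = y then ∑ i, db i x else 0) +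
    ∑ i : Fin (n + 1), ob i x y := by
  unfold KR ob db
  rw [Matrix.map_apply, KN_cyc, diagK_cyc]
  push_cast
  rfl

theorem f3_succ : ∀ a b : Fin 3, (b : ℕ) = (a : ℕ) + 1 → b = a + 1 := by decide

theorem f3_pred : ∀ a b : Fin 3, (a : ℕ) = (b : ℕ) + 1 → b = a - 1 := by decide

theorem sum_tA_mul_le (i : Fin (n + 1)) (x : XC n) (ψ : Cfg n → ℝ) (G : ℝ) (hG : 0 ≤ G)
    (h : ∀ c', Hop (i + 1) i x.1 c' → ψ c' ≤ G) :
    ∑ y, (tA i x y : ℝ) * ψ y.1 ≤ if (x.1 (i + 1) : ℕ) ≤ 1 ∧ 1 ≤ (x.1 i : ℕ) then G else 0 := by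
  have h1 : ∀ y : XC n, (tA i x y : ℝ) * ψ y.1 ≤ (tA i x y : ℝ) * G := by
    intro y
    unfold tA
    split_ifs with hc
    · simpa using h y.1 hc.2
    · simp
  refine (Finset.sum_le_sum fun y _ => h1 y).trans ?_
  rw [← Finset.sum_mul]
  have h2 : (∑ y, (tA i x y : ℝ)) ≤ if (x.1 (i + 1) : ℕ) ≤ 1 ∧ 1 ≤ (x.1 i : ℕ) then 1 else 0 := by
    exact_mod_cast sum_tA_le i x
  refine (mul_le_mul_of_nonneg_right h2 hG).trans ?_
  split_ifs <;> simp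

theorem sum_tB_mul_le (i : Fin (n + 1)) (x : XC n) (ψ : Cfg n → ℝ) (G : ℝ) (hG : 0 ≤ G)
    (h : ∀ c', Hop i (i + 1) x.1 c' → ψ c' ≤ G) :
    ∑ y, (tB i x y : ℝ) * ψ y.1 ≤ if (x.1 i : ℕ) ≤ 1 ∧ 1 ≤ (x.1 (i + 1) : ℕ) then G else 0 := by
  have h1 : ∀ y : XC n, (tB i x y : ℝ) * ψ y.1 ≤ (tB i x y : ℝ) * G := by
    intro y
    unfold tB
    split_ifs with hc
    · simpa using h y.1 hc.2
    · simp
  refine (Finset.sum_le_sum fun y _ => h1 y).trans ?_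
  rw [← Finset.sum_mul]
  have h2 : (∑ y, (tB i x y : ℝ)) ≤ if (x.1 i : ℕ) ≤ 1 ∧ 1 ≤ (x.1 (i + 1) : ℕ) then 1 else 0 := by
    exact_mod_cast sum_tB_le i x
  refine (mul_le_mul_of_nonneg_right h2 hG).trans ?_
  split_ifs <;> simp

/-- two-site weight -/
def ph2 (a b : Fin 3) : ℕ := if a = 1 ∧ b = 1 then 2 else 1

theorem ph2_pos : ∀ a b : Fin 3, 0 < ph2 a b := by decide

theorem ph2_le : ∀ a b : Fin 3,
    (if (b : ℕ) ≤ 1 ∧ 1 ≤ (a : ℕ) then ph2 (a - 1) (b + 1) else 0) +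
      (if (a : ℕ) ≤ 1 ∧ 1 ≤ (b : ℕ) then ph2 (a + 1) (b - 1) else 0) ≤ bd a b * ph2 a b := by
  decide

/-- three-site weight: the ground state of three sites -/
def ph3 (a b c : Fin 3) : ℕ :=
  match (a : ℕ), (b : ℕ), (c : ℕ) with
  | 0, 2, 0 => 6
  | 1, 1, 0 => 3
  | 0, 1, 1 => 3
  | 1, 0, 1 => 2
  | 1, 1, 1 => 4
  | 0, 1, 2 => 2
  | 2, 1, 0 => 2
  | 1, 0, 2 => 3
  | 2, 0, 1 => 3
  | 0, 2, 1 => 3
  | 1, 2, 0 => 3
  | 2, 0, 2 => 6
  | 1, 1, 2 => 3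
  | 2, 1, 1 => 3
  | 1, 2, 1 => 2
  | _, _, _ => 1

theorem ph3_pos : ∀ a b c : Fin 3, 0 < ph3 a b c := by decide

theorem ph3_le : ∀ a b c : Fin 3,
    (bd a b + bd b c) * ph3 a b c +
    (((if (b : ℕ) ≤ 1 ∧ 1 ≤ (a : ℕ) then ph3 (a - 1) (b + 1) c else 0) +
      (if (a : ℕ) ≤ 1 ∧ 1 ≤ (b : ℕ) then ph3 (a + 1) (b - 1) c else 0)) +
    ((if (c : ℕ) ≤ 1 ∧ 1 ≤ (b : ℕ) then ph3 a (b - 1) (c + 1) else 0) +
      (if (b : ℕ) ≤ 1 ∧ 1 ≤ (c : ℕ) then ph3 a (b + 1) (c - 1) else 0))) ≤ 5 * ph3 a b c := by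
  decide

/-- the quadratic form of one bond -/
noncomputable def qb (i : Fin (n + 1)) (f : XC n → ℝ) : ℝ :=
  ∑ x, db i x * f x ^ 2 + ∑ x, ∑ y, f x * ob i x y * f y

theorem quad_eq (f : XC n → ℝ) : f ⬝ᵥ (KR n *ᵥ f) = ∑ i, qb i f := by
  unfold qb
  simp only [dotProduct, mulVec, KR_eq, Finset.sum_add_distrib]
  have e1 : ∀ x, f x * ∑ y, ((if x = y then ∑ i, db i x else 0) + ∑ i, ob i x y) * f y =
      ∑ i, db i x * f x ^ 2 + ∑ i, ∑ y, f x * ob i x y * f y := by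
    intro x
    simp only [add_mul, Finset.sum_add_distrib, ite_mul, zero_mul, Finset.sum_ite_eq,
      Finset.mem_univ, if_true, mul_add]
    congr 1
    · rw [← Finset.sum_mul]; ring
    · rw [Finset.mul_sum, Finset.sum_comm]
      refine Finset.sum_congr rfl fun y _ => ?_
      rw [Finset.sum_mul, Finset.mul_sum]
      exact Finset.sum_congr rfl fun i _ => by ring
  simp only [e1, Finset.sum_add_distrib]
  congr 1
  · exact Finset.sum_comm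
  · exact Finset.sum_comm

theorem qb_nonneg (i : Fin (n + 1)) (f : XC n → ℝ) : 0 ≤ qb i f := by
  unfold qb
  have h := schur (ob i) (ob_nonneg i) (ob_symm i)
    (fun x => (ph2 (x.1 i) (x.1 (i + 1)) : ℝ)) (fun x => by exact_mod_cast ph2_pos _ _)
    (db i) (fun x => ?_) f
  · have h1 := (abs_le.1 h).1
    linarith
  · unfold ob db
    simp only [add_mul, Finset.sum_add_distrib]
    have hA := sum_tA_mul_le i x (fun c => (ph2 (c i) (c (i + 1)) : ℝ))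
      (ph2 (x.1 i - 1) (x.1 (i + 1) + 1) : ℝ) (by positivity) (fun c' hc => by
        obtain ⟨h1, h2, -⟩ := hc
        rw [f3_succ _ _ h1, f3_pred _ _ h2])
    have hB := sum_tB_mul_le i x (fun c => (ph2 (c i) (c (i + 1)) : ℝ))
      (ph2 (x.1 i + 1) (x.1 (i + 1) - 1) : ℝ) (by positivity) (fun c' hc => by
        obtain ⟨h1, h2, -⟩ := hc
        rw [f3_succ _ _ h1, f3_pred _ _ h2])
    have hC := ph2_le (x.1 i) (x.1 (i + 1))
    have hC' : ((if (x.1 (i + 1) : ℕ) ≤ 1 ∧ 1 ≤ (x.1 i : ℕ) then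
        (ph2 (x.1 i - 1) (x.1 (i + 1) + 1) : ℝ) else 0) +
        (if (x.1 i : ℕ) ≤ 1 ∧ 1 ≤ (x.1 (i + 1) : ℕ) then
        (ph2 (x.1 i + 1) (x.1 (i + 1) - 1) : ℝ) else 0)) ≤
        (bd (x.1 i) (x.1 (i + 1)) : ℝ) * (ph2 (x.1 i) (x.1 (i + 1)) : ℝ) := by
      exact_mod_cast hC
    linarith

theorem one_add_ne (hn : 2 ≤ n) (i : Fin (n + 1)) :
    i + 1 + 1 ≠ i ∧ i + 1 + 1 ≠ i + 1 ∧ i ≠ i + 1 := by
  obtain ⟨m, rfl⟩ : ∃ m, n = m + 2 := ⟨n - 2, by omega⟩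
  have h1 : (1 : Fin (m + 2 + 1)) ≠ 0 := by
    intro h
    have := congrArg Fin.val h
    simp at this
  have h2 : (1 + 1 : Fin (m + 2 + 1)) ≠ 0 := by
    intro h
    have := congrArg Fin.val h
    rw [Fin.val_add] at this
    simp at this
    rw [Nat.mod_eq_of_lt (by omega)] at this
    omega
  refine ⟨fun h => h2 ?_, fun h => h1 ?_, fun h => h1 ?_⟩
  · exact add_left_cancel (((add_assoc i 1 1).symm.trans h).trans (add_zero i).symm)
  · exact add_left_cancel (h.trans (add_zero (i + 1)).symm)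
  · exact (add_left_cancel ((add_zero i).trans h)).symm

theorem qb_add_le (hn : 2 ≤ n) (i : Fin (n + 1)) (f : XC n → ℝ) :
    qb i f + qb (i + 1) f ≤ 5 * (f ⬝ᵥ f) := by
  obtain ⟨hne1, hne2, hne3⟩ := one_add_ne hn i
  unfold qb
  have h := schur (fun x y => ob i x y + ob (i + 1) x y)
    (fun x y => add_nonneg (ob_nonneg i x y) (ob_nonneg (i + 1) x y))
    (fun x y => by rw [ob_symm i, ob_symm (i + 1)])
    (fun x => (ph3 (x.1 i) (x.1 (i + 1)) (x.1 (i + 1 + 1)) : ℝ))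
    (fun x => by exact_mod_cast ph3_pos _ _ _)
    (fun x => 5 - (db i x + db (i + 1) x)) (fun x => ?_) f
  · have h1 := (abs_le.1 h).2
    have e1 : ∑ x, ∑ y, f x * (ob i x y + ob (i + 1) x y) * f y =
        ∑ x, ∑ y, f x * ob i x y * f y + ∑ x, ∑ y, f x * ob (i + 1) x y * f y := by
      rw [← Finset.sum_add_distrib]
      refine Finset.sum_congr rfl fun x _ => ?_
      rw [← Finset.sum_add_distrib]
      exact Finset.sum_congr rfl fun y _ => by ring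
    have e2 : ∑ x, (5 - (db i x + db (i + 1) x)) * f x ^ 2 =
        5 * (f ⬝ᵥ f) - (∑ x, db i x * f x ^ 2 + ∑ x, db (i + 1) x * f x ^ 2) := by
      simp only [dotProduct]
      rw [Finset.mul_sum, ← Finset.sum_add_distrib, ← Finset.sum_sub_distrib]
      exact Finset.sum_congr rfl fun x _ => by ring
    rw [e1, e2] at h1
    linarith
  · unfold ob db
    simp only [add_mul, Finset.sum_add_distrib]
    have hA := sum_tA_mul_le i x (fun c => (ph3 (c i) (c (i + 1)) (c (i + 1 + 1)) : ℝ))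
      (ph3 (x.1 i - 1) (x.1 (i + 1) + 1) (x.1 (i + 1 + 1)) : ℝ) (by positivity)
      (fun c' hc => by
        obtain ⟨h1, h2, h3⟩ := hc
        rw [f3_succ _ _ h1, f3_pred _ _ h2, h3 _ hne2 hne1])
    have hB := sum_tB_mul_le i x (fun c => (ph3 (c i) (c (i + 1)) (c (i + 1 + 1)) : ℝ))
      (ph3 (x.1 i + 1) (x.1 (i + 1) - 1) (x.1 (i + 1 + 1)) : ℝ) (by positivity)
      (fun c' hc => by
        obtain ⟨h1, h2, h3⟩ := hc
        rw [f3_succ _ _ h1, f3_pred _ _ h2, h3 _ hne1 hne2])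
    have hC := sum_tA_mul_le (i + 1) x (fun c => (ph3 (c i) (c (i + 1)) (c (i + 1 + 1)) : ℝ))
      (ph3 (x.1 i) (x.1 (i + 1) - 1) (x.1 (i + 1 + 1) + 1) : ℝ) (by positivity)
      (fun c' hc => by
        obtain ⟨h1, h2, h3⟩ := hc
        rw [f3_succ _ _ h1, f3_pred _ _ h2, h3 _ (Ne.symm hne1) hne3])
    have hD := sum_tB_mul_le (i + 1) x (fun c => (ph3 (c i) (c (i + 1)) (c (i + 1 + 1)) : ℝ))
      (ph3 (x.1 i) (x.1 (i + 1) + 1) (x.1 (i + 1 + 1) - 1) : ℝ) (by positivity)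
      (fun c' hc => by
        obtain ⟨h1, h2, h3⟩ := hc
        rw [f3_succ _ _ h1, f3_pred _ _ h2, h3 _ hne3 (Ne.symm hne1)])
    have hE := ph3_le (x.1 i) (x.1 (i + 1)) (x.1 (i + 1 + 1))
    have hE' : ((bd (x.1 i) (x.1 (i + 1)) : ℝ) + (bd (x.1 (i + 1)) (x.1 (i + 1 + 1)) : ℝ)) *
        (ph3 (x.1 i) (x.1 (i + 1)) (x.1 (i + 1 + 1)) : ℝ) +
      (((if (x.1 (i + 1) : ℕ) ≤ 1 ∧ 1 ≤ (x.1 i : ℕ) then
          (ph3 (x.1 i - 1) (x.1 (i + 1) + 1) (x.1 (i + 1 + 1)) : ℝ) else 0) +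
        (if (x.1 i : ℕ) ≤ 1 ∧ 1 ≤ (x.1 (i + 1) : ℕ) then
          (ph3 (x.1 i + 1) (x.1 (i + 1) - 1) (x.1 (i + 1 + 1)) : ℝ) else 0)) +
      ((if (x.1 (i + 1 + 1) : ℕ) ≤ 1 ∧ 1 ≤ (x.1 (i + 1) : ℕ) then
          (ph3 (x.1 i) (x.1 (i + 1) - 1) (x.1 (i + 1 + 1) + 1) : ℝ) else 0) +
        (if (x.1 (i + 1) : ℕ) ≤ 1 ∧ 1 ≤ (x.1 (i + 1 + 1) : ℕ) then
          (ph3 (x.1 i) (x.1 (i + 1) + 1) (x.1 (i + 1 + 1) - 1) : ℝ) else 0))) ≤
      5 * (ph3 (x.1 i) (x.1 (i + 1)) (x.1 (i + 1 + 1)) : ℝ) := by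
      exact_mod_cast hE
    linarith

end ChS

theorem KR_isSymm (n : ℕ) : (KR n).IsSymm := by
  ext x y
  simp only [KR, transpose_apply, Matrix.map_apply]
  rw [KN_symm]

/-- `0 ≤ KR n` -/
theorem KR_psd (n : ℕ) (f : XC n → ℝ) : 0 ≤ f ⬝ᵥ (KR n *ᵥ f) := by
  rw [ChS.quad_eq]
  exact Finset.sum_nonneg fun i _ => ChS.qb_nonneg i f

/-- `KR n ≤ (5/2) (n + 1)` -/
theorem KR_upper {n : ℕ} (hn : 2 ≤ n) (f : XC n → ℝ) :
    f ⬝ᵥ (KR n *ᵥ f) ≤ (5 / 2) * (n + 1) * (f ⬝ᵥ f) := by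
  rw [ChS.quad_eq]
  have h1 : ∑ i, ChS.qb (i + 1) f = ∑ i, ChS.qb i f :=
    Equiv.sum_comp (Equiv.addRight (1 : Fin (n + 1))) fun i => ChS.qb i f
  have h2 : ∑ i, (ChS.qb i f + ChS.qb (i + 1) f) ≤ ∑ _i : Fin (n + 1), 5 * (f ⬝ᵥ f) :=
    Finset.sum_le_sum fun i _ => ChS.qb_add_le hn i f
  rw [Finset.sum_add_distrib, h1, Finset.sum_const, Finset.card_univ, Fintype.card_fin,
    nsmul_eq_mul] at h2
  push_cast at h2
  linarith

end Crest.Agent.R347
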