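import Crest.Agent.R347.ChDefs

/-!
# Row 347, Chebyshev numerics, pieces Z1 (abstract inequalities) and Z2 (sector sizes)
-/

set_option autoImplicit false

open Crest.MathPhysics.SpinChain Matrix

namespace Crest.Agent.R347

variable {n : ℕ}

/-- Cauchy-Schwarz with an involution -/
theorem cs_invol {ι : Type} [Fintype ι] (a w : ι → ℝ) (α β : ℝ) (hα : 0 ≤ α) (hβ : 0 ≤ β)
    (φ : ι → ι) (hφ : ∀ x, φ (φ x) = x)
    (ha : ∑ x, a x * a x ≤ α * α) (hw : ∑ x, w x * w x ≤ β * β) :
    |∑ x, a x * w (φ x)| ≤ α * β := by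
  have hs : ∑ x, w (φ x) ^ 2 = ∑ x, w x ^ 2 :=
    Equiv.sum_comp (⟨φ, φ, hφ, hφ⟩ : ι ≃ ι) (fun x => w x ^ 2)
  have h := Finset.sum_mul_sq_le_sq_mul_sq Finset.univ a (fun x => w (φ x))
  rw [hs] at h
  have ha' : ∑ x, a x ^ 2 ≤ α * α := by simpa [pow_two] using ha
  have hw' : ∑ x, w x ^ 2 ≤ β * β := by simpa [pow_two] using hw
  have h0 : 0 ≤ ∑ x, w x ^ 2 := Finset.sum_nonneg fun x _ => sq_nonneg _
  refine abs_le_of_sq_le_sq ?_ (mul_nonneg hα hβ)
  calc (∑ x, a x * w (φ x)) ^ 2 ≤ (∑ x, a x ^ 2) * ∑ x, w x ^ 2 := h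
    _ ≤ (α * α) * (β * β) := mul_le_mul ha' hw' h0 (mul_nonneg hα hα)
    _ = (α * β) ^ 2 := by ring

theorem corr_aux {ι : Type} [Fintype ι] (v u : ι → ℝ) (δ ρ : ℝ) (hδ : 0 ≤ δ) (hρ : 0 ≤ ρ)
    (h : ChA.n2 (fun x => v x - u x) ≤ δ) (p : ι → Prop) [DecidablePred p] (φ : ι → ι)
    (hφ : ∀ x, φ (φ x) = x) (hp : ∀ x, p (φ x) ↔ p x)
    (hv : (∑ x, if p x then v x * v x else 0) ≤ ρ * ρ) :
    |(∑ x, if p x then v x * v (φ x) else 0) - (∑ x, if p x then u x * u (φ x) else 0)| ≤
      δ * (2 * ρ + δ) := by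
  set a : ι → ℝ := fun x => if p x then v x else 0 with ha
  set w : ι → ℝ := fun x => if p x then v x - u x else 0 with hw
  have hA : ∑ x, a x * a x ≤ ρ * ρ := by
    refine le_trans (le_of_eq (Finset.sum_congr rfl fun x _ => ?_)) hv
    simp only [ha]; split_ifs <;> simp
  have hW : ∑ x, w x * w x ≤ δ * δ := by
    have h1 : ∑ x, (v x - u x) * (v x - u x) ≤ δ * δ := by
      have h2 := h
      unfold ChA.n2 at h2
      have h3 := (Real.sqrt_le_left hδ).1 h2
      simpa [pow_two] using h3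
    refine le_trans (Finset.sum_le_sum fun x _ => ?_) h1
    simp only [hw]
    split_ifs
    · exact le_rfl
    · simpa using mul_self_nonneg (v x - u x)
  have e1 := cs_invol a w ρ δ hρ hδ φ hφ hA hW
  have e2 := cs_invol w a δ ρ hδ hρ φ hφ hW hA
  have e3 := cs_invol w w δ δ hδ hδ φ hφ hW hW
  have key : (∑ x, if p x then v x * v (φ x) else 0) - (∑ x, if p x then u x * u (φ x) else 0) =
      ∑ x, a x * w (φ x) + ∑ x, w x * a (φ x) - ∑ x, w x * w (φ x) := by
    rw [← Finset.sum_sub_distrib, ← Finset.sum_add_distrib, ← Finset.sum_sub_distrib]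
    refine Finset.sum_congr rfl fun x _ => ?_
    simp only [ha, hw, hp x]
    split_ifs
    · ring
    · simp
  rw [key]
  rw [abs_le] at e1 e2 e3 ⊢
  constructor <;> nlinarith [e1.1, e1.2, e2.1, e2.2, e3.1, e3.2]

/-- `n2 (v - u) ≤ δ`, `∑_p v² ≤ ρ²` give `|∑_p v² - ∑_p u²| ≤ δ (2 ρ + δ)` (triangle inequality for the
restrictions to `p`) -/
theorem sq_close {ι : Type} [Fintype ι] (v u : ι → ℝ) (δ ρ : ℝ) (hδ : 0 ≤ δ) (hρ : 0 ≤ ρ)
    (h : ChA.n2 (fun x => v x - u x) ≤ δ) (p : ι → Prop) [DecidablePred p]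
    (hv : (∑ x, if p x then v x * v x else 0) ≤ ρ * ρ) :
    |(∑ x, if p x then v x * v x else 0) - (∑ x, if p x then u x * u x else 0)| ≤
      δ * (2 * ρ + δ) :=
  corr_aux v u δ ρ hδ hρ h p id (fun _ => rfl) (fun _ => Iff.rfl) hv

/-- the same for the correlation with an involution preserving `p` -/
theorem corr_close {ι : Type} [Fintype ι] (v u : ι → ℝ) (δ ρ : ℝ) (hδ : 0 ≤ δ) (hρ : 0 ≤ ρ)
    (h : ChA.n2 (fun x => v x - u x) ≤ δ) (p : ι → Prop) [DecidablePred p] (φ : ι → ι)
    (hφ : ∀ x, φ (φ x) = x) (hp : ∀ x, p (φ x) ↔ p x)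
    (hv : (∑ x, if p x then v x * v x else 0) ≤ ρ * ρ) :
    |(∑ x, if p x then v x * v (φ x) else 0) - (∑ x, if p x then u x * u (φ x) else 0)| ≤
      δ * (2 * ρ + δ) :=
  corr_aux v u δ ρ hδ hρ h p φ hφ hp hv

/-- trinomial coefficients: number of configurations of `L` digits with digit sum `m` -/
def tri : ℕ → ℕ → ℕ
  | 0, m => if m = 0 then 1 else 0
  | L + 1, m => tri L m + (if 1 ≤ m then tri L (m - 1) else 0) + (if 2 ≤ m then tri L (m - 2) else 0)

private theorem cz_tri (L : ℕ) : ∀ m : ℕ,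
    (∑ c : Fin L → Fin 3, if (∑ j, (c j : ℕ)) = m then 1 else 0) = tri L m := by
  induction L with
  | zero =>
    intro m
    simp only [Fintype.sum_unique, Finset.univ_eq_empty, Finset.sum_empty, tri]
    by_cases h : m = 0
    · subst h; simp
    · rw [if_neg (fun e => h e.symm), if_neg h]
  | succ L ih =>
    intro m
    rw [← (Fin.consEquiv fun _ : Fin (L + 1) => Fin 3).sum_comp, Fintype.sum_prod_type]
    have e : ∀ (a : Fin 3) (c : Fin L → Fin 3),
        (∑ j, (((Fin.consEquiv fun _ : Fin (L + 1) => Fin 3) (a, c) j : Fin 3) : ℕ)) =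
          (a : ℕ) + ∑ j, (c j : ℕ) := by
      intro a c
      rw [Fin.sum_univ_succ]
      simp [Fin.consEquiv]
    simp only [e]
    rw [Fin.sum_univ_three, tri]
    congr 1
    · congr 1
      · rw [← ih m]
        simp
      · by_cases h : 1 ≤ m
        · rw [if_pos h, ← ih (m - 1)]
          refine Finset.sum_congr rfl fun c _ => ?_
          have h1 : (((1 : Fin 3) : ℕ) + ∑ j, (c j : ℕ) = m) ↔ (∑ j, (c j : ℕ) = m - 1) := by
            change (1 + ∑ j, (c j : ℕ) = m) ↔ _
            omega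
          simp only [h1]
        · rw [if_neg h]
          refine Finset.sum_eq_zero fun c _ => ?_
          rw [if_neg]
          change ¬ (1 + ∑ j, (c j : ℕ) = m)
          omega
    · by_cases h : 2 ≤ m
      · rw [if_pos h, ← ih (m - 2)]
        refine Finset.sum_congr rfl fun c _ => ?_
        have h1 : (((2 : Fin 3) : ℕ) + ∑ j, (c j : ℕ) = m) ↔ (∑ j, (c j : ℕ) = m - 2) := by
          change (2 + ∑ j, (c j : ℕ) = m) ↔ _
          omega
        simp only [h1]
      · rw [if_neg h]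
        refine Finset.sum_eq_zero fun c _ => ?_
        rw [if_neg]
        change ¬ (2 + ∑ j, (c j : ℕ) = m)
        omega

theorem card_dsm (m : ℕ) : (Finset.univ.filter fun c : Cfg n => dsm c = m).card = tri (n + 1) m := by
  rw [← cz_tri (n + 1) m, Finset.card_filter]
  rfl

/-- next row of the table -/
def czNext (l : List ℕ) : List ℕ :=
  (List.range (l.length + 2)).map fun m => l.getD m 0 + (if 1 ≤ m then l.getD (m - 1) 0 else 0) +
    (if 2 ≤ m then l.getD (m - 2) 0 else 0)

private theorem cz_step (L : ℕ) (l : List ℕ) (h : ∀ m, tri L m = l.getD m 0) :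
    ∀ m, tri (L + 1) m = (czNext l).getD m 0 := by
  intro m
  rw [tri, h, h, h]
  unfold czNext
  by_cases hm : m < l.length + 2
  · simp [List.getD_eq_getElem?_getD, hm]
  · have z : ∀ k, l.length ≤ k → l.getD k 0 = 0 := fun k hk => by
      simp [List.getD_eq_getElem?_getD, hk]
    rw [z m (by omega), z (m - 1) (by omega), z (m - 2) (by omega)]
    simp only [List.getD_eq_getElem?_getD]
    rw [List.getElem?_eq_none (by simp; omega)]
    simp

/-- the `L`-th row -/
def czRow : ℕ → List ℕ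
  | 0 => [1]
  | L + 1 => czNext (czRow L)

private theorem cz_row (L : ℕ) : ∀ m, tri L m = (czRow L).getD m 0 := by
  induction L with
  | zero =>
    intro m
    cases m with
    | zero => rfl
    | succ m => simp [tri, czRow]
  | succ L ih => exact cz_step L _ ih

private theorem cz_le (L N a b : ℕ) (hN : (czRow L).length ≤ N)
    (h : ∀ m < N, (m % 2 = 0 → (czRow L).getD m 0 ≤ a) ∧ (m % 2 = 1 → (czRow L).getD m 0 ≤ b))
    (me mo : ℕ) (hme : me % 2 = 0) (hmo : mo % 2 = 1) : tri L me ≤ a ∧ tri L mo ≤ b := by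
  have z : ∀ k, N ≤ k → (czRow L).getD k 0 = 0 := fun k hk => by
    simp [List.getD_eq_getElem?_getD, hN.trans hk]
  rw [cz_row, cz_row]
  constructor
  · by_cases hm : me < N
    · exact (h me hm).1 hme
    · rw [z me (by omega)]; exact Nat.zero_le _
  · by_cases hm : mo < N
    · exact (h mo hm).2 hmo
    · rw [z mo (by omega)]; exact Nat.zero_le _

private theorem cz_card (me mo : ℕ) :
    (Finset.univ.filter fun c : Cfg n => inS me mo c).card ≤ tri (n + 1) me + tri (n + 1) mo := by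
  have h : (Finset.univ.filter fun c : Cfg n => inS me mo c) =
      (Finset.univ.filter fun c : Cfg n => dsm c = me) ∪
        (Finset.univ.filter fun c : Cfg n => dsm c = mo) := by
    ext c
    rw [Finset.mem_filter, Finset.mem_union, Finset.mem_filter, Finset.mem_filter]
    unfold inS
    tauto
  rw [h]
  refine (Finset.card_union_le _ _).trans ?_
  rw [card_dsm, card_dsm]

/-- `L = 10`: even sectors have at most 8953, odd ones at most 8350 configurations -/
theorem card_inS9 {me mo : ℕ} (hme : me % 2 = 0) (hmo : mo % 2 = 1) :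
    (Finset.univ.filter fun c : Cfg 9 => inS me mo c).card ≤ 17303 := by
  have h := cz_le 10 21 8953 8350 (by decide +kernel) (by decide +kernel) me mo hme hmo
  have h2 := cz_card (n := 9) me mo
  have h3 : tri (9 + 1) me ≤ 8953 := h.1
  have h4 : tri (9 + 1) mo ≤ 8350 := h.2
  omega

/-- `L = 9`: odd sectors have at most 3139, even ones at most 2907 configurations -/
theorem card_inS8 {me mo : ℕ} (hme : me % 2 = 0) (hmo : mo % 2 = 1) :
    (Finset.univ.filter fun c : Cfg 8 => inS me mo c).card ≤ 6046 := by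
  have h := cz_le 9 19 2907 3139 (by decide +kernel) (by decide +kernel) me mo hme hmo
  have h2 := cz_card (n := 8) me mo
  have h3 : tri (8 + 1) me ≤ 2907 := h.1
  have h4 : tri (8 + 1) mo ≤ 3139 := h.2
  omega

/-- `L = 8`: even sectors have at most 1107, odd ones at most 1016 configurations -/
theorem card_inS7 {me mo : ℕ} (hme : me % 2 = 0) (hmo : mo % 2 = 1) :
    (Finset.univ.filter fun c : Cfg 7 => inS me mo c).card ≤ 2123 := by
  have h := cz_le 8 17 1107 1016 (by decide +kernel) (by decide +kernel) me mo hme hmo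
  have h2 := cz_card (n := 7) me mo
  have h3 : tri (7 + 1) me ≤ 1107 := h.1
  have h4 : tri (7 + 1) mo ≤ 1016 := h.2
  omega

end Crest.Agent.R347
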