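import Crest.Agent.R347.NB5
import Crest.Agent.R347.OrbCore

/-!
# Row 347 numerics, piece NB6: the orbit certificate

`cfgOf n (shN (n+1) i) = shf (cfgOf n i)` for `i < 3^(n+1)`, etc. (digits in base 3).  Let `O_i` be the set of the images of `cfgOf n i`
(at most `sz` elements: `4 L` if `sz = 4 L`, otherwise `dcount`).  `chkR`, `bitR = 2^(3^L) - 1` (coverage, `Nat.testBit`), `cntR = 3^L` give
`∑ sz = 3^L = |⋃ O_i| ≤ ∑ |O_i| ≤ ∑ sz`, hence the `O_i` (over all pairs run/start) are pairwise disjoint and `|O_i| = sz`; `F` is constant on `O_i`.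
-/

set_option autoImplicit false

open Crest.MathPhysics.SpinChain Matrix

namespace Crest.Agent.R347

namespace NB6

/-! ### digits -/

theorem shN_lt (n i : ℕ) (h : i < 3 ^ (n + 1)) : shN (n + 1) i < 3 ^ (n + 1) := by
  have h1 : i / 3 < 3 ^ n := by
    rw [Nat.div_lt_iff_lt_mul (by norm_num)]
    rw [pow_succ] at h; exact h
  have h2 : (i % 3) * 3 ^ n ≤ 2 * 3 ^ n := Nat.mul_le_mul_right _ (by omega)
  unfold shN
  simp only [Nat.add_sub_cancel]
  rw [pow_succ]; omega

theorem flN_lt (L i : ℕ) : flN L i < 3 ^ L := by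
  have : 0 < 3 ^ L := by positivity
  unfold flN; omega

theorem rvN_lt (m i : ℕ) : rvN m i < 3 ^ m := by
  induction m generalizing i with
  | zero => simp [rvN]
  | succ m ih =>
    have h1 := ih (i / 3)
    have h2 : (i % 3) * 3 ^ m ≤ 2 * 3 ^ m := Nat.mul_le_mul_right _ (by omega)
    simp only [rvN]; rw [pow_succ]; omega

theorem digit_add_mul (a x m j : ℕ) (hj : j < m) :
    (a + x * 3 ^ m) / 3 ^ j % 3 = a / 3 ^ j % 3 := by
  obtain ⟨d, rfl⟩ : ∃ d, m = j + 1 + d := ⟨m - (j + 1), by omega⟩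
  have h : x * 3 ^ (j + 1 + d) = 3 ^ j * (x * 3 ^ d * 3) := by rw [pow_add, pow_succ]; ring
  rw [h, Nat.add_mul_div_left _ _ (by positivity), Nat.add_mul_mod_self_right]

theorem digit_add_mul_top (a x m : ℕ) (ha : a < 3 ^ m) :
    (a + x * 3 ^ m) / 3 ^ m = x := by
  rw [Nat.add_mul_div_right _ _ (by positivity), Nat.div_eq_of_lt ha, zero_add]

theorem cfg_sh (n i : ℕ) (h : i < 3 ^ (n + 1)) : cfgOf n (shN (n + 1) i) = shf (cfgOf n i) := by
  have h1 : i / 3 < 3 ^ n := by
    rw [Nat.div_lt_iff_lt_mul (by norm_num)]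
    rw [pow_succ] at h; exact h
  funext j
  apply Fin.ext
  simp only [cfgOf, shf, shN, Nat.add_sub_cancel]
  by_cases hj : j = Fin.last n
  · subst hj
    have : (Fin.last n + 1 : Fin (n + 1)) = 0 := Fin.last_add_one n
    rw [this]
    simp only [Fin.val_last, Fin.val_zero, pow_zero, Nat.div_one]
    rw [digit_add_mul_top _ _ _ h1, Nat.mod_mod]
  · have hlt : (j : ℕ) < n := by
      have := j.isLt
      have h2 : (j : ℕ) ≠ n := fun h => hj (Fin.ext (by simpa using h))
      omega
    have : ((j + 1 : Fin (n + 1)) : ℕ) = j + 1 := Fin.val_add_one_of_lt (by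
      rw [Fin.lt_def]; simpa using hlt)
    rw [this, digit_add_mul _ _ _ _ hlt, Nat.div_div_eq_div_mul, pow_succ']

theorem digit_fl (N i j : ℕ) (h : i < 3 ^ N) (hj : j < N) :
    (3 ^ N - 1 - i) / 3 ^ j % 3 = 2 - i / 3 ^ j % 3 := by
  induction j generalizing N i with
  | zero =>
    obtain ⟨M, rfl⟩ : ∃ M, N = M + 1 := ⟨N - 1, by omega⟩
    rw [pow_succ] at h ⊢
    simp only [pow_zero, Nat.div_one]
    omega
  | succ j ih =>
    obtain ⟨M, rfl⟩ : ∃ M, N = M + 1 := ⟨N - 1, by omega⟩
    have h1 : i / 3 < 3 ^ M := by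
      rw [Nat.div_lt_iff_lt_mul (by norm_num)]
      rw [pow_succ] at h; exact h
    have h2 := ih M (i / 3) h1 (by omega)
    have h3 : (3 ^ (M + 1) - 1 - i) / 3 = 3 ^ M - 1 - i / 3 := by
      rw [pow_succ] at h ⊢; omega
    rw [pow_succ' 3 j, ← Nat.div_div_eq_div_mul, ← Nat.div_div_eq_div_mul, h3, h2]

theorem cfg_fl (n i : ℕ) (h : i < 3 ^ (n + 1)) : cfgOf n (flN (n + 1) i) = flp (cfgOf n i) := by
  funext j
  apply Fin.ext
  simp only [cfgOf, flp, flN, Fin.val_rev]
  rw [digit_fl _ _ _ h j.isLt]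
  omega

theorem digit_rv (m i j : ℕ) (hj : j < m) : rvN m i / 3 ^ j % 3 = i / 3 ^ (m - 1 - j) % 3 := by
  induction m generalizing i with
  | zero => omega
  | succ m ih =>
    simp only [rvN]
    rw [Nat.add_comm]
    rcases Nat.lt_or_ge j m with hlt | hge
    · rw [digit_add_mul _ _ _ _ hlt, ih (i / 3) hlt, Nat.div_div_eq_div_mul, ← pow_succ']
      congr 3
      omega
    · have hjm : j = m := by omega
      subst hjm
      rw [digit_add_mul_top _ _ _ (rvN_lt j (i / 3))]
      simp

theorem cfg_rv (n i : ℕ) : cfgOf n (rvN (n + 1) i) = rvs (cfgOf n i) := by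
  funext j
  apply Fin.ext
  simp only [cfgOf, rvs, Fin.val_rev]
  rw [digit_rv _ _ _ j.isLt]
  congr 3
  omega

theorem digits_inj (m i i' : ℕ) (h : i < 3 ^ m) (h' : i' < 3 ^ m)
    (hd : ∀ j, j < m → i / 3 ^ j % 3 = i' / 3 ^ j % 3) : i = i' := by
  induction m generalizing i i' with
  | zero => simp at h h'; omega
  | succ m ih =>
    have h1 : i / 3 < 3 ^ m := by
      rw [Nat.div_lt_iff_lt_mul (by norm_num)]
      rw [pow_succ] at h; exact h
    have h1' : i' / 3 < 3 ^ m := by
      rw [Nat.div_lt_iff_lt_mul (by norm_num)]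
      rw [pow_succ] at h'; exact h'
    have h2 := ih (i / 3) (i' / 3) h1 h1' (fun j hj => by
      have := hd (j + 1) (by omega)
      rwa [pow_succ', ← Nat.div_div_eq_div_mul, ← Nat.div_div_eq_div_mul] at this)
    have h3 := hd 0 (by omega)
    simp only [pow_zero, Nat.div_one] at h3
    omega

theorem cfgOf_bij (n : ℕ) : Function.Bijective fun i : Fin (3 ^ (n + 1)) => cfgOf n (i : ℕ) := by
  rw [Fintype.bijective_iff_injective_and_card]
  constructor
  · intro i i' h
    apply Fin.ext
    apply digits_inj (n + 1) i i' i.isLt i'.isLt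
    intro j hj
    have := congrFun h ⟨j, hj⟩
    have := congrArg Fin.val this
    simpa [cfgOf] using this
  · simp

theorem sum_cfg {n : ℕ} (F : Cfg n → ℝ) :
    ∑ c, F c = ∑ k ∈ Finset.range (3 ^ (n + 1)), F (cfgOf n k) := by
  rw [← Fin.sum_univ_eq_sum_range (fun k => F (cfgOf n k)) (3 ^ (n + 1))]
  exact ((cfgOf_bij n).sum_comp F).symm

/-! ### lists -/

theorem memN_iff (i : ℕ) (l : List ℕ) : memN i l = true ↔ i ∈ l := by
  induction l with
  | nil => simp [memN]
  | cons j l ih =>
    simp only [memN, List.mem_cons]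
    cases h : Nat.beq i j with
    | true => simp [Nat.eq_of_beq_eq_true h]
    | false =>
      have : i ≠ j := Nat.ne_of_beq_eq_false h
      simp [ih, this]

theorem dcount_eq (l : List ℕ) : dcount l = l.toFinset.card := by
  induction l with
  | nil => simp [dcount]
  | cons j l ih =>
    simp only [dcount, List.toFinset_cons]
    cases h : memN j l with
    | true =>
      have : j ∈ l := (memN_iff j l).1 h
      rw [Finset.insert_eq_of_mem (by simpa using this)]
      simpa using ih
    | false =>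
      have : j ∉ l := fun hh => by
        have := (memN_iff j l).2 hh
        simp [h] at this
      rw [Finset.card_insert_of_notMem (by simpa using this)]
      simp [ih]

theorem testBit_bits (l : List ℕ) (k : ℕ) : (bits l).testBit k = true ↔ k ∈ l := by
  induction l with
  | nil => simp [bits]
  | cons j l ih =>
    simp only [bits, Nat.testBit_or, Bool.or_eq_true, ih, List.mem_cons]
    rw [Nat.one_shiftLeft, Nat.testBit_two_pow]
    simp [eq_comm]

theorem length_shL (L m i : ℕ) : (shL L m i).length = m := by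
  induction m generalizing i with
  | zero => simp [shL]
  | succ m ih => simp [shL, ih]

theorem length_imgs (L i : ℕ) : (imgs L i).length = 4 * L := by
  simp [imgs, length_shL]; ring

theorem mem_shL {n : ℕ} {F : Cfg n → ℝ} (hF : Inv3 F) (m i k : ℕ) (hi : i < 3 ^ (n + 1))
    (hk : k ∈ shL (n + 1) m i) : k < 3 ^ (n + 1) ∧ F (cfgOf n k) = F (cfgOf n i) := by
  induction m generalizing i with
  | zero => simp [shL] at hk
  | succ m ih =>
    simp only [shL, List.mem_cons] at hk
    rcases hk with rfl | hk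
    · exact ⟨hi, rfl⟩
    · obtain ⟨h1, h2⟩ := ih (shN (n + 1) i) (shN_lt n i hi) hk
      refine ⟨h1, ?_⟩
      rw [h2, cfg_sh n i hi, (hF _).1]

theorem mem_imgs {n : ℕ} {F : Cfg n → ℝ} (hF : Inv3 F) (i k : ℕ) (hi : i < 3 ^ (n + 1))
    (hk : k ∈ imgs (n + 1) i) : k < 3 ^ (n + 1) ∧ F (cfgOf n k) = F (cfgOf n i) := by
  simp only [imgs, List.mem_append] at hk
  rcases hk with hk | hk | hk | hk
  · exact mem_shL hF _ _ _ hi hk
  · obtain ⟨h1, h2⟩ := mem_shL hF _ _ _ (flN_lt _ _) hk
    exact ⟨h1, by rw [h2, cfg_fl n i hi, (hF _).2.2]⟩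
  · obtain ⟨h1, h2⟩ := mem_shL hF _ _ _ (rvN_lt _ _) hk
    exact ⟨h1, by rw [h2, cfg_rv n i, (hF _).2.1]⟩
  · obtain ⟨h1, h2⟩ := mem_shL hF _ _ _ (rvN_lt _ _) hk
    exact ⟨h1, by rw [h2, cfg_rv n _, (hF _).2.1, cfg_fl n i hi, (hF _).2.2]⟩

/-- the flattened list -/
def flat (runs : List (ℕ × List ℕ)) : List (ℕ × ℕ) :=
  runs.flatMap fun r => r.2.map fun i => (r.1, i)

theorem chkL_spec (L sz : ℕ) (l : List ℕ) (h : chkL L sz l = true) :
    ∀ i ∈ l, i < 3 ^ L ∧ (imgs L i).toFinset.card ≤ sz := by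
  induction l with
  | nil => simp
  | cons j l ih =>
    simp only [chkL, Bool.and_eq_true] at h
    obtain ⟨h1, h2, h3⟩ := h
    intro i hi
    simp only [List.mem_cons] at hi
    rcases hi with rfl | hi
    · refine ⟨by simpa [Nat.blt_eq] using h2, ?_⟩
      cases hb : Nat.beq sz (4 * L) with
      | true =>
        have := Nat.eq_of_beq_eq_true hb
        rw [this, ← length_imgs L i]
        exact List.toFinset_card_le _
      | false =>
        rw [hb] at h1
        simp only [cond_false] at h1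
        rw [← dcount_eq]
        exact Nat.le_of_ble_eq_true h1
    · exact ih h3 i hi

theorem chkR_spec (L : ℕ) (runs : List (ℕ × List ℕ)) (h : chkR L runs = true) :
    ∀ p ∈ flat runs, p.2 < 3 ^ L ∧ (imgs L p.2).toFinset.card ≤ p.1 := by
  induction runs with
  | nil => simp [flat]
  | cons r runs ih =>
    simp only [chkR, Bool.and_eq_true] at h
    intro p hp
    simp only [flat, List.flatMap_cons, List.mem_append, List.mem_map] at hp
    rcases hp with ⟨i, hi, rfl⟩ | hp
    · exact chkL_spec L r.1 r.2 h.1 i hi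
    · exact ih h.2 p hp

theorem bitL_spec (L : ℕ) (l : List ℕ) (k : ℕ) :
    (bitL L l).testBit k = true ↔ ∃ i ∈ l, k ∈ imgs L i := by
  induction l with
  | nil => simp [bitL]
  | cons j l ih => simp [bitL, Nat.testBit_or, testBit_bits, ih]

theorem bitR_spec (L : ℕ) (runs : List (ℕ × List ℕ)) (k : ℕ) :
    (bitR L runs).testBit k = true ↔ ∃ p ∈ flat runs, k ∈ imgs L p.2 := by
  induction runs with
  | nil => simp [bitR, flat]
  | cons r runs ih =>
    simp only [bitR, Nat.testBit_or, Bool.or_eq_true, bitL_spec, ih, flat, List.flatMap_cons,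
      List.mem_append, List.mem_map]
    constructor
    · rintro (⟨i, hi, hk⟩ | ⟨p, hp, hk⟩)
      · exact ⟨(r.1, i), Or.inl ⟨i, hi, rfl⟩, hk⟩
      · exact ⟨p, Or.inr hp, hk⟩
    · rintro ⟨p, ⟨i, hi, rfl⟩ | hp, hk⟩
      · exact Or.inl ⟨i, hi, hk⟩
      · exact Or.inr ⟨p, hp, hk⟩

theorem cntR_spec (runs : List (ℕ × List ℕ)) : cntR runs = ((flat runs).map Prod.fst).sum := by
  induction runs with
  | nil => simp [cntR, flat]
  | cons r runs ih =>
    simp only [cntR, flat, List.flatMap_cons, List.map_append, List.sum_append, List.map_map]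
    rw [ih]
    congr 1
    have : (Prod.fst ∘ fun i : ℕ => (r.1, i)) = fun _ => r.1 := rfl
    rw [this]
    simp [mul_comm]

theorem flat_sum (runs : List (ℕ × List ℕ)) (f : ℕ → ℝ) :
    (runs.map fun r => (r.1 : ℝ) * (r.2.map f).sum).sum =
      ((flat runs).map fun p => (p.1 : ℝ) * f p.2).sum := by
  induction runs with
  | nil => simp [flat]
  | cons r runs ih =>
    simp only [flat, List.flatMap_cons, List.map_append, List.sum_append, List.map_cons,
      List.sum_cons, List.map_map]
    rw [ih]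
    congr 1
    rw [← List.sum_map_mul_left]
    rfl

/-- double counting -/
theorem dbl {α : Type*} [AddCommMonoid α] (N : ℕ) (P : List (ℕ × ℕ)) (O : ℕ → Finset ℕ)
    (hO : ∀ p ∈ P, O p.2 ⊆ Finset.range N) (g : ℕ → α) :
    (P.map fun p => ∑ k ∈ O p.2, g k).sum =
      ∑ k ∈ Finset.range N, (P.map fun p => if k ∈ O p.2 then g k else 0).sum := by
  induction P with
  | nil => simp
  | cons p P ih =>
    simp only [List.map_cons, List.sum_cons]
    rw [Finset.sum_add_distrib, ih (fun q hq => hO q (List.mem_cons_of_mem _ hq))]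
    congr 1
    rw [← Finset.sum_filter]
    apply Finset.sum_congr _ (fun _ _ => rfl)
    ext k
    simp only [Finset.mem_filter]
    exact ⟨fun h => ⟨hO p (by simp) h, h⟩, fun h => h.2⟩

theorem list_sum_ite {P : List (ℕ × ℕ)} (q : ℕ × ℕ → Prop) [DecidablePred q] (x : ℝ) :
    (P.map fun p => if q p then x else 0).sum =
      ((P.map fun p => if q p then 1 else 0).sum : ℕ) * x := by
  induction P with
  | nil => simp
  | cons p P ih =>
    simp only [List.map_cons, List.sum_cons, ih]
    split_ifs <;> push_cast <;> ring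

theorem list_eq_of_sum_eq {P : List (ℕ × ℕ)} (c : ℕ × ℕ → ℕ) (hc : ∀ p ∈ P, c p ≤ p.1)
    (h : (P.map Prod.fst).sum ≤ (P.map c).sum) : ∀ p ∈ P, c p = p.1 := by
  induction P with
  | nil => simp
  | cons p P ih =>
    simp only [List.map_cons, List.sum_cons] at h
    have h1 := hc p (by simp)
    have h2 : (P.map c).sum ≤ (P.map Prod.fst).sum :=
      List.sum_le_sum fun q hq => hc q (List.mem_cons_of_mem _ hq)
    intro q hq
    simp only [List.mem_cons] at hq
    rcases hq with rfl | hq
    · omega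
    · exact ih (fun q hq => hc q (List.mem_cons_of_mem _ hq)) (by omega) q hq

theorem dsum_eq (m i : ℕ) : dsum m i = ∑ j ∈ Finset.range m, i / 3 ^ j % 3 := by
  induction m generalizing i with
  | zero => simp [dsum]
  | succ m ih =>
    rw [Finset.sum_range_succ', dsum, ih]
    simp only [pow_zero, Nat.div_one, pow_succ', ← Nat.div_div_eq_div_mul]
    ring

theorem dsum_cfg (n i : ℕ) : (dsum (n + 1) i : ℤ) = (n + 1) - Mtot (cfgOf n i) := by
  rw [dsum_eq, ← Fin.sum_univ_eq_sum_range (fun j => i / 3 ^ j % 3) (n + 1)]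
  simp [Mtot, cfgOf, Finset.sum_sub_distrib]

theorem dsd_nodup (L : ℕ) (l : List ℕ) (h : dsd L l = true) : (l.map (dsum L)).Nodup := by
  induction l with
  | nil => simp
  | cons i l ih =>
    simp only [dsd, Bool.and_eq_true] at h
    rw [List.map_cons, List.nodup_cons]
    refine ⟨fun hm => ?_, ih h.2⟩
    rw [(memN_iff _ _).2 hm] at h
    simp at h

theorem dsR_mem (L : ℕ) (runs : List (ℕ × List ℕ)) (h : dsR L runs = true) (r : ℕ × List ℕ)
    (hr : r ∈ runs) : dsd L r.2 = true := by
  induction runs with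
  | nil => simp at hr
  | cons s runs ih =>
    simp only [dsR, Bool.and_eq_true] at h
    simp only [List.mem_cons] at hr
    rcases hr with rfl | hr
    · exact h.1
    · exact ih h.2 hr

end NB6

open NB6

theorem orbit_sum {n : ℕ} (runs : List (ℕ × List ℕ)) (h : orbOK (n + 1) runs = true)
    (F : Cfg n → ℝ) (hF : Inv3 F) :
    ∑ c, F c = (runs.map fun r => (r.1 : ℝ) * (r.2.map fun i => F (cfgOf n i)).sum).sum := by
  simp only [orbOK, Bool.and_eq_true] at h
  obtain ⟨h1, h2, h3⟩ := h
  have h2' := Nat.eq_of_beq_eq_true h2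
  have h3' := Nat.eq_of_beq_eq_true h3
  have hspec := chkR_spec (n + 1) runs h1
  rw [cntR_spec] at h3'
  set N := 3 ^ (n + 1) with hN
  set P := flat runs with hP
  let O : ℕ → Finset ℕ := fun i => (imgs (n + 1) i).toFinset
  have hO : ∀ p ∈ P, O p.2 ⊆ Finset.range N := by
    intro p hp k hk
    rw [Finset.mem_range]
    exact (mem_imgs hF p.2 k (hspec p hp).1 (by simpa [O] using hk)).1
  have hcov : ∀ k ∈ Finset.range N, ∃ p ∈ P, k ∈ O p.2 := by
    intro k hk
    have : (bitR (n + 1) runs).testBit k = true := by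
      rw [h2', Nat.testBit_two_pow_sub_one]
      simpa using hk
    obtain ⟨p, hp, hk⟩ := (bitR_spec _ _ _).1 this
    exact ⟨p, hp, by simpa [O] using hk⟩
  let m : ℕ → ℕ := fun k => (P.map fun p => if k ∈ O p.2 then 1 else 0).sum
  have hm1 : ∀ k ∈ Finset.range N, 1 ≤ m k := by
    intro k hk
    obtain ⟨p, hp, hk⟩ := hcov k hk
    have : (if k ∈ O p.2 then 1 else 0) ∈ (P.map fun p => if k ∈ O p.2 then 1 else 0) :=
      List.mem_map.2 ⟨p, hp, rfl⟩
    have := List.single_le_sum (fun _ _ => Nat.zero_le _) _ this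
    rw [if_pos hk] at this
    exact this
  have hmsum : (P.map fun p => (O p.2).card).sum = ∑ k ∈ Finset.range N, m k := by
    have := dbl N P O hO (fun _ => (1 : ℕ))
    simpa using this
  have hle : (P.map fun p => (O p.2).card).sum ≤ (P.map Prod.fst).sum :=
    List.sum_le_sum fun p hp => (hspec p hp).2
  have hge : N ≤ ∑ k ∈ Finset.range N, m k := by
    calc N = ∑ k ∈ Finset.range N, 1 := by simp
      _ ≤ _ := Finset.sum_le_sum hm1
  have hm : ∀ k ∈ Finset.range N, m k = 1 := by
    have heq : ∑ k ∈ Finset.range N, 1 = ∑ k ∈ Finset.range N, m k := by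
      simp only [Finset.sum_const, Finset.card_range, smul_eq_mul, mul_one]
      omega
    intro k hk
    exact ((Finset.sum_eq_sum_iff_of_le hm1).1 heq k hk).symm
  have hcard : ∀ p ∈ P, (O p.2).card = p.1 :=
    list_eq_of_sum_eq (fun p => (O p.2).card) (fun p hp => (hspec p hp).2) (by omega)
  rw [sum_cfg, flat_sum runs (fun i => F (cfgOf n i))]
  calc ∑ k ∈ Finset.range N, F (cfgOf n k)
      = ∑ k ∈ Finset.range N, (m k : ℝ) * F (cfgOf n k) := by
        apply Finset.sum_congr rfl
        intro k hk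
        rw [hm k hk]; simp
    _ = ∑ k ∈ Finset.range N, (P.map fun p => if k ∈ O p.2 then F (cfgOf n k) else 0).sum := by
        apply Finset.sum_congr rfl
        intro k hk
        rw [list_sum_ite (fun p => k ∈ O p.2)]
    _ = (P.map fun p => ∑ k ∈ O p.2, F (cfgOf n k)).sum := (dbl N P O hO _).symm
    _ = (P.map fun p => (p.1 : ℝ) * F (cfgOf n p.2)).sum := by
        congr 1
        apply List.map_congr_left
        intro p hp
        rw [← hcard p hp, ← nsmul_eq_mul, ← Finset.sum_const]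
        apply Finset.sum_congr rfl
        intro k hk
        exact (mem_imgs hF p.2 k (hspec p hp).1 (by simpa [O] using hk)).2

/-- `dsR`: in each run the start configurations are distinct and have distinct magnetisations -/
theorem dsR_inj {n : ℕ} (runs : List (ℕ × List ℕ)) (h : dsR (n + 1) runs = true) (r : ℕ × List ℕ)
    (hr : r ∈ runs) :
    (r.2.map (cfgOf n)).Nodup ∧ ∀ c ∈ (r.2.map (cfgOf n)).toFinset, ∀ c' ∈ (r.2.map (cfgOf n)).toFinset,
      Mtot c = Mtot c' → c = c' := by
  have hnd := dsd_nodup (n + 1) r.2 (dsR_mem (n + 1) runs h r hr)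
  have hinj := List.inj_on_of_nodup_map hnd
  constructor
  · rw [List.nodup_map_iff_inj_on (List.Nodup.of_map _ hnd)]
    intro x hx y hy hxy
    apply hinj hx hy
    have : ((dsum (n + 1) x : ℕ) : ℤ) = dsum (n + 1) y := by
      rw [dsum_cfg, dsum_cfg, hxy]
    exact_mod_cast this
  · intro c hc c' hc' hM
    simp only [List.mem_toFinset, List.mem_map] at hc hc'
    obtain ⟨x, hx, rfl⟩ := hc
    obtain ⟨y, hy, rfl⟩ := hc'
    have : ((dsum (n + 1) x : ℕ) : ℤ) = dsum (n + 1) y := by
      rw [dsum_cfg, dsum_cfg, hM]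
    have : x = y := hinj hx hy (by exact_mod_cast this)
    rw [this]

end Crest.Agent.R347
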