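import Crest.Agent.R347.ND3

/-!
# Row 347 numerics, piece ND7: the error certificate

`errStep` preserves independence of the winding number, so one packed component suffices (`KP_eq` with equal arguments);
`errP ≠ 0` means that no check failed. Final comparison: `r + (2^(W-1) - 1 - EM) < 2^(W-1)` slotwise iff `r ≤ EM`.
-/

set_option autoImplicit false

open Crest.MathPhysics.SpinChain Matrix

namespace Crest.Agent.R347

variable {n : ℕ}

private theorem ND7_mulVec_lt {W B : ℕ} (hB : 3 * (n + 1) * 2 ^ B + 2 ^ B ≤ 2 ^ W) (hB2 : 2 ≤ B)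
    (f : XC n → ℕ) (hf : ∀ x, f x < 2 ^ B) (x : XC n) : (KN n).mulVec f x + 3 < 2 ^ W := by
  have h1 : (KN n).mulVec f x ≤ 3 * (n + 1) * 2 ^ B := by
    unfold Matrix.mulVec dotProduct
    calc ∑ y, KN n x y * f y ≤ ∑ y, KN n x y * 2 ^ B :=
          Finset.sum_le_sum fun y _ => Nat.mul_le_mul_left _ (hf y).le
      _ = (∑ y, KN n x y) * 2 ^ B := by rw [Finset.sum_mul]
      _ ≤ 3 * (n + 1) * 2 ^ B := Nat.mul_le_mul_right _ (KN_rowsum n x)
  have h2 : 2 ^ 2 ≤ 2 ^ B := Nat.pow_le_pow_right (by norm_num) hB2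
  omega

private theorem ND7_err_aux {W B : ℕ} (hW : 6 ≤ W) (hn1 : 1 ≤ n) (hn : n + 1 ≤ 15)
    (hB : 3 * (n + 1) * 2 ^ B + 2 ^ B ≤ 2 ^ W) (hB2 : 2 ≤ B) (hBW : B ≤ W) (l : List (ℕ × ℕ))
    (hl : ∀ p ∈ l, p.1 ≤ W) :
    ∀ g : Cfg n → ℕ, (∀ c, g c < 2 ^ B) → errP W (n + 1) B l (pk W g) ≠ 0 →
      ∃ g' : Cfg n → ℕ, (∀ c, g' c < 2 ^ B) ∧
        l.foldl errStep (fun x : XC n => g x.1) = (fun x => g' x.1) ∧
        errP W (n + 1) B l (pk W g) = pk W g' := by
  have hBW2 : 2 ^ B ≤ 2 ^ W := Nat.pow_le_pow_right (by norm_num) hBW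
  induction l with
  | nil =>
    intro g hg _
    exact ⟨g, hg, rfl, rfl⟩
  | cons p l ih =>
    obtain ⟨s, t⟩ := p
    intro g hg hne
    have hs : s ≤ W := hl (s, t) List.mem_cons_self
    have hl' : ∀ p ∈ l, p.1 ≤ W := fun p hp => hl p (List.mem_cons_of_mem _ hp)
    let f : XC n → ℕ := fun x => g x.1
    have hfB : ∀ x, f x < 2 ^ B := fun x => hg x.1
    have hfW : ∀ x, f x < 2 ^ W := fun x => (hfB x).trans_le hBW2
    have hlt := ND7_mulVec_lt hB hB2 f hfB
    have hk : ∀ k : ZMod 4, KP W (n + 1) (pk W g) (pk W g) (pk W g) =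
        pk W fun c => (KN n).mulVec f (c, k) := fun k => KP_eq hW hn1 hn f hfW k
    have hind : ∀ (c : Cfg n) (k : ZMod 4), (KN n).mulVec f (c, k) = (KN n).mulVec f (c, 0) := by
      intro c k
      have := pk_inj (fun c => (KN n).mulVec f (c, k)) (fun c => (KN n).mulVec f (c, 0))
        (fun c => by have := hlt (c, k); omega) (fun c => by have := hlt (c, 0); omega)
        ((hk k).symm.trans (hk 0))
      exact congrFun this c
    let h : Cfg n → ℕ := fun c => (KN n).mulVec f (c, 0)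
    let g1 : Cfg n → ℕ := fun c => h c / 2 ^ s + 3
    have hh : ∀ c, h c + 3 < 2 ^ W := fun c => hlt (c, 0)
    have hg1 : ∀ c, g1 c < 2 ^ W := fun c => by
      have h1 := hh c
      have h2 : h c / 2 ^ s ≤ h c := Nat.div_le_self _ _
      show h c / 2 ^ s + 3 < 2 ^ W
      omega
    have ha : shP W (n + 1) s (KP W (n + 1) (pk W g) (pk W g) (pk W g)) + 3 * ones W (n + 1) =
        pk W g1 := by
      rw [hk 0, shP_eq (by omega) s hs _ (fun c => by have := hh c; show h c < 2 ^ W; omega),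
        ones_eq (n := n) (by omega), mul_comm 3, pk_mul, pk_add]
    have hun : errP W (n + 1) B ((s, t) :: l) (pk W g) =
        (bif Nat.beq (pk W g1 &&& hiM W (n + 1) B) 0 then errP W (n + 1) B l (pk W g1) else 0) := by
      rw [← ha]; rfl
    rw [hun] at hne
    by_cases hc : Nat.beq (pk W g1 &&& hiM W (n + 1) B) 0 = true
    · rw [hc, cond_true] at hne
      rw [hun, hc, cond_true]
      have hc' := Nat.eq_of_beq_eq_true hc
      rw [hiM_eq (by omega)] at hc'
      have hg1B : ∀ c, g1 c < 2 ^ B := fun c => pk_check B hBW g1 hg1 hc' c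
      obtain ⟨g', hg', hfold, hval⟩ := ih hl' g1 hg1B hne
      refine ⟨g', hg', ?_, hval⟩
      rw [List.foldl_cons, ← hfold]
      congr 1
      funext x
      obtain ⟨c, k⟩ := x
      show (KN n).mulVec f (c, k) / 2 ^ s + 3 = h c / 2 ^ s + 3
      rw [hind c k]
    · rw [Bool.not_eq_true] at hc
      rw [hc, cond_false] at hne
      exact absurd rfl hne

theorem err_bound {W B e0 EM : ℕ} (hW : 6 ≤ W) (hn1 : 1 ≤ n) (hn : n + 1 ≤ 15)
    (hB : 3 * (n + 1) * 2 ^ B + 2 ^ B ≤ 2 ^ W) (hB2 : 2 ≤ B) (hEM : EM < 2 ^ (W - 1)) (l : List (ℕ × ℕ))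
    (hl : ∀ p ∈ l, p.1 ≤ W) (h : errOK W (n + 1) B e0 EM l = true) (x : XC n) :
    l.foldl errStep (fun _ => e0) x ≤ EM := by
  have hone : 1 ≤ 2 ^ B := Nat.one_le_two_pow
  have hBW : B + 1 ≤ W := by
    have h1 : 2 ^ (B + 1) ≤ 2 ^ W := by
      rw [pow_succ]
      have h2 : 2 ^ B * 1 ≤ 2 ^ B * (3 * (n + 1)) := Nat.mul_le_mul_left _ (by omega)
      have h3 : 2 ^ B * (3 * (n + 1)) = 3 * (n + 1) * 2 ^ B := by ring
      omega
    exact (Nat.pow_le_pow_iff_right (by norm_num)).1 h1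
  unfold errOK at h
  simp only [Bool.and_eq_true] at h
  obtain ⟨hr, he, hfin⟩ := h
  have he0 : e0 < 2 ^ B := by
    rw [Nat.blt_eq] at he
    exact he
  have hpk0 : e0 * ones W (n + 1) = pk W (fun _ : Cfg n => e0) := by
    rw [ones_eq (n := n) (by omega), mul_comm, pk_mul]
    simp only [one_mul]
  rw [hpk0] at hr hfin
  have hne : errP W (n + 1) B l (pk W (fun _ : Cfg n => e0)) ≠ 0 := by
    intro h0
    rw [h0] at hr
    exact absurd hr (by simp)
  obtain ⟨g', hg', hfold, hval⟩ := ND7_err_aux hW hn1 hn hB hB2 (by omega) l hl (fun _ => e0)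
    (fun _ => he0) hne
  rw [hval] at hfin
  have hfold' : l.foldl errStep (fun _ : XC n => e0) = (fun x => g' x.1) := hfold
  rw [hfold']
  show g' x.1 ≤ EM
  have h1 : pk W g' + (2 ^ (W - 1) - 1 - EM) * ones W (n + 1) =
      pk W (fun c => g' c + (2 ^ (W - 1) - 1 - EM)) := by
    rw [ones_eq (n := n) (by omega), mul_comm, pk_mul, pk_add]
    simp only [one_mul]
  have hpow : 2 ^ W - 2 ^ (W - 1) = 2 ^ (W - 1) := by
    have : 2 ^ W = 2 ^ (W - 1) * 2 := by
      rw [← pow_succ]; congr 1; omega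
    omega
  have h2 : 2 ^ (W - 1) * ones W (n + 1) = pk W (fun _ : Cfg n => 2 ^ W - 2 ^ (W - 1)) := by
    rw [ones_eq (n := n) (by omega), mul_comm, pk_mul]
    simp only [one_mul, hpow]
  rw [h1, h2] at hfin
  have hfin' := Nat.eq_of_beq_eq_true hfin
  have hle : 2 ^ B ≤ 2 ^ (W - 1) := Nat.pow_le_pow_right (by norm_num) (by omega)
  have h3 := pk_check (W - 1) (by omega) (fun c => g' c + (2 ^ (W - 1) - 1 - EM)) (fun c => by
    have := hg' c
    show g' c + (2 ^ (W - 1) - 1 - EM) < 2 ^ W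
    have h4 : 2 ^ W = 2 ^ (W - 1) * 2 := by
      rw [← pow_succ]; congr 1; omega
    omega) hfin' x.1
  have h5 : g' x.1 + (2 ^ (W - 1) - 1 - EM) < 2 ^ (W - 1) := h3
  omega

end Crest.Agent.R347
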