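import Crest.Agent.R347.ND6
import Crest.Agent.R347.ND7
import Crest.Agent.R347.NC1
import Crest.Agent.R347.NB6

/-!
# Row 347 numerics, piece NE1: meaning of one run certificate

Combine `runP_eq` (start `f = 0`), `res26_lo/hi`, `horner_bounds`, `err_bound`, `exq_mono`, `exq_smul`, `exqN_cast`.
`stP W starts = pk W (indicator of A)` for distinct start indices `< 3^(n+1)`.
-/

set_option autoImplicit false

open Crest.MathPhysics.SpinChain Matrix

namespace Crest.Agent.R347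

variable {n : ℕ}

/-- parameters of the certificates for one ring size -/
structure ParOK (n W B σ e0 EM : ℕ) (l : List (ℕ × ℕ)) : Prop where
  hW : 7 ≤ W
  hn1 : 2 ≤ n
  hn : n + 1 ≤ 15
  hB2 : 2 ≤ B
  hB : 3 * (n + 1) * 2 ^ B + 2 ^ B ≤ 2 ^ W
  hWm : 3 * W + 2 ≤ 200
  hEM : EM < 2 ^ B
  hs : 3 ^ (n + 1) * 2 ^ (2 * (B + 2)) < 2 ^ (3 * W)
  hl : ∀ p ∈ l, p.1 ≤ W ∧ p.2 < 2 ^ B
  sched : SchedOK n σ e0 l
  err : errOK W (n + 1) B e0 EM l = true

theorem digit_sum (i m : ℕ) :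
    ∑ j ∈ Finset.range m, (i / 3 ^ j % 3) * 3 ^ j = i % 3 ^ m := by
  induction m with
  | zero => simp [Nat.mod_one]
  | succ m ih =>
    rw [Finset.sum_range_succ, ih, Nat.mod_pow_succ]
    ring

theorem idx_cfgOf {i : ℕ} (hi : i < 3 ^ (n + 1)) : idx (cfgOf n i) = i := by
  have h := digit_sum i (n + 1)
  rw [Nat.mod_eq_of_lt hi] at h
  unfold idx
  rw [← Fin.sum_univ_eq_sum_range (fun j => (i / 3 ^ j % 3) * 3 ^ j)] at h
  exact h

theorem stP_sum (W : ℕ) (l : List ℕ) : stP W l = (l.map fun i => 2 ^ (W * i)).sum := by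
  induction l with
  | nil => rfl
  | cons i l ih => rw [stP, ih, List.map_cons, List.sum_cons]

theorem stP_eq {W : ℕ} (starts : List ℕ) (hd : (starts.map (cfgOf n)).Nodup)
    (hlt : ∀ i ∈ starts, i < 3 ^ (n + 1)) :
    stP W starts = pk W fun c : Cfg n => if c ∈ (starts.map (cfgOf n)).toFinset then 1 else 0 := by
  unfold pk
  simp_rw [ite_mul, one_mul, zero_mul]
  rw [← Finset.sum_filter, Finset.filter_mem_eq_inter, Finset.univ_inter,
    List.sum_toFinset _ hd, stP_sum, List.map_map]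
  congr 1
  refine List.map_congr_left fun i hi => ?_
  rw [Function.comp_apply, idx_cfgOf (hlt i hi)]

theorem run_cert {W B σ e0 EM : ℕ} {l : List (ℕ × ℕ)} (hp : ParOK n W B σ e0 EM l)
    (starts : List ℕ) (hd : (starts.map (cfgOf n)).Nodup) (hlt : ∀ i ∈ starts, i < 3 ^ (n + 1))
    (v : ℕ) (hv0 : v ≠ 0)
    (hv : runP W (n + 1) B (stP W starts) (res26 W (n + 1) EM) l 0 0 0 0 = v) (i : ℕ) (hi : i < 13) :
    ((v >>> (200 * i) % 2 ^ 200 : ℕ) : ℝ) * 2 ^ (2 * totSh l) ≤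
        exq n (vA n (starts.map (cfgOf n)).toFinset) i * 2 ^ (2 * σ) ∧
      exq n (vA n (starts.map (cfgOf n)).toFinset) i * 2 ^ (2 * σ) ≤
        ((v >>> (200 * (13 + i)) % 2 ^ 200 : ℕ) : ℝ) * 2 ^ (2 * totSh l) := by
  obtain ⟨hW, hn1, hn, hB2, hB, hWm, hEM, hs, hl, sched, err⟩ := hp
  set A := (starts.map (cfgOf n)).toFinset with hA
  have hz : ∀ k, cmp W (fun _ : XC n => 0) k = 0 := by
    intro k
    unfold cmp pk
    simp
  have h2B : 2 ^ (B + 3) ≤ 2 ^ W := by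
    have h1 : 2 ^ (B + 3) = 8 * 2 ^ B := by rw [pow_add]; ring
    have h2 : 3 * 3 * 2 ^ B ≤ 3 * (n + 1) * 2 ^ B := Nat.mul_le_mul_right _ (by omega)
    have h3 : 0 < 2 ^ B := by positivity
    omega
  have hBW : B + 3 ≤ W := (Nat.pow_le_pow_iff_right (by norm_num)).1 h2B
  have hpos : 0 < 2 ^ B := by positivity
  set g := l.foldl (loStep A) (fun _ => 0) with hg
  have hrun := runP_eq (n := n) (by omega : 6 ≤ W) (by omega : 1 ≤ n) hn hB A (stP W starts)
    (stP_eq starts hd hlt) (res26 W (n + 1) EM) l hl (fun _ => 0) (fun _ => hpos)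
    (by rw [hz, hz, hz, hz, hv]; exact hv0)
  rw [hz, hz, hz, hz, hv] at hrun
  obtain ⟨hgB, hvv⟩ := hrun
  have hlo := res26_lo hW hn (by omega : B + 2 ≤ W) hWm hEM hs g hgB i hi
  have hhi := res26_hi hW hn (by omega : B + 2 ≤ W) hWm hEM hs g hgB i hi
  rw [← hvv] at hlo hhi
  rw [hlo, hhi, exqN_cast, exqN_cast]
  have hEM' : EM < 2 ^ (W - 1) :=
    hEM.trans_le (Nat.pow_le_pow_right (by norm_num) (by omega))
  have herr := err_bound (n := n) (by omega : 6 ≤ W) (by omega : 1 ≤ n) hn hB hB2 hEM' l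
    (fun p hp => (hl p hp).1) err
  have hh := horner_bounds sched A
  have h2pos : ∀ k : ℕ, (0 : ℝ) ≤ 2 ^ k := fun k => pow_nonneg (by norm_num) k
  have e1 : ∀ k : ℕ, (2 : ℝ) ^ (2 * k) = ((2 : ℝ) ^ k) ^ 2 := fun k => by
    rw [← pow_mul, mul_comm]
  rw [e1, e1, mul_comm, ← exq_smul, mul_comm (exq n (vA n A) i), ← exq_smul,
    mul_comm (exq n _ i) _, ← exq_smul]
  constructor
  · refine exq_mono _ _ (fun x => mul_nonneg (h2pos _) (Nat.cast_nonneg _)) (fun x => ?_) i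
    have := (hh x).1
    rw [mul_comm, mul_comm (2 ^ σ : ℝ)]
    exact this
  · refine exq_mono _ _ (fun x => ?_) (fun x => ?_) i
    · have h1 := (hh x).1
      rw [mul_comm (2 ^ σ : ℝ)]
      exact le_trans (mul_nonneg (Nat.cast_nonneg _) (h2pos _)) h1
    · have h1 := (hh x).2
      rw [mul_comm (2 ^ σ : ℝ)]
      refine h1.trans ?_
      rw [mul_comm]
      refine mul_le_mul_of_nonneg_left ?_ (h2pos _)
      push_cast
      have : ((l.foldl errStep (fun _ => e0) x : ℕ) : ℝ) ≤ (EM : ℝ) := by exact_mod_cast herr x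
      linarith

end Crest.Agent.R347
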