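import Crest.Agent.R347.ChM
import Crest.Agent.R347.ChR
import Crest.Agent.R347.ChF
import Crest.Agent.R347.ChL
import Crest.Agent.R347.ChZ1
import Crest.Agent.R347.ChRun
import Crest.Agent.R347.NE1

/-!
# Row 347, Chebyshev numerics, piece Z3: meaning of the certificates of one run

`stP W [c0, c1] = pk W (indicator of {cfgOf c0, cfgOf c1})` (`stP_eq`, NE1; the two are different since their digit
sums have different parity), `dsum L i = dsm (cfgOf n i)`; `run1P_spec` / `run2P_spec` with `b1 = b2 = 0` (`pB_zero`)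
and `k = out1 ..`, `out2 ..`; `out1_spec`, `out2_spec`; `close02`, `close1`; `sq_close`, `corr_close`;
`combq_u02`, `combq_u1`; classes: `qcl c = dsm c % 2` (`dsm_parity`) and the vectors vanish off the sectors
(`u02`, `u1` too: `vA n A (c', k) = 0` unless `c'` has the magnetisation of a member of `A`, NB: `Ex_mtot`).
-/

set_option autoImplicit false

open Crest.MathPhysics.SpinChain Matrix

namespace Crest.Agent.R347

variable {n : ℕ}

/-- spectral bounds of `KR n` (pieces ChS) -/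
structure KSpec (n : ℕ) : Prop where
  sym : (KR n).IsSymm
  psd : ∀ f : XC n → ℝ, 0 ≤ f ⬝ᵥ (KR n *ᵥ f)
  up : ∀ f : XC n → ℝ, f ⬝ᵥ (KR n *ᵥ f) ≤ 5 / 2 * (n + 1) * (f ⬝ᵥ f)

/-- all parameters -/
structure ChPar (n W B r s h D N0 σ τ E M0 m d02 d1 : ℕ) (gs : List ℕ) : Prop where
  ok : ChOK n W B r s h
  hL : 5 * (n + 1) * r ≤ 8 * 2 ^ s
  hm1 : r * h ≤ m
  hm2 : 2 ^ s ≤ m + r * h
  hD : 1 ≤ D
  hE : 4 * M0 * m ^ 2 ≤ E ^ 2 * 4 ^ s
  hM : ∀ me mo, me % 2 = 0 → mo % 2 = 1 →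
    (Finset.univ.filter fun c : Cfg n => inS me mo c).card ≤ M0
  gam : gamC r s D N0 σ τ gs = true
  gB : ∀ g ∈ gs, g < 2 ^ B
  h02 : (2 * D + 1) * E + 3 * (2 * D + 2 + τ) ≤ 2 * d02
  h1 : ((2 * D + 1) * E + 3 * (2 * D + 2 + τ)) ^ 2 ≤ 2 * d1 ^ 2

/-- the two members of a run -/
def runA (n : ℕ) (R : CRun) : Finset (Cfg n) := {cfgOf n R.c0, cfgOf n R.c1}

private theorem z3_meta {L : ℕ} {R : CRun} (h : metaOK L R = true) :
    (R.c0 < 3 ^ L ∧ R.c1 < 3 ^ L ∧ dsum L R.c0 = R.me ∧ dsum L R.c1 = R.mo ∧ R.me % 2 = 0 ∧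
      R.mo % 2 = 1 ∧ R.me < 32 ∧ R.mo < 32) ∧ sqC R 0 = true ∧ sqC R 1 = true ∧ sqC R 2 = true := by
  unfold metaOK at h
  simp only [Bool.and_eq_true, Nat.blt_eq, Nat.beq_eq] at h
  exact ⟨⟨h.1.1, h.1.2.1, h.1.2.2.1, h.1.2.2.2.1, h.1.2.2.2.2.1, h.1.2.2.2.2.2.1,
    h.1.2.2.2.2.2.2.1, h.1.2.2.2.2.2.2.2⟩, h.2.1, h.2.2.1, h.2.2.2⟩

private theorem z3_dsum (i : ℕ) : dsm (cfgOf n i) = dsum (n + 1) i := by
  rw [NB6.dsum_eq, ← Fin.sum_univ_eq_sum_range (fun j => i / 3 ^ j % 3) (n + 1)]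
  rfl

theorem meta_members {R : CRun} (h : metaOK (n + 1) R = true) :
    dsm (cfgOf n R.c0) = R.me ∧ dsm (cfgOf n R.c1) = R.mo ∧ R.me % 2 = 0 ∧ R.mo % 2 = 1 ∧
      R.me < 32 ∧ R.mo < 32 ∧ R.c0 < 3 ^ (n + 1) ∧ R.c1 < 3 ^ (n + 1) := by
  obtain ⟨⟨h1, h2, h3, h4, h5, h6, h7, h8⟩, -⟩ := z3_meta h
  exact ⟨by rw [z3_dsum, h3], by rw [z3_dsum, h4], h5, h6, h7, h8, h1, h2⟩

private theorem z3_rho {R : CRun} (h : metaOK (n + 1) R = true) (κ : ℕ) (hκ : κ < 3) (q : ℕ)
    (hq : q < 2) : fld (R.v κ) q ≤ R.rho κ q * R.rho κ q := by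
  obtain ⟨-, h0, h1, h2⟩ := z3_meta h
  simp only [sqC, Bool.and_eq_true, Nat.ble_eq] at h0 h1 h2
  interval_cases κ <;> interval_cases q
  · exact h0.1
  · exact h0.2
  · exact h1.1
  · exact h1.2
  · exact h2.1
  · exact h2.2

private theorem z3_card (R : CRun) : (runA n R).card ≤ 2 := by
  unfold runA
  exact Finset.card_le_two

private theorem z3_memS {R : CRun} (h : metaOK (n + 1) R = true) :
    ∀ c ∈ runA n R, inS R.me R.mo c := by
  obtain ⟨h1, h2, -⟩ := meta_members h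
  intro c hc
  unfold runA at hc
  simp only [Finset.mem_insert, Finset.mem_singleton] at hc
  rcases hc with rfl | rfl
  · exact Or.inl h1
  · exact Or.inr h2

private theorem z3_stP {R : CRun} (h : metaOK (n + 1) R = true) (W : ℕ) :
    stP W [R.c0, R.c1] = pk W fun c : Cfg n => ((ind0 (runA n R) c : ℤ)).toNat := by
  obtain ⟨h1, h2, h3, h4, -, -, h7, h8⟩ := meta_members h
  rw [stP_eq (n := n)]
  · congr 1
    funext c
    have e : (List.map (cfgOf n) [R.c0, R.c1]).toFinset = runA n R := by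
      unfold runA
      simp
    rw [e]
    unfold ind0
    split_ifs <;> rfl
  · have hne : cfgOf n R.c0 ≠ cfgOf n R.c1 := by
      intro he
      rw [he, h2] at h1
      omega
    simp [hne]
  · intro i hi
    simp only [List.mem_cons, List.not_mem_nil, or_false] at hi
    rcases hi with rfl | rfl
    · exact h7
    · exact h8

private theorem z3_core {W B r s h D N0 σ τ E M0 m d02 d1 : ℕ} {gs : List ℕ}
    (P : ChPar n W B r s h D N0 σ τ E M0 m d02 d1 gs) (K : KSpec n) (R : CRun)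
    (hm : metaOK (n + 1) R = true) (z fl : Bool) (v : ℕ)
    (hr : chkC1 W (n + 1) B r s h R.me R.mo gs [R.c0, R.c1] z fl v = true) :
    ∃ V : Cfg n → ℤ, Adm B R.me R.mo V ∧
      v = out1 W (n + 1) B R.me R.mo fl (pB W B R.me R.mo V) ∧
      ChA.n2 (fun c => (V c : ℝ) - 1 / 2 ^ σ * u02 n z (runA n R) c) ≤ d02 := by
  obtain ⟨g1, g2, g3, g4, g5, g6, g7, g8⟩ := meta_members hm
  have ok := P.ok
  have hW7 : 7 ≤ W := by have := ok.hB; have := ok.hB1; omega
  have hn15 : n + 1 ≤ 15 := by have := ok.hn; omega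
  simp only [chkC1, Bool.and_eq_true, Nat.beq_eq] at hr
  obtain ⟨hv0, hrun⟩ := hr
  have hv0' : v ≠ 0 := by
    rintro rfl
    simp at hv0
  rw [pB_zero (n := n) (B := B) hW7 hn15 g5 g6 g3 g4] at hrun
  have hz : Adm B R.me R.mo (fun _ : Cfg n => (0 : ℤ)) :=
    ⟨fun _ _ => rfl, fun _ => by simp, fun _ => by positivity⟩
  have he : ∀ c : Cfg n, (ind0 (runA n R) c : ℤ) = 0 ∨ (ind0 (runA n R) c : ℤ) = 1 := by
    intro c
    unfold ind0
    split_ifs
    · exact Or.inr rfl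
    · exact Or.inl rfl
  have heS : ∀ c : Cfg n, ¬ inS R.me R.mo c → (ind0 (runA n R) c : ℤ) = 0 := by
    intro c hc
    unfold ind0
    rw [if_neg fun h => hc (z3_memS hm c h)]
  have hs := run1P_spec ok g5 g6 g3 g4 z (out1 W (n + 1) B R.me R.mo fl) (ind0 (runA n R)) he heS
    (stP W [R.c0, R.c1]) (z3_stP hm W) gs P.gB _ _ hz hz (by rw [hrun]; exact hv0')
  obtain ⟨hA, hV⟩ := hs
  refine ⟨_, hA, by rw [← hV, hrun], ?_⟩
  have hc := close02 (n := n) (z := z) (A := runA n R) (me := R.me) (mo := R.mo) (by have := ok.hn1; omega)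
    K.sym K.psd K.up ok.hr0 P.hL ok.hh P.hm1 P.hm2 P.hD P.hE (P.hM _ _ g3 g4) P.gam
    (z3_card R) (z3_memS hm)
  have h02 : ((2 * D + 1) * E + 3 * (2 * D + 2 + τ) : ℝ) ≤ 2 * d02 := by exact_mod_cast P.h02
  linarith

/-- only one sector contributes to a parity class -/
private theorem z3_class {R : CRun} (hm : metaOK (n + 1) R = true) {B : ℕ} {V : Cfg n → ℤ}
    (hV : Adm B R.me R.mo V) (q : ℕ) (hq : q < 2) :
    (∑ c : Cfg n, if qcl c = q then (V c : ℝ) * V c else 0) =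
      ∑ c : Cfg n, if dsm c = R.sec q then (V c : ℝ) * V c else 0 := by
  obtain ⟨-, -, g3, g4, -⟩ := meta_members hm
  refine Finset.sum_congr rfl fun c _ => ?_
  rw [← dsm_parity]
  by_cases hc : inS R.me R.mo c
  · have hs : (dsm c % 2 = q) ↔ dsm c = R.sec q := by
      unfold CRun.sec
      unfold inS at hc
      interval_cases q
      · simp only [Nat.beq_refl, cond_true]
        omega
      · have : Nat.beq 1 0 = false := rfl
        simp only [this, cond_false]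
        omega
    simp only [hs]
  · have h0 : V c = 0 := hV.supp c hc
    simp [h0]

/-- one component: `z = false`: `κ = 0`, `z = true`: `κ = 2` -/
theorem run_bound02 {W B r s h D N0 σ τ E M0 m d02 d1 : ℕ} {gs : List ℕ}
    (P : ChPar n W B r s h D N0 σ τ E M0 m d02 d1 gs) (K : KSpec n) (R : CRun)
    (hm : metaOK (n + 1) R = true) (z fl : Bool) (v : ℕ) (hv : v = R.v (if z then 2 else 0))
    (hr : chkC1 W (n + 1) B r s h R.me R.mo gs [R.c0, R.c1] z fl v = true) (q : ℕ) (hq : q < 2) :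
    |(fld v q : ℝ) - (1 / 2 ^ σ) ^ 2 * combq (if z then 2 else 0) (exq n (vA n (runA n R))) q| ≤
      (d02 : ℝ) * (2 * (R.rho (if z then 2 else 0) q : ℝ) + d02) := by
  obtain ⟨g1, g2, g3, g4, g5, g6, g7, g8⟩ := meta_members hm
  obtain ⟨V, hV, hvo, hcl⟩ := z3_core P K R hm z fl v hr
  obtain ⟨o1, o2, -⟩ := out1_spec P.ok g5 g6 g3 g4 fl V hV v hvo
  have hfld : (fld v q : ℝ) = ∑ c : Cfg n, if qcl c = q then (V c : ℝ) * V c else 0 := by
    rw [z3_class hm hV q hq]
    have h1 : ((fld v q : ℕ) : ℤ) = ∑ c : Cfg n, if dsm c = R.sec q then V c * V c else 0 := by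
      unfold fld CRun.sec
      interval_cases q
      · exact o1
      · exact o2
    have h2 : ((fld v q : ℕ) : ℝ) = (((fld v q : ℕ) : ℤ) : ℝ) := by simp
    rw [h2, h1]
    push_cast
    refine Finset.sum_congr rfl fun c _ => ?_
    split_ifs <;> simp
  have hκ : (if z then 2 else 0 : ℕ) < 3 := by split_ifs <;> norm_num
  have hrho := z3_rho hm _ hκ q hq
  rw [← hv] at hrho
  have hrho' : (fld v q : ℝ) ≤ (R.rho (if z then 2 else 0) q : ℝ) * R.rho (if z then 2 else 0) q := by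
    exact_mod_cast hrho
  have key := sq_close (fun c => (V c : ℝ)) (fun c => 1 / 2 ^ σ * u02 n z (runA n R) c) d02
    (R.rho (if z then 2 else 0) q) (Nat.cast_nonneg _) (Nat.cast_nonneg _) hcl
    (fun c => qcl c = q) (by rw [← hfld]; exact hrho')
  rw [← hfld] at key
  have e : (1 / 2 ^ σ : ℝ) ^ 2 * combq (if z then 2 else 0) (exq n (vA n (runA n R))) q =
      ∑ c : Cfg n, if qcl c = q then (1 / 2 ^ σ * u02 n z (runA n R) c) *
        (1 / 2 ^ σ * u02 n z (runA n R) c) else 0 := by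
    rw [combq_u02 z (runA n R) q hq, Finset.mul_sum]
    refine Finset.sum_congr rfl fun c _ => ?_
    split_ifs <;> ring
  rw [e]
  exact key

private theorem z3b_sq {R : CRun} {L : ℕ} (h : metaOK L R = true) (q : ℕ) (hq : q < 2) :
    fld R.v1 q ≤ R.rho 1 q * R.rho 1 q := by
  simp only [metaOK, sqC, Bool.and_eq_true, Nat.ble_eq] at h
  have h1 := h.2.2.1
  have hv : R.v 1 = R.v1 := rfl
  rw [hv] at h1
  interval_cases q
  · exact h1.1
  · exact h1.2

private theorem z3b_chk {W L B r s h me mo : ℕ} {gs starts : List ℕ} {v : ℕ}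
    (hr : chkC2 W L B r s h me mo gs starts v = true) :
    v ≠ 0 ∧ run2P W L B r s h me mo (stP W starts) (out2 W L B me mo) gs
      (2 ^ B * runI W L me mo) (2 ^ B * runI W L me mo) (2 ^ B * runI W L me mo)
      (2 ^ B * runI W L me mo) = v := by
  simp only [chkC2, Bool.and_eq_true] at hr
  refine ⟨?_, Nat.eq_of_beq_eq_true hr.2⟩
  intro h0
  rw [h0] at hr
  simp at hr

private theorem z3b_split {ι : Type} [Fintype ι] (F : ι × Bool → ℝ) (p : ι → Prop)
    [DecidablePred p] :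
    (∑ x : ι × Bool, if p x.1 then F x else 0) =
      ∑ c : ι, if p c then F (c, false) + F (c, true) else 0 := by
  rw [Fintype.sum_prod_type]
  refine Finset.sum_congr rfl fun c _ => ?_
  rw [Fintype.sum_bool]
  by_cases hp : p c
  · simp [hp, add_comm]
  · simp [hp]

/-- two components, `κ = 1` -/
theorem run_bound1 {W B r s h D N0 σ τ E M0 m d02 d1 : ℕ} {gs : List ℕ}
    (P : ChPar n W B r s h D N0 σ τ E M0 m d02 d1 gs) (K : KSpec n) (R : CRun)
    (hm : metaOK (n + 1) R = true)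
    (hr : chkC2 W (n + 1) B r s h R.me R.mo gs [R.c0, R.c1] R.v1 = true) (k : ZMod 4)
    (hk : k = 1 ∨ k = 3) (q : ℕ) (hq : q < 2) :
    |(fld R.v1 q : ℝ) - (1 / 2 ^ σ) ^ 2 * combq k (exq n (vA n (runA n R))) q| ≤
      (d1 : ℝ) * (2 * (R.rho 1 q : ℝ) + d1) := by
  obtain ⟨e0, e1, hme, hmo, hme32, hmo32, hc0, hc1⟩ := meta_members hm
  obtain ⟨hv0, hrun⟩ := z3b_chk hr
  have hn1 := P.ok.hn1
  have hn := P.ok.hn
  have hB1 := P.ok.hB1
  have hB := P.ok.hB
  -- the two members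
  have hne : cfgOf n R.c0 ≠ cfgOf n R.c1 := by
    intro h0
    rw [h0, e1] at e0
    omega
  have hAS : ∀ c ∈ runA n R, inS R.me R.mo c := by
    intro c hc
    rw [runA, Finset.mem_insert, Finset.mem_singleton] at hc
    rcases hc with rfl | rfl
    · exact Or.inl e0
    · exact Or.inr e1
  have hcard : (runA n R).card ≤ 2 := by
    rw [runA]
    exact Finset.card_le_two
  have hAf : (([R.c0, R.c1] : List ℕ).map (cfgOf n)).toFinset = runA n R := by
    ext c
    simp [runA]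
  have hst := stP_eq (n := n) (W := W) [R.c0, R.c1] (by simpa using hne) (by
    intro i hi
    simp only [List.mem_cons, List.not_mem_nil, or_false] at hi
    rcases hi with rfl | rfl
    · exact hc0
    · exact hc1)
  rw [hAf] at hst
  -- the zero vector
  have hz := pB_zero (n := n) (W := W) (B := B) (me := R.me) (mo := R.mo) (by omega) (by omega)
    hme32 hmo32 hme hmo
  rw [hz] at hrun
  have hAdm0 : ∀ t : Bool, Adm (n := n) B R.me R.mo
      fun c => (fun _ : Cfg n × Bool => (0 : ℤ)) (c, t) := by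
    intro t
    refine ⟨fun _ _ => rfl, fun _ => ?_, fun _ => ?_⟩
    · have : (0 : ℤ) < 2 ^ B := by positivity
      simp only
      omega
    · have : (0 : ℤ) < 2 ^ B := by positivity
      exact this
  have hrs := run2P_spec (n := n) P.ok hme32 hmo32 hme hmo (out2 W (n + 1) B R.me R.mo)
    (ind1 (runA n R) : Cfg n × Bool → ℤ)
    (fun x => by unfold ind1; split_ifs; exacts [Or.inr rfl, Or.inl rfl])
    (fun c => by unfold ind1; simp)
    (fun x hx => by
      unfold ind1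
      rw [if_neg]
      exact fun h0 => hx (hAS _ h0.1))
    (stP W [R.c0, R.c1]) (by
      rw [hst]
      congr 1
      funext c
      unfold ind1
      by_cases hc : c ∈ runA n R <;> simp [hc])
    gs P.gB (fun _ => 0) (fun _ => 0) hAdm0 hAdm0 (by
      rw [hrun]
      exact hv0)
  obtain ⟨hA, hval⟩ := hrs
  simp only at hval
  rw [hrun] at hval
  set vZ : Cfg n × Bool → ℤ := runZ K1 r s h (ind1 (runA n R)) gs (fun _ => 0) (fun _ => 0) with hvZ
  obtain ⟨o1, o2⟩ := out2_spec P.ok hme32 hmo32 hme hmo vZ hA R.v1 hval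
  -- closeness
  have hcl := close1 (n := n) (me := R.me) (mo := R.mo) (by omega) K.sym K.psd K.up P.ok.hr0 P.hL
    P.ok.hh P.hm1 P.hm2 P.hD P.hE (P.hM _ _ hme hmo) P.gam (runA n R) hcard hAS
  rw [← hvZ] at hcl
  have hn2 : ChA.n2 (fun x => (vZ x : ℝ) - 1 / 2 ^ σ * u1 n (runA n R) x) ≤ (d1 : ℝ) := by
    have h1 : (((2 * D + 1) * E + 3 * (2 * D + 2 + τ) : ℕ) : ℝ) ^ 2 ≤ 2 * (d1 : ℝ) ^ 2 := by
      exact_mod_cast P.h1
    push_cast at h1
    have h2 := ChA.n2_nonneg (fun x => (vZ x : ℝ) - 1 / 2 ^ σ * u1 n (runA n R) x)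
    have h3 : 0 ≤ Real.sqrt 2 *
        ChA.n2 (fun x => (vZ x : ℝ) - 1 / 2 ^ σ * u1 n (runA n R) x) :=
      mul_nonneg (Real.sqrt_nonneg 2) h2
    have h4 := pow_le_pow_left₀ h3 hcl 2
    rw [mul_pow, Real.sq_sqrt (by norm_num)] at h4
    exact abs_le_of_sq_le_sq' (by linarith) (Nat.cast_nonneg d1) |>.2
  -- the sums of the certificate
  have hqcl : ∀ c : Cfg n, inS R.me R.mo c → (qcl c = q ↔
      dsm c = if q = 0 then R.me else R.mo) := by
    intro c hc
    rw [← dsm_parity]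
    rcases hc with hc | hc <;> rw [hc] <;> interval_cases q <;> simp <;> omega
  have hfld : ((fld R.v1 q : ℕ) : ℝ) =
      ∑ x : Cfg n × Bool, if qcl x.1 = q then (vZ x : ℝ) * (vZ x : ℝ) else 0 := by
    have hz' : ((fld R.v1 q : ℕ) : ℤ) = ∑ c : Cfg n, if dsm c = (if q = 0 then R.me else R.mo) then
        vZ (c, false) * vZ (c, false) + vZ (c, true) * vZ (c, true) else 0 := by
      unfold fld
      interval_cases q
      · simpa using o1
      · simpa using o2
    rw [z3b_split (fun x => (vZ x : ℝ) * (vZ x : ℝ)) (fun c => qcl c = q)]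
    have h1 : ((fld R.v1 q : ℕ) : ℝ) = (((fld R.v1 q : ℕ) : ℤ) : ℝ) := by push_cast; rfl
    rw [h1, hz']
    push_cast
    refine Finset.sum_congr rfl fun c _ => ?_
    by_cases hc : inS R.me R.mo c
    · by_cases h2 : qcl c = q
      · rw [if_pos h2, if_pos ((hqcl c hc).1 h2)]
      · rw [if_neg h2, if_neg fun h3 => h2 ((hqcl c hc).2 h3)]
    · have z0 : vZ (c, false) = 0 := (hA false).supp c hc
      have z1 : vZ (c, true) = 0 := (hA true).supp c hc
      rw [z0, z1]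
      simp
  have hcomb : (1 / 2 ^ σ : ℝ) ^ 2 * combq k (exq n (vA n (runA n R))) q =
      ∑ x : Cfg n × Bool, if qcl x.1 = q then
        (1 / 2 ^ σ * u1 n (runA n R) x) * (1 / 2 ^ σ * u1 n (runA n R) x) else 0 := by
    rw [z3b_split (fun x => (1 / 2 ^ σ * u1 n (runA n R) x) * (1 / 2 ^ σ * u1 n (runA n R) x))
      (fun c => qcl c = q), combq_u1 k hk _ q hq, Finset.mul_sum]
    refine Finset.sum_congr rfl fun c _ => ?_
    by_cases h2 : qcl c = q
    · rw [if_pos h2, if_pos h2]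
      ring
    · rw [if_neg h2, if_neg h2, mul_zero]
  rw [hfld, hcomb]
  refine sq_close (fun x => (vZ x : ℝ)) (fun x => 1 / 2 ^ σ * u1 n (runA n R) x) d1 (R.rho 1 q)
    (Nat.cast_nonneg _) (Nat.cast_nonneg _) hn2 (fun x => qcl x.1 = q) ?_
  rw [← hfld]
  exact_mod_cast z3b_sq hm q hq

/-- flip term; `z = true` iff `n` odd iff `L = n + 1` even -/
theorem run_boundF {W B r s h D N0 σ τ E M0 m d02 d1 : ℕ} {gs : List ℕ}
    (P : ChPar n W B r s h D N0 σ τ E M0 m d02 d1 gs) (K : KSpec n) (R : CRun)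
    (hm : metaOK (n + 1) R = true) (z : Bool) (hz : z = decide (¬ Even n)) (v : ℕ)
    (hv : v = R.v (if z then 2 else 0))
    (hr : chkC1 W (n + 1) B r s h R.me R.mo gs [R.c0, R.c1] z true v = true)
    (hsec : R.sec ((n + 1) % 2) = n + 1) :
    |((((v >>> 400 : ℕ) : ℤ) - 2 ^ 199 : ℤ) : ℝ) - (1 / 2 ^ σ) ^ 2 *
      (∑ c : Cfg n, if Mtot c = 0 then u02 n z (runA n R) c * u02 n z (runA n R) (flp c) else 0)| ≤
      (d02 : ℝ) * (2 * (R.rho (if z then 2 else 0) ((n + 1) % 2) : ℝ) + d02) := by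
  obtain ⟨g1, g2, g3, g4, g5, g6, g7, g8⟩ := meta_members hm
  obtain ⟨V, hV, hvo, hcl⟩ := z3_core P K R hm z true v hr
  obtain ⟨o1, o2, o3⟩ := out1_spec P.ok g5 g6 g3 g4 true V hV v hvo
  have hq : (n + 1) % 2 < 2 := Nat.mod_lt _ (by norm_num)
  have hM : ∀ c : Cfg n, Mtot c = 0 ↔ dsm c = n + 1 := by
    intro c
    rw [Mtot_dsm]
    omega
  have hfld : (fld v ((n + 1) % 2) : ℝ) =
      ∑ c : Cfg n, if Mtot c = 0 then (V c : ℝ) * V c else 0 := by
    have h1 : ((fld v ((n + 1) % 2) : ℕ) : ℤ) =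
        ∑ c : Cfg n, if dsm c = R.sec ((n + 1) % 2) then V c * V c else 0 := by
      unfold fld CRun.sec
      generalize (n + 1) % 2 = q at hq
      interval_cases q
      · exact o1
      · exact o2
    have h2 : ((fld v ((n + 1) % 2) : ℕ) : ℝ) = (((fld v ((n + 1) % 2) : ℕ) : ℤ) : ℝ) := by simp
    rw [h2, h1, hsec]
    push_cast
    refine Finset.sum_congr rfl fun c _ => ?_
    simp only [hM]
  have hκ : (if z then 2 else 0 : ℕ) < 3 := by split_ifs <;> norm_num
  have hrho := z3_rho hm _ hκ _ hq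
  rw [← hv] at hrho
  have hrho' : (fld v ((n + 1) % 2) : ℝ) ≤ (R.rho (if z then 2 else 0) ((n + 1) % 2) : ℝ) *
      R.rho (if z then 2 else 0) ((n + 1) % 2) := by
    exact_mod_cast hrho
  have hff : ∀ c : Cfg n, flp (flp c) = c := fun c => by
    unfold flp
    simp
  have key := corr_close (fun c => (V c : ℝ)) (fun c => 1 / 2 ^ σ * u02 n z (runA n R) c) d02
    (R.rho (if z then 2 else 0) ((n + 1) % 2)) (Nat.cast_nonneg _) (Nat.cast_nonneg _) hcl
    (fun c => Mtot c = 0) flp hff (fun c => by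
      rw [hM, hM]
      have := dsm_flp c
      omega) (by rw [← hfld]; exact hrho')
  have e : (1 / 2 ^ σ : ℝ) ^ 2 * (∑ c : Cfg n, if Mtot c = 0 then
      u02 n z (runA n R) c * u02 n z (runA n R) (flp c) else 0) =
      ∑ c : Cfg n, if Mtot c = 0 then (1 / 2 ^ σ * u02 n z (runA n R) c) *
        (1 / 2 ^ σ * u02 n z (runA n R) (flp c)) else 0 := by
    rw [Finset.mul_sum]
    refine Finset.sum_congr rfl fun c _ => ?_
    split_ifs <;> ring
  have e2 : ((((v >>> 400 : ℕ) : ℤ) - 2 ^ 199 : ℤ) : ℝ) =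
      ∑ c : Cfg n, if Mtot c = 0 then (V c : ℝ) * V (flp c) else 0 := by
    rw [o3 rfl, add_sub_cancel_left]
    push_cast
    refine Finset.sum_congr rfl fun c _ => ?_
    simp only [hM]
  rw [e, e2]
  exact key

end Crest.Agent.R347
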