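import Crest.Agent.R347.ChS
import Crest.Agent.R347.ChZ3

/-! Row 347, Chebyshev numerics: `KSpec n` from the spectral bounds of `KR n` -/

set_option autoImplicit false

open Matrix

namespace Crest.Agent.R347

theorem kSpec (n : ℕ) (hn : 2 ≤ n) : KSpec n where
  sym := KR_isSymm n
  psd := KR_psd n
  up := fun f => KR_upper hn f

end Crest.Agent.R347
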