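import Crest.Agent.R347.NA3

/-!
# Row 347 numerics, piece NA4: the traces in terms of `Ex`

`exp(-β H) = e^(-β L) S exp(β Φ(K)) S = e^(-βL) S Φ(Ex β) S` (`S` diagonal with entries `sgS`, `S² = 1`;
`Matrix.exp_conj` / `exp_units_conj`; `exp(a • 1 + B) = e^a exp B`). Traces: `tens 1 = 1`; `tens wz` is diagonal with entries
`∏_j (wz)_(c j) = (-1)^(number of j with c j ≠ 1) = (-1)^(Mtot c)`; `tens wx c c' = (-1)^(n+1)` if `c' = flp c`, else 0, and
`sgS (flp c) = sgS c`.  Real part: `Re (i^(κ' j.val)) = chiR κ' j` and the entries of `Ex` are real.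
-/

set_option autoImplicit false

open Crest.MathPhysics.SpinChain Matrix

namespace Crest.Agent.R347

namespace NA4Aux

/-- the diagonal matrix of the Marshall signs -/
noncomputable def DS (n : ℕ) : Matrix (Cfg n) (Cfg n) ℂ := Matrix.diagonal fun c => sgS c

theorem DS_mul_DS (n : ℕ) : DS n * DS n = 1 := by
  unfold DS
  rw [Matrix.diagonal_mul_diagonal, ← Matrix.diagonal_one]
  congr 1
  funext c
  exact sgS_sq c

theorem DS_inv (n : ℕ) : (DS n)⁻¹ = DS n := Matrix.inv_eq_right_inv (DS_mul_DS n)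

theorem DS_isUnit (n : ℕ) : IsUnit (DS n) :=
  ⟨⟨DS n, DS n, DS_mul_DS n, DS_mul_DS n⟩, rfl⟩

theorem DS_conj_apply {n : ℕ} (A : Matrix (Cfg n) (Cfg n) ℂ) (c c' : Cfg n) :
    (DS n * A * DS n) c c' = sgS c * sgS c' * A c c' := by
  unfold DS
  rw [Matrix.mul_diagonal, Matrix.diagonal_mul]
  ring

theorem exp_smul_one {m : Type*} [Fintype m] [DecidableEq m] (a : ℂ) :
    NormedSpace.exp (a • (1 : Matrix m m ℂ)) = Complex.exp a • (1 : Matrix m m ℂ) := by
  have h1 : a • (1 : Matrix m m ℂ) = Matrix.diagonal fun _ => a := by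
    rw [← Matrix.diagonal_one, ← Matrix.diagonal_smul]
    congr 1
    funext i
    simp
  have h2 : Complex.exp a • (1 : Matrix m m ℂ) = Matrix.diagonal fun _ => Complex.exp a := by
    rw [← Matrix.diagonal_one, ← Matrix.diagonal_smul]
    congr 1
    funext i
    simp
  rw [h1, h2, Matrix.exp_diagonal]
  congr 1
  funext i
  rw [Pi.coe_exp, Complex.exp_eq_exp_ℂ]

theorem zeta_pow (n : ℕ) (κ : Fin 3) : (Complex.I ^ (kap n κ).val) ^ 4 = 1 := by
  rw [← pow_mul, mul_comm, pow_mul, Complex.I_pow_four, one_pow]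

theorem exp_ringH {n : ℕ} (hn : 1 ≤ n) (κ : Fin 3) (β : ℝ) :
    NormedSpace.exp ((-(β : ℂ)) • ringH n (gk κ)) =
      Complex.exp (-(β * ((n : ℂ) + 1))) •
        (DS n * Phi (Complex.I ^ (kap n κ).val) (Ex n β) * DS n) := by
  have hg : (((n : ℂ) + 1) • (1 : Matrix (Cfg n) (Cfg n) ℂ)) - ringH n (gk κ) =
      DS n * Phi (Complex.I ^ (kap n κ).val) (KR n) * DS n := by
    ext c c'
    rw [ringH_gauge hn, DS_conj_apply]
  have h1 : (-(β : ℂ)) • ringH n (gk κ) = (-(β * ((n : ℂ) + 1))) • (1 : Matrix (Cfg n) (Cfg n) ℂ) +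
      DS n * ((β : ℂ) • Phi (Complex.I ^ (kap n κ).val) (KR n)) * DS n := by
    rw [Matrix.mul_smul, Matrix.smul_mul, ← hg, smul_sub, smul_smul, neg_smul, neg_smul]
    abel
  rw [h1, Matrix.exp_add_of_commute, exp_smul_one]
  · rw [Matrix.smul_mul, Matrix.one_mul, Phi_exp _ (zeta_pow n κ)]
    congr 1
    have h2 := Matrix.exp_conj (DS n) ((β : ℂ) • Phi (Complex.I ^ (kap n κ).val) (KR n)) (DS_isUnit n)
    rw [DS_inv] at h2
    exact h2
  · exact (Commute.one_left _).smul_left _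

theorem zRing_eq {n : ℕ} (hn : 1 ≤ n) (κ : Fin 3) (β : ℝ) (w : Matrix (Fin 3) (Fin 3) ℂ) :
    Real.exp (β * ((n : ℝ) + 1)) * (zRing n β (gk κ) w).re =
      (∑ c : Cfg n, ∑ c' : Cfg n, (tens w : Matrix (Cfg n) (Cfg n) ℂ) c c' *
        (sgS c' * sgS c * Phi (Complex.I ^ (kap n κ).val) (Ex n β) c' c)).re := by
  unfold zRing
  rw [exp_ringH hn, Matrix.mul_smul, Matrix.trace_smul, smul_eq_mul]
  have h1 : Complex.exp (-(β * ((n : ℂ) + 1))) = ((Real.exp (-(β * ((n : ℝ) + 1))) : ℝ) : ℂ) := by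
    push_cast
    rfl
  rw [h1, Complex.re_ofReal_mul, ← mul_assoc, ← Real.exp_add, add_neg_cancel, Real.exp_zero, one_mul]
  congr 1
  unfold Matrix.trace
  refine Finset.sum_congr rfl fun c _ => ?_
  rw [Matrix.diag_apply, Matrix.mul_apply]
  refine Finset.sum_congr rfl fun c' _ => ?_
  rw [DS_conj_apply]

/-- value of the real part of the power of `ζ` -/
theorem re_zeta (k j : ZMod 4) : ((Complex.I ^ k.val) ^ j.val).re = chiR k j := by
  have e : (Complex.I ^ k.val) ^ j.val = Complex.I ^ (k * j).val := by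
    rw [← pow_mul, ZMod.val_mul]
    conv_lhs => rw [← Nat.div_add_mod (k.val * j.val) 4]
    rw [pow_add, pow_mul, Complex.I_pow_four, one_pow, one_mul]
  rw [e]
  unfold chiR
  generalize k * j = x
  have h2 : Complex.I ^ 2 = -1 := Complex.I_sq
  have h3 : Complex.I ^ 3 = -Complex.I := by rw [pow_succ, h2]; ring
  have hx : x = 0 ∨ x = 1 ∨ x = 2 ∨ x = 3 := by revert x; decide
  have v0 : (0 : ZMod 4).val = 0 := rfl
  have v1 : (1 : ZMod 4).val = 1 := rfl
  have v2 : (2 : ZMod 4).val = 2 := rfl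
  have v3 : (3 : ZMod 4).val = 3 := rfl
  have n1 : ¬ ((1 : ZMod 4) = 0) := by decide
  have n2 : ¬ ((1 : ZMod 4) = 2) := by decide
  have n3 : ¬ ((2 : ZMod 4) = 0) := by decide
  have n4 : ¬ ((3 : ZMod 4) = 0) := by decide
  have n5 : ¬ ((3 : ZMod 4) = 2) := by decide
  rcases hx with rfl | rfl | rfl | rfl
  · rw [v0, pow_zero, if_pos rfl, Complex.one_re]
  · rw [v1, pow_one, if_neg n1, if_neg n2, Complex.I_re]
  · rw [v2, h2, if_neg n3, if_pos rfl]; simp
  · rw [v3, h3, if_neg n4, if_neg n5]; simp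

theorem re_Phi {n : ℕ} (k : ZMod 4) (A : Matrix (XC n) (XC n) ℝ) (c c' : Cfg n) :
    (Phi (Complex.I ^ k.val) A c c').re = ∑ j : ZMod 4, chiR k j * A (c, 0) (c', j) := by
  unfold Phi
  rw [Matrix.of_apply, Complex.re_sum]
  refine Finset.sum_congr rfl fun j _ => ?_
  rw [Complex.re_mul_ofReal, re_zeta]

theorem prod_wz {n : ℕ} (c : Cfg n) (s : Finset (Fin (n + 1))) :
    ∏ j ∈ s, wz (c j) (c j) =
      if Even (∑ j ∈ s, (1 - ((c j : ℕ) : ℤ))) then 1 else -1 := by
  classical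
  induction s using Finset.induction_on with
  | empty => simp
  | insert a s ha ih =>
    rw [Finset.prod_insert ha, Finset.sum_insert ha, ih]
    have hv : (c a = 0 ∨ c a = 1) ∨ c a = 2 := by
      generalize c a = x
      revert x
      decide
    have e0 : wz 0 0 = -1 := by simp [wz]
    have e1 : wz 1 1 = 1 := by simp [wz]
    have e2 : wz 2 2 = -1 := by simp [wz]
    generalize (∑ j ∈ s, (1 - ((c j : ℕ) : ℤ))) = S
    rcases hv with (hv | hv) | hv
    · rw [hv, e0]
      by_cases he : Even S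
      · rw [if_pos he, if_neg]
        · ring
        · rw [Int.even_add]; simp [he]
      · rw [if_neg he, if_pos]
        · ring
        · rw [Int.even_add]; simp [he]
    · rw [hv, e1]
      by_cases he : Even S
      · rw [if_pos he, if_pos]
        · ring
        · rw [Int.even_add]; simp [he]
      · rw [if_neg he, if_neg]
        · ring
        · rw [Int.even_add]; simp [he]
    · rw [hv, e2]
      by_cases he : Even S
      · rw [if_pos he, if_neg]
        · ring
        · rw [Int.even_add]; simp [he]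
      · rw [if_neg he, if_pos]
        · ring
        · rw [Int.even_add]; simp [he]

theorem tens_one_apply {n : ℕ} (c c' : Cfg n) :
    (tens 1 : Matrix (Cfg n) (Cfg n) ℂ) c c' = if c = c' then 1 else 0 := by
  unfold tens
  rw [Matrix.of_apply]
  by_cases h : c = c'
  · subst h
    rw [if_pos rfl]
    exact Finset.prod_eq_one fun j _ => Matrix.one_apply_eq _
  · rw [if_neg h]
    obtain ⟨j, hj⟩ := Function.ne_iff.1 h
    exact Finset.prod_eq_zero (Finset.mem_univ j) (Matrix.one_apply_ne hj)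

theorem tens_wz_apply {n : ℕ} (c c' : Cfg n) :
    (tens wz : Matrix (Cfg n) (Cfg n) ℂ) c c' =
      if c = c' then ((sgM true c : ℝ) : ℂ) else 0 := by
  unfold tens
  rw [Matrix.of_apply]
  by_cases h : c = c'
  · subst h
    rw [if_pos rfl, prod_wz]
    unfold sgM Mtot
    by_cases he : Even (∑ j : Fin (n + 1), (1 - ((c j : ℕ) : ℤ)))
    · rw [if_pos he, if_neg (fun hh => hh.2 he)]; simp
    · rw [if_neg he, if_pos ⟨rfl, he⟩]; simp
  · rw [if_neg h]
    obtain ⟨j, hj⟩ := Function.ne_iff.1 h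
    refine Finset.prod_eq_zero (Finset.mem_univ j) ?_
    unfold wz
    exact Matrix.diagonal_apply_ne _ hj

theorem tens_eps_apply {n : ℕ} (ε : Bool) (c c' : Cfg n) :
    (tens (if ε then wz else 1) : Matrix (Cfg n) (Cfg n) ℂ) c c' =
      if c = c' then ((sgM ε c : ℝ) : ℂ) else 0 := by
  cases ε
  · have h1 : (tens (if (false : Bool) = true then wz else 1) : Matrix (Cfg n) (Cfg n) ℂ) = tens 1 := by
      simp
    rw [h1, tens_one_apply]
    have h2 : sgM false c = 1 := by simp [sgM]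
    rw [h2]
    simp
  · have h1 : (tens (if (true : Bool) = true then wz else 1) : Matrix (Cfg n) (Cfg n) ℂ) = tens wz := by
      simp
    rw [h1, tens_wz_apply]

theorem wx_apply (a b : Fin 3) : wx a b = if b = Fin.rev a then -1 else 0 := by
  fin_cases a <;> fin_cases b <;> simp [wx, Fin.rev]

theorem tens_wx_apply {n : ℕ} (c c' : Cfg n) :
    (tens wx : Matrix (Cfg n) (Cfg n) ℂ) c c' = if c' = flp c then (-1) ^ (n + 1) else 0 := by
  unfold tens
  rw [Matrix.of_apply]
  by_cases h : c' = flp c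
  · rw [if_pos h]
    have h1 : ∀ j ∈ (Finset.univ : Finset (Fin (n + 1))), wx (c j) (c' j) = -1 := by
      intro j _
      rw [wx_apply, h]
      exact if_pos rfl
    rw [Finset.prod_congr rfl h1, Finset.prod_const, Finset.card_univ, Fintype.card_fin]
  · rw [if_neg h]
    obtain ⟨j, hj⟩ := Function.ne_iff.1 h
    refine Finset.prod_eq_zero (Finset.mem_univ j) ?_
    rw [wx_apply]
    exact if_neg hj

theorem sgS_flp {n : ℕ} (c : Cfg n) : sgS (flp c) = sgS c := by
  unfold sgS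
  refine Finset.prod_congr rfl fun j _ => ?_
  by_cases hj : (j : ℕ) % 2 = 1
  · rw [if_pos hj, if_pos hj]
    unfold flp
    generalize c j = x
    fin_cases x <;> simp [Fin.rev] <;> norm_num
  · rw [if_neg hj, if_neg hj]

end NA4Aux

open NA4Aux in
theorem ring_trace {n : ℕ} (hn : 1 ≤ n) (κ : Fin 3) (ε : Bool) (β : ℝ) :
    Real.exp (β * ((n : ℝ) + 1)) * (zRing n β (gk κ) (if ε then wz else 1)).re =
      ∑ c : Cfg n, sgM ε c * ∑ j : ZMod 4, chiR (kap n κ) j * Ex n β (c, 0) (c, j) := by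
  rw [zRing_eq hn, Complex.re_sum]
  refine Finset.sum_congr rfl fun c _ => ?_
  rw [Finset.sum_eq_single c]
  · rw [tens_eps_apply, if_pos rfl, sgS_sq, one_mul, Complex.re_ofReal_mul, re_Phi]
  · intro c' _ hc'
    rw [tens_eps_apply, if_neg (fun e => hc' e.symm), zero_mul]
  · intro hc
    exact absurd (Finset.mem_univ c) hc

open NA4Aux in
theorem ring_trace_wx {n : ℕ} (hn : 1 ≤ n) (β : ℝ) :
    Real.exp (β * ((n : ℝ) + 1)) * (zRing n β pz wx).re =
      (-1) ^ (n + 1) * ∑ c : Cfg n, ∑ j : ZMod 4, chiR (kap n 2) j * Ex n β (flp c, 0) (c, j) := by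
  have hg : pz = gk 2 := rfl
  rw [hg, zRing_eq hn, Complex.re_sum, Finset.mul_sum]
  refine Finset.sum_congr rfl fun c _ => ?_
  rw [Finset.sum_eq_single (flp c)]
  · rw [tens_wx_apply, if_pos rfl, sgS_flp, sgS_sq, one_mul]
    have h1 : ((-1 : ℂ)) ^ (n + 1) = (((-1 : ℝ) ^ (n + 1) : ℝ) : ℂ) := by push_cast; rfl
    rw [h1, Complex.re_ofReal_mul, re_Phi]
  · intro c' _ hc'
    rw [tens_wx_apply, if_neg hc', zero_mul]
  · intro hc
    exact absurd (Finset.mem_univ _) hc

end Crest.Agent.R347
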