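import Crest.Agent.R347.ChZ3
import Crest.Agent.R347.NA4
import Crest.Agent.R347.NB6

/-!
# Row 347, Chebyshev numerics, piece Z4: sums over the runs and the final result

`ring_trace`, `ring_trace_wx` (NA4), `orbit_sum` (NB6) with `inv_diag`, `inv_flip` (NB5), `diag_pair`, `flip_pair`,
`flip_zero` (ChL), `run_bound02`, `run_bound1`, `run_boundF` (ChZ3).  `kap n κ` versus `kapN n κ`, `kapI n κ`: see
`ne2_kap` (NE2.lean).
-/

set_option autoImplicit false

open Crest.MathPhysics.SpinChain Matrix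

namespace Crest.Agent.R347

variable {n : ℕ}

private theorem z4a_orbL (F : Cfg n → ℝ) (rs : List CRun) :
    ((orbL rs).map fun r => (r.1 : ℝ) * (r.2.map fun i => F (cfgOf n i)).sum).sum =
      (rs.map fun R => (R.sz0 : ℝ) * F (cfgOf n R.c0) +
        (R.sz1 : ℝ) * F (cfgOf n R.c1)).sum := by
  induction rs with
  | nil => simp [orbL]
  | cons R l ih =>
    have h0 : ((bif Nat.beq R.sz0 0 then ([] : List (ℕ × List ℕ)) else [(R.sz0, [R.c0])]).map
        fun r => (r.1 : ℝ) * (r.2.map fun i => F (cfgOf n i)).sum).sum =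
        (R.sz0 : ℝ) * F (cfgOf n R.c0) := by
      by_cases h : R.sz0 = 0
      · rw [h]; simp [Nat.beq]
      · have : Nat.beq R.sz0 0 = false := by
          rw [Bool.eq_false_iff]; intro h'; exact h (Nat.eq_of_beq_eq_true h')
        rw [this]; simp
    have h1 : ((bif Nat.beq R.sz1 0 then ([] : List (ℕ × List ℕ)) else [(R.sz1, [R.c1])]).map
        fun r => (r.1 : ℝ) * (r.2.map fun i => F (cfgOf n i)).sum).sum =
        (R.sz1 : ℝ) * F (cfgOf n R.c1) := by
      by_cases h : R.sz1 = 0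
      · rw [h]; simp [Nat.beq]
      · have : Nat.beq R.sz1 0 = false := by
          rw [Bool.eq_false_iff]; intro h'; exact h (Nat.eq_of_beq_eq_true h')
        rw [this]; simp
    rw [orbL, List.map_append, List.map_append, List.sum_append, List.sum_append, ih, h0, h1,
      List.map_cons, List.sum_cons, ← add_assoc]

private theorem z4a_metaL {L : ℕ} {rs : List CRun} (h : metaL L rs = true) :
    ∀ R ∈ rs, metaOK L R = true := by
  induction rs with
  | nil => intro R hR; simp at hR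
  | cons R l ih =>
    unfold metaL at h
    simp only [Bool.and_eq_true] at h
    intro R' hR'
    rcases List.mem_cons.1 hR' with rfl | hR'
    · exact h.1
    · exact ih h.2 R' hR'

private theorem z4a_Mtot (c : Cfg n) : Mtot c = ((n + 1 : ℕ) : ℤ) - (dsm c : ℤ) := by
  unfold Mtot dsm
  rw [Finset.sum_sub_distrib]
  push_cast
  simp

private theorem z4a_Sg (c : Cfg n) (q : ℕ) (h : dsm c % 2 = q) (ε : Bool) :
    sgM ε c = sgq n ε q := by
  unfold sgM sgq
  have h : (¬ Even (Mtot c)) ↔ (n + 1 + q) % 2 = 1 := by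
    rw [z4a_Mtot, Int.not_even_iff]
    omega
  simp only [h]

/-- orbit sum over the run records -/
theorem orb_sumC (rs : List CRun) (horb : orbOK (n + 1) (orbL rs) = true) (F : Cfg n → ℝ)
    (hF : Inv3 F) :
    ∑ c, F c = (rs.map fun R => (R.sz0 : ℝ) * F (cfgOf n R.c0) + (R.sz1 : ℝ) * F (cfgOf n R.c1)).sum := by
  rw [orbit_sum (orbL rs) horb F hF, z4a_orbL]

/-- diagonal traces -/
theorem diag_sumC (hn : 2 ≤ n) (rs : List CRun) (horb : orbOK (n + 1) (orbL rs) = true)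
    (hm : metaL (n + 1) rs = true) (κ : Fin 3) (ε : Bool) :
    Real.exp (17 / 2 * ((n : ℝ) + 1)) * (zRing n (17 / 2) (gk κ) (if ε then wz else 1)).re =
      (rs.map fun R => (R.sz0 : ℝ) * (sgq n ε 0 * combq (kap n κ) (exq n (vA n (runA n R))) 0) +
        (R.sz1 : ℝ) * (sgq n ε 1 * combq (kap n κ) (exq n (vA n (runA n R))) 1)).sum := by
  have hn1 : 1 ≤ n := le_trans (by norm_num) hn
  rw [ring_trace hn1 κ ε (17 / 2), orb_sumC rs horb
    (fun c => sgM ε c * ∑ j : ZMod 4, chiR (kap n κ) j * Ex n (17 / 2) (c, 0) (c, j))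
    (inv_diag hn (kap n κ) ε)]
  congr 1
  apply List.map_congr_left
  intro R hR
  obtain ⟨e0, e1, p0, p1, -, -, -, -⟩ := meta_members (z4a_metaL hm R hR)
  have h0 : dsm (cfgOf n R.c0) % 2 = 0 := by rw [e0]; exact p0
  have h1 : dsm (cfgOf n R.c1) % 2 = 1 := by rw [e1]; exact p1
  have hp := diag_pair (kap n κ) (cfgOf n R.c0) (cfgOf n R.c1) h0 h1
  rw [z4a_Sg _ 0 h0, z4a_Sg _ 1 h1, hp.1, hp.2]
  rfl

/-- flipped trace: only the runs with the sector `L = n + 1` -/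
theorem flip_sumC (hn : 2 ≤ n) (rs : List CRun) (horb : orbOK (n + 1) (orbL rs) = true)
    (hm : metaL (n + 1) rs = true) :
    Real.exp (17 / 2 * ((n : ℝ) + 1)) * (zRing n (17 / 2) pz wx).re =
      (-1) ^ (n + 1) * (rs.map fun R => if R.sec ((n + 1) % 2) = n + 1 then
        (R.sz ((n + 1) % 2) : ℝ) * ∑ c : Cfg n, (if Mtot c = 0 then
          u02 n (decide (¬ Even n)) (runA n R) c * u02 n (decide (¬ Even n)) (runA n R) (flp c)
          else 0) else 0).sum := by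
  have hn1 : 1 ≤ n := le_trans (by norm_num) hn
  rw [ring_trace_wx hn1 (17 / 2), orb_sumC rs horb
    (fun c => ∑ j : ZMod 4, chiR (kap n 2) j * Ex n (17 / 2) (flp c, 0) (c, j))
    (inv_flip hn)]
  congr 2
  apply List.map_congr_left
  intro R hR
  obtain ⟨e0, e1, p0, p1, -, -, -, -⟩ := meta_members (z4a_metaL hm R hR)
  have h0 : dsm (cfgOf n R.c0) % 2 = 0 := by rw [e0]; exact p0
  have h1 : dsm (cfgOf n R.c1) % 2 = 1 := by rw [e1]; exact p1
  have hp := flip_pair (cfgOf n R.c0) (cfgOf n R.c1) h0 h1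
  change (R.sz0 : ℝ) * (∑ j : ZMod 4, chiR (kap n 2) j *
      Ex n (17 / 2) (flp (cfgOf n R.c0), 0) (cfgOf n R.c0, j)) +
    (R.sz1 : ℝ) * (∑ j : ZMod 4, chiR (kap n 2) j *
      Ex n (17 / 2) (flp (cfgOf n R.c1), 0) (cfgOf n R.c1, j)) = _
  change _ = ∑ c : Cfg n, (if Mtot c = 0 then
    u02 n (decide (¬ Even n)) (runA n R) c * u02 n (decide (¬ Even n)) (runA n R) (flp c)
    else 0) at hp
  rcases Nat.mod_two_eq_zero_or_one (n + 1) with hq | hq
  · have hz : dsm (cfgOf n R.c1) ≠ n + 1 := by omega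
    rw [flip_zero _ hz, add_zero] at hp
    rw [flip_zero _ hz, mul_zero, add_zero, hq]
    change _ = if R.me = n + 1 then (R.sz0 : ℝ) * _ else 0
    by_cases hme : R.me = n + 1
    · rw [if_pos hme, hp]
    · rw [if_neg hme, flip_zero _ (by rw [e0]; exact hme), mul_zero]
  · have hz : dsm (cfgOf n R.c0) ≠ n + 1 := by omega
    rw [flip_zero _ hz, zero_add] at hp
    rw [flip_zero _ hz, mul_zero, zero_add, hq]
    change _ = if R.mo = n + 1 then (R.sz1 : ℝ) * _ else 0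
    by_cases hmo : R.mo = n + 1
    · rw [if_pos hmo, hp]
    · rw [if_neg hmo, flip_zero _ (by rw [e1]; exact hmo), mul_zero]

private theorem z4_kap (n : ℕ) (κ : Fin 3) :
    (kap n κ = 0 ∧ kapI n κ = 0) ∨ (kap n κ = 2 ∧ kapI n κ = 2) ∨
      ((kap n κ = 1 ∨ kap n κ = 3) ∧ kapI n κ = 1) := by
  unfold kap kapI kapN
  rcases Nat.even_or_odd n with h | h
  · rw [if_pos h, if_pos (Nat.even_iff.1 h)]
    fin_cases κ <;> decide
  · rw [if_neg (Nat.not_even_iff_odd.2 h), if_neg (by rw [Nat.odd_iff.1 h]; decide)]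
    fin_cases κ <;> decide

private theorem z4_mem {W L B r s h : ℕ} {gs : List ℕ} :
    ∀ {rs : List CRun}, metaL L rs = true → allC W L B r s h gs rs →
      ∀ R ∈ rs, metaOK L R = true ∧ runOKC W L B r s h gs R
  | [], _, _ => by simp
  | R :: l, hm, hr => by
    intro R' hR'
    rw [metaL, Bool.and_eq_true] at hm
    rcases List.mem_cons.1 hR' with rfl | h
    · exact ⟨hm.1, hr.1⟩
    · exact z4_mem hm.2 hr.2 R' h

private theorem z4_sum (k δ : ℕ) (s0 s1 c : ℝ) (h0 : |s0| = 1) (h1 : |s1| = 1) (C0 C1 : CRun → ℝ) :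
    ∀ (rs : List CRun), (∀ R ∈ rs, |(fld (R.v k) 0 : ℝ) - c * C0 R| ≤
        (δ : ℝ) * (2 * (R.rho k 0 : ℝ) + δ) ∧ |(fld (R.v k) 1 : ℝ) - c * C1 R| ≤
        (δ : ℝ) * (2 * (R.rho k 1 : ℝ) + δ)) →
      |(s0 * (sumN k 0 rs : ℝ) + s1 * (sumN k 1 rs : ℝ)) - c *
        (rs.map fun R => (R.sz0 : ℝ) * (s0 * C0 R) + (R.sz1 : ℝ) * (s1 * C1 R)).sum| ≤
      ((sumE k 0 δ rs + sumE k 1 δ rs : ℕ) : ℝ)
  | [], _ => by simp [sumN, sumE]
  | R :: l, h => by
    have ih := z4_sum k δ s0 s1 c h0 h1 C0 C1 l (fun R' hR' => h R' (List.mem_cons_of_mem _ hR'))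
    obtain ⟨g0, g1⟩ := h R (List.mem_cons_self ..)
    have e0 : (sumN k 0 (R :: l) : ℝ) = (R.sz0 : ℝ) * (fld (R.v k) 0 : ℝ) + (sumN k 0 l : ℝ) := by
      rw [sumN]
      push_cast
      rfl
    have e1 : (sumN k 1 (R :: l) : ℝ) = (R.sz1 : ℝ) * (fld (R.v k) 1 : ℝ) + (sumN k 1 l : ℝ) := by
      rw [sumN]
      push_cast
      rfl
    have f0 : (sumE k 0 δ (R :: l) : ℝ) = (R.sz0 : ℝ) * ((δ : ℝ) * (2 * (R.rho k 0 : ℝ) + δ)) +
        (sumE k 0 δ l : ℝ) := by
      rw [sumE]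
      push_cast
      rfl
    have f1 : (sumE k 1 δ (R :: l) : ℝ) = (R.sz1 : ℝ) * ((δ : ℝ) * (2 * (R.rho k 1 : ℝ) + δ)) +
        (sumE k 1 δ l : ℝ) := by
      rw [sumE]
      push_cast
      rfl
    have t0 : |s0 * ((R.sz0 : ℝ) * ((fld (R.v k) 0 : ℝ) - c * C0 R))| ≤
        (R.sz0 : ℝ) * ((δ : ℝ) * (2 * (R.rho k 0 : ℝ) + δ)) := by
      rw [abs_mul, h0, one_mul, abs_mul, abs_of_nonneg (Nat.cast_nonneg _)]
      exact mul_le_mul_of_nonneg_left g0 (Nat.cast_nonneg _)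
    have t1 : |s1 * ((R.sz1 : ℝ) * ((fld (R.v k) 1 : ℝ) - c * C1 R))| ≤
        (R.sz1 : ℝ) * ((δ : ℝ) * (2 * (R.rho k 1 : ℝ) + δ)) := by
      rw [abs_mul, h1, one_mul, abs_mul, abs_of_nonneg (Nat.cast_nonneg _)]
      exact mul_le_mul_of_nonneg_left g1 (Nat.cast_nonneg _)
    rw [List.map_cons, List.sum_cons]
    push_cast at ih ⊢
    rw [e0, e1, f0, f1]
    rw [abs_le] at ih t0 t1 ⊢
    constructor <;> nlinarith [ih.1, ih.2, t0.1, t0.2, t1.1, t1.2]

private theorem z4_sg (b : Bool) (m : ℕ) :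
    (((bif b then -(m : ℤ) else (m : ℤ)) : ℤ) : ℝ) = (if b = true then -1 else 1) * (m : ℝ) := by
  cases b <;> simp

private theorem z4_sgq (n : ℕ) (ε : Bool) (q : ℕ) :
    sgq n ε q = if (ε && Nat.beq ((n + 1 + q) % 2) 1) = true then -1 else 1 := by
  unfold sgq
  simp only [Bool.and_eq_true, Nat.beq_eq]

/-- bound of a diagonal trace -/
theorem diag_boundC {W B r s h D N0 σ τ E M0 m d02 d1 : ℕ} {gs : List ℕ}
    (P : ChPar n W B r s h D N0 σ τ E M0 m d02 d1 gs) (K : KSpec n) (rs : List CRun)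
    (hm : metaL (n + 1) rs = true) (hr : allC W (n + 1) B r s h gs rs) (κ : Fin 3) (ε : Bool) :
    |(valC n ε κ rs : ℝ) - (1 / 2 ^ σ) ^ 2 *
      (rs.map fun R => (R.sz0 : ℝ) * (sgq n ε 0 * combq (kap n κ) (exq n (vA n (runA n R))) 0) +
        (R.sz1 : ℝ) * (sgq n ε 1 * combq (kap n κ) (exq n (vA n (runA n R))) 1)).sum| ≤
      (errC n d02 d1 κ rs : ℝ) := by
  have hM := z4_mem hm hr
  have hsg : ∀ q, |sgq n ε q| = 1 := fun q => by
    unfold sgq
    split_ifs <;> simp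
  have hval : (valC n ε κ rs : ℝ) = sgq n ε 0 * (sumN (kapI n κ) 0 rs : ℝ) +
      sgq n ε 1 * (sumN (kapI n κ) 1 rs : ℝ) := by
    unfold valC
    rw [Int.cast_add, z4_sg, z4_sg, z4_sgq, z4_sgq]
  rw [hval]
  rcases z4_kap n κ with ⟨hk, hi⟩ | ⟨hk, hi⟩ | ⟨hk, hi⟩
  · have he : errC n d02 d1 κ rs = sumE 0 0 d02 rs + sumE 0 1 d02 rs := by
      unfold errC
      rw [hi]
      rfl
    rw [he, hi, hk]
    refine z4_sum 0 d02 (sgq n ε 0) (sgq n ε 1) ((1 / 2 ^ σ) ^ 2) (hsg 0) (hsg 1)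
      (fun R => combq 0 (exq n (vA n (runA n R))) 0) (fun R => combq 0 (exq n (vA n (runA n R))) 1)
      rs ?_
    intro R hR
    obtain ⟨hR1, hR2⟩ := hM R hR
    exact ⟨run_bound02 P K R hR1 false _ R.v0 rfl hR2.1 0 (by norm_num),
      run_bound02 P K R hR1 false _ R.v0 rfl hR2.1 1 (by norm_num)⟩
  · have he : errC n d02 d1 κ rs = sumE 2 0 d02 rs + sumE 2 1 d02 rs := by
      unfold errC
      rw [hi]
      rfl
    rw [he, hi, hk]
    refine z4_sum 2 d02 (sgq n ε 0) (sgq n ε 1) ((1 / 2 ^ σ) ^ 2) (hsg 0) (hsg 1)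
      (fun R => combq 2 (exq n (vA n (runA n R))) 0) (fun R => combq 2 (exq n (vA n (runA n R))) 1)
      rs ?_
    intro R hR
    obtain ⟨hR1, hR2⟩ := hM R hR
    exact ⟨run_bound02 P K R hR1 true _ R.v2 rfl hR2.2.2 0 (by norm_num),
      run_bound02 P K R hR1 true _ R.v2 rfl hR2.2.2 1 (by norm_num)⟩
  · have he : errC n d02 d1 κ rs = sumE 1 0 d1 rs + sumE 1 1 d1 rs := by
      unfold errC
      rw [hi]
      rfl
    rw [he, hi]
    refine z4_sum 1 d1 (sgq n ε 0) (sgq n ε 1) ((1 / 2 ^ σ) ^ 2) (hsg 0) (hsg 1)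
      (fun R => combq (kap n κ) (exq n (vA n (runA n R))) 0)
      (fun R => combq (kap n κ) (exq n (vA n (runA n R))) 1) rs ?_
    intro R hR
    obtain ⟨hR1, hR2⟩ := hM R hR
    exact ⟨run_bound1 P K R hR1 hR2.2.1 (kap n κ) hk 0 (by norm_num),
      run_bound1 P K R hR1 hR2.2.1 (kap n κ) hk 1 (by norm_num)⟩

/-- bound of the flipped trace -/
theorem flip_boundC {W B r s h D N0 σ τ E M0 m d02 d1 : ℕ} {gs : List ℕ}
    (P : ChPar n W B r s h D N0 σ τ E M0 m d02 d1 gs) (K : KSpec n) (rs : List CRun)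
    (hm : metaL (n + 1) rs = true) (hr : allC W (n + 1) B r s h gs rs) :
    |(sumF (n + 1) rs : ℝ) - (1 / 2 ^ σ) ^ 2 *
      (rs.map fun R => if R.sec ((n + 1) % 2) = n + 1 then
        (R.sz ((n + 1) % 2) : ℝ) * ∑ c : Cfg n, (if Mtot c = 0 then
          u02 n (decide (¬ Even n)) (runA n R) c * u02 n (decide (¬ Even n)) (runA n R) (flp c)
          else 0) else 0).sum| ≤
      (sumG (n + 1) d02 rs : ℝ) := by
  have hM := z4_mem hm hr
  have key : ∀ R ∈ rs, R.sec ((n + 1) % 2) = n + 1 →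
      |((((R.v (2 - 2 * ((n + 1) % 2)) >>> 400 : ℕ) : ℤ) - 2 ^ 199 : ℤ) : ℝ) - (1 / 2 ^ σ) ^ 2 *
        (∑ c : Cfg n, if Mtot c = 0 then u02 n (decide (¬ Even n)) (runA n R) c *
          u02 n (decide (¬ Even n)) (runA n R) (flp c) else 0)| ≤
        (d02 : ℝ) * (2 * (R.rho (2 - 2 * ((n + 1) % 2)) ((n + 1) % 2) : ℝ) + d02) := by
    intro R hR hsec
    obtain ⟨hR1, hR2⟩ := hM R hR
    rcases Nat.even_or_odd n with h | h
    · have hp : (n + 1) % 2 = 1 := by
        have := Nat.even_iff.1 h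
        omega
      have hz : false = decide (¬ Even n) := by simp [h]
      have hv : (2 - 2 * ((n + 1) % 2)) = 0 := by omega
      rw [hv, ← hz]
      refine run_boundF P K R hR1 false hz (R.v 0) rfl ?_ hsec
      have := hR2.1
      rw [hp] at this
      exact this
    · have hp : (n + 1) % 2 = 0 := by
        have := Nat.odd_iff.1 h
        omega
      have hz : true = decide (¬ Even n) := by simp [h]
      have hv : (2 - 2 * ((n + 1) % 2)) = 2 := by omega
      rw [hv, ← hz]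
      refine run_boundF P K R hR1 true hz (R.v 2) rfl ?_ hsec
      have := hR2.2.2
      rw [hp] at this
      exact this
  clear hM hm hr
  induction rs with
  | nil => simp [sumF, sumG]
  | cons R l ih =>
    have ih' := ih (fun R' hR' => key R' (List.mem_cons_of_mem _ hR'))
    have hR := key R (List.mem_cons_self ..)
    rw [List.map_cons, List.sum_cons, sumF, sumG]
    by_cases hs : R.sec ((n + 1) % 2) = n + 1
    · have hb : Nat.beq (R.sec ((n + 1) % 2)) (n + 1) = true := by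
        rw [Nat.beq_eq]
        exact hs
      rw [hb, if_pos hs, cond_true, cond_true, Int.cast_add, Int.cast_mul, Nat.cast_add,
        Nat.cast_mul, Int.cast_natCast]
      have hR' := hR hs
      have t0 : |(R.sz ((n + 1) % 2) : ℝ) *
          (((((R.v (2 - 2 * ((n + 1) % 2)) >>> 400 : ℕ) : ℤ) - 2 ^ 199 : ℤ) : ℝ) -
          (1 / 2 ^ σ) ^ 2 * (∑ c : Cfg n, if Mtot c = 0 then u02 n (decide (¬ Even n)) (runA n R) c *
          u02 n (decide (¬ Even n)) (runA n R) (flp c) else 0))| ≤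
          (R.sz ((n + 1) % 2) : ℝ) *
            ((d02 * (2 * R.rho (2 - 2 * ((n + 1) % 2)) ((n + 1) % 2) + d02) : ℕ) : ℝ) := by
        rw [abs_mul, abs_of_nonneg (Nat.cast_nonneg _)]
        refine mul_le_mul_of_nonneg_left ?_ (Nat.cast_nonneg _)
        push_cast at hR' ⊢
        exact hR'
      generalize ((d02 * (2 * R.rho (2 - 2 * ((n + 1) % 2)) ((n + 1) % 2) + d02) : ℕ) : ℝ) = X1 at *
      generalize ((((R.v (2 - 2 * ((n + 1) % 2)) >>> 400 : ℕ) : ℤ) - 2 ^ 199 : ℤ) : ℝ) = X2 at *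
      generalize (∑ c : Cfg n, if Mtot c = 0 then u02 n (decide (¬ Even n)) (runA n R) c *
          u02 n (decide (¬ Even n)) (runA n R) (flp c) else 0) = X3 at *
      rw [abs_le] at ih' t0 ⊢
      constructor <;> nlinarith [ih'.1, ih'.2, t0.1, t0.2]
    · have hb : Nat.beq (R.sec ((n + 1) % 2)) (n + 1) = false := by
        rw [Bool.eq_false_iff]
        intro h
        exact hs (Nat.eq_of_beq_eq_true h)
      rw [hb, if_neg hs, cond_false, cond_false, zero_add, zero_add, zero_add]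
      exact ih'

theorem inC_sound {σ : ℕ} {val : ℤ} {err : ℕ} {d a : ℤ} (h : inC σ val err d a = true) {X : ℝ}
    (hX : |(val : ℝ) - (1 / 2 ^ σ) ^ 2 * X| ≤ (err : ℝ)) : |X - (a : ℝ)| ≤ (d : ℝ) := by
  unfold inC at h
  simp only [Bool.and_eq_true, decide_eq_true_eq] at h
  obtain ⟨h1, h2⟩ := h
  have h1' : (val : ℝ) * 4 ^ σ + (err : ℝ) * 4 ^ σ ≤ (a : ℝ) + d := by exact_mod_cast h1
  have h2' : (a : ℝ) - d ≤ (val : ℝ) * 4 ^ σ - (err : ℝ) * 4 ^ σ := by exact_mod_cast h2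
  have h4 : (4 : ℝ) ^ σ = (2 ^ σ) ^ 2 := by rw [← pow_mul, mul_comm, pow_mul]; norm_num
  have hp : (0 : ℝ) < 4 ^ σ := by positivity
  have h5 : (1 / 2 ^ σ : ℝ) ^ 2 = 1 / 4 ^ σ := by rw [h4, one_div, one_div, inv_pow]
  rw [h5, abs_le] at hX
  have h6 : (4 : ℝ) ^ σ * (1 / 4 ^ σ * X) = X := by field_simp
  have h7 := mul_le_mul_of_nonneg_left hX.1 hp.le
  have h8 := mul_le_mul_of_nonneg_left hX.2 hp.le
  rw [mul_sub, h6] at h7 h8
  rw [abs_le]
  constructor <;> nlinarith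

/-- the result -/
theorem numL_cheb {W B r s h D N0 σ τ E M0 m d02 d1 : ℕ} {gs : List ℕ}
    (P : ChPar n W B r s h D N0 σ τ E M0 m d02 d1 gs) (K : KSpec n) (rs : List CRun)
    (horb : orbOK (n + 1) (orbL rs) = true) (hm : metaL (n + 1) rs = true)
    (hr : allC W (n + 1) B r s h gs rs) (d a0 a1 a2 b0 b1 b2 dd : ℤ)
    (hc : finC n σ d02 d1 rs d a0 a1 a2 b0 b1 b2 dd = true) :
    NumL (n + 1) d a0 a1 a2 b0 b1 b2 dd := by
  have hn : 2 ≤ n := P.ok.hn1
  have hcast : ((n + 1 : ℕ) : ℝ) = (n : ℝ) + 1 := by push_cast; rfl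
  have hdiag : ∀ (κ : Fin 3) (ε : Bool) (a : ℤ),
      inC σ (valC n ε κ rs) (errC n d02 d1 κ rs) d a = true →
      |Real.exp (17 / 2 * ((n + 1 : ℕ) : ℝ)) *
        (zRing (n + 1 - 1) (17 / 2) (gk κ) (if ε then wz else 1)).re - (a : ℝ)| ≤ (d : ℝ) := by
    intro κ ε a h
    rw [hcast, Nat.add_sub_cancel, diag_sumC hn rs horb hm κ ε]
    exact inC_sound h (diag_boundC P K rs hm hr κ ε)
  unfold finC at hc
  simp only [Bool.and_eq_true] at hc
  obtain ⟨c0, c1, c2, c3, c4', c5, c6⟩ := hc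
  refine ⟨hdiag 0 false a0 c0, hdiag 1 false a1 c1, hdiag 2 false a2 c2, hdiag 0 true b0 c3,
    hdiag 1 true b1 c4', hdiag 2 true b2 c5, ?_⟩
  rw [hcast, Nat.add_sub_cancel, flip_sumC hn rs horb hm]
  apply inC_sound c6
  have hb := flip_boundC P K rs hm hr
  rcases Nat.even_or_odd n with h | h
  · have h1 : Nat.beq (n % 2) 0 = true := by rw [Nat.even_iff.1 h]; rfl
    rw [h1, cond_true, Odd.neg_one_pow h.add_one, ← abs_neg]
    convert hb using 2
    push_cast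
    ring
  · have h1 : Nat.beq (n % 2) 0 = false := by rw [Nat.odd_iff.1 h]; rfl
    rw [h1, cond_false, Even.neg_one_pow h.add_one, one_mul]
    exact hb

end Crest.Agent.R347
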