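import Crest.Agent.R347.G10c

/-! Row 347, Chebyshev numerics, ring with 10 sites: run certificates 800..807 (generated) -/

set_option autoImplicit false
set_option Elab.async false

namespace Crest.Agent.R347

/-- run 800 -/
def rd10_800 : CRun :=
  ⟨40, 2522, 0, 1, 6, 1,
    2582249878086908589655919172003011874329705792829223513209088445149507054936146641489712122686309069862769536307716132305,
    2582249878086908589655919172003011874329705792829223513582007343204602410200618700335141045528431674223954704010435863597,
    2074757784440496479256203931845580575506223116121218449997828664845326405706454073199853524473551897144098943305651112052074762158907140802552539622312268149156646061697481614777373,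
    [704, 486, 708, 684, 695, 669]⟩

set_option maxRecDepth 100000 in
theorem rk10_800_0 : chkC1 52 10 43 5 5 3 rd10_800.me rd10_800.mo gs10 [rd10_800.c0, rd10_800.c1] false
    (Nat.beq (10 % 2) 1) rd10_800.v0 = true := by decide +kernel

set_option maxRecDepth 100000 in
theorem rk10_800_1 : chkC2 52 10 43 5 5 3 rd10_800.me rd10_800.mo gs10 [rd10_800.c0, rd10_800.c1]
    rd10_800.v1 = true := by decide +kernel

set_option maxRecDepth 100000 in
theorem rk10_800_2 : chkC1 52 10 43 5 5 3 rd10_800.me rd10_800.mo gs10 [rd10_800.c0, rd10_800.c1] true
    (Nat.beq (10 % 2) 0) rd10_800.v2 = true := by decide +kernel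

/-- run 801 -/
def rd10_801 : CRun :=
  ⟨40, 2524, 0, 1, 6, 1,
    2582249878086908589655919172003011874329705792829223513209088445149507054936146641489712122686309069862769536307716092785,
    2582249878086908589655919172003011874329705792829223513582007343204602410200618700335141045528431674223954704010435825354,
    2074757784440496479256203931845580575506223116121218449997828664845326405706454073199853524473551897144098943305651112052074762158907140802552539622312268149156646061697481614734432,
    [675, 486, 681, 684, 663, 669]⟩

set_option maxRecDepth 100000 in
theorem rk10_801_0 : chkC1 52 10 43 5 5 3 rd10_801.me rd10_801.mo gs10 [rd10_801.c0, rd10_801.c1] false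
    (Nat.beq (10 % 2) 1) rd10_801.v0 = true := by decide +kernel

set_option maxRecDepth 100000 in
theorem rk10_801_1 : chkC2 52 10 43 5 5 3 rd10_801.me rd10_801.mo gs10 [rd10_801.c0, rd10_801.c1]
    rd10_801.v1 = true := by decide +kernel

set_option maxRecDepth 100000 in
theorem rk10_801_2 : chkC1 52 10 43 5 5 3 rd10_801.me rd10_801.mo gs10 [rd10_801.c0, rd10_801.c1] true
    (Nat.beq (10 % 2) 0) rd10_801.v2 = true := by decide +kernel

/-- run 802 -/
def rd10_802 : CRun :=
  ⟨40, 2530, 0, 1, 6, 1,
    2582249878086908589655919172003011874329705792829223513209088445149507054936146641489712122686309069862769536307716120768,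
    2582249878086908589655919172003011874329705792829223513582007343204602410200618700335141045528431674223954704010435878433,
    2074757784440496479256203931845580575506223116121218449997828664845326405706454073199853524473551897144098943305651112052074762158907140802552539622312268149156646061697481614781355,
    [696, 486, 719, 684, 698, 669]⟩

set_option maxRecDepth 100000 in
theorem rk10_802_0 : chkC1 52 10 43 5 5 3 rd10_802.me rd10_802.mo gs10 [rd10_802.c0, rd10_802.c1] false
    (Nat.beq (10 % 2) 1) rd10_802.v0 = true := by decide +kernel

set_option maxRecDepth 100000 in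
theorem rk10_802_1 : chkC2 52 10 43 5 5 3 rd10_802.me rd10_802.mo gs10 [rd10_802.c0, rd10_802.c1]
    rd10_802.v1 = true := by decide +kernel

set_option maxRecDepth 100000 in
theorem rk10_802_2 : chkC1 52 10 43 5 5 3 rd10_802.me rd10_802.mo gs10 [rd10_802.c0, rd10_802.c1] true
    (Nat.beq (10 % 2) 0) rd10_802.v2 = true := by decide +kernel

/-- run 803 -/
def rd10_803 : CRun :=
  ⟨40, 2540, 0, 1, 6, 1,
    2582249878086908589655919172003011874329705792829223513209088445149507054936146641489712122686309069862769536307716092796,
    2582249878086908589655919172003011874329705792829223513582007343204602410200618700335141045528431674223954704010435844102,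
    2074757784440496479256203931845580575506223116121218449997828664845326405706454073199853524473551897144098943305651112052074762158907140802552539622312268149156646061697481614754302,
    [675, 486, 694, 684, 678, 669]⟩

set_option maxRecDepth 100000 in
theorem rk10_803_0 : chkC1 52 10 43 5 5 3 rd10_803.me rd10_803.mo gs10 [rd10_803.c0, rd10_803.c1] false
    (Nat.beq (10 % 2) 1) rd10_803.v0 = true := by decide +kernel

set_option maxRecDepth 100000 in
theorem rk10_803_1 : chkC2 52 10 43 5 5 3 rd10_803.me rd10_803.mo gs10 [rd10_803.c0, rd10_803.c1]
    rd10_803.v1 = true := by decide +kernel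

set_option maxRecDepth 100000 in
theorem rk10_803_2 : chkC1 52 10 43 5 5 3 rd10_803.me rd10_803.mo gs10 [rd10_803.c0, rd10_803.c1] true
    (Nat.beq (10 % 2) 0) rd10_803.v2 = true := by decide +kernel

/-- run 804 -/
def rd10_804 : CRun :=
  ⟨40, 2542, 0, 1, 6, 1,
    2582249878086908589655919172003011874329705792829223513209088445149507054936146641489712122686309069862769536307716078544,
    2582249878086908589655919172003011874329705792829223513582007343204602410200618700335141045528431674223954704010435825993,
    2074757784440496479256203931845580575506223116121218449997828664845326405706454073199853524473551897144098943305651112052074762158907140802552539622312268149156646061697481614733134,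
    [665, 486, 681, 684, 662, 669]⟩

set_option maxRecDepth 100000 in
theorem rk10_804_0 : chkC1 52 10 43 5 5 3 rd10_804.me rd10_804.mo gs10 [rd10_804.c0, rd10_804.c1] false
    (Nat.beq (10 % 2) 1) rd10_804.v0 = true := by decide +kernel

set_option maxRecDepth 100000 in
theorem rk10_804_1 : chkC2 52 10 43 5 5 3 rd10_804.me rd10_804.mo gs10 [rd10_804.c0, rd10_804.c1]
    rd10_804.v1 = true := by decide +kernel

set_option maxRecDepth 100000 in
theorem rk10_804_2 : chkC1 52 10 43 5 5 3 rd10_804.me rd10_804.mo gs10 [rd10_804.c0, rd10_804.c1] true
    (Nat.beq (10 % 2) 0) rd10_804.v2 = true := by decide +kernel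

/-- run 805 -/
def rd10_805 : CRun :=
  ⟨20, 2548, 0, 1, 6, 1,
    2582249878086908589655919172003011874329705792829223513209088445149507054936146641489712122686309069862769536307716070822,
    2582249878086908589655919172003011874329705792829223513582007343204602410200618700335141045528431674223954704010435820383,
    2074757784440496479256203931845580575506223116121218449997828664845326405706454073199853524473551897144098943305651112052074762158907140802552539622312268149156646061697481614715670,
    [659, 486, 677, 684, 649, 669]⟩

set_option maxRecDepth 100000 in
theorem rk10_805_0 : chkC1 52 10 43 5 5 3 rd10_805.me rd10_805.mo gs10 [rd10_805.c0, rd10_805.c1] false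
    (Nat.beq (10 % 2) 1) rd10_805.v0 = true := by decide +kernel

set_option maxRecDepth 100000 in
theorem rk10_805_1 : chkC2 52 10 43 5 5 3 rd10_805.me rd10_805.mo gs10 [rd10_805.c0, rd10_805.c1]
    rd10_805.v1 = true := by decide +kernel

set_option maxRecDepth 100000 in
theorem rk10_805_2 : chkC1 52 10 43 5 5 3 rd10_805.me rd10_805.mo gs10 [rd10_805.c0, rd10_805.c1] true
    (Nat.beq (10 % 2) 0) rd10_805.v2 = true := by decide +kernel

/-- run 806 -/
def rd10_806 : CRun :=
  ⟨40, 2596, 0, 1, 6, 1,
    2582249878086908589655919172003011874329705792829223513209088445149507054936146641489712122686309069862769536307716051722,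
    2582249878086908589655919172003011874329705792829223513582007343204602410200618700335141045528431674223954704010435818152,
    2074757784440496479256203931845580575506223116121218449997828664845326405706454073199853524473551897144098943305651112052074762158907140802552539622312268149156646061697481614728982,
    [644, 486, 675, 684, 659, 669]⟩

set_option maxRecDepth 100000 in
theorem rk10_806_0 : chkC1 52 10 43 5 5 3 rd10_806.me rd10_806.mo gs10 [rd10_806.c0, rd10_806.c1] false
    (Nat.beq (10 % 2) 1) rd10_806.v0 = true := by decide +kernel

set_option maxRecDepth 100000 in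
theorem rk10_806_1 : chkC2 52 10 43 5 5 3 rd10_806.me rd10_806.mo gs10 [rd10_806.c0, rd10_806.c1]
    rd10_806.v1 = true := by decide +kernel

set_option maxRecDepth 100000 in
theorem rk10_806_2 : chkC1 52 10 43 5 5 3 rd10_806.me rd10_806.mo gs10 [rd10_806.c0, rd10_806.c1] true
    (Nat.beq (10 % 2) 0) rd10_806.v2 = true := by decide +kernel

/-- run 807 -/
def rd10_807 : CRun :=
  ⟨20, 2684, 0, 1, 6, 1,
    2582249878086908589655919172003011874329705792829223513209088445149507054936146641489712122686309069862769536307716104938,
    2582249878086908589655919172003011874329705792829223513582007343204602410200618700335141045528431674223954704010435867912,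
    2074757784440496479256203931845580575506223116121218449997828664845326405706454073199853524473551897144098943305651112052074762158907140802552539622312268149156646061697481614836536,
    [684, 486, 711, 684, 736, 669]⟩

set_option maxRecDepth 100000 in
theorem rk10_807_0 : chkC1 52 10 43 5 5 3 rd10_807.me rd10_807.mo gs10 [rd10_807.c0, rd10_807.c1] false
    (Nat.beq (10 % 2) 1) rd10_807.v0 = true := by decide +kernel

set_option maxRecDepth 100000 in
theorem rk10_807_1 : chkC2 52 10 43 5 5 3 rd10_807.me rd10_807.mo gs10 [rd10_807.c0, rd10_807.c1]
    rd10_807.v1 = true := by decide +kernel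

set_option maxRecDepth 100000 in
theorem rk10_807_2 : chkC1 52 10 43 5 5 3 rd10_807.me rd10_807.mo gs10 [rd10_807.c0, rd10_807.c1] true
    (Nat.beq (10 % 2) 0) rd10_807.v2 = true := by decide +kernel

/-- runs of this file -/
def rds10_100 : List CRun :=
  [rd10_800, rd10_801, rd10_802, rd10_803, rd10_804, rd10_805, rd10_806, rd10_807]

theorem ac10_100 : allC 52 10 43 5 5 3 gs10 rds10_100 :=
  allC_cons rk10_800_0 rk10_800_1 rk10_800_2
    (allC_cons rk10_801_0 rk10_801_1 rk10_801_2
    (allC_cons rk10_802_0 rk10_802_1 rk10_802_2
    (allC_cons rk10_803_0 rk10_803_1 rk10_803_2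
    (allC_cons rk10_804_0 rk10_804_1 rk10_804_2
    (allC_cons rk10_805_0 rk10_805_1 rk10_805_2
    (allC_cons rk10_806_0 rk10_806_1 rk10_806_2
    (allC_cons rk10_807_0 rk10_807_1 rk10_807_2
    (allC_nil))))))))

end Crest.Agent.R347
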