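import Crest.Agent.R347.G10c

/-! Row 347, Chebyshev numerics, ring with 10 sites: run certificates 808..815 (generated) -/

set_option autoImplicit false
set_option Elab.async false

namespace Crest.Agent.R347

/-- run 808 -/
def rd10_808 : CRun :=
  ⟨40, 2686, 0, 1, 6, 1,
    2582249878086908589655919172003011874329705792829223513209088445149507054936146641489712122686309069862769536307716085938,
    2582249878086908589655919172003011874329705792829223513582007343204602410200618700335141045528431674223954704010435839370,
    2074757784440496479256203931845580575506223116121218449997828664845326405706454073199853524473551897144098943305651112052074762158907140802552539622312268149156646061697481614749302,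
    [670, 486, 691, 684, 674, 669]⟩

set_option maxRecDepth 100000 in
theorem rk10_808_0 : chkC1 52 10 43 5 5 3 rd10_808.me rd10_808.mo gs10 [rd10_808.c0, rd10_808.c1] false
    (Nat.beq (10 % 2) 1) rd10_808.v0 = true := by decide +kernel

set_option maxRecDepth 100000 in
theorem rk10_808_1 : chkC2 52 10 43 5 5 3 rd10_808.me rd10_808.mo gs10 [rd10_808.c0, rd10_808.c1]
    rd10_808.v1 = true := by decide +kernel

set_option maxRecDepth 100000 in
theorem rk10_808_2 : chkC1 52 10 43 5 5 3 rd10_808.me rd10_808.mo gs10 [rd10_808.c0, rd10_808.c1] true
    (Nat.beq (10 % 2) 0) rd10_808.v2 = true := by decide +kernel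

/-- run 809 -/
def rd10_809 : CRun :=
  ⟨20, 2692, 0, 1, 6, 1,
    2582249878086908589655919172003011874329705792829223513209088445149507054936146641489712122686309069862769536307716120370,
    2582249878086908589655919172003011874329705792829223513582007343204602410200618700335141045528431674223954704010435886289,
    2074757784440496479256203931845580575506223116121218449997828664845326405706454073199853524473551897144098943305651112052074762158907140802552539622312268149156646061697481614811974,
    [696, 486, 724, 684, 719, 669]⟩

set_option maxRecDepth 100000 in
theorem rk10_809_0 : chkC1 52 10 43 5 5 3 rd10_809.me rd10_809.mo gs10 [rd10_809.c0, rd10_809.c1] false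
    (Nat.beq (10 % 2) 1) rd10_809.v0 = true := by decide +kernel

set_option maxRecDepth 100000 in
theorem rk10_809_1 : chkC2 52 10 43 5 5 3 rd10_809.me rd10_809.mo gs10 [rd10_809.c0, rd10_809.c1]
    rd10_809.v1 = true := by decide +kernel

set_option maxRecDepth 100000 in
theorem rk10_809_2 : chkC1 52 10 43 5 5 3 rd10_809.me rd10_809.mo gs10 [rd10_809.c0, rd10_809.c1] true
    (Nat.beq (10 % 2) 0) rd10_809.v2 = true := by decide +kernel

/-- run 810 -/
def rd10_810 : CRun :=
  ⟨20, 2702, 0, 1, 6, 1,
    2582249878086908589655919172003011874329705792829223513209088445149507054936146641489712122686309069862769536307716139609,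
    2582249878086908589655919172003011874329705792829223513582007343204602410200618700335141045528431674223954704010435878009,
    2074757784440496479256203931845580575506223116121218449997828664845326405706454073199853524473551897144098943305651112052074762158907140802552539622312268149156646061697481614798115,
    [709, 486, 718, 684, 710, 669]⟩

set_option maxRecDepth 100000 in
theorem rk10_810_0 : chkC1 52 10 43 5 5 3 rd10_810.me rd10_810.mo gs10 [rd10_810.c0, rd10_810.c1] false
    (Nat.beq (10 % 2) 1) rd10_810.v0 = true := by decide +kernel

set_option maxRecDepth 100000 in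
theorem rk10_810_1 : chkC2 52 10 43 5 5 3 rd10_810.me rd10_810.mo gs10 [rd10_810.c0, rd10_810.c1]
    rd10_810.v1 = true := by decide +kernel

set_option maxRecDepth 100000 in
theorem rk10_810_2 : chkC1 52 10 43 5 5 3 rd10_810.me rd10_810.mo gs10 [rd10_810.c0, rd10_810.c1] true
    (Nat.beq (10 % 2) 0) rd10_810.v2 = true := by decide +kernel

/-- run 811 -/
def rd10_811 : CRun :=
  ⟨40, 2704, 0, 1, 6, 1,
    2582249878086908589655919172003011874329705792829223513209088445149507054936146641489712122686309069862769536307716113910,
    2582249878086908589655919172003011874329705792829223513582007343204602410200618700335141045528431674223954704010435857298,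
    2074757784440496479256203931845580575506223116121218449997828664845326405706454073199853524473551897144098943305651112052074762158907140802552539622312268149156646061697481614793189,
    [691, 486, 704, 684, 706, 669]⟩

set_option maxRecDepth 100000 in
theorem rk10_811_0 : chkC1 52 10 43 5 5 3 rd10_811.me rd10_811.mo gs10 [rd10_811.c0, rd10_811.c1] false
    (Nat.beq (10 % 2) 1) rd10_811.v0 = true := by decide +kernel

set_option maxRecDepth 100000 in
theorem rk10_811_1 : chkC2 52 10 43 5 5 3 rd10_811.me rd10_811.mo gs10 [rd10_811.c0, rd10_811.c1]
    rd10_811.v1 = true := by decide +kernel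

set_option maxRecDepth 100000 in
theorem rk10_811_2 : chkC1 52 10 43 5 5 3 rd10_811.me rd10_811.mo gs10 [rd10_811.c0, rd10_811.c1] true
    (Nat.beq (10 % 2) 0) rd10_811.v2 = true := by decide +kernel

/-- run 812 -/
def rd10_812 : CRun :=
  ⟨40, 2758, 0, 1, 6, 1,
    2582249878086908589655919172003011874329705792829223513209088445149507054936146641489712122686309069862769536307716069369,
    2582249878086908589655919172003011874329705792829223513582007343204602410200618700335141045528431674223954704010435807240,
    2074757784440496479256203931845580575506223116121218449997828664845326405706454073199853524473551897144098943305651112052074762158907140802552539622312268149156646061697481614729372,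
    [658, 486, 667, 684, 660, 669]⟩

set_option maxRecDepth 100000 in
theorem rk10_812_0 : chkC1 52 10 43 5 5 3 rd10_812.me rd10_812.mo gs10 [rd10_812.c0, rd10_812.c1] false
    (Nat.beq (10 % 2) 1) rd10_812.v0 = true := by decide +kernel

set_option maxRecDepth 100000 in
theorem rk10_812_1 : chkC2 52 10 43 5 5 3 rd10_812.me rd10_812.mo gs10 [rd10_812.c0, rd10_812.c1]
    rd10_812.v1 = true := by decide +kernel

set_option maxRecDepth 100000 in
theorem rk10_812_2 : chkC1 52 10 43 5 5 3 rd10_812.me rd10_812.mo gs10 [rd10_812.c0, rd10_812.c1] true
    (Nat.beq (10 % 2) 0) rd10_812.v2 = true := by decide +kernel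

/-- run 813 -/
def rd10_813 : CRun :=
  ⟨40, 2954, 0, 1, 6, 1,
    2582249878086908589655919172003011874329705792829223513209088445149507054936146641489712122686309069862769536307716100736,
    2582249878086908589655919172003011874329705792829223513582007343204602410200618700335141045528431674223954704010435843911,
    2074757784440496479256203931845580575506223116121218449997828664845326405706454073199853524473551897144098943305651112052074762158907140802552539622312268149156646061697481614764563,
    [681, 486, 694, 684, 686, 669]⟩

set_option maxRecDepth 100000 in
theorem rk10_813_0 : chkC1 52 10 43 5 5 3 rd10_813.me rd10_813.mo gs10 [rd10_813.c0, rd10_813.c1] false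
    (Nat.beq (10 % 2) 1) rd10_813.v0 = true := by decide +kernel

set_option maxRecDepth 100000 in
theorem rk10_813_1 : chkC2 52 10 43 5 5 3 rd10_813.me rd10_813.mo gs10 [rd10_813.c0, rd10_813.c1]
    rd10_813.v1 = true := by decide +kernel

set_option maxRecDepth 100000 in
theorem rk10_813_2 : chkC1 52 10 43 5 5 3 rd10_813.me rd10_813.mo gs10 [rd10_813.c0, rd10_813.c1] true
    (Nat.beq (10 % 2) 0) rd10_813.v2 = true := by decide +kernel

/-- run 814 -/
def rd10_814 : CRun :=
  ⟨20, 2956, 0, 1, 6, 1,
    2582249878086908589655919172003011874329705792829223513209088445149507054936146641489712122686309069862769536307716042563,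
    2582249878086908589655919172003011874329705792829223513582007343204602410200618700335141045528431674223954704010435806312,
    2074757784440496479256203931845580575506223116121218449997828664845326405706454073199853524473551897144098943305651112052074762158907140802552539622312268149156646061697481614722247,
    [637, 486, 666, 684, 654, 669]⟩

set_option maxRecDepth 100000 in
theorem rk10_814_0 : chkC1 52 10 43 5 5 3 rd10_814.me rd10_814.mo gs10 [rd10_814.c0, rd10_814.c1] false
    (Nat.beq (10 % 2) 1) rd10_814.v0 = true := by decide +kernel

set_option maxRecDepth 100000 in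
theorem rk10_814_1 : chkC2 52 10 43 5 5 3 rd10_814.me rd10_814.mo gs10 [rd10_814.c0, rd10_814.c1]
    rd10_814.v1 = true := by decide +kernel

set_option maxRecDepth 100000 in
theorem rk10_814_2 : chkC1 52 10 43 5 5 3 rd10_814.me rd10_814.mo gs10 [rd10_814.c0, rd10_814.c1] true
    (Nat.beq (10 % 2) 0) rd10_814.v2 = true := by decide +kernel

/-- run 815 -/
def rd10_815 : CRun :=
  ⟨20, 2972, 0, 1, 6, 1,
    2582249878086908589655919172003011874329705792829223513209088445149507054936146641489712122686309069862769536307716117261,
    2582249878086908589655919172003011874329705792829223513582007343204602410200618700335141045528431674223954704010435860526,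
    2074757784440496479256203931845580575506223116121218449997828664845326405706454073199853524473551897144098943305651112052074762158907140802552539622312268149156646061697481614769223,
    [693, 486, 706, 684, 689, 669]⟩

set_option maxRecDepth 100000 in
theorem rk10_815_0 : chkC1 52 10 43 5 5 3 rd10_815.me rd10_815.mo gs10 [rd10_815.c0, rd10_815.c1] false
    (Nat.beq (10 % 2) 1) rd10_815.v0 = true := by decide +kernel

set_option maxRecDepth 100000 in
theorem rk10_815_1 : chkC2 52 10 43 5 5 3 rd10_815.me rd10_815.mo gs10 [rd10_815.c0, rd10_815.c1]
    rd10_815.v1 = true := by decide +kernel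

set_option maxRecDepth 100000 in
theorem rk10_815_2 : chkC1 52 10 43 5 5 3 rd10_815.me rd10_815.mo gs10 [rd10_815.c0, rd10_815.c1] true
    (Nat.beq (10 % 2) 0) rd10_815.v2 = true := by decide +kernel

/-- runs of this file -/
def rds10_101 : List CRun :=
  [rd10_808, rd10_809, rd10_810, rd10_811, rd10_812, rd10_813, rd10_814, rd10_815]

theorem ac10_101 : allC 52 10 43 5 5 3 gs10 rds10_101 :=
  allC_cons rk10_808_0 rk10_808_1 rk10_808_2
    (allC_cons rk10_809_0 rk10_809_1 rk10_809_2
    (allC_cons rk10_810_0 rk10_810_1 rk10_810_2
    (allC_cons rk10_811_0 rk10_811_1 rk10_811_2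
    (allC_cons rk10_812_0 rk10_812_1 rk10_812_2
    (allC_cons rk10_813_0 rk10_813_1 rk10_813_2
    (allC_cons rk10_814_0 rk10_814_1 rk10_814_2
    (allC_cons rk10_815_0 rk10_815_1 rk10_815_2
    (allC_nil))))))))

end Crest.Agent.R347
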