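import Crest.Agent.R347.G10c

/-! Row 347, Chebyshev numerics, ring with 10 sites: run certificates 816..823 (generated) -/

set_option autoImplicit false
set_option Elab.async false

namespace Crest.Agent.R347

/-- run 816 -/
def rd10_816 : CRun :=
  ⟨40, 3008, 0, 1, 6, 1,
    2582249878086908589655919172003011874329705792829223513209088445149507054936146641489712122686309069862769536307716102156,
    2582249878086908589655919172003011874329705792829223513582007343204602410200618700335141045528431674223954704010435881227,
    2074757784440496479256203931845580575506223116121218449997828664845326405706454073199853524473551897144098943305651112052074762158907140802552539622312268149156646061697481614779122,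
    [682, 486, 721, 684, 696, 669]⟩

set_option maxRecDepth 100000 in
theorem rk10_816_0 : chkC1 52 10 43 5 5 3 rd10_816.me rd10_816.mo gs10 [rd10_816.c0, rd10_816.c1] false
    (Nat.beq (10 % 2) 1) rd10_816.v0 = true := by decide +kernel

set_option maxRecDepth 100000 in
theorem rk10_816_1 : chkC2 52 10 43 5 5 3 rd10_816.me rd10_816.mo gs10 [rd10_816.c0, rd10_816.c1]
    rd10_816.v1 = true := by decide +kernel

set_option maxRecDepth 100000 in
theorem rk10_816_2 : chkC1 52 10 43 5 5 3 rd10_816.me rd10_816.mo gs10 [rd10_816.c0, rd10_816.c1] true
    (Nat.beq (10 % 2) 0) rd10_816.v2 = true := by decide +kernel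

/-- run 817 -/
def rd10_817 : CRun :=
  ⟨40, 3010, 0, 1, 6, 1,
    2582249878086908589655919172003011874329705792829223513209088445149507054936146641489712122686309069862769536307716081076,
    2582249878086908589655919172003011874329705792829223513582007343204602410200618700335141045528431674223954704010435825801,
    2074757784440496479256203931845580575506223116121218449997828664845326405706454073199853524473551897144098943305651112052074762158907140802552539622312268149156646061697481614730992,
    [667, 486, 681, 684, 661, 669]⟩

set_option maxRecDepth 100000 in
theorem rk10_817_0 : chkC1 52 10 43 5 5 3 rd10_817.me rd10_817.mo gs10 [rd10_817.c0, rd10_817.c1] false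
    (Nat.beq (10 % 2) 1) rd10_817.v0 = true := by decide +kernel

set_option maxRecDepth 100000 in
theorem rk10_817_1 : chkC2 52 10 43 5 5 3 rd10_817.me rd10_817.mo gs10 [rd10_817.c0, rd10_817.c1]
    rd10_817.v1 = true := by decide +kernel

set_option maxRecDepth 100000 in
theorem rk10_817_2 : chkC1 52 10 43 5 5 3 rd10_817.me rd10_817.mo gs10 [rd10_817.c0, rd10_817.c1] true
    (Nat.beq (10 % 2) 0) rd10_817.v2 = true := by decide +kernel

/-- run 818 -/
def rd10_818 : CRun :=
  ⟨20, 3026, 0, 1, 6, 1,
    2582249878086908589655919172003011874329705792829223513209088445149507054936146641489712122686309069862769536307716104491,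
    2582249878086908589655919172003011874329705792829223513582007343204602410200618700335141045528431674223954704010435874969,
    2074757784440496479256203931845580575506223116121218449997828664845326405706454073199853524473551897144098943305651112052074762158907140802552539622312268149156646061697481614751245,
    [684, 486, 716, 684, 676, 669]⟩

set_option maxRecDepth 100000 in
theorem rk10_818_0 : chkC1 52 10 43 5 5 3 rd10_818.me rd10_818.mo gs10 [rd10_818.c0, rd10_818.c1] false
    (Nat.beq (10 % 2) 1) rd10_818.v0 = true := by decide +kernel

set_option maxRecDepth 100000 in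
theorem rk10_818_1 : chkC2 52 10 43 5 5 3 rd10_818.me rd10_818.mo gs10 [rd10_818.c0, rd10_818.c1]
    rd10_818.v1 = true := by decide +kernel

set_option maxRecDepth 100000 in
theorem rk10_818_2 : chkC1 52 10 43 5 5 3 rd10_818.me rd10_818.mo gs10 [rd10_818.c0, rd10_818.c1] true
    (Nat.beq (10 % 2) 0) rd10_818.v2 = true := by decide +kernel

/-- run 819 -/
def rd10_819 : CRun :=
  ⟨20, 3028, 0, 1, 6, 1,
    2582249878086908589655919172003011874329705792829223513209088445149507054936146641489712122686309069862769536307716077235,
    2582249878086908589655919172003011874329705792829223513582007343204602410200618700335141045528431674223954704010435827803,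
    2074757784440496479256203931845580575506223116121218449997828664845326405706454073199853524473551897144098943305651112052074762158907140802552539622312268149156646061697481614738219,
    [664, 486, 682, 684, 666, 669]⟩

set_option maxRecDepth 100000 in
theorem rk10_819_0 : chkC1 52 10 43 5 5 3 rd10_819.me rd10_819.mo gs10 [rd10_819.c0, rd10_819.c1] false
    (Nat.beq (10 % 2) 1) rd10_819.v0 = true := by decide +kernel

set_option maxRecDepth 100000 in
theorem rk10_819_1 : chkC2 52 10 43 5 5 3 rd10_819.me rd10_819.mo gs10 [rd10_819.c0, rd10_819.c1]
    rd10_819.v1 = true := by decide +kernel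

set_option maxRecDepth 100000 in
theorem rk10_819_2 : chkC1 52 10 43 5 5 3 rd10_819.me rd10_819.mo gs10 [rd10_819.c0, rd10_819.c1] true
    (Nat.beq (10 % 2) 0) rd10_819.v2 = true := by decide +kernel

/-- run 820 -/
def rd10_820 : CRun :=
  ⟨10, 3172, 0, 1, 6, 1,
    2582249878086908589655919172003011874329705792829223513209088445149507054936146641489712122686309069862769536307716034869,
    2582249878086908589655919172003011874329705792829223513582007343204602410200618700335141045528431674223954704010435804421,
    2074757784440496479256203931845580575506223116121218449997828664845326405706454073199853524473551897144098943305651112052074762158907140802552539622312268149156646061697481614691421,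
    [631, 486, 665, 684, 630, 669]⟩

set_option maxRecDepth 100000 in
theorem rk10_820_0 : chkC1 52 10 43 5 5 3 rd10_820.me rd10_820.mo gs10 [rd10_820.c0, rd10_820.c1] false
    (Nat.beq (10 % 2) 1) rd10_820.v0 = true := by decide +kernel

set_option maxRecDepth 100000 in
theorem rk10_820_1 : chkC2 52 10 43 5 5 3 rd10_820.me rd10_820.mo gs10 [rd10_820.c0, rd10_820.c1]
    rd10_820.v1 = true := by decide +kernel

set_option maxRecDepth 100000 in
theorem rk10_820_2 : chkC1 52 10 43 5 5 3 rd10_820.me rd10_820.mo gs10 [rd10_820.c0, rd10_820.c1] true
    (Nat.beq (10 % 2) 0) rd10_820.v2 = true := by decide +kernel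

/-- run 821 -/
def rd10_821 : CRun :=
  ⟨20, 7382, 0, 1, 6, 1,
    2582249878086908589655919172003011874329705792829223513209088445149507054936146641489712122686309069862769536307716132163,
    2582249878086908589655919172003011874329705792829223513582007343204602410200618700335141045528431674223954704010435893108,
    2074757784440496479256203931845580575506223116121218449997828664845326405706454073199853524473551897144098943305651112052074762158907140802552539622312268149156646061697481614798530,
    [704, 486, 729, 684, 710, 669]⟩

set_option maxRecDepth 100000 in
theorem rk10_821_0 : chkC1 52 10 43 5 5 3 rd10_821.me rd10_821.mo gs10 [rd10_821.c0, rd10_821.c1] false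
    (Nat.beq (10 % 2) 1) rd10_821.v0 = true := by decide +kernel

set_option maxRecDepth 100000 in
theorem rk10_821_1 : chkC2 52 10 43 5 5 3 rd10_821.me rd10_821.mo gs10 [rd10_821.c0, rd10_821.c1]
    rd10_821.v1 = true := by decide +kernel

set_option maxRecDepth 100000 in
theorem rk10_821_2 : chkC1 52 10 43 5 5 3 rd10_821.me rd10_821.mo gs10 [rd10_821.c0, rd10_821.c1] true
    (Nat.beq (10 % 2) 0) rd10_821.v2 = true := by decide +kernel

/-- run 822 -/
def rd10_822 : CRun :=
  ⟨20, 7384, 0, 1, 6, 1,
    2582249878086908589655919172003011874329705792829223513209088445149507054936146641489712122686309069862769536307716116417,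
    2582249878086908589655919172003011874329705792829223513582007343204602410200618700335141045528431674223954704010435848014,
    2074757784440496479256203931845580575506223116121218449997828664845326405706454073199853524473551897144098943305651112052074762158907140802552539622312268149156646061697481614739335,
    [693, 486, 697, 684, 667, 669]⟩

set_option maxRecDepth 100000 in
theorem rk10_822_0 : chkC1 52 10 43 5 5 3 rd10_822.me rd10_822.mo gs10 [rd10_822.c0, rd10_822.c1] false
    (Nat.beq (10 % 2) 1) rd10_822.v0 = true := by decide +kernel

set_option maxRecDepth 100000 in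
theorem rk10_822_1 : chkC2 52 10 43 5 5 3 rd10_822.me rd10_822.mo gs10 [rd10_822.c0, rd10_822.c1]
    rd10_822.v1 = true := by decide +kernel

set_option maxRecDepth 100000 in
theorem rk10_822_2 : chkC1 52 10 43 5 5 3 rd10_822.me rd10_822.mo gs10 [rd10_822.c0, rd10_822.c1] true
    (Nat.beq (10 % 2) 0) rd10_822.v2 = true := by decide +kernel

/-- run 823 -/
def rd10_823 : CRun :=
  ⟨20, 7402, 0, 1, 6, 1,
    2582249878086908589655919172003011874329705792829223513209088445149507054936146641489712122686309069862769536307716077108,
    2582249878086908589655919172003011874329705792829223513582007343204602410200618700335141045528431674223954704010435840523,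
    2074757784440496479256203931845580575506223116121218449997828664845326405706454073199853524473551897144098943305651112052074762158907140802552539622312268149156646061697481614752588,
    [664, 486, 692, 684, 677, 669]⟩

set_option maxRecDepth 100000 in
theorem rk10_823_0 : chkC1 52 10 43 5 5 3 rd10_823.me rd10_823.mo gs10 [rd10_823.c0, rd10_823.c1] false
    (Nat.beq (10 % 2) 1) rd10_823.v0 = true := by decide +kernel

set_option maxRecDepth 100000 in
theorem rk10_823_1 : chkC2 52 10 43 5 5 3 rd10_823.me rd10_823.mo gs10 [rd10_823.c0, rd10_823.c1]
    rd10_823.v1 = true := by decide +kernel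

set_option maxRecDepth 100000 in
theorem rk10_823_2 : chkC1 52 10 43 5 5 3 rd10_823.me rd10_823.mo gs10 [rd10_823.c0, rd10_823.c1] true
    (Nat.beq (10 % 2) 0) rd10_823.v2 = true := by decide +kernel

/-- runs of this file -/
def rds10_102 : List CRun :=
  [rd10_816, rd10_817, rd10_818, rd10_819, rd10_820, rd10_821, rd10_822, rd10_823]

theorem ac10_102 : allC 52 10 43 5 5 3 gs10 rds10_102 :=
  allC_cons rk10_816_0 rk10_816_1 rk10_816_2
    (allC_cons rk10_817_0 rk10_817_1 rk10_817_2
    (allC_cons rk10_818_0 rk10_818_1 rk10_818_2
    (allC_cons rk10_819_0 rk10_819_1 rk10_819_2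
    (allC_cons rk10_820_0 rk10_820_1 rk10_820_2
    (allC_cons rk10_821_0 rk10_821_1 rk10_821_2
    (allC_cons rk10_822_0 rk10_822_1 rk10_822_2
    (allC_cons rk10_823_0 rk10_823_1 rk10_823_2
    (allC_nil))))))))

end Crest.Agent.R347
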