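import Crest.Agent.R347.G10c

/-! Row 347, Chebyshev numerics, ring with 10 sites: run certificates 824..831 (generated) -/

set_option autoImplicit false
set_option Elab.async false

namespace Crest.Agent.R347

/-- run 824 -/
def rd10_824 : CRun :=
  ⟨10, 7564, 0, 1, 6, 1,
    2582249878086908589655919172003011874329705792829223513209088445149507054936146641489712122686309069862769536307716095139,
    2582249878086908589655919172003011874329705792829223513582007343204602410200618700335141045528431674223954704010435848191,
    2074757784440496479256203931845580575506223116121218449997828664845326405706454073199853524473551897144098943305651112052074762158907140802552539622312268149156646061697481614729843,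
    [677, 486, 697, 684, 660, 669]⟩

set_option maxRecDepth 100000 in
theorem rk10_824_0 : chkC1 52 10 43 5 5 3 rd10_824.me rd10_824.mo gs10 [rd10_824.c0, rd10_824.c1] false
    (Nat.beq (10 % 2) 1) rd10_824.v0 = true := by decide +kernel

set_option maxRecDepth 100000 in
theorem rk10_824_1 : chkC2 52 10 43 5 5 3 rd10_824.me rd10_824.mo gs10 [rd10_824.c0, rd10_824.c1]
    rd10_824.v1 = true := by decide +kernel

set_option maxRecDepth 100000 in
theorem rk10_824_2 : chkC1 52 10 43 5 5 3 rd10_824.me rd10_824.mo gs10 [rd10_824.c0, rd10_824.c1] true
    (Nat.beq (10 % 2) 0) rd10_824.v2 = true := by decide +kernel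

/-- run 825 -/
def rd10_825 : CRun :=
  ⟨20, 8, 0, 1, 4, 1,
    2582249878086908589655919172003011874329705792829223513209088445149507054936146641489712122686309069862769536307715960753,
    2582249878086908589655919172003011874329705792829223513582007343204602410200618700335141045528431674223954704010435716911,
    2074757784440496479256203931845580575506223116121218449997828664845326405706454073199853524473551897144098943305651112052074762158907140802552539622312268149156646061697481614671628,
    [569, 486, 596, 684, 614, 669]⟩

set_option maxRecDepth 100000 in
theorem rk10_825_0 : chkC1 52 10 43 5 5 3 rd10_825.me rd10_825.mo gs10 [rd10_825.c0, rd10_825.c1] false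
    (Nat.beq (10 % 2) 1) rd10_825.v0 = true := by decide +kernel

set_option maxRecDepth 100000 in
theorem rk10_825_1 : chkC2 52 10 43 5 5 3 rd10_825.me rd10_825.mo gs10 [rd10_825.c0, rd10_825.c1]
    rd10_825.v1 = true := by decide +kernel

set_option maxRecDepth 100000 in
theorem rk10_825_2 : chkC1 52 10 43 5 5 3 rd10_825.me rd10_825.mo gs10 [rd10_825.c0, rd10_825.c1] true
    (Nat.beq (10 % 2) 0) rd10_825.v2 = true := by decide +kernel

/-- run 826 -/
def rd10_826 : CRun :=
  ⟨40, 14, 0, 1, 4, 1,
    2582249878086908589655919172003011874329705792829223513209088445149507054936146641489712122686309069862769536307715991237,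
    2582249878086908589655919172003011874329705792829223513582007343204602410200618700335141045528431674223954704010435721998,
    2074757784440496479256203931845580575506223116121218449997828664845326405706454073199853524473551897144098943305651112052074762158907140802552539622312268149156646061697481614684329,
    [595, 486, 600, 684, 624, 669]⟩

set_option maxRecDepth 100000 in
theorem rk10_826_0 : chkC1 52 10 43 5 5 3 rd10_826.me rd10_826.mo gs10 [rd10_826.c0, rd10_826.c1] false
    (Nat.beq (10 % 2) 1) rd10_826.v0 = true := by decide +kernel

set_option maxRecDepth 100000 in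
theorem rk10_826_1 : chkC2 52 10 43 5 5 3 rd10_826.me rd10_826.mo gs10 [rd10_826.c0, rd10_826.c1]
    rd10_826.v1 = true := by decide +kernel

set_option maxRecDepth 100000 in
theorem rk10_826_2 : chkC1 52 10 43 5 5 3 rd10_826.me rd10_826.mo gs10 [rd10_826.c0, rd10_826.c1] true
    (Nat.beq (10 % 2) 0) rd10_826.v2 = true := by decide +kernel

/-- run 827 -/
def rd10_827 : CRun :=
  ⟨20, 16, 0, 1, 4, 1,
    2582249878086908589655919172003011874329705792829223513209088445149507054936146641489712122686309069862769536307715995552,
    2582249878086908589655919172003011874329705792829223513582007343204602410200618700335141045528431674223954704010435728375,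
    2074757784440496479256203931845580575506223116121218449997828664845326405706454073199853524473551897144098943305651112052074762158907140802552539622312268149156646061697481614686363,
    [599, 486, 605, 684, 626, 669]⟩

set_option maxRecDepth 100000 in
theorem rk10_827_0 : chkC1 52 10 43 5 5 3 rd10_827.me rd10_827.mo gs10 [rd10_827.c0, rd10_827.c1] false
    (Nat.beq (10 % 2) 1) rd10_827.v0 = true := by decide +kernel

set_option maxRecDepth 100000 in
theorem rk10_827_1 : chkC2 52 10 43 5 5 3 rd10_827.me rd10_827.mo gs10 [rd10_827.c0, rd10_827.c1]
    rd10_827.v1 = true := by decide +kernel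

set_option maxRecDepth 100000 in
theorem rk10_827_2 : chkC1 52 10 43 5 5 3 rd10_827.me rd10_827.mo gs10 [rd10_827.c0, rd10_827.c1] true
    (Nat.beq (10 % 2) 0) rd10_827.v2 = true := by decide +kernel

/-- run 828 -/
def rd10_828 : CRun :=
  ⟨20, 20, 0, 1, 4, 1,
    2582249878086908589655919172003011874329705792829223513209088445149507054936146641489712122686309069862769536307716014963,
    2582249878086908589655919172003011874329705792829223513582007343204602410200618700335141045528431674223954704010435755078,
    2074757784440496479256203931845580575506223116121218449997828664845326405706454073199853524473551897144098943305651112052074762158907140802552539622312268149156646061697481614710213,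
    [615, 486, 627, 684, 645, 669]⟩

set_option maxRecDepth 100000 in
theorem rk10_828_0 : chkC1 52 10 43 5 5 3 rd10_828.me rd10_828.mo gs10 [rd10_828.c0, rd10_828.c1] false
    (Nat.beq (10 % 2) 1) rd10_828.v0 = true := by decide +kernel

set_option maxRecDepth 100000 in
theorem rk10_828_1 : chkC2 52 10 43 5 5 3 rd10_828.me rd10_828.mo gs10 [rd10_828.c0, rd10_828.c1]
    rd10_828.v1 = true := by decide +kernel

set_option maxRecDepth 100000 in
theorem rk10_828_2 : chkC1 52 10 43 5 5 3 rd10_828.me rd10_828.mo gs10 [rd10_828.c0, rd10_828.c1] true
    (Nat.beq (10 % 2) 0) rd10_828.v2 = true := by decide +kernel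

/-- run 829 -/
def rd10_829 : CRun :=
  ⟨40, 32, 0, 1, 4, 1,
    2582249878086908589655919172003011874329705792829223513209088445149507054936146641489712122686309069862769536307716005388,
    2582249878086908589655919172003011874329705792829223513582007343204602410200618700335141045528431674223954704010435698783,
    2074757784440496479256203931845580575506223116121218449997828664845326405706454073199853524473551897144098943305651112052074762158907140802552539622312268149156646061697481614665621,
    [607, 486, 580, 684, 609, 669]⟩

set_option maxRecDepth 100000 in
theorem rk10_829_0 : chkC1 52 10 43 5 5 3 rd10_829.me rd10_829.mo gs10 [rd10_829.c0, rd10_829.c1] false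
    (Nat.beq (10 % 2) 1) rd10_829.v0 = true := by decide +kernel

set_option maxRecDepth 100000 in
theorem rk10_829_1 : chkC2 52 10 43 5 5 3 rd10_829.me rd10_829.mo gs10 [rd10_829.c0, rd10_829.c1]
    rd10_829.v1 = true := by decide +kernel

set_option maxRecDepth 100000 in
theorem rk10_829_2 : chkC1 52 10 43 5 5 3 rd10_829.me rd10_829.mo gs10 [rd10_829.c0, rd10_829.c1] true
    (Nat.beq (10 % 2) 0) rd10_829.v2 = true := by decide +kernel

/-- run 830 -/
def rd10_830 : CRun :=
  ⟨40, 34, 0, 1, 4, 1,
    2582249878086908589655919172003011874329705792829223513209088445149507054936146641489712122686309069862769536307715992968,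
    2582249878086908589655919172003011874329705792829223513582007343204602410200618700335141045528431674223954704010435729232,
    2074757784440496479256203931845580575506223116121218449997828664845326405706454073199853524473551897144098943305651112052074762158907140802552539622312268149156646061697481614658190,
    [597, 486, 606, 684, 603, 669]⟩

set_option maxRecDepth 100000 in
theorem rk10_830_0 : chkC1 52 10 43 5 5 3 rd10_830.me rd10_830.mo gs10 [rd10_830.c0, rd10_830.c1] false
    (Nat.beq (10 % 2) 1) rd10_830.v0 = true := by decide +kernel

set_option maxRecDepth 100000 in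
theorem rk10_830_1 : chkC2 52 10 43 5 5 3 rd10_830.me rd10_830.mo gs10 [rd10_830.c0, rd10_830.c1]
    rd10_830.v1 = true := by decide +kernel

set_option maxRecDepth 100000 in
theorem rk10_830_2 : chkC1 52 10 43 5 5 3 rd10_830.me rd10_830.mo gs10 [rd10_830.c0, rd10_830.c1] true
    (Nat.beq (10 % 2) 0) rd10_830.v2 = true := by decide +kernel

/-- run 831 -/
def rd10_831 : CRun :=
  ⟨40, 38, 0, 1, 4, 1,
    2582249878086908589655919172003011874329705792829223513209088445149507054936146641489712122686309069862769536307715983338,
    2582249878086908589655919172003011874329705792829223513582007343204602410200618700335141045528431674223954704010435732962,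
    2074757784440496479256203931845580575506223116121218449997828664845326405706454073199853524473551897144098943305651112052074762158907140802552539622312268149156646061697481614736226,
    [589, 486, 609, 684, 665, 669]⟩

set_option maxRecDepth 100000 in
theorem rk10_831_0 : chkC1 52 10 43 5 5 3 rd10_831.me rd10_831.mo gs10 [rd10_831.c0, rd10_831.c1] false
    (Nat.beq (10 % 2) 1) rd10_831.v0 = true := by decide +kernel

set_option maxRecDepth 100000 in
theorem rk10_831_1 : chkC2 52 10 43 5 5 3 rd10_831.me rd10_831.mo gs10 [rd10_831.c0, rd10_831.c1]
    rd10_831.v1 = true := by decide +kernel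

set_option maxRecDepth 100000 in
theorem rk10_831_2 : chkC1 52 10 43 5 5 3 rd10_831.me rd10_831.mo gs10 [rd10_831.c0, rd10_831.c1] true
    (Nat.beq (10 % 2) 0) rd10_831.v2 = true := by decide +kernel

/-- runs of this file -/
def rds10_103 : List CRun :=
  [rd10_824, rd10_825, rd10_826, rd10_827, rd10_828, rd10_829, rd10_830, rd10_831]

theorem ac10_103 : allC 52 10 43 5 5 3 gs10 rds10_103 :=
  allC_cons rk10_824_0 rk10_824_1 rk10_824_2
    (allC_cons rk10_825_0 rk10_825_1 rk10_825_2
    (allC_cons rk10_826_0 rk10_826_1 rk10_826_2
    (allC_cons rk10_827_0 rk10_827_1 rk10_827_2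
    (allC_cons rk10_828_0 rk10_828_1 rk10_828_2
    (allC_cons rk10_829_0 rk10_829_1 rk10_829_2
    (allC_cons rk10_830_0 rk10_830_1 rk10_830_2
    (allC_cons rk10_831_0 rk10_831_1 rk10_831_2
    (allC_nil))))))))

end Crest.Agent.R347
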