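import Crest.Agent.R347.G10c

/-! Row 347, Chebyshev numerics, ring with 10 sites: run certificates 832..839 (generated) -/

set_option autoImplicit false
set_option Elab.async false

namespace Crest.Agent.R347

/-- run 832 -/
def rd10_832 : CRun :=
  ⟨20, 40, 0, 1, 4, 1,
    2582249878086908589655919172003011874329705792829223513209088445149507054936146641489712122686309069862769536307715978717,
    2582249878086908589655919172003011874329705792829223513582007343204602410200618700335141045528431674223954704010435721849,
    2074757784440496479256203931845580575506223116121218449997828664845326405706454073199853524473551897144098943305651112052074762158907140802552539622312268149156646061697481614665627,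
    [585, 486, 600, 684, 609, 669]⟩

set_option maxRecDepth 100000 in
theorem rk10_832_0 : chkC1 52 10 43 5 5 3 rd10_832.me rd10_832.mo gs10 [rd10_832.c0, rd10_832.c1] false
    (Nat.beq (10 % 2) 1) rd10_832.v0 = true := by decide +kernel

set_option maxRecDepth 100000 in
theorem rk10_832_1 : chkC2 52 10 43 5 5 3 rd10_832.me rd10_832.mo gs10 [rd10_832.c0, rd10_832.c1]
    rd10_832.v1 = true := by decide +kernel

set_option maxRecDepth 100000 in
theorem rk10_832_2 : chkC1 52 10 43 5 5 3 rd10_832.me rd10_832.mo gs10 [rd10_832.c0, rd10_832.c1] true
    (Nat.beq (10 % 2) 0) rd10_832.v2 = true := by decide +kernel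

/-- run 833 -/
def rd10_833 : CRun :=
  ⟨20, 56, 0, 1, 4, 1,
    2582249878086908589655919172003011874329705792829223513209088445149507054936146641489712122686309069862769536307715963587,
    2582249878086908589655919172003011874329705792829223513582007343204602410200618700335141045528431674223954704010435733325,
    2074757784440496479256203931845580575506223116121218449997828664845326405706454073199853524473551897144098943305651112052074762158907140802552539622312268149156646061697481614746871,
    [572, 486, 609, 684, 673, 669]⟩

set_option maxRecDepth 100000 in
theorem rk10_833_0 : chkC1 52 10 43 5 5 3 rd10_833.me rd10_833.mo gs10 [rd10_833.c0, rd10_833.c1] false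
    (Nat.beq (10 % 2) 1) rd10_833.v0 = true := by decide +kernel

set_option maxRecDepth 100000 in
theorem rk10_833_1 : chkC2 52 10 43 5 5 3 rd10_833.me rd10_833.mo gs10 [rd10_833.c0, rd10_833.c1]
    rd10_833.v1 = true := by decide +kernel

set_option maxRecDepth 100000 in
theorem rk10_833_2 : chkC1 52 10 43 5 5 3 rd10_833.me rd10_833.mo gs10 [rd10_833.c0, rd10_833.c1] true
    (Nat.beq (10 % 2) 0) rd10_833.v2 = true := by decide +kernel

/-- run 834 -/
def rd10_834 : CRun :=
  ⟨40, 86, 0, 1, 4, 1,
    2582249878086908589655919172003011874329705792829223513209088445149507054936146641489712122686309069862769536307715992421,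
    2582249878086908589655919172003011874329705792829223513582007343204602410200618700335141045528431674223954704010435725118,
    2074757784440496479256203931845580575506223116121218449997828664845326405706454073199853524473551897144098943305651112052074762158907140802552539622312268149156646061697481614661790,
    [596, 486, 602, 684, 606, 669]⟩

set_option maxRecDepth 100000 in
theorem rk10_834_0 : chkC1 52 10 43 5 5 3 rd10_834.me rd10_834.mo gs10 [rd10_834.c0, rd10_834.c1] false
    (Nat.beq (10 % 2) 1) rd10_834.v0 = true := by decide +kernel

set_option maxRecDepth 100000 in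
theorem rk10_834_1 : chkC2 52 10 43 5 5 3 rd10_834.me rd10_834.mo gs10 [rd10_834.c0, rd10_834.c1]
    rd10_834.v1 = true := by decide +kernel

set_option maxRecDepth 100000 in
theorem rk10_834_2 : chkC1 52 10 43 5 5 3 rd10_834.me rd10_834.mo gs10 [rd10_834.c0, rd10_834.c1] true
    (Nat.beq (10 % 2) 0) rd10_834.v2 = true := by decide +kernel

/-- run 835 -/
def rd10_835 : CRun :=
  ⟨40, 88, 0, 1, 4, 1,
    2582249878086908589655919172003011874329705792829223513209088445149507054936146641489712122686309069862769536307715985998,
    2582249878086908589655919172003011874329705792829223513582007343204602410200618700335141045528431674223954704010435711336,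
    2074757784440496479256203931845580575506223116121218449997828664845326405706454073199853524473551897144098943305651112052074762158907140802552539622312268149156646061697481614684411,
    [591, 486, 591, 684, 624, 669]⟩

set_option maxRecDepth 100000 in
theorem rk10_835_0 : chkC1 52 10 43 5 5 3 rd10_835.me rd10_835.mo gs10 [rd10_835.c0, rd10_835.c1] false
    (Nat.beq (10 % 2) 1) rd10_835.v0 = true := by decide +kernel

set_option maxRecDepth 100000 in
theorem rk10_835_1 : chkC2 52 10 43 5 5 3 rd10_835.me rd10_835.mo gs10 [rd10_835.c0, rd10_835.c1]
    rd10_835.v1 = true := by decide +kernel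

set_option maxRecDepth 100000 in
theorem rk10_835_2 : chkC1 52 10 43 5 5 3 rd10_835.me rd10_835.mo gs10 [rd10_835.c0, rd10_835.c1] true
    (Nat.beq (10 % 2) 0) rd10_835.v2 = true := by decide +kernel

/-- run 836 -/
def rd10_836 : CRun :=
  ⟨40, 92, 0, 1, 4, 1,
    2582249878086908589655919172003011874329705792829223513209088445149507054936146641489712122686309069862769536307716031691,
    2582249878086908589655919172003011874329705792829223513582007343204602410200618700335141045528431674223954704010435741434,
    2074757784440496479256203931845580575506223116121218449997828664845326405706454073199853524473551897144098943305651112052074762158907140802552539622312268149156646061697481614684991,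
    [629, 486, 616, 684, 625, 669]⟩

set_option maxRecDepth 100000 in
theorem rk10_836_0 : chkC1 52 10 43 5 5 3 rd10_836.me rd10_836.mo gs10 [rd10_836.c0, rd10_836.c1] false
    (Nat.beq (10 % 2) 1) rd10_836.v0 = true := by decide +kernel

set_option maxRecDepth 100000 in
theorem rk10_836_1 : chkC2 52 10 43 5 5 3 rd10_836.me rd10_836.mo gs10 [rd10_836.c0, rd10_836.c1]
    rd10_836.v1 = true := by decide +kernel

set_option maxRecDepth 100000 in
theorem rk10_836_2 : chkC1 52 10 43 5 5 3 rd10_836.me rd10_836.mo gs10 [rd10_836.c0, rd10_836.c1] true
    (Nat.beq (10 % 2) 0) rd10_836.v2 = true := by decide +kernel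

/-- run 837 -/
def rd10_837 : CRun :=
  ⟨40, 94, 0, 1, 4, 1,
    2582249878086908589655919172003011874329705792829223513209088445149507054936146641489712122686309069862769536307715990337,
    2582249878086908589655919172003011874329705792829223513582007343204602410200618700335141045528431674223954704010435719694,
    2074757784440496479256203931845580575506223116121218449997828664845326405706454073199853524473551897144098943305651112052074762158907140802552539622312268149156646061697481614659698,
    [595, 486, 598, 684, 604, 669]⟩

set_option maxRecDepth 100000 in
theorem rk10_837_0 : chkC1 52 10 43 5 5 3 rd10_837.me rd10_837.mo gs10 [rd10_837.c0, rd10_837.c1] false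
    (Nat.beq (10 % 2) 1) rd10_837.v0 = true := by decide +kernel

set_option maxRecDepth 100000 in
theorem rk10_837_1 : chkC2 52 10 43 5 5 3 rd10_837.me rd10_837.mo gs10 [rd10_837.c0, rd10_837.c1]
    rd10_837.v1 = true := by decide +kernel

set_option maxRecDepth 100000 in
theorem rk10_837_2 : chkC1 52 10 43 5 5 3 rd10_837.me rd10_837.mo gs10 [rd10_837.c0, rd10_837.c1] true
    (Nat.beq (10 % 2) 0) rd10_837.v2 = true := by decide +kernel

/-- run 838 -/
def rd10_838 : CRun :=
  ⟨20, 100, 0, 1, 4, 1,
    2582249878086908589655919172003011874329705792829223513209088445149507054936146641489712122686309069862769536307716007993,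
    2582249878086908589655919172003011874329705792829223513582007343204602410200618700335141045528431674223954704010435739091,
    2074757784440496479256203931845580575506223116121218449997828664845326405706454073199853524473551897144098943305651112052074762158907140802552539622312268149156646061697481614687331,
    [609, 486, 614, 684, 627, 669]⟩

set_option maxRecDepth 100000 in
theorem rk10_838_0 : chkC1 52 10 43 5 5 3 rd10_838.me rd10_838.mo gs10 [rd10_838.c0, rd10_838.c1] false
    (Nat.beq (10 % 2) 1) rd10_838.v0 = true := by decide +kernel

set_option maxRecDepth 100000 in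
theorem rk10_838_1 : chkC2 52 10 43 5 5 3 rd10_838.me rd10_838.mo gs10 [rd10_838.c0, rd10_838.c1]
    rd10_838.v1 = true := by decide +kernel

set_option maxRecDepth 100000 in
theorem rk10_838_2 : chkC1 52 10 43 5 5 3 rd10_838.me rd10_838.mo gs10 [rd10_838.c0, rd10_838.c1] true
    (Nat.beq (10 % 2) 0) rd10_838.v2 = true := by decide +kernel

/-- run 839 -/
def rd10_839 : CRun :=
  ⟨40, 110, 0, 1, 4, 1,
    2582249878086908589655919172003011874329705792829223513209088445149507054936146641489712122686309069862769536307716000548,
    2582249878086908589655919172003011874329705792829223513582007343204602410200618700335141045528431674223954704010435717268,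
    2074757784440496479256203931845580575506223116121218449997828664845326405706454073199853524473551897144098943305651112052074762158907140802552539622312268149156646061697481614714295,
    [603, 486, 596, 684, 648, 669]⟩

set_option maxRecDepth 100000 in
theorem rk10_839_0 : chkC1 52 10 43 5 5 3 rd10_839.me rd10_839.mo gs10 [rd10_839.c0, rd10_839.c1] false
    (Nat.beq (10 % 2) 1) rd10_839.v0 = true := by decide +kernel

set_option maxRecDepth 100000 in
theorem rk10_839_1 : chkC2 52 10 43 5 5 3 rd10_839.me rd10_839.mo gs10 [rd10_839.c0, rd10_839.c1]
    rd10_839.v1 = true := by decide +kernel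

set_option maxRecDepth 100000 in
theorem rk10_839_2 : chkC1 52 10 43 5 5 3 rd10_839.me rd10_839.mo gs10 [rd10_839.c0, rd10_839.c1] true
    (Nat.beq (10 % 2) 0) rd10_839.v2 = true := by decide +kernel

/-- runs of this file -/
def rds10_104 : List CRun :=
  [rd10_832, rd10_833, rd10_834, rd10_835, rd10_836, rd10_837, rd10_838, rd10_839]

theorem ac10_104 : allC 52 10 43 5 5 3 gs10 rds10_104 :=
  allC_cons rk10_832_0 rk10_832_1 rk10_832_2
    (allC_cons rk10_833_0 rk10_833_1 rk10_833_2
    (allC_cons rk10_834_0 rk10_834_1 rk10_834_2
    (allC_cons rk10_835_0 rk10_835_1 rk10_835_2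
    (allC_cons rk10_836_0 rk10_836_1 rk10_836_2
    (allC_cons rk10_837_0 rk10_837_1 rk10_837_2
    (allC_cons rk10_838_0 rk10_838_1 rk10_838_2
    (allC_cons rk10_839_0 rk10_839_1 rk10_839_2
    (allC_nil))))))))

end Crest.Agent.R347
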