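import Crest.Agent.R347.G10c

/-! Row 347, Chebyshev numerics, ring with 10 sites: run certificates 840..847 (generated) -/

set_option autoImplicit false
set_option Elab.async false

namespace Crest.Agent.R347

/-- run 840 -/
def rd10_840 : CRun :=
  ⟨20, 112, 0, 1, 4, 1,
    2582249878086908589655919172003011874329705792829223513209088445149507054936146641489712122686309069862769536307715973416,
    2582249878086908589655919172003011874329705792829223513582007343204602410200618700335141045528431674223954704010435703908,
    2074757784440496479256203931845580575506223116121218449997828664845326405706454073199853524473551897144098943305651112052074762158907140802552539622312268149156646061697481614683440,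
    [580, 486, 585, 684, 624, 669]⟩

set_option maxRecDepth 100000 in
theorem rk10_840_0 : chkC1 52 10 43 5 5 3 rd10_840.me rd10_840.mo gs10 [rd10_840.c0, rd10_840.c1] false
    (Nat.beq (10 % 2) 1) rd10_840.v0 = true := by decide +kernel

set_option maxRecDepth 100000 in
theorem rk10_840_1 : chkC2 52 10 43 5 5 3 rd10_840.me rd10_840.mo gs10 [rd10_840.c0, rd10_840.c1]
    rd10_840.v1 = true := by decide +kernel

set_option maxRecDepth 100000 in
theorem rk10_840_2 : chkC1 52 10 43 5 5 3 rd10_840.me rd10_840.mo gs10 [rd10_840.c0, rd10_840.c1] true
    (Nat.beq (10 % 2) 0) rd10_840.v2 = true := by decide +kernel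

/-- run 841 -/
def rd10_841 : CRun :=
  ⟨20, 164, 0, 1, 4, 1,
    2582249878086908589655919172003011874329705792829223513209088445149507054936146641489712122686309069862769536307716018195,
    2582249878086908589655919172003011874329705792829223513582007343204602410200618700335141045528431674223954704010435737992,
    2074757784440496479256203931845580575506223116121218449997828664845326405706454073199853524473551897144098943305651112052074762158907140802552539622312268149156646061697481614716961,
    [618, 486, 613, 684, 650, 669]⟩

set_option maxRecDepth 100000 in
theorem rk10_841_0 : chkC1 52 10 43 5 5 3 rd10_841.me rd10_841.mo gs10 [rd10_841.c0, rd10_841.c1] false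
    (Nat.beq (10 % 2) 1) rd10_841.v0 = true := by decide +kernel

set_option maxRecDepth 100000 in
theorem rk10_841_1 : chkC2 52 10 43 5 5 3 rd10_841.me rd10_841.mo gs10 [rd10_841.c0, rd10_841.c1]
    rd10_841.v1 = true := by decide +kernel

set_option maxRecDepth 100000 in
theorem rk10_841_2 : chkC1 52 10 43 5 5 3 rd10_841.me rd10_841.mo gs10 [rd10_841.c0, rd10_841.c1] true
    (Nat.beq (10 % 2) 0) rd10_841.v2 = true := by decide +kernel

/-- run 842 -/
def rd10_842 : CRun :=
  ⟨40, 248, 0, 1, 4, 1,
    2582249878086908589655919172003011874329705792829223513209088445149507054936146641489712122686309069862769536307715993027,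
    2582249878086908589655919172003011874329705792829223513582007343204602410200618700335141045528431674223954704010435728276,
    2074757784440496479256203931845580575506223116121218449997828664845326405706454073199853524473551897144098943305651112052074762158907140802552539622312268149156646061697481614675787,
    [597, 486, 605, 684, 618, 669]⟩

set_option maxRecDepth 100000 in
theorem rk10_842_0 : chkC1 52 10 43 5 5 3 rd10_842.me rd10_842.mo gs10 [rd10_842.c0, rd10_842.c1] false
    (Nat.beq (10 % 2) 1) rd10_842.v0 = true := by decide +kernel

set_option maxRecDepth 100000 in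
theorem rk10_842_1 : chkC2 52 10 43 5 5 3 rd10_842.me rd10_842.mo gs10 [rd10_842.c0, rd10_842.c1]
    rd10_842.v1 = true := by decide +kernel

set_option maxRecDepth 100000 in
theorem rk10_842_2 : chkC1 52 10 43 5 5 3 rd10_842.me rd10_842.mo gs10 [rd10_842.c0, rd10_842.c1] true
    (Nat.beq (10 % 2) 0) rd10_842.v2 = true := by decide +kernel

/-- run 843 -/
def rd10_843 : CRun :=
  ⟨40, 250, 0, 1, 4, 1,
    2582249878086908589655919172003011874329705792829223513209088445149507054936146641489712122686309069862769536307715949952,
    2582249878086908589655919172003011874329705792829223513582007343204602410200618700335141045528431674223954704010435712715,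
    2074757784440496479256203931845580575506223116121218449997828664845326405706454073199853524473551897144098943305651112052074762158907140802552539622312268149156646061697481614683731,
    [560, 486, 592, 684, 624, 669]⟩

set_option maxRecDepth 100000 in
theorem rk10_843_0 : chkC1 52 10 43 5 5 3 rd10_843.me rd10_843.mo gs10 [rd10_843.c0, rd10_843.c1] false
    (Nat.beq (10 % 2) 1) rd10_843.v0 = true := by decide +kernel

set_option maxRecDepth 100000 in
theorem rk10_843_1 : chkC2 52 10 43 5 5 3 rd10_843.me rd10_843.mo gs10 [rd10_843.c0, rd10_843.c1]
    rd10_843.v1 = true := by decide +kernel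

set_option maxRecDepth 100000 in
theorem rk10_843_2 : chkC1 52 10 43 5 5 3 rd10_843.me rd10_843.mo gs10 [rd10_843.c0, rd10_843.c1] true
    (Nat.beq (10 % 2) 0) rd10_843.v2 = true := by decide +kernel

/-- run 844 -/
def rd10_844 : CRun :=
  ⟨40, 254, 0, 1, 4, 1,
    2582249878086908589655919172003011874329705792829223513209088445149507054936146641489712122686309069862769536307716037561,
    2582249878086908589655919172003011874329705792829223513582007343204602410200618700335141045528431674223954704010435728952,
    2074757784440496479256203931845580575506223116121218449997828664845326405706454073199853524473551897144098943305651112052074762158907140802552539622312268149156646061697481614700765,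
    [633, 486, 606, 684, 637, 669]⟩

set_option maxRecDepth 100000 in
theorem rk10_844_0 : chkC1 52 10 43 5 5 3 rd10_844.me rd10_844.mo gs10 [rd10_844.c0, rd10_844.c1] false
    (Nat.beq (10 % 2) 1) rd10_844.v0 = true := by decide +kernel

set_option maxRecDepth 100000 in
theorem rk10_844_1 : chkC2 52 10 43 5 5 3 rd10_844.me rd10_844.mo gs10 [rd10_844.c0, rd10_844.c1]
    rd10_844.v1 = true := by decide +kernel

set_option maxRecDepth 100000 in
theorem rk10_844_2 : chkC1 52 10 43 5 5 3 rd10_844.me rd10_844.mo gs10 [rd10_844.c0, rd10_844.c1] true
    (Nat.beq (10 % 2) 0) rd10_844.v2 = true := by decide +kernel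

/-- run 845 -/
def rd10_845 : CRun :=
  ⟨40, 256, 0, 1, 4, 1,
    2582249878086908589655919172003011874329705792829223513209088445149507054936146641489712122686309069862769536307716007958,
    2582249878086908589655919172003011874329705792829223513582007343204602410200618700335141045528431674223954704010435725653,
    2074757784440496479256203931845580575506223116121218449997828664845326405706454073199853524473551897144098943305651112052074762158907140802552539622312268149156646061697481614680306,
    [609, 486, 603, 684, 621, 669]⟩

set_option maxRecDepth 100000 in
theorem rk10_845_0 : chkC1 52 10 43 5 5 3 rd10_845.me rd10_845.mo gs10 [rd10_845.c0, rd10_845.c1] false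
    (Nat.beq (10 % 2) 1) rd10_845.v0 = true := by decide +kernel

set_option maxRecDepth 100000 in
theorem rk10_845_1 : chkC2 52 10 43 5 5 3 rd10_845.me rd10_845.mo gs10 [rd10_845.c0, rd10_845.c1]
    rd10_845.v1 = true := by decide +kernel

set_option maxRecDepth 100000 in
theorem rk10_845_2 : chkC1 52 10 43 5 5 3 rd10_845.me rd10_845.mo gs10 [rd10_845.c0, rd10_845.c1] true
    (Nat.beq (10 % 2) 0) rd10_845.v2 = true := by decide +kernel

/-- run 846 -/
def rd10_846 : CRun :=
  ⟨40, 262, 0, 1, 4, 1,
    2582249878086908589655919172003011874329705792829223513209088445149507054936146641489712122686309069862769536307716026412,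
    2582249878086908589655919172003011874329705792829223513582007343204602410200618700335141045528431674223954704010435744307,
    2074757784440496479256203931845580575506223116121218449997828664845326405706454073199853524473551897144098943305651112052074762158907140802552539622312268149156646061697481614717735,
    [624, 486, 618, 684, 651, 669]⟩

set_option maxRecDepth 100000 in
theorem rk10_846_0 : chkC1 52 10 43 5 5 3 rd10_846.me rd10_846.mo gs10 [rd10_846.c0, rd10_846.c1] false
    (Nat.beq (10 % 2) 1) rd10_846.v0 = true := by decide +kernel

set_option maxRecDepth 100000 in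
theorem rk10_846_1 : chkC2 52 10 43 5 5 3 rd10_846.me rd10_846.mo gs10 [rd10_846.c0, rd10_846.c1]
    rd10_846.v1 = true := by decide +kernel

set_option maxRecDepth 100000 in
theorem rk10_846_2 : chkC1 52 10 43 5 5 3 rd10_846.me rd10_846.mo gs10 [rd10_846.c0, rd10_846.c1] true
    (Nat.beq (10 % 2) 0) rd10_846.v2 = true := by decide +kernel

/-- run 847 -/
def rd10_847 : CRun :=
  ⟨40, 272, 0, 1, 4, 1,
    2582249878086908589655919172003011874329705792829223513209088445149507054936146641489712122686309069862769536307716024728,
    2582249878086908589655919172003011874329705792829223513582007343204602410200618700335141045528431674223954704010435747409,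
    2074757784440496479256203931845580575506223116121218449997828664845326405706454073199853524473551897144098943305651112052074762158907140802552539622312268149156646061697481614684195,
    [623, 486, 621, 684, 624, 669]⟩

set_option maxRecDepth 100000 in
theorem rk10_847_0 : chkC1 52 10 43 5 5 3 rd10_847.me rd10_847.mo gs10 [rd10_847.c0, rd10_847.c1] false
    (Nat.beq (10 % 2) 1) rd10_847.v0 = true := by decide +kernel

set_option maxRecDepth 100000 in
theorem rk10_847_1 : chkC2 52 10 43 5 5 3 rd10_847.me rd10_847.mo gs10 [rd10_847.c0, rd10_847.c1]
    rd10_847.v1 = true := by decide +kernel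

set_option maxRecDepth 100000 in
theorem rk10_847_2 : chkC1 52 10 43 5 5 3 rd10_847.me rd10_847.mo gs10 [rd10_847.c0, rd10_847.c1] true
    (Nat.beq (10 % 2) 0) rd10_847.v2 = true := by decide +kernel

/-- runs of this file -/
def rds10_105 : List CRun :=
  [rd10_840, rd10_841, rd10_842, rd10_843, rd10_844, rd10_845, rd10_846, rd10_847]

theorem ac10_105 : allC 52 10 43 5 5 3 gs10 rds10_105 :=
  allC_cons rk10_840_0 rk10_840_1 rk10_840_2
    (allC_cons rk10_841_0 rk10_841_1 rk10_841_2
    (allC_cons rk10_842_0 rk10_842_1 rk10_842_2
    (allC_cons rk10_843_0 rk10_843_1 rk10_843_2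
    (allC_cons rk10_844_0 rk10_844_1 rk10_844_2
    (allC_cons rk10_845_0 rk10_845_1 rk10_845_2
    (allC_cons rk10_846_0 rk10_846_1 rk10_846_2
    (allC_cons rk10_847_0 rk10_847_1 rk10_847_2
    (allC_nil))))))))

end Crest.Agent.R347
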