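import Crest.Agent.R347.G10c

/-! Row 347, Chebyshev numerics, ring with 10 sites: run certificates 848..855 (generated) -/

set_option autoImplicit false
set_option Elab.async false

namespace Crest.Agent.R347

/-- run 848 -/
def rd10_848 : CRun :=
  ⟨40, 274, 0, 1, 4, 1,
    2582249878086908589655919172003011874329705792829223513209088445149507054936146641489712122686309069862769536307716011906,
    2582249878086908589655919172003011874329705792829223513582007343204602410200618700335141045528431674223954704010435732371,
    2074757784440496479256203931845580575506223116121218449997828664845326405706454073199853524473551897144098943305651112052074762158907140802552539622312268149156646061697481614675498,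
    [613, 486, 608, 684, 617, 669]⟩

set_option maxRecDepth 100000 in
theorem rk10_848_0 : chkC1 52 10 43 5 5 3 rd10_848.me rd10_848.mo gs10 [rd10_848.c0, rd10_848.c1] false
    (Nat.beq (10 % 2) 1) rd10_848.v0 = true := by decide +kernel

set_option maxRecDepth 100000 in
theorem rk10_848_1 : chkC2 52 10 43 5 5 3 rd10_848.me rd10_848.mo gs10 [rd10_848.c0, rd10_848.c1]
    rd10_848.v1 = true := by decide +kernel

set_option maxRecDepth 100000 in
theorem rk10_848_2 : chkC1 52 10 43 5 5 3 rd10_848.me rd10_848.mo gs10 [rd10_848.c0, rd10_848.c1] true
    (Nat.beq (10 % 2) 0) rd10_848.v2 = true := by decide +kernel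

/-- run 849 -/
def rd10_849 : CRun :=
  ⟨20, 280, 0, 1, 4, 1,
    2582249878086908589655919172003011874329705792829223513209088445149507054936146641489712122686309069862769536307715999350,
    2582249878086908589655919172003011874329705792829223513582007343204602410200618700335141045528431674223954704010435736746,
    2074757784440496479256203931845580575506223116121218449997828664845326405706454073199853524473551897144098943305651112052074762158907140802552539622312268149156646061697481614713489,
    [602, 486, 612, 684, 647, 669]⟩

set_option maxRecDepth 100000 in
theorem rk10_849_0 : chkC1 52 10 43 5 5 3 rd10_849.me rd10_849.mo gs10 [rd10_849.c0, rd10_849.c1] false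
    (Nat.beq (10 % 2) 1) rd10_849.v0 = true := by decide +kernel

set_option maxRecDepth 100000 in
theorem rk10_849_1 : chkC2 52 10 43 5 5 3 rd10_849.me rd10_849.mo gs10 [rd10_849.c0, rd10_849.c1]
    rd10_849.v1 = true := by decide +kernel

set_option maxRecDepth 100000 in
theorem rk10_849_2 : chkC1 52 10 43 5 5 3 rd10_849.me rd10_849.mo gs10 [rd10_849.c0, rd10_849.c1] true
    (Nat.beq (10 % 2) 0) rd10_849.v2 = true := by decide +kernel

/-- run 850 -/
def rd10_850 : CRun :=
  ⟨40, 326, 0, 1, 4, 1,
    2582249878086908589655919172003011874329705792829223513209088445149507054936146641489712122686309069862769536307716009093,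
    2582249878086908589655919172003011874329705792829223513582007343204602410200618700335141045528431674223954704010435723598,
    2074757784440496479256203931845580575506223116121218449997828664845326405706454073199853524473551897144098943305651112052074762158907140802552539622312268149156646061697481614697136,
    [610, 486, 601, 684, 635, 669]⟩

set_option maxRecDepth 100000 in
theorem rk10_850_0 : chkC1 52 10 43 5 5 3 rd10_850.me rd10_850.mo gs10 [rd10_850.c0, rd10_850.c1] false
    (Nat.beq (10 % 2) 1) rd10_850.v0 = true := by decide +kernel

set_option maxRecDepth 100000 in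
theorem rk10_850_1 : chkC2 52 10 43 5 5 3 rd10_850.me rd10_850.mo gs10 [rd10_850.c0, rd10_850.c1]
    rd10_850.v1 = true := by decide +kernel

set_option maxRecDepth 100000 in
theorem rk10_850_2 : chkC1 52 10 43 5 5 3 rd10_850.me rd10_850.mo gs10 [rd10_850.c0, rd10_850.c1] true
    (Nat.beq (10 % 2) 0) rd10_850.v2 = true := by decide +kernel

/-- run 851 -/
def rd10_851 : CRun :=
  ⟨20, 328, 0, 1, 4, 1,
    2582249878086908589655919172003011874329705792829223513209088445149507054936146641489712122686309069862769536307715957298,
    2582249878086908589655919172003011874329705792829223513582007343204602410200618700335141045528431674223954704010435700166,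
    2074757784440496479256203931845580575506223116121218449997828664845326405706454073199853524473551897144098943305651112052074762158907140802552539622312268149156646061697481614691228,
    [566, 486, 581, 684, 630, 669]⟩

set_option maxRecDepth 100000 in
theorem rk10_851_0 : chkC1 52 10 43 5 5 3 rd10_851.me rd10_851.mo gs10 [rd10_851.c0, rd10_851.c1] false
    (Nat.beq (10 % 2) 1) rd10_851.v0 = true := by decide +kernel

set_option maxRecDepth 100000 in
theorem rk10_851_1 : chkC2 52 10 43 5 5 3 rd10_851.me rd10_851.mo gs10 [rd10_851.c0, rd10_851.c1]
    rd10_851.v1 = true := by decide +kernel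

set_option maxRecDepth 100000 in
theorem rk10_851_2 : chkC1 52 10 43 5 5 3 rd10_851.me rd10_851.mo gs10 [rd10_851.c0, rd10_851.c1] true
    (Nat.beq (10 % 2) 0) rd10_851.v2 = true := by decide +kernel

/-- run 852 -/
def rd10_852 : CRun :=
  ⟨10, 488, 0, 1, 4, 1,
    2582249878086908589655919172003011874329705792829223513209088445149507054936146641489712122686309069862769536307716019778,
    2582249878086908589655919172003011874329705792829223513582007343204602410200618700335141045528431674223954704010435724742,
    2074757784440496479256203931845580575506223116121218449997828664845326405706454073199853524473551897144098943305651112052074762158907140802552539622312268149156646061697481614717086,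
    [619, 486, 602, 684, 650, 669]⟩

set_option maxRecDepth 100000 in
theorem rk10_852_0 : chkC1 52 10 43 5 5 3 rd10_852.me rd10_852.mo gs10 [rd10_852.c0, rd10_852.c1] false
    (Nat.beq (10 % 2) 1) rd10_852.v0 = true := by decide +kernel

set_option maxRecDepth 100000 in
theorem rk10_852_1 : chkC2 52 10 43 5 5 3 rd10_852.me rd10_852.mo gs10 [rd10_852.c0, rd10_852.c1]
    rd10_852.v1 = true := by decide +kernel

set_option maxRecDepth 100000 in
theorem rk10_852_2 : chkC1 52 10 43 5 5 3 rd10_852.me rd10_852.mo gs10 [rd10_852.c0, rd10_852.c1] true
    (Nat.beq (10 % 2) 0) rd10_852.v2 = true := by decide +kernel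

/-- run 853 -/
def rd10_853 : CRun :=
  ⟨40, 740, 0, 1, 4, 1,
    2582249878086908589655919172003011874329705792829223513209088445149507054936146641489712122686309069862769536307716004240,
    2582249878086908589655919172003011874329705792829223513582007343204602410200618700335141045528431674223954704010435743256,
    2074757784440496479256203931845580575506223116121218449997828664845326405706454073199853524473551897144098943305651112052074762158907140802552539622312268149156646061697481614709875,
    [606, 486, 617, 684, 645, 669]⟩

set_option maxRecDepth 100000 in
theorem rk10_853_0 : chkC1 52 10 43 5 5 3 rd10_853.me rd10_853.mo gs10 [rd10_853.c0, rd10_853.c1] false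
    (Nat.beq (10 % 2) 1) rd10_853.v0 = true := by decide +kernel

set_option maxRecDepth 100000 in
theorem rk10_853_1 : chkC2 52 10 43 5 5 3 rd10_853.me rd10_853.mo gs10 [rd10_853.c0, rd10_853.c1]
    rd10_853.v1 = true := by decide +kernel

set_option maxRecDepth 100000 in
theorem rk10_853_2 : chkC1 52 10 43 5 5 3 rd10_853.me rd10_853.mo gs10 [rd10_853.c0, rd10_853.c1] true
    (Nat.beq (10 % 2) 0) rd10_853.v2 = true := by decide +kernel

/-- run 854 -/
def rd10_854 : CRun :=
  ⟨20, 742, 0, 1, 4, 1,
    2582249878086908589655919172003011874329705792829223513209088445149507054936146641489712122686309069862769536307715998100,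
    2582249878086908589655919172003011874329705792829223513582007343204602410200618700335141045528431674223954704010435717170,
    2074757784440496479256203931845580575506223116121218449997828664845326405706454073199853524473551897144098943305651112052074762158907140802552539622312268149156646061697481614650619,
    [601, 486, 596, 684, 597, 669]⟩

set_option maxRecDepth 100000 in
theorem rk10_854_0 : chkC1 52 10 43 5 5 3 rd10_854.me rd10_854.mo gs10 [rd10_854.c0, rd10_854.c1] false
    (Nat.beq (10 % 2) 1) rd10_854.v0 = true := by decide +kernel

set_option maxRecDepth 100000 in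
theorem rk10_854_1 : chkC2 52 10 43 5 5 3 rd10_854.me rd10_854.mo gs10 [rd10_854.c0, rd10_854.c1]
    rd10_854.v1 = true := by decide +kernel

set_option maxRecDepth 100000 in
theorem rk10_854_2 : chkC1 52 10 43 5 5 3 rd10_854.me rd10_854.mo gs10 [rd10_854.c0, rd10_854.c1] true
    (Nat.beq (10 % 2) 0) rd10_854.v2 = true := by decide +kernel

/-- run 855 -/
def rd10_855 : CRun :=
  ⟨40, 758, 0, 1, 4, 1,
    2582249878086908589655919172003011874329705792829223513209088445149507054936146641489712122686309069862769536307716024514,
    2582249878086908589655919172003011874329705792829223513582007343204602410200618700335141045528431674223954704010435735074,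
    2074757784440496479256203931845580575506223116121218449997828664845326405706454073199853524473551897144098943305651112052074762158907140802552539622312268149156646061697481614709768,
    [623, 486, 611, 684, 644, 669]⟩

set_option maxRecDepth 100000 in
theorem rk10_855_0 : chkC1 52 10 43 5 5 3 rd10_855.me rd10_855.mo gs10 [rd10_855.c0, rd10_855.c1] false
    (Nat.beq (10 % 2) 1) rd10_855.v0 = true := by decide +kernel

set_option maxRecDepth 100000 in
theorem rk10_855_1 : chkC2 52 10 43 5 5 3 rd10_855.me rd10_855.mo gs10 [rd10_855.c0, rd10_855.c1]
    rd10_855.v1 = true := by decide +kernel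

set_option maxRecDepth 100000 in
theorem rk10_855_2 : chkC1 52 10 43 5 5 3 rd10_855.me rd10_855.mo gs10 [rd10_855.c0, rd10_855.c1] true
    (Nat.beq (10 % 2) 0) rd10_855.v2 = true := by decide +kernel

/-- runs of this file -/
def rds10_106 : List CRun :=
  [rd10_848, rd10_849, rd10_850, rd10_851, rd10_852, rd10_853, rd10_854, rd10_855]

theorem ac10_106 : allC 52 10 43 5 5 3 gs10 rds10_106 :=
  allC_cons rk10_848_0 rk10_848_1 rk10_848_2
    (allC_cons rk10_849_0 rk10_849_1 rk10_849_2
    (allC_cons rk10_850_0 rk10_850_1 rk10_850_2
    (allC_cons rk10_851_0 rk10_851_1 rk10_851_2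
    (allC_cons rk10_852_0 rk10_852_1 rk10_852_2
    (allC_cons rk10_853_0 rk10_853_1 rk10_853_2
    (allC_cons rk10_854_0 rk10_854_1 rk10_854_2
    (allC_cons rk10_855_0 rk10_855_1 rk10_855_2
    (allC_nil))))))))

end Crest.Agent.R347
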