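import Crest.Agent.R347.G10c

/-! Row 347, Chebyshev numerics, ring with 10 sites: run certificates 856..863 (generated) -/

set_option autoImplicit false
set_option Elab.async false

namespace Crest.Agent.R347

/-- run 856 -/
def rd10_856 : CRun :=
  ⟨40, 760, 0, 1, 4, 1,
    2582249878086908589655919172003011874329705792829223513209088445149507054936146641489712122686309069862769536307716027387,
    2582249878086908589655919172003011874329705792829223513582007343204602410200618700335141045528431674223954704010435730241,
    2074757784440496479256203931845580575506223116121218449997828664845326405706454073199853524473551897144098943305651112052074762158907140802552539622312268149156646061697481614680621,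
    [625, 486, 607, 684, 621, 669]⟩

set_option maxRecDepth 100000 in
theorem rk10_856_0 : chkC1 52 10 43 5 5 3 rd10_856.me rd10_856.mo gs10 [rd10_856.c0, rd10_856.c1] false
    (Nat.beq (10 % 2) 1) rd10_856.v0 = true := by decide +kernel

set_option maxRecDepth 100000 in
theorem rk10_856_1 : chkC2 52 10 43 5 5 3 rd10_856.me rd10_856.mo gs10 [rd10_856.c0, rd10_856.c1]
    rd10_856.v1 = true := by decide +kernel

set_option maxRecDepth 100000 in
theorem rk10_856_2 : chkC1 52 10 43 5 5 3 rd10_856.me rd10_856.mo gs10 [rd10_856.c0, rd10_856.c1] true
    (Nat.beq (10 % 2) 0) rd10_856.v2 = true := by decide +kernel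

/-- run 857 -/
def rd10_857 : CRun :=
  ⟨40, 766, 0, 1, 4, 1,
    2582249878086908589655919172003011874329705792829223513209088445149507054936146641489712122686309069862769536307715997921,
    2582249878086908589655919172003011874329705792829223513582007343204602410200618700335141045528431674223954704010435726759,
    2074757784440496479256203931845580575506223116121218449997828664845326405706454073199853524473551897144098943305651112052074762158907140802552539622312268149156646061697481614705670,
    [601, 486, 604, 684, 641, 669]⟩

set_option maxRecDepth 100000 in
theorem rk10_857_0 : chkC1 52 10 43 5 5 3 rd10_857.me rd10_857.mo gs10 [rd10_857.c0, rd10_857.c1] false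
    (Nat.beq (10 % 2) 1) rd10_857.v0 = true := by decide +kernel

set_option maxRecDepth 100000 in
theorem rk10_857_1 : chkC2 52 10 43 5 5 3 rd10_857.me rd10_857.mo gs10 [rd10_857.c0, rd10_857.c1]
    rd10_857.v1 = true := by decide +kernel

set_option maxRecDepth 100000 in
theorem rk10_857_2 : chkC1 52 10 43 5 5 3 rd10_857.me rd10_857.mo gs10 [rd10_857.c0, rd10_857.c1] true
    (Nat.beq (10 % 2) 0) rd10_857.v2 = true := by decide +kernel

/-- run 858 -/
def rd10_858 : CRun :=
  ⟨20, 784, 0, 1, 4, 1,
    2582249878086908589655919172003011874329705792829223513209088445149507054936146641489712122686309069862769536307716038067,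
    2582249878086908589655919172003011874329705792829223513582007343204602410200618700335141045528431674223954704010435723303,
    2074757784440496479256203931845580575506223116121218449997828664845326405706454073199853524473551897144098943305651112052074762158907140802552539622312268149156646061697481614714880,
    [634, 486, 601, 684, 648, 669]⟩

set_option maxRecDepth 100000 in
theorem rk10_858_0 : chkC1 52 10 43 5 5 3 rd10_858.me rd10_858.mo gs10 [rd10_858.c0, rd10_858.c1] false
    (Nat.beq (10 % 2) 1) rd10_858.v0 = true := by decide +kernel

set_option maxRecDepth 100000 in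
theorem rk10_858_1 : chkC2 52 10 43 5 5 3 rd10_858.me rd10_858.mo gs10 [rd10_858.c0, rd10_858.c1]
    rd10_858.v1 = true := by decide +kernel

set_option maxRecDepth 100000 in
theorem rk10_858_2 : chkC1 52 10 43 5 5 3 rd10_858.me rd10_858.mo gs10 [rd10_858.c0, rd10_858.c1] true
    (Nat.beq (10 % 2) 0) rd10_858.v2 = true := by decide +kernel

/-- run 859 -/
def rd10_859 : CRun :=
  ⟨20, 812, 0, 1, 4, 1,
    2582249878086908589655919172003011874329705792829223513209088445149507054936146641489712122686309069862769536307715984203,
    2582249878086908589655919172003011874329705792829223513582007343204602410200618700335141045528431674223954704010435756229,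
    2074757784440496479256203931845580575506223116121218449997828664845326405706454073199853524473551897144098943305651112052074762158907140802552539622312268149156646061697481614690894,
    [590, 486, 628, 684, 630, 669]⟩

set_option maxRecDepth 100000 in
theorem rk10_859_0 : chkC1 52 10 43 5 5 3 rd10_859.me rd10_859.mo gs10 [rd10_859.c0, rd10_859.c1] false
    (Nat.beq (10 % 2) 1) rd10_859.v0 = true := by decide +kernel

set_option maxRecDepth 100000 in
theorem rk10_859_1 : chkC2 52 10 43 5 5 3 rd10_859.me rd10_859.mo gs10 [rd10_859.c0, rd10_859.c1]
    rd10_859.v1 = true := by decide +kernel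

set_option maxRecDepth 100000 in
theorem rk10_859_2 : chkC1 52 10 43 5 5 3 rd10_859.me rd10_859.mo gs10 [rd10_859.c0, rd10_859.c1] true
    (Nat.beq (10 % 2) 0) rd10_859.v2 = true := by decide +kernel

/-- run 860 -/
def rd10_860 : CRun :=
  ⟨40, 814, 0, 1, 4, 1,
    2582249878086908589655919172003011874329705792829223513209088445149507054936146641489712122686309069862769536307716010410,
    2582249878086908589655919172003011874329705792829223513582007343204602410200618700335141045528431674223954704010435725847,
    2074757784440496479256203931845580575506223116121218449997828664845326405706454073199853524473551897144098943305651112052074762158907140802552539622312268149156646061697481614673950,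
    [611, 486, 603, 684, 616, 669]⟩

set_option maxRecDepth 100000 in
theorem rk10_860_0 : chkC1 52 10 43 5 5 3 rd10_860.me rd10_860.mo gs10 [rd10_860.c0, rd10_860.c1] false
    (Nat.beq (10 % 2) 1) rd10_860.v0 = true := by decide +kernel

set_option maxRecDepth 100000 in
theorem rk10_860_1 : chkC2 52 10 43 5 5 3 rd10_860.me rd10_860.mo gs10 [rd10_860.c0, rd10_860.c1]
    rd10_860.v1 = true := by decide +kernel

set_option maxRecDepth 100000 in
theorem rk10_860_2 : chkC1 52 10 43 5 5 3 rd10_860.me rd10_860.mo gs10 [rd10_860.c0, rd10_860.c1] true
    (Nat.beq (10 % 2) 0) rd10_860.v2 = true := by decide +kernel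

/-- run 861 -/
def rd10_861 : CRun :=
  ⟨20, 820, 0, 1, 4, 1,
    2582249878086908589655919172003011874329705792829223513209088445149507054936146641489712122686309069862769536307716033573,
    2582249878086908589655919172003011874329705792829223513582007343204602410200618700335141045528431674223954704010435726007,
    2074757784440496479256203931845580575506223116121218449997828664845326405706454073199853524473551897144098943305651112052074762158907140802552539622312268149156646061697481614694308,
    [630, 486, 603, 684, 632, 669]⟩

set_option maxRecDepth 100000 in
theorem rk10_861_0 : chkC1 52 10 43 5 5 3 rd10_861.me rd10_861.mo gs10 [rd10_861.c0, rd10_861.c1] false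
    (Nat.beq (10 % 2) 1) rd10_861.v0 = true := by decide +kernel

set_option maxRecDepth 100000 in
theorem rk10_861_1 : chkC2 52 10 43 5 5 3 rd10_861.me rd10_861.mo gs10 [rd10_861.c0, rd10_861.c1]
    rd10_861.v1 = true := by decide +kernel

set_option maxRecDepth 100000 in
theorem rk10_861_2 : chkC1 52 10 43 5 5 3 rd10_861.me rd10_861.mo gs10 [rd10_861.c0, rd10_861.c1] true
    (Nat.beq (10 % 2) 0) rd10_861.v2 = true := by decide +kernel

/-- run 862 -/
def rd10_862 : CRun :=
  ⟨10, 976, 0, 1, 4, 1,
    2582249878086908589655919172003011874329705792829223513209088445149507054936146641489712122686309069862769536307715915047,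
    2582249878086908589655919172003011874329705792829223513582007343204602410200618700335141045528431674223954704010435728830,
    2074757784440496479256203931845580575506223116121218449997828664845326405706454073199853524473551897144098943305651112052074762158907140802552539622312268149156646061697481614693991,
    [528, 486, 605, 684, 632, 669]⟩

set_option maxRecDepth 100000 in
theorem rk10_862_0 : chkC1 52 10 43 5 5 3 rd10_862.me rd10_862.mo gs10 [rd10_862.c0, rd10_862.c1] false
    (Nat.beq (10 % 2) 1) rd10_862.v0 = true := by decide +kernel

set_option maxRecDepth 100000 in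
theorem rk10_862_1 : chkC2 52 10 43 5 5 3 rd10_862.me rd10_862.mo gs10 [rd10_862.c0, rd10_862.c1]
    rd10_862.v1 = true := by decide +kernel

set_option maxRecDepth 100000 in
theorem rk10_862_2 : chkC1 52 10 43 5 5 3 rd10_862.me rd10_862.mo gs10 [rd10_862.c0, rd10_862.c1] true
    (Nat.beq (10 % 2) 0) rd10_862.v2 = true := by decide +kernel

/-- run 863 -/
def rd10_863 : CRun :=
  ⟨20, 2272, 0, 1, 4, 1,
    2582249878086908589655919172003011874329705792829223513209088445149507054936146641489712122686309069862769536307716013106,
    2582249878086908589655919172003011874329705792829223513582007343204602410200618700335141045528431674223954704010435724026,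
    2074757784440496479256203931845580575506223116121218449997828664845326405706454073199853524473551897144098943305651112052074762158907140802552539622312268149156646061697481614675168,
    [614, 486, 602, 684, 617, 669]⟩

set_option maxRecDepth 100000 in
theorem rk10_863_0 : chkC1 52 10 43 5 5 3 rd10_863.me rd10_863.mo gs10 [rd10_863.c0, rd10_863.c1] false
    (Nat.beq (10 % 2) 1) rd10_863.v0 = true := by decide +kernel

set_option maxRecDepth 100000 in
theorem rk10_863_1 : chkC2 52 10 43 5 5 3 rd10_863.me rd10_863.mo gs10 [rd10_863.c0, rd10_863.c1]
    rd10_863.v1 = true := by decide +kernel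

set_option maxRecDepth 100000 in
theorem rk10_863_2 : chkC1 52 10 43 5 5 3 rd10_863.me rd10_863.mo gs10 [rd10_863.c0, rd10_863.c1] true
    (Nat.beq (10 % 2) 0) rd10_863.v2 = true := by decide +kernel

/-- runs of this file -/
def rds10_107 : List CRun :=
  [rd10_856, rd10_857, rd10_858, rd10_859, rd10_860, rd10_861, rd10_862, rd10_863]

theorem ac10_107 : allC 52 10 43 5 5 3 gs10 rds10_107 :=
  allC_cons rk10_856_0 rk10_856_1 rk10_856_2
    (allC_cons rk10_857_0 rk10_857_1 rk10_857_2
    (allC_cons rk10_858_0 rk10_858_1 rk10_858_2
    (allC_cons rk10_859_0 rk10_859_1 rk10_859_2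
    (allC_cons rk10_860_0 rk10_860_1 rk10_860_2
    (allC_cons rk10_861_0 rk10_861_1 rk10_861_2
    (allC_cons rk10_862_0 rk10_862_1 rk10_862_2
    (allC_cons rk10_863_0 rk10_863_1 rk10_863_2
    (allC_nil))))))))

end Crest.Agent.R347
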