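import Crest.Agent.R347.G10c

/-! Row 347, Chebyshev numerics, ring with 10 sites: run certificates 864..871 (generated) -/

set_option autoImplicit false
set_option Elab.async false

namespace Crest.Agent.R347

/-- run 864 -/
def rd10_864 : CRun :=
  ⟨20, 2278, 0, 1, 4, 1,
    2582249878086908589655919172003011874329705792829223513209088445149507054936146641489712122686309069862769536307716085563,
    2582249878086908589655919172003011874329705792829223513582007343204602410200618700335141045528431674223954704010435729199,
    2074757784440496479256203931845580575506223116121218449997828664845326405706454073199853524473551897144098943305651112052074762158907140802552539622312268149156646061697481614727046,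
    [670, 486, 606, 684, 658, 669]⟩

set_option maxRecDepth 100000 in
theorem rk10_864_0 : chkC1 52 10 43 5 5 3 rd10_864.me rd10_864.mo gs10 [rd10_864.c0, rd10_864.c1] false
    (Nat.beq (10 % 2) 1) rd10_864.v0 = true := by decide +kernel

set_option maxRecDepth 100000 in
theorem rk10_864_1 : chkC2 52 10 43 5 5 3 rd10_864.me rd10_864.mo gs10 [rd10_864.c0, rd10_864.c1]
    rd10_864.v1 = true := by decide +kernel

set_option maxRecDepth 100000 in
theorem rk10_864_2 : chkC1 52 10 43 5 5 3 rd10_864.me rd10_864.mo gs10 [rd10_864.c0, rd10_864.c1] true
    (Nat.beq (10 % 2) 0) rd10_864.v2 = true := by decide +kernel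

/-- run 865 -/
def rd10_865 : CRun :=
  ⟨10, 2440, 0, 1, 4, 1,
    2582249878086908589655919172003011874329705792829223513209088445149507054936146641489712122686309069862769536307716051077,
    2582249878086908589655919172003011874329705792829223513582007343204602410200618700335141045528431674223954704010435739192,
    2074757784440496479256203931845580575506223116121218449997828664845326405706454073199853524473551897144098943305651112052074762158907140802552539622312268149156646061697481614746894,
    [644, 486, 614, 684, 673, 669]⟩

set_option maxRecDepth 100000 in
theorem rk10_865_0 : chkC1 52 10 43 5 5 3 rd10_865.me rd10_865.mo gs10 [rd10_865.c0, rd10_865.c1] false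
    (Nat.beq (10 % 2) 1) rd10_865.v0 = true := by decide +kernel

set_option maxRecDepth 100000 in
theorem rk10_865_1 : chkC2 52 10 43 5 5 3 rd10_865.me rd10_865.mo gs10 [rd10_865.c0, rd10_865.c1]
    rd10_865.v1 = true := by decide +kernel

set_option maxRecDepth 100000 in
theorem rk10_865_2 : chkC1 52 10 43 5 5 3 rd10_865.me rd10_865.mo gs10 [rd10_865.c0, rd10_865.c1] true
    (Nat.beq (10 % 2) 0) rd10_865.v2 = true := by decide +kernel

/-- run 866 -/
def rd10_866 : CRun :=
  ⟨20, 2, 0, 1, 2, 1,
    2582249878086908589655919172003011874329705792829223513209088445149507054936146641489712122686309069862769536307715952109,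
    2582249878086908589655919172003011874329705792829223513582007343204602410200618700335141045528431674223954704010435765813,
    2074757784440496479256203931845580575506223116121218449997828664845326405706454073199853524473551897144098943305651112052074762158907140802552539622312268149156646061697481614721484,
    [562, 486, 635, 684, 654, 669]⟩

set_option maxRecDepth 100000 in
theorem rk10_866_0 : chkC1 52 10 43 5 5 3 rd10_866.me rd10_866.mo gs10 [rd10_866.c0, rd10_866.c1] false
    (Nat.beq (10 % 2) 1) rd10_866.v0 = true := by decide +kernel

set_option maxRecDepth 100000 in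
theorem rk10_866_1 : chkC2 52 10 43 5 5 3 rd10_866.me rd10_866.mo gs10 [rd10_866.c0, rd10_866.c1]
    rd10_866.v1 = true := by decide +kernel

set_option maxRecDepth 100000 in
theorem rk10_866_2 : chkC1 52 10 43 5 5 3 rd10_866.me rd10_866.mo gs10 [rd10_866.c0, rd10_866.c1] true
    (Nat.beq (10 % 2) 0) rd10_866.v2 = true := by decide +kernel

/-- run 867 -/
def rd10_867 : CRun :=
  ⟨20, 4, 0, 1, 2, 1,
    2582249878086908589655919172003011874329705792829223513209088445149507054936146641489712122686309069862769536307716002781,
    2582249878086908589655919172003011874329705792829223513582007343204602410200618700335141045528431674223954704010435811666,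
    2074757784440496479256203931845580575506223116121218449997828664845326405706454073199853524473551897144098943305651112052074762158907140802552539622312268149156646061697481614681255,
    [605, 486, 670, 684, 622, 669]⟩

set_option maxRecDepth 100000 in
theorem rk10_867_0 : chkC1 52 10 43 5 5 3 rd10_867.me rd10_867.mo gs10 [rd10_867.c0, rd10_867.c1] false
    (Nat.beq (10 % 2) 1) rd10_867.v0 = true := by decide +kernel

set_option maxRecDepth 100000 in
theorem rk10_867_1 : chkC2 52 10 43 5 5 3 rd10_867.me rd10_867.mo gs10 [rd10_867.c0, rd10_867.c1]
    rd10_867.v1 = true := by decide +kernel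

set_option maxRecDepth 100000 in
theorem rk10_867_2 : chkC1 52 10 43 5 5 3 rd10_867.me rd10_867.mo gs10 [rd10_867.c0, rd10_867.c1] true
    (Nat.beq (10 % 2) 0) rd10_867.v2 = true := by decide +kernel

/-- run 868 -/
def rd10_868 : CRun :=
  ⟨20, 10, 0, 1, 2, 1,
    2582249878086908589655919172003011874329705792829223513209088445149507054936146641489712122686309069862769536307716080449,
    2582249878086908589655919172003011874329705792829223513582007343204602410200618700335141045528431674223954704010435767130,
    2074757784440496479256203931845580575506223116121218449997828664845326405706454073199853524473551897144098943305651112052074762158907140802552539622312268149156646061697481614743957,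
    [666, 486, 636, 684, 671, 669]⟩

set_option maxRecDepth 100000 in
theorem rk10_868_0 : chkC1 52 10 43 5 5 3 rd10_868.me rd10_868.mo gs10 [rd10_868.c0, rd10_868.c1] false
    (Nat.beq (10 % 2) 1) rd10_868.v0 = true := by decide +kernel

set_option maxRecDepth 100000 in
theorem rk10_868_1 : chkC2 52 10 43 5 5 3 rd10_868.me rd10_868.mo gs10 [rd10_868.c0, rd10_868.c1]
    rd10_868.v1 = true := by decide +kernel

set_option maxRecDepth 100000 in
theorem rk10_868_2 : chkC1 52 10 43 5 5 3 rd10_868.me rd10_868.mo gs10 [rd10_868.c0, rd10_868.c1] true
    (Nat.beq (10 % 2) 0) rd10_868.v2 = true := by decide +kernel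

/-- run 869 -/
def rd10_869 : CRun :=
  ⟨20, 28, 0, 1, 2, 1,
    2582249878086908589655919172003011874329705792829223513209088445149507054936146641489712122686309069862769536307716025335,
    2582249878086908589655919172003011874329705792829223513582007343204602410200618700335141045528431674223954704010435736430,
    2074757784440496479256203931845580575506223116121218449997828664845326405706454073199853524473551897144098943305651112052074762158907140802552539622312268149156646061697481614639279,
    [623, 486, 612, 684, 587, 669]⟩

set_option maxRecDepth 100000 in
theorem rk10_869_0 : chkC1 52 10 43 5 5 3 rd10_869.me rd10_869.mo gs10 [rd10_869.c0, rd10_869.c1] false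
    (Nat.beq (10 % 2) 1) rd10_869.v0 = true := by decide +kernel

set_option maxRecDepth 100000 in
theorem rk10_869_1 : chkC2 52 10 43 5 5 3 rd10_869.me rd10_869.mo gs10 [rd10_869.c0, rd10_869.c1]
    rd10_869.v1 = true := by decide +kernel

set_option maxRecDepth 100000 in
theorem rk10_869_2 : chkC1 52 10 43 5 5 3 rd10_869.me rd10_869.mo gs10 [rd10_869.c0, rd10_869.c1] true
    (Nat.beq (10 % 2) 0) rd10_869.v2 = true := by decide +kernel

/-- run 870 -/
def rd10_870 : CRun :=
  ⟨20, 82, 0, 1, 2, 1,
    2582249878086908589655919172003011874329705792829223513209088445149507054936146641489712122686309069862769536307716090628,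
    2582249878086908589655919172003011874329705792829223513582007343204602410200618700335141045528431674223954704010435803851,
    2074757784440496479256203931845580575506223116121218449997828664845326405706454073199853524473551897144098943305651112052074762158907140802552539622312268149156646061697481614639446,
    [674, 486, 665, 684, 587, 669]⟩

set_option maxRecDepth 100000 in
theorem rk10_870_0 : chkC1 52 10 43 5 5 3 rd10_870.me rd10_870.mo gs10 [rd10_870.c0, rd10_870.c1] false
    (Nat.beq (10 % 2) 1) rd10_870.v0 = true := by decide +kernel

set_option maxRecDepth 100000 in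
theorem rk10_870_1 : chkC2 52 10 43 5 5 3 rd10_870.me rd10_870.mo gs10 [rd10_870.c0, rd10_870.c1]
    rd10_870.v1 = true := by decide +kernel

set_option maxRecDepth 100000 in
theorem rk10_870_2 : chkC1 52 10 43 5 5 3 rd10_870.me rd10_870.mo gs10 [rd10_870.c0, rd10_870.c1] true
    (Nat.beq (10 % 2) 0) rd10_870.v2 = true := by decide +kernel

/-- run 871 -/
def rd10_871 : CRun :=
  ⟨10, 244, 0, 1, 2, 1,
    2582249878086908589655919172003011874329705792829223513209088445149507054936146641489712122686309069862769536307715984260,
    2582249878086908589655919172003011874329705792829223513582007343204602410200618700335141045528431674223954704010435754101,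
    2074757784440496479256203931845580575506223116121218449997828664845326405706454073199853524473551897144098943305651112052074762158907140802552539622312268149156646061697481614678320,
    [590, 486, 626, 684, 620, 669]⟩

set_option maxRecDepth 100000 in
theorem rk10_871_0 : chkC1 52 10 43 5 5 3 rd10_871.me rd10_871.mo gs10 [rd10_871.c0, rd10_871.c1] false
    (Nat.beq (10 % 2) 1) rd10_871.v0 = true := by decide +kernel

set_option maxRecDepth 100000 in
theorem rk10_871_1 : chkC2 52 10 43 5 5 3 rd10_871.me rd10_871.mo gs10 [rd10_871.c0, rd10_871.c1]
    rd10_871.v1 = true := by decide +kernel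

set_option maxRecDepth 100000 in
theorem rk10_871_2 : chkC1 52 10 43 5 5 3 rd10_871.me rd10_871.mo gs10 [rd10_871.c0, rd10_871.c1] true
    (Nat.beq (10 % 2) 0) rd10_871.v2 = true := by decide +kernel

/-- runs of this file -/
def rds10_108 : List CRun :=
  [rd10_864, rd10_865, rd10_866, rd10_867, rd10_868, rd10_869, rd10_870, rd10_871]

theorem ac10_108 : allC 52 10 43 5 5 3 gs10 rds10_108 :=
  allC_cons rk10_864_0 rk10_864_1 rk10_864_2
    (allC_cons rk10_865_0 rk10_865_1 rk10_865_2
    (allC_cons rk10_866_0 rk10_866_1 rk10_866_2
    (allC_cons rk10_867_0 rk10_867_1 rk10_867_2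
    (allC_cons rk10_868_0 rk10_868_1 rk10_868_2
    (allC_cons rk10_869_0 rk10_869_1 rk10_869_2
    (allC_cons rk10_870_0 rk10_870_1 rk10_870_2
    (allC_cons rk10_871_0 rk10_871_1 rk10_871_2
    (allC_nil))))))))

end Crest.Agent.R347
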