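import Crest.Agent.R347.G10c

/-! Row 347, Chebyshev numerics, ring with 10 sites: run certificates 872..872 (generated) -/

set_option autoImplicit false
set_option Elab.async false

namespace Crest.Agent.R347

/-- run 872 -/
def rd10_872 : CRun :=
  ⟨2, 0, 0, 1, 0, 1,
    2582249878086908589655919172003011874329705792829223513209088445149507054936146641489712122686309069862769536307716217892,
    2582249878086908589655919172003011874329705792829223513582007343204602410200618700335141045528431674223954704010435943460,
    2074757784440496479256203931845580575506223116121218449997828664845326405706454073199853524473551897144098943305651112052074762158907140802552539622312268149156646061697481614875684,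
    [762, 486, 762, 684, 762, 669]⟩

set_option maxRecDepth 100000 in
theorem rk10_872_0 : chkC1 52 10 43 5 5 3 rd10_872.me rd10_872.mo gs10 [rd10_872.c0, rd10_872.c1] false
    (Nat.beq (10 % 2) 1) rd10_872.v0 = true := by decide +kernel

set_option maxRecDepth 100000 in
theorem rk10_872_1 : chkC2 52 10 43 5 5 3 rd10_872.me rd10_872.mo gs10 [rd10_872.c0, rd10_872.c1]
    rd10_872.v1 = true := by decide +kernel

set_option maxRecDepth 100000 in
theorem rk10_872_2 : chkC1 52 10 43 5 5 3 rd10_872.me rd10_872.mo gs10 [rd10_872.c0, rd10_872.c1] true
    (Nat.beq (10 % 2) 0) rd10_872.v2 = true := by decide +kernel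

/-- runs of this file -/
def rds10_109 : List CRun :=
  [rd10_872]

theorem ac10_109 : allC 52 10 43 5 5 3 gs10 rds10_109 :=
  allC_cons rk10_872_0 rk10_872_1 rk10_872_2
    (allC_nil)

end Crest.Agent.R347
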