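import Crest.Agent.R347.G10c

/-! Row 347, Chebyshev numerics, ring with 10 sites: run certificates 104..111 (generated) -/

set_option autoImplicit false
set_option Elab.async false

namespace Crest.Agent.R347

/-- run 104 -/
def rd10_104 : CRun :=
  ⟨20, 3314, 40, 1817, 10, 9,
    2582249878086908589655919172003011874329705794089464460642435708506128033593330869143721892361899979621410637955275007269,
    2582249878086908589655919172003011874329705793291435612704209109880301641388719744269906794427140690082281132677184335615,
    2074757784440496479256203931845580575506223100651885144892726760306851569661363684251834051969940482291922486802392573759576994831111576828199942093691526662576892852029597136779639,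
    [190185014, 28004462, 134360330, 16959815, 79162482, 5697158]⟩

set_option maxRecDepth 100000 in
theorem rk10_104_0 : chkC1 52 10 43 5 5 3 rd10_104.me rd10_104.mo gs10 [rd10_104.c0, rd10_104.c1] false
    (Nat.beq (10 % 2) 1) rd10_104.v0 = true := by decide +kernel

set_option maxRecDepth 100000 in
theorem rk10_104_1 : chkC2 52 10 43 5 5 3 rd10_104.me rd10_104.mo gs10 [rd10_104.c0, rd10_104.c1]
    rd10_104.v1 = true := by decide +kernel

set_option maxRecDepth 100000 in
theorem rk10_104_2 : chkC1 52 10 43 5 5 3 rd10_104.me rd10_104.mo gs10 [rd10_104.c0, rd10_104.c1] true
    (Nat.beq (10 % 2) 0) rd10_104.v2 = true := by decide +kernel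

/-- run 105 -/
def rd10_105 : CRun :=
  ⟨20, 3316, 20, 1823, 10, 9,
    2582249878086908589655919172003011874329705795716879838020932339134242136800585523922211546088441168034096736655495154766,
    2582249878086908589655919172003011874329705793800394920785170761771856052521703465225102795476412930408397325421516874210,
    2074757784440496479256203931845580575506223114833264111342023981567675204079066280598850734128442969250196308430025390267448195628363335874331866264046457172061265842557156705180747,
    [65310848, 42390954, 44588491, 24583764, 22776119, 6396443]⟩

set_option maxRecDepth 100000 in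
theorem rk10_105_0 : chkC1 52 10 43 5 5 3 rd10_105.me rd10_105.mo gs10 [rd10_105.c0, rd10_105.c1] false
    (Nat.beq (10 % 2) 1) rd10_105.v0 = true := by decide +kernel

set_option maxRecDepth 100000 in
theorem rk10_105_1 : chkC2 52 10 43 5 5 3 rd10_105.me rd10_105.mo gs10 [rd10_105.c0, rd10_105.c1]
    rd10_105.v1 = true := by decide +kernel

set_option maxRecDepth 100000 in
theorem rk10_105_2 : chkC1 52 10 43 5 5 3 rd10_105.me rd10_105.mo gs10 [rd10_105.c0, rd10_105.c1] true
    (Nat.beq (10 % 2) 0) rd10_105.v2 = true := by decide +kernel

/-- run 106 -/
def rd10_106 : CRun :=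
  ⟨40, 3338, 40, 1871, 10, 9,
    2582249878086908589655919172003011874329705793066519000311762154227534974436750701772786425592879164372357599246569840786,
    2582249878086908589655919172003011874329705792912367879776061428371239396652995730951621884167194288445150942784314003414,
    2074757784440496479256203931845580575506223008805114830248843094837759040827320736703428860069462412113188762305942543134163083258467354594695039260475904842487350336982972310607002,
    [335522286, 12151928, 266808417, 7193113, 203884416, 2121377]⟩

set_option maxRecDepth 100000 in
theorem rk10_106_0 : chkC1 52 10 43 5 5 3 rd10_106.me rd10_106.mo gs10 [rd10_106.c0, rd10_106.c1] false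
    (Nat.beq (10 % 2) 1) rd10_106.v0 = true := by decide +kernel

set_option maxRecDepth 100000 in
theorem rk10_106_1 : chkC2 52 10 43 5 5 3 rd10_106.me rd10_106.mo gs10 [rd10_106.c0, rd10_106.c1]
    rd10_106.v1 = true := by decide +kernel

set_option maxRecDepth 100000 in
theorem rk10_106_2 : chkC1 52 10 43 5 5 3 rd10_106.me rd10_106.mo gs10 [rd10_106.c0, rd10_106.c1] true
    (Nat.beq (10 % 2) 0) rd10_106.v2 = true := by decide +kernel

/-- run 107 -/
def rd10_107 : CRun :=
  ⟨40, 3344, 40, 1961, 10, 9,
    2582249878086908589655919172003011874329705792892051374717826359193383280642116756777202439072445267900859738215676506800,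
    2582249878086908589655919172003011874329705792852172102190267000097830451372964519433395421150989156213354727538744908417,
    2074757784440496479256203931845580575506222844006552602573546718154761483837056918571196390796523972240560489709318060861875514274754478365947646488152897973997377522343817743721250,
    [555134268, 6252830, 435620939, 3779014, 325659619, 1247605]⟩

set_option maxRecDepth 100000 in
theorem rk10_107_0 : chkC1 52 10 43 5 5 3 rd10_107.me rd10_107.mo gs10 [rd10_107.c0, rd10_107.c1] false
    (Nat.beq (10 % 2) 1) rd10_107.v0 = true := by decide +kernel

set_option maxRecDepth 100000 in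
theorem rk10_107_1 : chkC2 52 10 43 5 5 3 rd10_107.me rd10_107.mo gs10 [rd10_107.c0, rd10_107.c1]
    rd10_107.v1 = true := by decide +kernel

set_option maxRecDepth 100000 in
theorem rk10_107_2 : chkC1 52 10 43 5 5 3 rd10_107.me rd10_107.mo gs10 [rd10_107.c0, rd10_107.c1] true
    (Nat.beq (10 % 2) 0) rd10_107.v2 = true := by decide +kernel

/-- run 108 -/
def rd10_108 : CRun :=
  ⟨40, 3346, 20, 1979, 10, 9,
    2582249878086908589655919172003011874329705793132754417120179209973773198238162963246177087572019147785137519244639798982,
    2582249878086908589655919172003011874329705792938831171636432889848965752057412056239721789052446861884416259896369051764,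
    2074757784440496479256203931845580575506223094479303302227728247747382708811148043697693474004315832512682363778884472948296343581633220538762738980685957847223461918320195210391700,
    [174674188, 13743644, 132010105, 8258875, 92067975, 2630509]⟩

set_option maxRecDepth 100000 in
theorem rk10_108_0 : chkC1 52 10 43 5 5 3 rd10_108.me rd10_108.mo gs10 [rd10_108.c0, rd10_108.c1] false
    (Nat.beq (10 % 2) 1) rd10_108.v0 = true := by decide +kernel

set_option maxRecDepth 100000 in
theorem rk10_108_1 : chkC2 52 10 43 5 5 3 rd10_108.me rd10_108.mo gs10 [rd10_108.c0, rd10_108.c1]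
    rd10_108.v1 = true := by decide +kernel

set_option maxRecDepth 100000 in
theorem rk10_108_2 : chkC1 52 10 43 5 5 3 rd10_108.me rd10_108.mo gs10 [rd10_108.c0, rd10_108.c1] true
    (Nat.beq (10 % 2) 0) rd10_108.v2 = true := by decide +kernel

/-- run 109 -/
def rd10_109 : CRun :=
  ⟨40, 3356, 40, 2339, 10, 9,
    2582249878086908589655919172003011874329705792832249864365298837142559456207350830426516867470474949061508738198664557377,
    2582249878086908589655919172003011874329705792830355404598082584865641954061497733931502056485953159303972746242859825982,
    2074757784440496479256203931845580575506222996132840161171306110293152675792600002332517430386754416827777635332016235471039197604294031200389510672698085681764189418813589792525232,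
    [363905636, 1372335, 287356940, 839273, 217213647, 302659]⟩

set_option maxRecDepth 100000 in
theorem rk10_109_0 : chkC1 52 10 43 5 5 3 rd10_109.me rd10_109.mo gs10 [rd10_109.c0, rd10_109.c1] false
    (Nat.beq (10 % 2) 1) rd10_109.v0 = true := by decide +kernel

set_option maxRecDepth 100000 in
theorem rk10_109_1 : chkC2 52 10 43 5 5 3 rd10_109.me rd10_109.mo gs10 [rd10_109.c0, rd10_109.c1]
    rd10_109.v1 = true := by decide +kernel

set_option maxRecDepth 100000 in
theorem rk10_109_2 : chkC1 52 10 43 5 5 3 rd10_109.me rd10_109.mo gs10 [rd10_109.c0, rd10_109.c1] true
    (Nat.beq (10 % 2) 0) rd10_109.v2 = true := by decide +kernel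

/-- run 110 -/
def rd10_110 : CRun :=
  ⟨40, 3362, 40, 2345, 10, 9,
    2582249878086908589655919172003011874329705792831316761314626948836024759587045075842674758351754108740810272802840384300,
    2582249878086908589655919172003011874329705792830045544110876333353322114202342532847998823349067662995452503404000646551,
    2074757784440496479256203931845580575506222994561638225157151770596797942886087445687295163861845894382801541368526432612830674999543180304649789680173576643954023932769956404238373,
    [442646969, 1141329, 326701038, 715229, 217127204, 286458]⟩

set_option maxRecDepth 100000 in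
theorem rk10_110_0 : chkC1 52 10 43 5 5 3 rd10_110.me rd10_110.mo gs10 [rd10_110.c0, rd10_110.c1] false
    (Nat.beq (10 % 2) 1) rd10_110.v0 = true := by decide +kernel

set_option maxRecDepth 100000 in
theorem rk10_110_1 : chkC2 52 10 43 5 5 3 rd10_110.me rd10_110.mo gs10 [rd10_110.c0, rd10_110.c1]
    rd10_110.v1 = true := by decide +kernel

set_option maxRecDepth 100000 in
theorem rk10_110_2 : chkC1 52 10 43 5 5 3 rd10_110.me rd10_110.mo gs10 [rd10_110.c0, rd10_110.c1] true
    (Nat.beq (10 % 2) 0) rd10_110.v2 = true := by decide +kernel

/-- run 111 -/
def rd10_111 : CRun :=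
  ⟨40, 3364, 40, 2393, 10, 9,
    2582249878086908589655919172003011874329705792857870051844924943806292751541651664718229649023639835531444672406616187843,
    2582249878086908589655919172003011874329705792840580805333777176179792730992581652130218422462659879497605048782583017667,
    2074757784440496479256203931845580575506223105278974303962676888608357948016721109458068960428795294566406245988180701613884169079998267344140924215904595649831187184804888258886869,
    [175631100, 4222178, 121137806, 2658508, 64858738, 1072918]⟩

set_option maxRecDepth 100000 in
theorem rk10_111_0 : chkC1 52 10 43 5 5 3 rd10_111.me rd10_111.mo gs10 [rd10_111.c0, rd10_111.c1] false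
    (Nat.beq (10 % 2) 1) rd10_111.v0 = true := by decide +kernel

set_option maxRecDepth 100000 in
theorem rk10_111_1 : chkC2 52 10 43 5 5 3 rd10_111.me rd10_111.mo gs10 [rd10_111.c0, rd10_111.c1]
    rd10_111.v1 = true := by decide +kernel

set_option maxRecDepth 100000 in
theorem rk10_111_2 : chkC1 52 10 43 5 5 3 rd10_111.me rd10_111.mo gs10 [rd10_111.c0, rd10_111.c1] true
    (Nat.beq (10 % 2) 0) rd10_111.v2 = true := by decide +kernel

/-- runs of this file -/
def rds10_13 : List CRun :=
  [rd10_104, rd10_105, rd10_106, rd10_107, rd10_108, rd10_109, rd10_110, rd10_111]

theorem ac10_13 : allC 52 10 43 5 5 3 gs10 rds10_13 :=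
  allC_cons rk10_104_0 rk10_104_1 rk10_104_2
    (allC_cons rk10_105_0 rk10_105_1 rk10_105_2
    (allC_cons rk10_106_0 rk10_106_1 rk10_106_2
    (allC_cons rk10_107_0 rk10_107_1 rk10_107_2
    (allC_cons rk10_108_0 rk10_108_1 rk10_108_2
    (allC_cons rk10_109_0 rk10_109_1 rk10_109_2
    (allC_cons rk10_110_0 rk10_110_1 rk10_110_2
    (allC_cons rk10_111_0 rk10_111_1 rk10_111_2
    (allC_nil))))))))

end Crest.Agent.R347
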