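import Crest.Agent.R347.G10c

/-! Row 347, Chebyshev numerics, ring with 10 sites: run certificates 112..119 (generated) -/

set_option autoImplicit false
set_option Elab.async false

namespace Crest.Agent.R347

/-- run 112 -/
def rd10_112 : CRun :=
  ⟨40, 3368, 20, 2399, 10, 9,
    2582249878086908589655919172003011874329705792857420213753087229415662236243365162328113497482371838174163677276436627279,
    2582249878086908589655919172003011874329705792840584927528746110402125875252303131507863661249617814898964504727210198855,
    2074757784440496479256203931845580575506223103750337577364623341260189557176301199131253250718527758563103179811384668481732765962838696369134747640876140169443332997774359782889004,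
    [264480672, 4188897, 173968833, 2658990, 70468143, 1103999]⟩

set_option maxRecDepth 100000 in
theorem rk10_112_0 : chkC1 52 10 43 5 5 3 rd10_112.me rd10_112.mo gs10 [rd10_112.c0, rd10_112.c1] false
    (Nat.beq (10 % 2) 1) rd10_112.v0 = true := by decide +kernel

set_option maxRecDepth 100000 in
theorem rk10_112_1 : chkC2 52 10 43 5 5 3 rd10_112.me rd10_112.mo gs10 [rd10_112.c0, rd10_112.c1]
    rd10_112.v1 = true := by decide +kernel

set_option maxRecDepth 100000 in
theorem rk10_112_2 : chkC1 52 10 43 5 5 3 rd10_112.me rd10_112.mo gs10 [rd10_112.c0, rd10_112.c1] true
    (Nat.beq (10 % 2) 0) rd10_112.v2 = true := by decide +kernel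

/-- run 113 -/
def rd10_113 : CRun :=
  ⟨40, 3370, 20, 2411, 10, 9,
    2582249878086908589655919172003011874329705792880614947822737505015734297156017123803505317158475897150243676739017806915,
    2582249878086908589655919172003011874329705792850801528840670233211095057930553451737287816322325092097370253883955927478,
    2074757784440496479256203931845580575506223115319610951923751938294132574619634714047158431075973033003264949695216267954823752189653798121594661489554318657142858539447433698882539,
    [98349893, 5655172, 62869617, 3664428, 17927731, 1596862]⟩

set_option maxRecDepth 100000 in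
theorem rk10_113_0 : chkC1 52 10 43 5 5 3 rd10_113.me rd10_113.mo gs10 [rd10_113.c0, rd10_113.c1] false
    (Nat.beq (10 % 2) 1) rd10_113.v0 = true := by decide +kernel

set_option maxRecDepth 100000 in
theorem rk10_113_1 : chkC2 52 10 43 5 5 3 rd10_113.me rd10_113.mo gs10 [rd10_113.c0, rd10_113.c1]
    rd10_113.v1 = true := by decide +kernel

set_option maxRecDepth 100000 in
theorem rk10_113_2 : chkC1 52 10 43 5 5 3 rd10_113.me rd10_113.mo gs10 [rd10_113.c0, rd10_113.c1] true
    (Nat.beq (10 % 2) 0) rd10_113.v2 = true := by decide +kernel

/-- run 114 -/
def rd10_114 : CRun :=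
  ⟨20, 3380, 40, 2501, 10, 9,
    2582249878086908589655919172003011874329705792868283757086324164637857871820029659419174147620968330393187706306702138950,
    2582249878086908589655919172003011874329705792844493359994500811745466754345725574572523066898268735225622300238587403367,
    2074757784440496479256203931845580575506223110432813934292788616148083431558539697601257972980032476352022372500772599684254888348223590917583285303268597019320351052500666909230350,
    [154350214, 4930239, 103052985, 3082605, 46996663, 1209119]⟩

set_option maxRecDepth 100000 in
theorem rk10_114_0 : chkC1 52 10 43 5 5 3 rd10_114.me rd10_114.mo gs10 [rd10_114.c0, rd10_114.c1] false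
    (Nat.beq (10 % 2) 1) rd10_114.v0 = true := by decide +kernel

set_option maxRecDepth 100000 in
theorem rk10_114_1 : chkC2 52 10 43 5 5 3 rd10_114.me rd10_114.mo gs10 [rd10_114.c0, rd10_114.c1]
    rd10_114.v1 = true := by decide +kernel

set_option maxRecDepth 100000 in
theorem rk10_114_2 : chkC1 52 10 43 5 5 3 rd10_114.me rd10_114.mo gs10 [rd10_114.c0, rd10_114.c1] true
    (Nat.beq (10 % 2) 0) rd10_114.v2 = true := by decide +kernel

/-- run 115 -/
def rd10_115 : CRun :=
  ⟨40, 3382, 40, 2507, 10, 9,
    2582249878086908589655919172003011874329705792861705851998766801795235811448540770688998879376088698629911059351469951952,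
    2582249878086908589655919172003011874329705792842230026591067331919681793712610470633285372971349435539325084979192772164,
    2074757784440496479256203931845580575506223115768083144279973020922024130488857600151302191201473795439710971766722644841563128860701004580902169250340195955153277099106014039601100,
    [100159687, 4495978, 63068216, 2844991, 12243932, 1168386]⟩

set_option maxRecDepth 100000 in
theorem rk10_115_0 : chkC1 52 10 43 5 5 3 rd10_115.me rd10_115.mo gs10 [rd10_115.c0, rd10_115.c1] false
    (Nat.beq (10 % 2) 1) rd10_115.v0 = true := by decide +kernel

set_option maxRecDepth 100000 in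
theorem rk10_115_1 : chkC2 52 10 43 5 5 3 rd10_115.me rd10_115.mo gs10 [rd10_115.c0, rd10_115.c1]
    rd10_115.v1 = true := by decide +kernel

set_option maxRecDepth 100000 in
theorem rk10_115_2 : chkC1 52 10 43 5 5 3 rd10_115.me rd10_115.mo gs10 [rd10_115.c0, rd10_115.c1] true
    (Nat.beq (10 % 2) 0) rd10_115.v2 = true := by decide +kernel

/-- run 116 -/
def rd10_116 : CRun :=
  ⟨10, 3388, 40, 2555, 10, 9,
    2582249878086908589655919172003011874329705793360808183803365739139320460314532256924245635454939039760410825744231191725,
    2582249878086908589655919172003011874329705793048139532154585931146453616155023429813120908689074895728622118163519181606,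
    2074757784440496479256203931845580575506223116122849863513961005426933706491145057234873816995918623904013958734622636291205056881496811491861111858467520501845427313265993338990951,
    [51586618, 18188072, 32102589, 11671837, 799928, 4925658]⟩

set_option maxRecDepth 100000 in
theorem rk10_116_0 : chkC1 52 10 43 5 5 3 rd10_116.me rd10_116.mo gs10 [rd10_116.c0, rd10_116.c1] false
    (Nat.beq (10 % 2) 1) rd10_116.v0 = true := by decide +kernel

set_option maxRecDepth 100000 in
theorem rk10_116_1 : chkC2 52 10 43 5 5 3 rd10_116.me rd10_116.mo gs10 [rd10_116.c0, rd10_116.c1]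
    rd10_116.v1 = true := by decide +kernel

set_option maxRecDepth 100000 in
theorem rk10_116_2 : chkC1 52 10 43 5 5 3 rd10_116.me rd10_116.mo gs10 [rd10_116.c0, rd10_116.c1] true
    (Nat.beq (10 % 2) 0) rd10_116.v2 = true := by decide +kernel

/-- run 117 -/
def rd10_117 : CRun :=
  ⟨20, 3446, 40, 2561, 10, 9,
    2582249878086908589655919172003011874329705793486415439395093310835921155226418448547138151575548775743672063814608781910,
    2582249878086908589655919172003011874329705793094515838861867927116886210340675329235526950704410880606583309100577898744,
    2074757784440496479256203931845580575506222953152325185067985336880406139135948466983252599166942793496664559537600723531837611502563810668508051775672082966054617248595533947028766,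
    [406784163, 20223045, 329116052, 12848807, 257846538, 5269578]⟩

set_option maxRecDepth 100000 in
theorem rk10_117_0 : chkC1 52 10 43 5 5 3 rd10_117.me rd10_117.mo gs10 [rd10_117.c0, rd10_117.c1] false
    (Nat.beq (10 % 2) 1) rd10_117.v0 = true := by decide +kernel

set_option maxRecDepth 100000 in
theorem rk10_117_1 : chkC2 52 10 43 5 5 3 rd10_117.me rd10_117.mo gs10 [rd10_117.c0, rd10_117.c1]
    rd10_117.v1 = true := by decide +kernel

set_option maxRecDepth 100000 in
theorem rk10_117_2 : chkC1 52 10 43 5 5 3 rd10_117.me rd10_117.mo gs10 [rd10_117.c0, rd10_117.c1] true
    (Nat.beq (10 % 2) 0) rd10_117.v2 = true := by decide +kernel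

/-- run 118 -/
def rd10_118 : CRun :=
  ⟨40, 3452, 40, 2563, 10, 9,
    2582249878086908589655919172003011874329705792884192250258482342682394595792594509102576427144229005205454599718449674962,
    2582249878086908589655919172003011874329705792850360058474442200656134502772046954343250364399239133690904025735299481854,
    2074757784440496479256203931845580575506222957676523611595326788767697998353479344021802395344896470982025159824833155410807988633638297426896898987355398464544125116990906750026410,
    [424525271, 5848687, 333769653, 3626749, 250299541, 1369109]⟩

set_option maxRecDepth 100000 in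
theorem rk10_118_0 : chkC1 52 10 43 5 5 3 rd10_118.me rd10_118.mo gs10 [rd10_118.c0, rd10_118.c1] false
    (Nat.beq (10 % 2) 1) rd10_118.v0 = true := by decide +kernel

set_option maxRecDepth 100000 in
theorem rk10_118_1 : chkC2 52 10 43 5 5 3 rd10_118.me rd10_118.mo gs10 [rd10_118.c0, rd10_118.c1]
    rd10_118.v1 = true := by decide +kernel

set_option maxRecDepth 100000 in
theorem rk10_118_2 : chkC1 52 10 43 5 5 3 rd10_118.me rd10_118.mo gs10 [rd10_118.c0, rd10_118.c1] true
    (Nat.beq (10 % 2) 0) rd10_118.v2 = true := by decide +kernel

/-- run 119 -/
def rd10_119 : CRun :=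
  ⟨40, 3454, 40, 2573, 10, 9,
    2582249878086908589655919172003011874329705794321432315283862262994005732960074360037975051025602006592095085354231829662,
    2582249878086908589655919172003011874329705793455328908388357668586320296844877063584794327485972471708909331237492598509,
    2074757784440496479256203931845580575506223104929075347265512638309524739611998808493352514721205011219182085364466692117569960957713257048006851742796045431438955374755973586160098,
    [127187236, 30473002, 95821240, 19738955, 66339550, 8510732]⟩

set_option maxRecDepth 100000 in
theorem rk10_119_0 : chkC1 52 10 43 5 5 3 rd10_119.me rd10_119.mo gs10 [rd10_119.c0, rd10_119.c1] false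
    (Nat.beq (10 % 2) 1) rd10_119.v0 = true := by decide +kernel

set_option maxRecDepth 100000 in
theorem rk10_119_1 : chkC2 52 10 43 5 5 3 rd10_119.me rd10_119.mo gs10 [rd10_119.c0, rd10_119.c1]
    rd10_119.v1 = true := by decide +kernel

set_option maxRecDepth 100000 in
theorem rk10_119_2 : chkC1 52 10 43 5 5 3 rd10_119.me rd10_119.mo gs10 [rd10_119.c0, rd10_119.c1] true
    (Nat.beq (10 % 2) 0) rd10_119.v2 = true := by decide +kernel

/-- runs of this file -/
def rds10_14 : List CRun :=
  [rd10_112, rd10_113, rd10_114, rd10_115, rd10_116, rd10_117, rd10_118, rd10_119]

theorem ac10_14 : allC 52 10 43 5 5 3 gs10 rds10_14 :=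
  allC_cons rk10_112_0 rk10_112_1 rk10_112_2
    (allC_cons rk10_113_0 rk10_113_1 rk10_113_2
    (allC_cons rk10_114_0 rk10_114_1 rk10_114_2
    (allC_cons rk10_115_0 rk10_115_1 rk10_115_2
    (allC_cons rk10_116_0 rk10_116_1 rk10_116_2
    (allC_cons rk10_117_0 rk10_117_1 rk10_117_2
    (allC_cons rk10_118_0 rk10_118_1 rk10_118_2
    (allC_cons rk10_119_0 rk10_119_1 rk10_119_2
    (allC_nil))))))))

end Crest.Agent.R347
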