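import Crest.Agent.R347.G10c

/-! Row 347, Chebyshev numerics, ring with 10 sites: run certificates 120..127 (generated) -/

set_option autoImplicit false
set_option Elab.async false

namespace Crest.Agent.R347

/-- run 120 -/
def rd10_120 : CRun :=
  ⟨40, 3464, 40, 2579, 10, 9,
    2582249878086908589655919172003011874329705793811403762050589661954160578451413714578879976433836161938465012525200908705,
    2582249878086908589655919172003011874329705793207088517242027232575382185743244545606527208257782393352349145988224623777,
    2074757784440496479256203931845580575506222220246110662981499426684275634279808315322827317310667403208652656541653538013240775905480045587176019639904221242584277880585777947608386,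
    [949007449, 24722708, 775066870, 15334470, 614508871, 5780488]⟩

set_option maxRecDepth 100000 in
theorem rk10_120_0 : chkC1 52 10 43 5 5 3 rd10_120.me rd10_120.mo gs10 [rd10_120.c0, rd10_120.c1] false
    (Nat.beq (10 % 2) 1) rd10_120.v0 = true := by decide +kernel

set_option maxRecDepth 100000 in
theorem rk10_120_1 : chkC2 52 10 43 5 5 3 rd10_120.me rd10_120.mo gs10 [rd10_120.c0, rd10_120.c1]
    rd10_120.v1 = true := by decide +kernel

set_option maxRecDepth 100000 in
theorem rk10_120_2 : chkC1 52 10 43 5 5 3 rd10_120.me rd10_120.mo gs10 [rd10_120.c0, rd10_120.c1] true
    (Nat.beq (10 % 2) 0) rd10_120.v2 = true := by decide +kernel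

/-- run 121 -/
def rd10_121 : CRun :=
  ⟨40, 3470, 40, 2581, 10, 9,
    2582249878086908589655919172003011874329705792947987492529913658045805438105586877733658012200157473547183820062368652350,
    2582249878086908589655919172003011874329705792871863786751614842847196484878585962069861142960317172797712728017863531325,
    2074757784440496479256203931845580575506222730027706441116632815101202307629598945653123113217011195503382475182522408727862757393051510753092137237511748662414747996171368163784134,
    [718455283, 8596919, 552674304, 5151224, 398670826, 1637943]⟩

set_option maxRecDepth 100000 in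
theorem rk10_121_0 : chkC1 52 10 43 5 5 3 rd10_121.me rd10_121.mo gs10 [rd10_121.c0, rd10_121.c1] false
    (Nat.beq (10 % 2) 1) rd10_121.v0 = true := by decide +kernel

set_option maxRecDepth 100000 in
theorem rk10_121_1 : chkC2 52 10 43 5 5 3 rd10_121.me rd10_121.mo gs10 [rd10_121.c0, rd10_121.c1]
    rd10_121.v1 = true := by decide +kernel

set_option maxRecDepth 100000 in
theorem rk10_121_2 : chkC1 52 10 43 5 5 3 rd10_121.me rd10_121.mo gs10 [rd10_121.c0, rd10_121.c1] true
    (Nat.beq (10 % 2) 0) rd10_121.v2 = true := by decide +kernel

/-- run 122 -/
def rd10_122 : CRun :=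
  ⟨40, 3472, 40, 2585, 10, 9,
    2582249878086908589655919172003011874329705793053064857141505226030987932789659520495679937260703523298612478162289204637,
    2582249878086908589655919172003011874329705792905898337422336493549249486998247498282314315471990769957954426642750400840,
    2074757784440496479256203931845580575506223085255365330641427266437304517238739929579425013005648271486459046769653907104499918094364867602519349632684500816644609344711271398889015,
    [250103017, 11802407, 180586875, 6907595, 112278485, 1880479]⟩

set_option maxRecDepth 100000 in
theorem rk10_122_0 : chkC1 52 10 43 5 5 3 rd10_122.me rd10_122.mo gs10 [rd10_122.c0, rd10_122.c1] false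
    (Nat.beq (10 % 2) 1) rd10_122.v0 = true := by decide +kernel

set_option maxRecDepth 100000 in
theorem rk10_122_1 : chkC2 52 10 43 5 5 3 rd10_122.me rd10_122.mo gs10 [rd10_122.c0, rd10_122.c1]
    rd10_122.v1 = true := by decide +kernel

set_option maxRecDepth 100000 in
theorem rk10_122_2 : chkC1 52 10 43 5 5 3 rd10_122.me rd10_122.mo gs10 [rd10_122.c0, rd10_122.c1] true
    (Nat.beq (10 % 2) 0) rd10_122.v2 = true := by decide +kernel

/-- run 123 -/
def rd10_123 : CRun :=
  ⟨40, 3476, 40, 2587, 10, 9,
    2582249878086908589655919172003011874329705792856214765342128437212537640508769561374957016465851712153303671472404011422,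
    2582249878086908589655919172003011874329705792838347662376121385828894714331382457156970869080360265651410538801797222966,
    2074757784440496479256203931845580575506223079059550396394804976623398057537401798705104833583738945824159867214382292983027179283438672925782639487288028146479168457268891740812131,
    [347106772, 4098378, 239784947, 2382850, 128237207, 596999]⟩

set_option maxRecDepth 100000 in
theorem rk10_123_0 : chkC1 52 10 43 5 5 3 rd10_123.me rd10_123.mo gs10 [rd10_123.c0, rd10_123.c1] false
    (Nat.beq (10 % 2) 1) rd10_123.v0 = true := by decide +kernel

set_option maxRecDepth 100000 in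
theorem rk10_123_1 : chkC2 52 10 43 5 5 3 rd10_123.me rd10_123.mo gs10 [rd10_123.c0, rd10_123.c1]
    rd10_123.v1 = true := by decide +kernel

set_option maxRecDepth 100000 in
theorem rk10_123_2 : chkC1 52 10 43 5 5 3 rd10_123.me rd10_123.mo gs10 [rd10_123.c0, rd10_123.c1] true
    (Nat.beq (10 % 2) 0) rd10_123.v2 = true := by decide +kernel

/-- run 124 -/
def rd10_124 : CRun :=
  ⟨40, 3478, 40, 2609, 10, 9,
    2582249878086908589655919172003011874329705793477125841444376221545054308023718954836115067257433079608252104424570852493,
    2582249878086908589655919172003011874329705793093778415499530104916667868810013693107957002244237722391991075995278000353,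
    2074757784440496479256203931845580575506223113433093669489479830778298120803363546069122980453109752123730931130665703691227029439685822019208128609755631929123931660876826948440853,
    [120218673, 20079607, 80030864, 12830937, 34816740, 5301397]⟩

set_option maxRecDepth 100000 in
theorem rk10_124_0 : chkC1 52 10 43 5 5 3 rd10_124.me rd10_124.mo gs10 [rd10_124.c0, rd10_124.c1] false
    (Nat.beq (10 % 2) 1) rd10_124.v0 = true := by decide +kernel

set_option maxRecDepth 100000 in
theorem rk10_124_1 : chkC2 52 10 43 5 5 3 rd10_124.me rd10_124.mo gs10 [rd10_124.c0, rd10_124.c1]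
    rd10_124.v1 = true := by decide +kernel

set_option maxRecDepth 100000 in
theorem rk10_124_2 : chkC1 52 10 43 5 5 3 rd10_124.me rd10_124.mo gs10 [rd10_124.c0, rd10_124.c1] true
    (Nat.beq (10 % 2) 0) rd10_124.v2 = true := by decide +kernel

/-- run 125 -/
def rd10_125 : CRun :=
  ⟨40, 3500, 40, 2615, 10, 9,
    2582249878086908589655919172003011874329705794589200977842061738358229441571569635899709012888615787391887877031655766104,
    2582249878086908589655919172003011874329705793525523397341773200744678937256291958128950188650431572948016005849740850713,
    2074757784440496479256203931845580575506223047911293548640668935535475199834501857303978652920788098521348639497418475221068335710535940204230051337719604653881615662219026493536646,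
    [271999164, 33094361, 215694615, 20816064, 163988507, 8184172]⟩

set_option maxRecDepth 100000 in
theorem rk10_125_0 : chkC1 52 10 43 5 5 3 rd10_125.me rd10_125.mo gs10 [rd10_125.c0, rd10_125.c1] false
    (Nat.beq (10 % 2) 1) rd10_125.v0 = true := by decide +kernel

set_option maxRecDepth 100000 in
theorem rk10_125_1 : chkC2 52 10 43 5 5 3 rd10_125.me rd10_125.mo gs10 [rd10_125.c0, rd10_125.c1]
    rd10_125.v1 = true := by decide +kernel

set_option maxRecDepth 100000 in
theorem rk10_125_2 : chkC1 52 10 43 5 5 3 rd10_125.me rd10_125.mo gs10 [rd10_125.c0, rd10_125.c1] true
    (Nat.beq (10 % 2) 0) rd10_125.v2 = true := by decide +kernel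

/-- run 126 -/
def rd10_126 : CRun :=
  ⟨40, 3506, 40, 2617, 10, 9,
    2582249878086908589655919172003011874329705793000617638512214447798721256625354910292367462231776481592754187442668749992,
    2582249878086908589655919172003011874329705792892967539662973263443078672651793587224432362016126213332877072603837634048,
    2074757784440496479256203931845580575506222981378381998912960528966080897214466445316538668384584983804165277214705263097889877072807816428197828724743091090082397864374882780509440,
    [423773032, 10327577, 322763706, 6298255, 228625537, 2189526]⟩

set_option maxRecDepth 100000 in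
theorem rk10_126_0 : chkC1 52 10 43 5 5 3 rd10_126.me rd10_126.mo gs10 [rd10_126.c0, rd10_126.c1] false
    (Nat.beq (10 % 2) 1) rd10_126.v0 = true := by decide +kernel

set_option maxRecDepth 100000 in
theorem rk10_126_1 : chkC2 52 10 43 5 5 3 rd10_126.me rd10_126.mo gs10 [rd10_126.c0, rd10_126.c1]
    rd10_126.v1 = true := by decide +kernel

set_option maxRecDepth 100000 in
theorem rk10_126_2 : chkC1 52 10 43 5 5 3 rd10_126.me rd10_126.mo gs10 [rd10_126.c0, rd10_126.c1] true
    (Nat.beq (10 % 2) 0) rd10_126.v2 = true := by decide +kernel

/-- run 127 -/
def rd10_127 : CRun :=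
  ⟨40, 3508, 40, 2627, 10, 9,
    2582249878086908589655919172003011874329705793691460184143401506009025021336659408024053034154128801659591163398415336565,
    2582249878086908589655919172003011874329705793169947483762408425105071323033618105293938975385019714682294502952551046406,
    2074757784440496479256203931845580575506223106560907457375420069860405945037414020232457656562780371878304492884087005925983516409241159123279971046637194177498863374214975011324406,
    [138363160, 23164007, 99256484, 14561355, 60875263, 5704209]⟩

set_option maxRecDepth 100000 in
theorem rk10_127_0 : chkC1 52 10 43 5 5 3 rd10_127.me rd10_127.mo gs10 [rd10_127.c0, rd10_127.c1] false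
    (Nat.beq (10 % 2) 1) rd10_127.v0 = true := by decide +kernel

set_option maxRecDepth 100000 in
theorem rk10_127_1 : chkC2 52 10 43 5 5 3 rd10_127.me rd10_127.mo gs10 [rd10_127.c0, rd10_127.c1]
    rd10_127.v1 = true := by decide +kernel

set_option maxRecDepth 100000 in
theorem rk10_127_2 : chkC1 52 10 43 5 5 3 rd10_127.me rd10_127.mo gs10 [rd10_127.c0, rd10_127.c1] true
    (Nat.beq (10 % 2) 0) rd10_127.v2 = true := by decide +kernel

/-- runs of this file -/
def rds10_15 : List CRun :=
  [rd10_120, rd10_121, rd10_122, rd10_123, rd10_124, rd10_125, rd10_126, rd10_127]

theorem ac10_15 : allC 52 10 43 5 5 3 gs10 rds10_15 :=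
  allC_cons rk10_120_0 rk10_120_1 rk10_120_2
    (allC_cons rk10_121_0 rk10_121_1 rk10_121_2
    (allC_cons rk10_122_0 rk10_122_1 rk10_122_2
    (allC_cons rk10_123_0 rk10_123_1 rk10_123_2
    (allC_cons rk10_124_0 rk10_124_1 rk10_124_2
    (allC_cons rk10_125_0 rk10_125_1 rk10_125_2
    (allC_cons rk10_126_0 rk10_126_1 rk10_126_2
    (allC_cons rk10_127_0 rk10_127_1 rk10_127_2
    (allC_nil))))))))

end Crest.Agent.R347
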