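import Crest.Agent.R347.G10c

/-! Row 347, Chebyshev numerics, ring with 10 sites: run certificates 128..135 (generated) -/

set_option autoImplicit false
set_option Elab.async false

namespace Crest.Agent.R347

/-- run 128 -/
def rd10_128 : CRun :=
  ⟨40, 3518, 40, 2633, 10, 9,
    2582249878086908589655919172003011874329705794280044840831708588874736646052879818699713575937365661587471206326510942026,
    2582249878086908589655919172003011874329705793343720217651086142275974054561996438444874118159305440454597305009900622711,
    2074757784440496479256203931845580575506222957140865138990682634354716582406359117770021769666889750345679630634963487823793604046876784457569249325496655008781146548103217347498524,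
    [440457995, 30047435, 344064361, 17893354, 255340562, 5524732]⟩

set_option maxRecDepth 100000 in
theorem rk10_128_0 : chkC1 52 10 43 5 5 3 rd10_128.me rd10_128.mo gs10 [rd10_128.c0, rd10_128.c1] false
    (Nat.beq (10 % 2) 1) rd10_128.v0 = true := by decide +kernel

set_option maxRecDepth 100000 in
theorem rk10_128_1 : chkC2 52 10 43 5 5 3 rd10_128.me rd10_128.mo gs10 [rd10_128.c0, rd10_128.c1]
    rd10_128.v1 = true := by decide +kernel

set_option maxRecDepth 100000 in
theorem rk10_128_2 : chkC1 52 10 43 5 5 3 rd10_128.me rd10_128.mo gs10 [rd10_128.c0, rd10_128.c1] true
    (Nat.beq (10 % 2) 0) rd10_128.v2 = true := by decide +kernel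

/-- run 129 -/
def rd10_129 : CRun :=
  ⟨40, 3524, 40, 2635, 10, 9,
    2582249878086908589655919172003011874329705793076069679614643047945889197848528437997828479304418797210128268948923156555,
    2582249878086908589655919172003011874329705792912777187716259102396912619262857713726604372100684298787000584635523476196,
    2074757784440496479256203931845580575506223007297302946341276836611789686193064207151169294362825792234378218464365983831382401627809521200051790969878120145755249456928757393863730,
    [533312099, 12394061, 372211870, 7210797, 209636179, 1843360]⟩

set_option maxRecDepth 100000 in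
theorem rk10_129_0 : chkC1 52 10 43 5 5 3 rd10_129.me rd10_129.mo gs10 [rd10_129.c0, rd10_129.c1] false
    (Nat.beq (10 % 2) 1) rd10_129.v0 = true := by decide +kernel

set_option maxRecDepth 100000 in
theorem rk10_129_1 : chkC2 52 10 43 5 5 3 rd10_129.me rd10_129.mo gs10 [rd10_129.c0, rd10_129.c1]
    rd10_129.v1 = true := by decide +kernel

set_option maxRecDepth 100000 in
theorem rk10_129_2 : chkC1 52 10 43 5 5 3 rd10_129.me rd10_129.mo gs10 [rd10_129.c0, rd10_129.c1] true
    (Nat.beq (10 % 2) 0) rd10_129.v2 = true := by decide +kernel

/-- run 130 -/
def rd10_130 : CRun :=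
  ⟨40, 3526, 40, 2639, 10, 9,
    2582249878086908589655919172003011874329705793489489269326427576600324530833222590742514879349849196919667520433761158002,
    2582249878086908589655919172003011874329705793052159235983116073670621811755172359597669906797390325616438309362233671843,
    2074757784440496479256203931845580575506223109810850584562377243386318615722599569669448740491219622085002729349770630407286775091037458760532910364169049572853901448613334477051807,
    [224651382, 20270284, 145363567, 11778508, 50543118, 2978199]⟩

set_option maxRecDepth 100000 in
theorem rk10_130_0 : chkC1 52 10 43 5 5 3 rd10_130.me rd10_130.mo gs10 [rd10_130.c0, rd10_130.c1] false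
    (Nat.beq (10 % 2) 1) rd10_130.v0 = true := by decide +kernel

set_option maxRecDepth 100000 in
theorem rk10_130_1 : chkC2 52 10 43 5 5 3 rd10_130.me rd10_130.mo gs10 [rd10_130.c0, rd10_130.c1]
    rd10_130.v1 = true := by decide +kernel

set_option maxRecDepth 100000 in
theorem rk10_130_2 : chkC1 52 10 43 5 5 3 rd10_130.me rd10_130.mo gs10 [rd10_130.c0, rd10_130.c1] true
    (Nat.beq (10 % 2) 0) rd10_130.v2 = true := by decide +kernel

/-- run 131 -/
def rd10_131 : CRun :=
  ⟨40, 3530, 40, 2641, 10, 9,
    2582249878086908589655919172003011874329705792924433742780331148105423614713520073107040835729956033601644145523366868304,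
    2582249878086908589655919172003011874329705792861953705014009618694933581052037809922211448680860845442427899873634245935,
    2074757784440496479256203931845580575506223114913828845955368758269120076546824493883846234432652826651623896336178176548965202936683248569995424425429185362331838252139087926784161,
    [391084910, 7697368, 245640757, 4513098, 45092173, 1227702]⟩

set_option maxRecDepth 100000 in
theorem rk10_131_0 : chkC1 52 10 43 5 5 3 rd10_131.me rd10_131.mo gs10 [rd10_131.c0, rd10_131.c1] false
    (Nat.beq (10 % 2) 1) rd10_131.v0 = true := by decide +kernel

set_option maxRecDepth 100000 in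
theorem rk10_131_1 : chkC2 52 10 43 5 5 3 rd10_131.me rd10_131.mo gs10 [rd10_131.c0, rd10_131.c1]
    rd10_131.v1 = true := by decide +kernel

set_option maxRecDepth 100000 in
theorem rk10_131_2 : chkC1 52 10 43 5 5 3 rd10_131.me rd10_131.mo gs10 [rd10_131.c0, rd10_131.c1] true
    (Nat.beq (10 % 2) 0) rd10_131.v2 = true := by decide +kernel

/-- run 132 -/
def rd10_132 : CRun :=
  ⟨20, 3532, 40, 2651, 10, 9,
    2582249878086908589655919172003011874329705793103019417511606988936118490073432968218084804361211162541300119224257562279,
    2582249878086908589655919172003011874329705792922256570891520252858938536984670167388194503842040232710290587474755126586,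
    2074757784440496479256203931845580575506223116285011703783524969068794620451528908646362672804228981244399264801932182190627086988412227003980191315882793989030853933115858935439153,
    [150082186, 13053108, 93490378, 7608852, 7967147, 1987732]⟩

set_option maxRecDepth 100000 in
theorem rk10_132_0 : chkC1 52 10 43 5 5 3 rd10_132.me rd10_132.mo gs10 [rd10_132.c0, rd10_132.c1] false
    (Nat.beq (10 % 2) 1) rd10_132.v0 = true := by decide +kernel

set_option maxRecDepth 100000 in
theorem rk10_132_1 : chkC2 52 10 43 5 5 3 rd10_132.me rd10_132.mo gs10 [rd10_132.c0, rd10_132.c1]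
    rd10_132.v1 = true := by decide +kernel

set_option maxRecDepth 100000 in
theorem rk10_132_2 : chkC1 52 10 43 5 5 3 rd10_132.me rd10_132.mo gs10 [rd10_132.c0, rd10_132.c1] true
    (Nat.beq (10 % 2) 0) rd10_132.v2 = true := by decide +kernel

/-- run 133 -/
def rd10_133 : CRun :=
  ⟨40, 3542, 40, 2653, 10, 9,
    2582249878086908589655919172003011874329705792961238367441484137701161384348571461706400532033125542950230499446837907096,
    2582249878086908589655919172003011874329705792876119437101634911099806606937875921390179552750960611095331298710262510409,
    2074757784440496479256203931845580575506223113585957400541284645337067862039476342659633579224069351485750573021914094368008018744956945736671771706131282931377449357268723395074600,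
    [242279082, 9063832, 152696080, 5402167, 32991313, 1651530]⟩

set_option maxRecDepth 100000 in
theorem rk10_133_0 : chkC1 52 10 43 5 5 3 rd10_133.me rd10_133.mo gs10 [rd10_133.c0, rd10_133.c1] false
    (Nat.beq (10 % 2) 1) rd10_133.v0 = true := by decide +kernel

set_option maxRecDepth 100000 in
theorem rk10_133_1 : chkC2 52 10 43 5 5 3 rd10_133.me rd10_133.mo gs10 [rd10_133.c0, rd10_133.c1]
    rd10_133.v1 = true := by decide +kernel

set_option maxRecDepth 100000 in
theorem rk10_133_2 : chkC1 52 10 43 5 5 3 rd10_133.me rd10_133.mo gs10 [rd10_133.c0, rd10_133.c1] true
    (Nat.beq (10 % 2) 0) rd10_133.v2 = true := by decide +kernel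

/-- run 134 -/
def rd10_134 : CRun :=
  ⟨40, 3544, 40, 2657, 10, 9,
    2582249878086908589655919172003011874329705792961235686188799549271299827877450232473280555028067621330556353710865477717,
    2582249878086908589655919172003011874329705792875823948943154604861798087689568779761832899363632427742065478477750332008,
    2074757784440496479256203931845580575506223115819389375732320850236344653613647172318730678852355959615512046834254982441603777010155310619069381054330634448237573088510958098079087,
    [173407101, 9063740, 108340163, 5385121, 11420375, 1623398]⟩

set_option maxRecDepth 100000 in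
theorem rk10_134_0 : chkC1 52 10 43 5 5 3 rd10_134.me rd10_134.mo gs10 [rd10_134.c0, rd10_134.c1] false
    (Nat.beq (10 % 2) 1) rd10_134.v0 = true := by decide +kernel

set_option maxRecDepth 100000 in
theorem rk10_134_1 : chkC2 52 10 43 5 5 3 rd10_134.me rd10_134.mo gs10 [rd10_134.c0, rd10_134.c1]
    rd10_134.v1 = true := by decide +kernel

set_option maxRecDepth 100000 in
theorem rk10_134_2 : chkC1 52 10 43 5 5 3 rd10_134.me rd10_134.mo gs10 [rd10_134.c0, rd10_134.c1] true
    (Nat.beq (10 % 2) 0) rd10_134.v2 = true := by decide +kernel

/-- run 135 -/
def rd10_135 : CRun :=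
  ⟨40, 3548, 40, 2659, 10, 9,
    2582249878086908589655919172003011874329705792866982351719602403726324313956669304065809618241088638557747541009466192777,
    2582249878086908589655919172003011874329705792843109594262450467364604854216874977924798535366034209672936414922677161991,
    2074757784440496479256203931845580575506223115922419158029445411977757322016268413188434736113960721271317957432153378798730504650623714405220708435186700568766248837899536396016511,
    [180722869, 4847410, 113125505, 2939614, 15535594, 1002563]⟩

set_option maxRecDepth 100000 in
theorem rk10_135_0 : chkC1 52 10 43 5 5 3 rd10_135.me rd10_135.mo gs10 [rd10_135.c0, rd10_135.c1] false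
    (Nat.beq (10 % 2) 1) rd10_135.v0 = true := by decide +kernel

set_option maxRecDepth 100000 in
theorem rk10_135_1 : chkC2 52 10 43 5 5 3 rd10_135.me rd10_135.mo gs10 [rd10_135.c0, rd10_135.c1]
    rd10_135.v1 = true := by decide +kernel

set_option maxRecDepth 100000 in
theorem rk10_135_2 : chkC1 52 10 43 5 5 3 rd10_135.me rd10_135.mo gs10 [rd10_135.c0, rd10_135.c1] true
    (Nat.beq (10 % 2) 0) rd10_135.v2 = true := by decide +kernel

/-- runs of this file -/
def rds10_16 : List CRun :=
  [rd10_128, rd10_129, rd10_130, rd10_131, rd10_132, rd10_133, rd10_134, rd10_135]

theorem ac10_16 : allC 52 10 43 5 5 3 gs10 rds10_16 :=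
  allC_cons rk10_128_0 rk10_128_1 rk10_128_2
    (allC_cons rk10_129_0 rk10_129_1 rk10_129_2
    (allC_cons rk10_130_0 rk10_130_1 rk10_130_2
    (allC_cons rk10_131_0 rk10_131_1 rk10_131_2
    (allC_cons rk10_132_0 rk10_132_1 rk10_132_2
    (allC_cons rk10_133_0 rk10_133_1 rk10_133_2
    (allC_cons rk10_134_0 rk10_134_1 rk10_134_2
    (allC_cons rk10_135_0 rk10_135_1 rk10_135_2
    (allC_nil))))))))

end Crest.Agent.R347
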