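import Crest.Agent.R347.G10c

/-! Row 347, Chebyshev numerics, ring with 10 sites: run certificates 136..143 (generated) -/

set_option autoImplicit false
set_option Elab.async false

namespace Crest.Agent.R347

/-- run 136 -/
def rd10_136 : CRun :=
  ⟨20, 3572, 40, 2717, 10, 9,
    2582249878086908589655919172003011874329705794403151248050084752010676063261998239868097270760111177606697695004522744517,
    2582249878086908589655919172003011874329705793483122427542758073486344840320652825713134496758126127185921948690899476607,
    2074757784440496479256203931845580575506223110911891226554146909525505460931229567928540726322644348864608504124186812454451585709551700105667894913145317771015000687781025472518373,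
    [111762867, 31296288, 79227487, 20172316, 47320910, 8558651]⟩

set_option maxRecDepth 100000 in
theorem rk10_136_0 : chkC1 52 10 43 5 5 3 rd10_136.me rd10_136.mo gs10 [rd10_136.c0, rd10_136.c1] false
    (Nat.beq (10 % 2) 1) rd10_136.v0 = true := by decide +kernel

set_option maxRecDepth 100000 in
theorem rk10_136_1 : chkC2 52 10 43 5 5 3 rd10_136.me rd10_136.mo gs10 [rd10_136.c0, rd10_136.c1]
    rd10_136.v1 = true := by decide +kernel

set_option maxRecDepth 100000 in
theorem rk10_136_2 : chkC1 52 10 43 5 5 3 rd10_136.me rd10_136.mo gs10 [rd10_136.c0, rd10_136.c1] true
    (Nat.beq (10 % 2) 0) rd10_136.v2 = true := by decide +kernel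

/-- run 137 -/
def rd10_137 : CRun :=
  ⟨20, 3578, 40, 2723, 10, 9,
    2582249878086908589655919172003011874329705794663248147800457920141030496000368527178532073316552257257889597070309309354,
    2582249878086908589655919172003011874329705793552950481010358158060323925142767999441288065301806863507110510995117491204,
    2074757784440496479256203931845580575506223115731147005098397106991182421558516789198867561414819326686953592310341662593616489783233201450789826468358840029247492249109908869298226,
    [213520028, 33783374, 133678277, 21222074, 24726961, 8321778]⟩

set_option maxRecDepth 100000 in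
theorem rk10_137_0 : chkC1 52 10 43 5 5 3 rd10_137.me rd10_137.mo gs10 [rd10_137.c0, rd10_137.c1] false
    (Nat.beq (10 % 2) 1) rd10_137.v0 = true := by decide +kernel

set_option maxRecDepth 100000 in
theorem rk10_137_1 : chkC2 52 10 43 5 5 3 rd10_137.me rd10_137.mo gs10 [rd10_137.c0, rd10_137.c1]
    rd10_137.v1 = true := by decide +kernel

set_option maxRecDepth 100000 in
theorem rk10_137_2 : chkC1 52 10 43 5 5 3 rd10_137.me rd10_137.mo gs10 [rd10_137.c0, rd10_137.c1] true
    (Nat.beq (10 % 2) 0) rd10_137.v2 = true := by decide +kernel

/-- run 138 -/
def rd10_138 : CRun :=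
  ⟨40, 3580, 40, 2725, 10, 9,
    2582249878086908589655919172003011874329705792993914298129301633358736600461775491552980008894175604752910497193881495642,
    2582249878086908589655919172003011874329705792890224273088701336143247905397266292232000161164825382350197282520223564831,
    2074757784440496479256203931845580575506223116048305108230696790772795668305393255983552430409571246504763595986184286760063375457032892932555636679553495860939959478340473905580856,
    [104129959, 10123603, 65011050, 6161240, 8757280, 2125129]⟩

set_option maxRecDepth 100000 in
theorem rk10_138_0 : chkC1 52 10 43 5 5 3 rd10_138.me rd10_138.mo gs10 [rd10_138.c0, rd10_138.c1] false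
    (Nat.beq (10 % 2) 1) rd10_138.v0 = true := by decide +kernel

set_option maxRecDepth 100000 in
theorem rk10_138_1 : chkC2 52 10 43 5 5 3 rd10_138.me rd10_138.mo gs10 [rd10_138.c0, rd10_138.c1]
    rd10_138.v1 = true := by decide +kernel

set_option maxRecDepth 100000 in
theorem rk10_138_2 : chkC1 52 10 43 5 5 3 rd10_138.me rd10_138.mo gs10 [rd10_138.c0, rd10_138.c1] true
    (Nat.beq (10 % 2) 0) rd10_138.v2 = true := by decide +kernel

/-- run 139 -/
def rd10_139 : CRun :=
  ⟨20, 3584, 40, 2735, 10, 9,
    2582249878086908589655919172003011874329705801389688868379195357631894251348343532468015362368643889301747145795650540244,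
    2582249878086908589655919172003011874329705796406186043886516891376040025579394402477506721066255309513956082381045948099,
    2074757784440496479256203931845580575506223106384978641957571102480056661795596899509022521746330341566532559740962615724114139681079842961327866712637677056521238167210684152952122,
    [303393827, 72987607, 198329021, 47179967, 73954841, 20154603]⟩

set_option maxRecDepth 100000 in
theorem rk10_139_0 : chkC1 52 10 43 5 5 3 rd10_139.me rd10_139.mo gs10 [rd10_139.c0, rd10_139.c1] false
    (Nat.beq (10 % 2) 1) rd10_139.v0 = true := by decide +kernel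

set_option maxRecDepth 100000 in
theorem rk10_139_1 : chkC2 52 10 43 5 5 3 rd10_139.me rd10_139.mo gs10 [rd10_139.c0, rd10_139.c1]
    rd10_139.v1 = true := by decide +kernel

set_option maxRecDepth 100000 in
theorem rk10_139_2 : chkC1 52 10 43 5 5 3 rd10_139.me rd10_139.mo gs10 [rd10_139.c0, rd10_139.c1] true
    (Nat.beq (10 % 2) 0) rd10_139.v2 = true := by decide +kernel

/-- run 140 -/
def rd10_140 : CRun :=
  ⟨20, 3598, 40, 2741, 10, 9,
    2582249878086908589655919172003011874329705798404813445537165062747652078681348006386294814258839452528191012330760683777,
    2582249878086908589655919172003011874329705794917719497902189979114752931361856912993197227219599149863235494257373628073,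
    2074757784440496479256203931845580575506223115359272273768779401374483686213209858932579769908985151501096972248282565685485563254726753528351669754327304585870385833159465040588870,
    [77949672, 58904144, 50497022, 36050996, 17296041, 12797159]⟩

set_option maxRecDepth 100000 in
theorem rk10_140_0 : chkC1 52 10 43 5 5 3 rd10_140.me rd10_140.mo gs10 [rd10_140.c0, rd10_140.c1] false
    (Nat.beq (10 % 2) 1) rd10_140.v0 = true := by decide +kernel

set_option maxRecDepth 100000 in
theorem rk10_140_1 : chkC2 52 10 43 5 5 3 rd10_140.me rd10_140.mo gs10 [rd10_140.c0, rd10_140.c1]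
    rd10_140.v1 = true := by decide +kernel

set_option maxRecDepth 100000 in
theorem rk10_140_2 : chkC1 52 10 43 5 5 3 rd10_140.me rd10_140.mo gs10 [rd10_140.c0, rd10_140.c1] true
    (Nat.beq (10 % 2) 0) rd10_140.v2 = true := by decide +kernel

/-- run 141 -/
def rd10_141 : CRun :=
  ⟨40, 3776, 40, 2743, 10, 9,
    2582249878086908589655919172003011874329705793545662844795412656407361017692236232016183021543664790646090833287690226896,
    2582249878086908589655919172003011874329705793079451146530974077516495139201548661078204845814315402508661842093342463513,
    2074757784440496479256203931845580575506222966183699212381382221351730221820106037803053119366213976742767230045880458818303540790967664634957573032347437272656242237398381164992687,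
    [414076349, 21114955, 324467276, 12478664, 241943934, 3611333]⟩

set_option maxRecDepth 100000 in
theorem rk10_141_0 : chkC1 52 10 43 5 5 3 rd10_141.me rd10_141.mo gs10 [rd10_141.c0, rd10_141.c1] false
    (Nat.beq (10 % 2) 1) rd10_141.v0 = true := by decide +kernel

set_option maxRecDepth 100000 in
theorem rk10_141_1 : chkC2 52 10 43 5 5 3 rd10_141.me rd10_141.mo gs10 [rd10_141.c0, rd10_141.c1]
    rd10_141.v1 = true := by decide +kernel

set_option maxRecDepth 100000 in
theorem rk10_141_2 : chkC1 52 10 43 5 5 3 rd10_141.me rd10_141.mo gs10 [rd10_141.c0, rd10_141.c1] true
    (Nat.beq (10 % 2) 0) rd10_141.v2 = true := by decide +kernel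

/-- run 142 -/
def rd10_142 : CRun :=
  ⟨40, 3788, 40, 2747, 10, 9,
    2582249878086908589655919172003011874329705794369101257092399347527543400965969466632580513071039768668551640202344033354,
    2582249878086908589655919172003011874329705793347340512559973670797108943278073879862565435546509240757688130374306712115,
    2074757784440496479256203931845580575506222870847521274439020960543097421298549333785315531240016912386122978205463736476366998950835513028485503237983443935845829259981364595597201,
    [509697359, 30955909, 405932383, 17956197, 310290888, 4517211]⟩

set_option maxRecDepth 100000 in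
theorem rk10_142_0 : chkC1 52 10 43 5 5 3 rd10_142.me rd10_142.mo gs10 [rd10_142.c0, rd10_142.c1] false
    (Nat.beq (10 % 2) 1) rd10_142.v0 = true := by decide +kernel

set_option maxRecDepth 100000 in
theorem rk10_142_1 : chkC2 52 10 43 5 5 3 rd10_142.me rd10_142.mo gs10 [rd10_142.c0, rd10_142.c1]
    rd10_142.v1 = true := by decide +kernel

set_option maxRecDepth 100000 in
theorem rk10_142_2 : chkC1 52 10 43 5 5 3 rd10_142.me rd10_142.mo gs10 [rd10_142.c0, rd10_142.c1] true
    (Nat.beq (10 % 2) 0) rd10_142.v2 = true := by decide +kernel

/-- run 143 -/
def rd10_143 : CRun :=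
  ⟨40, 3794, 40, 2749, 10, 9,
    2582249878086908589655919172003011874329705793022282566747945569355781330383363441323874173210967661153959378665549842972,
    2582249878086908589655919172003011874329705792894089343674301254238657745602861972380295009296774826412402939561669234679,
    2074757784440496479256203931845580575506222979931581871506562650845042325023525616175360459698640909495198451810414500096779125967449555096577221501039305633126528501775858553903568,
    [446262155, 10960883, 334706632, 6353433, 229782022, 1560999]⟩

set_option maxRecDepth 100000 in
theorem rk10_143_0 : chkC1 52 10 43 5 5 3 rd10_143.me rd10_143.mo gs10 [rd10_143.c0, rd10_143.c1] false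
    (Nat.beq (10 % 2) 1) rd10_143.v0 = true := by decide +kernel

set_option maxRecDepth 100000 in
theorem rk10_143_1 : chkC2 52 10 43 5 5 3 rd10_143.me rd10_143.mo gs10 [rd10_143.c0, rd10_143.c1]
    rd10_143.v1 = true := by decide +kernel

set_option maxRecDepth 100000 in
theorem rk10_143_2 : chkC1 52 10 43 5 5 3 rd10_143.me rd10_143.mo gs10 [rd10_143.c0, rd10_143.c1] true
    (Nat.beq (10 % 2) 0) rd10_143.v2 = true := by decide +kernel

/-- runs of this file -/
def rds10_17 : List CRun :=
  [rd10_136, rd10_137, rd10_138, rd10_139, rd10_140, rd10_141, rd10_142, rd10_143]

theorem ac10_17 : allC 52 10 43 5 5 3 gs10 rds10_17 :=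
  allC_cons rk10_136_0 rk10_136_1 rk10_136_2
    (allC_cons rk10_137_0 rk10_137_1 rk10_137_2
    (allC_cons rk10_138_0 rk10_138_1 rk10_138_2
    (allC_cons rk10_139_0 rk10_139_1 rk10_139_2
    (allC_cons rk10_140_0 rk10_140_1 rk10_140_2
    (allC_cons rk10_141_0 rk10_141_1 rk10_141_2
    (allC_cons rk10_142_0 rk10_142_1 rk10_142_2
    (allC_cons rk10_143_0 rk10_143_1 rk10_143_2
    (allC_nil))))))))

end Crest.Agent.R347
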