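import Crest.Agent.R347.G10c

/-! Row 347, Chebyshev numerics, ring with 10 sites: run certificates 144..151 (generated) -/

set_option autoImplicit false
set_option Elab.async false

namespace Crest.Agent.R347

/-- run 144 -/
def rd10_144 : CRun :=
  ⟨40, 3796, 40, 2771, 10, 9,
    2582249878086908589655919172003011874329705793766883026926041881071131544423861078615580933883511019280667636848193627747,
    2582249878086908589655919172003011874329705793198197734733300028566529152202315574534890057825598146802939862353702257713,
    2074757784440496479256203931845580575506223104771257324602280307454612279088648737140537277654152323944538651217979854299187312780995457592806230740556405320791748641154939754166517,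
    [164431268, 24155889, 115653534, 15152994, 66357282, 5880060]⟩

set_option maxRecDepth 100000 in
theorem rk10_144_0 : chkC1 52 10 43 5 5 3 rd10_144.me rd10_144.mo gs10 [rd10_144.c0, rd10_144.c1] false
    (Nat.beq (10 % 2) 1) rd10_144.v0 = true := by decide +kernel

set_option maxRecDepth 100000 in
theorem rk10_144_1 : chkC2 52 10 43 5 5 3 rd10_144.me rd10_144.mo gs10 [rd10_144.c0, rd10_144.c1]
    rd10_144.v1 = true := by decide +kernel

set_option maxRecDepth 100000 in
theorem rk10_144_2 : chkC1 52 10 43 5 5 3 rd10_144.me rd10_144.mo gs10 [rd10_144.c0, rd10_144.c1] true
    (Nat.beq (10 % 2) 0) rd10_144.v2 = true := by decide +kernel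

/-- run 145 -/
def rd10_145 : CRun :=
  ⟨20, 3800, 40, 2777, 10, 9,
    2582249878086908589655919172003011874329705795313692795568396379858618305195587933550525859721840793557110420585701501883,
    2582249878086908589655919172003011874329705793750242366091247656457705461175437736325003699613138720732077765077219642261,
    2074757784440496479256203931845580575506223105113299263837563628075975169363048925798902937509878713526662591474370350444282289421393158673248167086672142139446309603461953140054108,
    [217048686, 39320339, 145151527, 23940582, 65864723, 8247276]⟩

set_option maxRecDepth 100000 in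
theorem rk10_145_0 : chkC1 52 10 43 5 5 3 rd10_145.me rd10_145.mo gs10 [rd10_145.c0, rd10_145.c1] false
    (Nat.beq (10 % 2) 1) rd10_145.v0 = true := by decide +kernel

set_option maxRecDepth 100000 in
theorem rk10_145_1 : chkC2 52 10 43 5 5 3 rd10_145.me rd10_145.mo gs10 [rd10_145.c0, rd10_145.c1]
    rd10_145.v1 = true := by decide +kernel

set_option maxRecDepth 100000 in
theorem rk10_145_2 : chkC1 52 10 43 5 5 3 rd10_145.me rd10_145.mo gs10 [rd10_145.c0, rd10_145.c1] true
    (Nat.beq (10 % 2) 0) rd10_145.v2 = true := by decide +kernel

/-- run 146 -/
def rd10_146 : CRun :=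
  ⟨20, 3824, 40, 2779, 10, 9,
    2582249878086908589655919172003011874329705793108381035940136340392088113639884519019369923408933655825993913855585426856,
    2582249878086908589655919172003011874329705792926358710238119108512065519654485915777661809389255171546219451291858693027,
    2074757784440496479256203931845580575506222870129569686787639886671194972242769361446670694591988796718944638848688376065968898008794454886574596836215645071222536252156828775064929,
    [508771641, 13180295, 405421473, 7774792, 309912380, 2232608]⟩

set_option maxRecDepth 100000 in
theorem rk10_146_0 : chkC1 52 10 43 5 5 3 rd10_146.me rd10_146.mo gs10 [rd10_146.c0, rd10_146.c1] false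
    (Nat.beq (10 % 2) 1) rd10_146.v0 = true := by decide +kernel

set_option maxRecDepth 100000 in
theorem rk10_146_1 : chkC2 52 10 43 5 5 3 rd10_146.me rd10_146.mo gs10 [rd10_146.c0, rd10_146.c1]
    rd10_146.v1 = true := by decide +kernel

set_option maxRecDepth 100000 in
theorem rk10_146_2 : chkC1 52 10 43 5 5 3 rd10_146.me rd10_146.mo gs10 [rd10_146.c0, rd10_146.c1] true
    (Nat.beq (10 % 2) 0) rd10_146.v2 = true := by decide +kernel

/-- run 147 -/
def rd10_147 : CRun :=
  ⟨40, 3830, 40, 2789, 10, 9,
    2582249878086908589655919172003011874329705795584518945228195826168527552512606303134779603640000075438541841017395468367,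
    2582249878086908589655919172003011874329705793869075359438457778250235373566246939590776727356763800474005663419654451535,
    2074757784440496479256203931845580575506222430496072418689115052714685301609113457309092012414855821681979997695881779473576428590350080998222873722620483928791476843548383807168887,
    [907970078, 41408026, 708799913, 25438188, 523487980, 9113970]⟩

set_option maxRecDepth 100000 in
theorem rk10_147_0 : chkC1 52 10 43 5 5 3 rd10_147.me rd10_147.mo gs10 [rd10_147.c0, rd10_147.c1] false
    (Nat.beq (10 % 2) 1) rd10_147.v0 = true := by decide +kernel

set_option maxRecDepth 100000 in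
theorem rk10_147_1 : chkC2 52 10 43 5 5 3 rd10_147.me rd10_147.mo gs10 [rd10_147.c0, rd10_147.c1]
    rd10_147.v1 = true := by decide +kernel

set_option maxRecDepth 100000 in
theorem rk10_147_2 : chkC1 52 10 43 5 5 3 rd10_147.me rd10_147.mo gs10 [rd10_147.c0, rd10_147.c1] true
    (Nat.beq (10 % 2) 0) rd10_147.v2 = true := by decide +kernel

/-- run 148 -/
def rd10_148 : CRun :=
  ⟨40, 3832, 40, 2795, 10, 9,
    2582249878086908589655919172003011874329705798304577527261259684439397291983039772404555350221581212329108375988588537061,
    2582249878086908589655919172003011874329705794688437410747947623869697398618069215031516579633834357127355666920482682470,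
    2074757784440496479256203931845580575506223062989836702209221723718313900935632462366566811945031109179894266890527869246847198155449418776308389797485856457947654396883503889139800,
    [294514015, 58372264, 219047984, 34014580, 146761186, 9024327]⟩

set_option maxRecDepth 100000 in
theorem rk10_148_0 : chkC1 52 10 43 5 5 3 rd10_148.me rd10_148.mo gs10 [rd10_148.c0, rd10_148.c1] false
    (Nat.beq (10 % 2) 1) rd10_148.v0 = true := by decide +kernel

set_option maxRecDepth 100000 in
theorem rk10_148_1 : chkC2 52 10 43 5 5 3 rd10_148.me rd10_148.mo gs10 [rd10_148.c0, rd10_148.c1]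
    rd10_148.v1 = true := by decide +kernel

set_option maxRecDepth 100000 in
theorem rk10_148_2 : chkC1 52 10 43 5 5 3 rd10_148.me rd10_148.mo gs10 [rd10_148.c0, rd10_148.c1] true
    (Nat.beq (10 % 2) 0) rd10_148.v2 = true := by decide +kernel

/-- run 149 -/
def rd10_149 : CRun :=
  ⟨40, 3842, 40, 2797, 10, 9,
    2582249878086908589655919172003011874329705793952994667896755748045155417791817469135028738287894612452440591076490705441,
    2582249878086908589655919172003011874329705793213292663230551912704023120159681557441760235108200101210159841086358949861,
    2074757784440496479256203931845580575506222896852466057372102097021197031401506422704012029925874464271447361434778771803677256265016512683509990370194375604028798036766639704979952,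
    [514627534, 26444745, 398887994, 15459846, 291449319, 4174240]⟩

set_option maxRecDepth 100000 in
theorem rk10_149_0 : chkC1 52 10 43 5 5 3 rd10_149.me rd10_149.mo gs10 [rd10_149.c0, rd10_149.c1] false
    (Nat.beq (10 % 2) 1) rd10_149.v0 = true := by decide +kernel

set_option maxRecDepth 100000 in
theorem rk10_149_1 : chkC2 52 10 43 5 5 3 rd10_149.me rd10_149.mo gs10 [rd10_149.c0, rd10_149.c1]
    rd10_149.v1 = true := by decide +kernel

set_option maxRecDepth 100000 in
theorem rk10_149_2 : chkC1 52 10 43 5 5 3 rd10_149.me rd10_149.mo gs10 [rd10_149.c0, rd10_149.c1] true
    (Nat.beq (10 % 2) 0) rd10_149.v2 = true := by decide +kernel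

/-- run 150 -/
def rd10_150 : CRun :=
  ⟨40, 3848, 40, 2801, 10, 9,
    2582249878086908589655919172003011874329705796827488796745329876124987488893481328429281558368794901393264691361265270117,
    2582249878086908589655919172003011874329705794245459993773751166193128438290785256722540145846718534840999253066562049867,
    2074757784440496479256203931845580575506222883283286994746561461506589100367264682915752204015094685425459243034889476010017726009959637257602103602880063320530229899862505572113174,
    [700395043, 49881125, 499911567, 29687138, 301621481, 9136737]⟩

set_option maxRecDepth 100000 in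
theorem rk10_150_0 : chkC1 52 10 43 5 5 3 rd10_150.me rd10_150.mo gs10 [rd10_150.c0, rd10_150.c1] false
    (Nat.beq (10 % 2) 1) rd10_150.v0 = true := by decide +kernel

set_option maxRecDepth 100000 in
theorem rk10_150_1 : chkC2 52 10 43 5 5 3 rd10_150.me rd10_150.mo gs10 [rd10_150.c0, rd10_150.c1]
    rd10_150.v1 = true := by decide +kernel

set_option maxRecDepth 100000 in
theorem rk10_150_2 : chkC1 52 10 43 5 5 3 rd10_150.me rd10_150.mo gs10 [rd10_150.c0, rd10_150.c1] true
    (Nat.beq (10 % 2) 0) rd10_150.v2 = true := by decide +kernel

/-- run 151 -/
def rd10_151 : CRun :=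
  ⟨40, 3850, 40, 2803, 10, 9,
    2582249878086908589655919172003011874329705793450911651737429457139037647186662164553877532685138639690930561369283936611,
    2582249878086908589655919172003011874329705793056568717812117987478739329897279115293378608121136788956744702044962185040,
    2074757784440496479256203931845580575506223098812474147906979134475917431357257961805920274934335964601664565262071391955426622604568672023755041055320299569377283163435583487382190,
    [294902469, 19669202, 195551628, 11894422, 83551970, 4006640]⟩

set_option maxRecDepth 100000 in
theorem rk10_151_0 : chkC1 52 10 43 5 5 3 rd10_151.me rd10_151.mo gs10 [rd10_151.c0, rd10_151.c1] false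
    (Nat.beq (10 % 2) 1) rd10_151.v0 = true := by decide +kernel

set_option maxRecDepth 100000 in
theorem rk10_151_1 : chkC2 52 10 43 5 5 3 rd10_151.me rd10_151.mo gs10 [rd10_151.c0, rd10_151.c1]
    rd10_151.v1 = true := by decide +kernel

set_option maxRecDepth 100000 in
theorem rk10_151_2 : chkC1 52 10 43 5 5 3 rd10_151.me rd10_151.mo gs10 [rd10_151.c0, rd10_151.c1] true
    (Nat.beq (10 % 2) 0) rd10_151.v2 = true := by decide +kernel

/-- runs of this file -/
def rds10_18 : List CRun :=
  [rd10_144, rd10_145, rd10_146, rd10_147, rd10_148, rd10_149, rd10_150, rd10_151]

theorem ac10_18 : allC 52 10 43 5 5 3 gs10 rds10_18 :=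
  allC_cons rk10_144_0 rk10_144_1 rk10_144_2
    (allC_cons rk10_145_0 rk10_145_1 rk10_145_2
    (allC_cons rk10_146_0 rk10_146_1 rk10_146_2
    (allC_cons rk10_147_0 rk10_147_1 rk10_147_2
    (allC_cons rk10_148_0 rk10_148_1 rk10_148_2
    (allC_cons rk10_149_0 rk10_149_1 rk10_149_2
    (allC_cons rk10_150_0 rk10_150_1 rk10_150_2
    (allC_cons rk10_151_0 rk10_151_1 rk10_151_2
    (allC_nil))))))))

end Crest.Agent.R347
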