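import Crest.Agent.R347.G10c

/-! Row 347, Chebyshev numerics, ring with 10 sites: run certificates 152..159 (generated) -/

set_option autoImplicit false
set_option Elab.async false

namespace Crest.Agent.R347

/-- run 152 -/
def rd10_152 : CRun :=
  ⟨40, 3854, 40, 2813, 10, 9,
    2582249878086908589655919172003011874329705794753428476131611068635880088952141097915522739570887290645182507985584713012,
    2582249878086908589655919172003011874329705793514181163356337858664133569478020678709684324733200111500008397870777279629,
    2074757784440496479256203931845580575506223103917583045173340500127876228730899143888143080876034189673203685109497919960464882863528900178115844847810072566184947183785620838234411,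
    [449069845, 34603984, 285133717, 20645828, 69435024, 6395254]⟩

set_option maxRecDepth 100000 in
theorem rk10_152_0 : chkC1 52 10 43 5 5 3 rd10_152.me rd10_152.mo gs10 [rd10_152.c0, rd10_152.c1] false
    (Nat.beq (10 % 2) 1) rd10_152.v0 = true := by decide +kernel

set_option maxRecDepth 100000 in
theorem rk10_152_1 : chkC2 52 10 43 5 5 3 rd10_152.me rd10_152.mo gs10 [rd10_152.c0, rd10_152.c1]
    rd10_152.v1 = true := by decide +kernel

set_option maxRecDepth 100000 in
theorem rk10_152_2 : chkC1 52 10 43 5 5 3 rd10_152.me rd10_152.mo gs10 [rd10_152.c0, rd10_152.c1] true
    (Nat.beq (10 % 2) 0) rd10_152.v2 = true := by decide +kernel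

/-- run 153 -/
def rd10_153 : CRun :=
  ⟨40, 3866, 40, 2815, 10, 9,
    2582249878086908589655919172003011874329705793935914997456492745065608994685005857881269394700611836409039355523561523213,
    2582249878086908589655919172003011874329705793250523779483197861815248057713632765702293069322164853901970003561883011795,
    2074757784440496479256203931845580575506223108642457424198965830482214945720544021043119248465238561058736196183460741466586622370688459605580297433536984820682562353014503367806291,
    [271731188, 26243015, 174560359, 16191844, 55262591, 5925406]⟩

set_option maxRecDepth 100000 in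
theorem rk10_153_0 : chkC1 52 10 43 5 5 3 rd10_153.me rd10_153.mo gs10 [rd10_153.c0, rd10_153.c1] false
    (Nat.beq (10 % 2) 1) rd10_153.v0 = true := by decide +kernel

set_option maxRecDepth 100000 in
theorem rk10_153_1 : chkC2 52 10 43 5 5 3 rd10_153.me rd10_153.mo gs10 [rd10_153.c0, rd10_153.c1]
    rd10_153.v1 = true := by decide +kernel

set_option maxRecDepth 100000 in
theorem rk10_153_2 : chkC1 52 10 43 5 5 3 rd10_153.me rd10_153.mo gs10 [rd10_153.c0, rd10_153.c1] true
    (Nat.beq (10 % 2) 0) rd10_153.v2 = true := by decide +kernel

/-- run 154 -/
def rd10_154 : CRun :=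
  ⟨20, 3868, 40, 2819, 10, 9,
    2582249878086908589655919172003011874329705794018251601202822663723374345684592797254193163088938934058573079734448598008,
    2582249878086908589655919172003011874329705793279096739832779955914677539518217304887307561786811806861866815370249459253,
    2074757784440496479256203931845580575506223116357770387668269743204191807828648169087138790520265774309770569064144625744955327393658119568944222085815831133768142276159936718179969,
    [189308743, 27201728, 118013780, 16731910, 9574546, 6070026]⟩

set_option maxRecDepth 100000 in
theorem rk10_154_0 : chkC1 52 10 43 5 5 3 rd10_154.me rd10_154.mo gs10 [rd10_154.c0, rd10_154.c1] false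
    (Nat.beq (10 % 2) 1) rd10_154.v0 = true := by decide +kernel

set_option maxRecDepth 100000 in
theorem rk10_154_1 : chkC2 52 10 43 5 5 3 rd10_154.me rd10_154.mo gs10 [rd10_154.c0, rd10_154.c1]
    rd10_154.v1 = true := by decide +kernel

set_option maxRecDepth 100000 in
theorem rk10_154_2 : chkC1 52 10 43 5 5 3 rd10_154.me rd10_154.mo gs10 [rd10_154.c0, rd10_154.c1] true
    (Nat.beq (10 % 2) 0) rd10_154.v2 = true := by decide +kernel

/-- run 155 -/
def rd10_155 : CRun :=
  ⟨20, 3872, 40, 2821, 10, 9,
    2582249878086908589655919172003011874329705793201124984928385677360729621566939796720976834823467718253087605815711229662,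
    2582249878086908589655919172003011874329705792975082497800529412779743967006749995759831297700000682558479688637591806720,
    2074757784440496479256203931845580575506223116138491858698399891198599967585397400619891115542385476634833379702385861143165644163034928285476521953159091742574572000156550937698664,
    [185171204, 15212984, 115246595, 9527239, 2598322, 3730280]⟩

set_option maxRecDepth 100000 in
theorem rk10_155_0 : chkC1 52 10 43 5 5 3 rd10_155.me rd10_155.mo gs10 [rd10_155.c0, rd10_155.c1] false
    (Nat.beq (10 % 2) 1) rd10_155.v0 = true := by decide +kernel

set_option maxRecDepth 100000 in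
theorem rk10_155_1 : chkC2 52 10 43 5 5 3 rd10_155.me rd10_155.mo gs10 [rd10_155.c0, rd10_155.c1]
    rd10_155.v1 = true := by decide +kernel

set_option maxRecDepth 100000 in
theorem rk10_155_2 : chkC1 52 10 43 5 5 3 rd10_155.me rd10_155.mo gs10 [rd10_155.c0, rd10_155.c1] true
    (Nat.beq (10 % 2) 0) rd10_155.v2 = true := by decide +kernel

/-- run 156 -/
def rd10_156 : CRun :=
  ⟨40, 3938, 40, 2827, 10, 9,
    2582249878086908589655919172003011874329705792845194711653153671715837570339081838533858016772682376511763320747197877130,
    2582249878086908589655919172003011874329705792835585972617863735681883556739339740020105767771266876730465277786195505432,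
    2074757784440496479256203931845580575506223043391003016839743253776397750704511495551637741737124830802048050033184712493510055005853587946055219497879439132714931485212231734583642,
    [314218881, 3152603, 238556436, 1989817, 167942691, 814252]⟩

set_option maxRecDepth 100000 in
theorem rk10_156_0 : chkC1 52 10 43 5 5 3 rd10_156.me rd10_156.mo gs10 [rd10_156.c0, rd10_156.c1] false
    (Nat.beq (10 % 2) 1) rd10_156.v0 = true := by decide +kernel

set_option maxRecDepth 100000 in
theorem rk10_156_1 : chkC2 52 10 43 5 5 3 rd10_156.me rd10_156.mo gs10 [rd10_156.c0, rd10_156.c1]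
    rd10_156.v1 = true := by decide +kernel

set_option maxRecDepth 100000 in
theorem rk10_156_2 : chkC1 52 10 43 5 5 3 rd10_156.me rd10_156.mo gs10 [rd10_156.c0, rd10_156.c1] true
    (Nat.beq (10 % 2) 0) rd10_156.v2 = true := by decide +kernel

/-- run 157 -/
def rd10_157 : CRun :=
  ⟨20, 3940, 40, 2843, 10, 9,
    2582249878086908589655919172003011874329705793186272458092467728241879243215378887100456422748250619026167051414277077747,
    2582249878086908589655919172003011874329705792953769791491462651395807517985404310769413052259515436130972507206337524310,
    2074757784440496479256203931845580575506223111360299300909344467987118401848315858302393784867001200157794437708974753088977901798853843416615586454407338341638041951090825890656009,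
    [99630138, 14906110, 71108752, 8803712, 42955702, 2555705]⟩

set_option maxRecDepth 100000 in
theorem rk10_157_0 : chkC1 52 10 43 5 5 3 rd10_157.me rd10_157.mo gs10 [rd10_157.c0, rd10_157.c1] false
    (Nat.beq (10 % 2) 1) rd10_157.v0 = true := by decide +kernel

set_option maxRecDepth 100000 in
theorem rk10_157_1 : chkC2 52 10 43 5 5 3 rd10_157.me rd10_157.mo gs10 [rd10_157.c0, rd10_157.c1]
    rd10_157.v1 = true := by decide +kernel

set_option maxRecDepth 100000 in
theorem rk10_157_2 : chkC1 52 10 43 5 5 3 rd10_157.me rd10_157.mo gs10 [rd10_157.c0, rd10_157.c1] true
    (Nat.beq (10 % 2) 0) rd10_157.v2 = true := by decide +kernel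

/-- run 158 -/
def rd10_158 : CRun :=
  ⟨40, 3950, 40, 2849, 10, 9,
    2582249878086908589655919172003011874329705794750019126452506292946754836866456915630752313141575224909918473451151019092,
    2582249878086908589655919172003011874329705793518534247900909414171813421522923948258741978001035365073932435232210745310,
    2074757784440496479256203931845580575506222798765863898923868434723303098469262391482149906007594572772383834270208939470017969770496606938084475234970691435412045420832738132145153,
    [602131678, 34573315, 475835143, 20711329, 359285001, 6610169]⟩

set_option maxRecDepth 100000 in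
theorem rk10_158_0 : chkC1 52 10 43 5 5 3 rd10_158.me rd10_158.mo gs10 [rd10_158.c0, rd10_158.c1] false
    (Nat.beq (10 % 2) 1) rd10_158.v0 = true := by decide +kernel

set_option maxRecDepth 100000 in
theorem rk10_158_1 : chkC2 52 10 43 5 5 3 rd10_158.me rd10_158.mo gs10 [rd10_158.c0, rd10_158.c1]
    rd10_158.v1 = true := by decide +kernel

set_option maxRecDepth 100000 in
theorem rk10_158_2 : chkC1 52 10 43 5 5 3 rd10_158.me rd10_158.mo gs10 [rd10_158.c0, rd10_158.c1] true
    (Nat.beq (10 % 2) 0) rd10_158.v2 = true := by decide +kernel

/-- run 159 -/
def rd10_159 : CRun :=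
  ⟨40, 3956, 40, 2851, 10, 9,
    2582249878086908589655919172003011874329705793329707338698265772155490234662963064624956896684279322607812853776397002642,
    2582249878086908589655919172003011874329705793018533599107631738963397369246505721413843810592195288502810282954369310634,
    2074757784440496479256203931845580575506222986010140105634407142173162380538601216875230534324000681980946340773155628143743638045999510810345159363531023814421460749383250872784049,
    [511093404, 17647999, 367733710, 10853938, 227972759, 3927296]⟩

set_option maxRecDepth 100000 in
theorem rk10_159_0 : chkC1 52 10 43 5 5 3 rd10_159.me rd10_159.mo gs10 [rd10_159.c0, rd10_159.c1] false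
    (Nat.beq (10 % 2) 1) rd10_159.v0 = true := by decide +kernel

set_option maxRecDepth 100000 in
theorem rk10_159_1 : chkC2 52 10 43 5 5 3 rd10_159.me rd10_159.mo gs10 [rd10_159.c0, rd10_159.c1]
    rd10_159.v1 = true := by decide +kernel

set_option maxRecDepth 100000 in
theorem rk10_159_2 : chkC1 52 10 43 5 5 3 rd10_159.me rd10_159.mo gs10 [rd10_159.c0, rd10_159.c1] true
    (Nat.beq (10 % 2) 0) rd10_159.v2 = true := by decide +kernel

/-- runs of this file -/
def rds10_19 : List CRun :=
  [rd10_152, rd10_153, rd10_154, rd10_155, rd10_156, rd10_157, rd10_158, rd10_159]

theorem ac10_19 : allC 52 10 43 5 5 3 gs10 rds10_19 :=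
  allC_cons rk10_152_0 rk10_152_1 rk10_152_2
    (allC_cons rk10_153_0 rk10_153_1 rk10_153_2
    (allC_cons rk10_154_0 rk10_154_1 rk10_154_2
    (allC_cons rk10_155_0 rk10_155_1 rk10_155_2
    (allC_cons rk10_156_0 rk10_156_1 rk10_156_2
    (allC_cons rk10_157_0 rk10_157_1 rk10_157_2
    (allC_cons rk10_158_0 rk10_158_1 rk10_158_2
    (allC_cons rk10_159_0 rk10_159_1 rk10_159_2
    (allC_nil))))))))

end Crest.Agent.R347
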