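import Crest.Agent.R347.G10c

/-! Row 347, Chebyshev numerics, ring with 10 sites: run certificates 160..167 (generated) -/

set_option autoImplicit false
set_option Elab.async false

namespace Crest.Agent.R347

/-- run 160 -/
def rd10_160 : CRun :=
  ⟨40, 3958, 40, 2855, 10, 9,
    2582249878086908589655919172003011874329705797560977037055170061106665579816251925987938231826394820822655335967061429249,
    2582249878086908589655919172003011874329705794729125217296757102681557107354460256763904437883384179137639571188706713634,
    2074757784440496479256203931845580575506223108020595703191049302259585315327458827331274651184163677550768829454112802448264079348885464822482906595676553643300449067519670076089947,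
    [194396190, 54263961, 129232468, 34384761, 56706679, 13880814]⟩

set_option maxRecDepth 100000 in
theorem rk10_160_0 : chkC1 52 10 43 5 5 3 rd10_160.me rd10_160.mo gs10 [rd10_160.c0, rd10_160.c1] false
    (Nat.beq (10 % 2) 1) rd10_160.v0 = true := by decide +kernel

set_option maxRecDepth 100000 in
theorem rk10_160_1 : chkC2 52 10 43 5 5 3 rd10_160.me rd10_160.mo gs10 [rd10_160.c0, rd10_160.c1]
    rd10_160.v1 = true := by decide +kernel

set_option maxRecDepth 100000 in
theorem rk10_160_2 : chkC1 52 10 43 5 5 3 rd10_160.me rd10_160.mo gs10 [rd10_160.c0, rd10_160.c1] true
    (Nat.beq (10 % 2) 0) rd10_160.v2 = true := by decide +kernel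

/-- run 161 -/
def rd10_161 : CRun :=
  ⟨40, 3962, 40, 2857, 10, 9,
    2582249878086908589655919172003011874329705793580842775860892040430583397287229385515742113131231944272606747793376129864,
    2582249878086908589655919172003011874329705793135710165113640978575988167653343948461151917778212121898060766425233147258,
    2074757784440496479256203931845580575506223111441698120638152716234290242100174211400632745762310471619758585371229284886676713034235705888986723383786878432572532958044118279395410,
    [283400999, 21627155, 180398182, 13810399, 49779926, 5730579]⟩

set_option maxRecDepth 100000 in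
theorem rk10_161_0 : chkC1 52 10 43 5 5 3 rd10_161.me rd10_161.mo gs10 [rd10_161.c0, rd10_161.c1] false
    (Nat.beq (10 % 2) 1) rd10_161.v0 = true := by decide +kernel

set_option maxRecDepth 100000 in
theorem rk10_161_1 : chkC2 52 10 43 5 5 3 rd10_161.me rd10_161.mo gs10 [rd10_161.c0, rd10_161.c1]
    rd10_161.v1 = true := by decide +kernel

set_option maxRecDepth 100000 in
theorem rk10_161_2 : chkC1 52 10 43 5 5 3 rd10_161.me rd10_161.mo gs10 [rd10_161.c0, rd10_161.c1] true
    (Nat.beq (10 % 2) 0) rd10_161.v2 = true := by decide +kernel

/-- run 162 -/
def rd10_162 : CRun :=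
  ⟨20, 3986, 40, 2867, 10, 9,
    2582249878086908589655919172003011874329705793420612559246857030770277413583973032603486496718357869879134973708022069810,
    2582249878086908589655919172003011874329705793053556372470919824807030827503001194122618723462914017814752025191123236761,
    2074757784440496479256203931845580575506223057509528248665259205976510527552446956363153582981856561212219354509727542792538096675031370709619371952494884289906146762034504572682781,
    [273831242, 19183908, 209956169, 11815358, 150690836, 4299524]⟩

set_option maxRecDepth 100000 in
theorem rk10_162_0 : chkC1 52 10 43 5 5 3 rd10_162.me rd10_162.mo gs10 [rd10_162.c0, rd10_162.c1] false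
    (Nat.beq (10 % 2) 1) rd10_162.v0 = true := by decide +kernel

set_option maxRecDepth 100000 in
theorem rk10_162_1 : chkC2 52 10 43 5 5 3 rd10_162.me rd10_162.mo gs10 [rd10_162.c0, rd10_162.c1]
    rd10_162.v1 = true := by decide +kernel

set_option maxRecDepth 100000 in
theorem rk10_162_2 : chkC1 52 10 43 5 5 3 rd10_162.me rd10_162.mo gs10 [rd10_162.c0, rd10_162.c1] true
    (Nat.beq (10 % 2) 0) rd10_162.v2 = true := by decide +kernel

/-- run 163 -/
def rd10_163 : CRun :=
  ⟨40, 3992, 40, 2869, 10, 9,
    2582249878086908589655919172003011874329705793175554323597246856656770676335537414310127290565037001635234281840086930895,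
    2582249878086908589655919172003011874329705792967338134982330757378629579718183192967869102851579918701885793526910668541,
    2074757784440496479256203931845580575506222992240443618967348367987011009267698830827388170040143473331325092451322853895694329525116301154324523514376570417908117616925840900685210,
    [476503619, 14680675, 346054932, 9270866, 219964197, 3706650]⟩

set_option maxRecDepth 100000 in
theorem rk10_163_0 : chkC1 52 10 43 5 5 3 rd10_163.me rd10_163.mo gs10 [rd10_163.c0, rd10_163.c1] false
    (Nat.beq (10 % 2) 1) rd10_163.v0 = true := by decide +kernel

set_option maxRecDepth 100000 in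
theorem rk10_163_1 : chkC2 52 10 43 5 5 3 rd10_163.me rd10_163.mo gs10 [rd10_163.c0, rd10_163.c1]
    rd10_163.v1 = true := by decide +kernel

set_option maxRecDepth 100000 in
theorem rk10_163_2 : chkC1 52 10 43 5 5 3 rd10_163.me rd10_163.mo gs10 [rd10_163.c0, rd10_163.c1] true
    (Nat.beq (10 % 2) 0) rd10_163.v2 = true := by decide +kernel

/-- run 164 -/
def rd10_164 : CRun :=
  ⟨40, 3994, 40, 2873, 10, 9,
    2582249878086908589655919172003011874329705793672493856445783143856927868815341933399249858191984604944674083845946512206,
    2582249878086908589655919172003011874329705793170912526360451682579410042457906420727197517771506666190371200213515973330,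
    2074757784440496479256203931845580575506223109004562720165456183343980131709352385505184274615550475793848270589044661550251085479191666599023830880037421970331347405269969032423882,
    [166159116, 22907825, 111805266, 14581962, 53223920, 5990781]⟩

set_option maxRecDepth 100000 in
theorem rk10_164_0 : chkC1 52 10 43 5 5 3 rd10_164.me rd10_164.mo gs10 [rd10_164.c0, rd10_164.c1] false
    (Nat.beq (10 % 2) 1) rd10_164.v0 = true := by decide +kernel

set_option maxRecDepth 100000 in
theorem rk10_164_1 : chkC2 52 10 43 5 5 3 rd10_164.me rd10_164.mo gs10 [rd10_164.c0, rd10_164.c1]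
    rd10_164.v1 = true := by decide +kernel

set_option maxRecDepth 100000 in
theorem rk10_164_2 : chkC1 52 10 43 5 5 3 rd10_164.me rd10_164.mo gs10 [rd10_164.c0, rd10_164.c1] true
    (Nat.beq (10 % 2) 0) rd10_164.v2 = true := by decide +kernel

/-- run 165 -/
def rd10_165 : CRun :=
  ⟨40, 4004, 40, 2875, 10, 9,
    2582249878086908589655919172003011874329705793082146716083793083497148443622281424406850014220021558031950430349265051786,
    2582249878086908589655919172003011874329705792932527319851875959487976138451527775498481614978337465909419672912086370785,
    2074757784440496479256203931845580575506223017232137332356028924052307676749389625928378110477244482324583380809805970077883481466570513834841116262508258391084518653688012017905765,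
    [421221788, 12545697, 307181514, 8017863, 197970969, 3359925]⟩

set_option maxRecDepth 100000 in
theorem rk10_165_0 : chkC1 52 10 43 5 5 3 rd10_165.me rd10_165.mo gs10 [rd10_165.c0, rd10_165.c1] false
    (Nat.beq (10 % 2) 1) rd10_165.v0 = true := by decide +kernel

set_option maxRecDepth 100000 in
theorem rk10_165_1 : chkC2 52 10 43 5 5 3 rd10_165.me rd10_165.mo gs10 [rd10_165.c0, rd10_165.c1]
    rd10_165.v1 = true := by decide +kernel

set_option maxRecDepth 100000 in
theorem rk10_165_2 : chkC1 52 10 43 5 5 3 rd10_165.me rd10_165.mo gs10 [rd10_165.c0, rd10_165.c1] true
    (Nat.beq (10 % 2) 0) rd10_165.v2 = true := by decide +kernel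

/-- run 166 -/
def rd10_166 : CRun :=
  ⟨40, 4010, 40, 3041, 10, 9,
    2582249878086908589655919172003011874329705793885027057079310818351443190974645423587080773389098585995983567482213310289,
    2582249878086908589655919172003011874329705793257359554043497632299885338448893831255854689903791220443961567864295537393,
    2074757784440496479256203931845580575506223075809565740960331370024504957292749511311757786218445140316623859039748401482605006248671485567546203339448706346031800034169915118344862,
    [625173811, 25632561, 400125033, 16322675, 126272853, 6696482]⟩

set_option maxRecDepth 100000 in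
theorem rk10_166_0 : chkC1 52 10 43 5 5 3 rd10_166.me rd10_166.mo gs10 [rd10_166.c0, rd10_166.c1] false
    (Nat.beq (10 % 2) 1) rd10_166.v0 = true := by decide +kernel

set_option maxRecDepth 100000 in
theorem rk10_166_1 : chkC2 52 10 43 5 5 3 rd10_166.me rd10_166.mo gs10 [rd10_166.c0, rd10_166.c1]
    rd10_166.v1 = true := by decide +kernel

set_option maxRecDepth 100000 in
theorem rk10_166_2 : chkC1 52 10 43 5 5 3 rd10_166.me rd10_166.mo gs10 [rd10_166.c0, rd10_166.c1] true
    (Nat.beq (10 % 2) 0) rd10_166.v2 = true := by decide +kernel

/-- run 167 -/
def rd10_167 : CRun :=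
  ⟨20, 4012, 40, 3047, 10, 9,
    2582249878086908589655919172003011874329705794402161129534774321470100253950459370545335411559089802180828611274379862783,
    2582249878086908589655919172003011874329705793444416025350519279993379622582719634463007701308516454235670100929456894619,
    2074757784440496479256203931845580575506223116157377475860002036776804443379620715198541308767432179802253220710891146475618291667090155282308468269827509978351993295581955925164857,
    [297877924, 31286443, 184465868, 19566176, 3750289, 7550044]⟩

set_option maxRecDepth 100000 in
theorem rk10_167_0 : chkC1 52 10 43 5 5 3 rd10_167.me rd10_167.mo gs10 [rd10_167.c0, rd10_167.c1] false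
    (Nat.beq (10 % 2) 1) rd10_167.v0 = true := by decide +kernel

set_option maxRecDepth 100000 in
theorem rk10_167_1 : chkC2 52 10 43 5 5 3 rd10_167.me rd10_167.mo gs10 [rd10_167.c0, rd10_167.c1]
    rd10_167.v1 = true := by decide +kernel

set_option maxRecDepth 100000 in
theorem rk10_167_2 : chkC1 52 10 43 5 5 3 rd10_167.me rd10_167.mo gs10 [rd10_167.c0, rd10_167.c1] true
    (Nat.beq (10 % 2) 0) rd10_167.v2 = true := by decide +kernel

/-- runs of this file -/
def rds10_20 : List CRun :=
  [rd10_160, rd10_161, rd10_162, rd10_163, rd10_164, rd10_165, rd10_166, rd10_167]

theorem ac10_20 : allC 52 10 43 5 5 3 gs10 rds10_20 :=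
  allC_cons rk10_160_0 rk10_160_1 rk10_160_2
    (allC_cons rk10_161_0 rk10_161_1 rk10_161_2
    (allC_cons rk10_162_0 rk10_162_1 rk10_162_2
    (allC_cons rk10_163_0 rk10_163_1 rk10_163_2
    (allC_cons rk10_164_0 rk10_164_1 rk10_164_2
    (allC_cons rk10_165_0 rk10_165_1 rk10_165_2
    (allC_cons rk10_166_0 rk10_166_1 rk10_166_2
    (allC_cons rk10_167_0 rk10_167_1 rk10_167_2
    (allC_nil))))))))

end Crest.Agent.R347
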