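import Crest.Agent.R347.G10c

/-! Row 347, Chebyshev numerics, ring with 10 sites: run certificates 168..175 (generated) -/

set_option autoImplicit false
set_option Elab.async false

namespace Crest.Agent.R347

/-- run 168 -/
def rd10_168 : CRun :=
  ⟨40, 4016, 40, 3049, 10, 9,
    2582249878086908589655919172003011874329705792977252269308162740297895918143565803124090420952085821219373136660855605563,
    2582249878086908589655919172003011874329705792883803579900073498984477459358950029562498253236210673954663985972700305825,
    2074757784440496479256203931845580575506223102948028461668898576703666359525669475662338617953565425380774765157881549579479016265973950686923506928255068080719452222559801506673266,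
    [550449026, 9597840, 348312038, 5827973, 82917399, 1982096]⟩

set_option maxRecDepth 100000 in
theorem rk10_168_0 : chkC1 52 10 43 5 5 3 rd10_168.me rd10_168.mo gs10 [rd10_168.c0, rd10_168.c1] false
    (Nat.beq (10 % 2) 1) rd10_168.v0 = true := by decide +kernel

set_option maxRecDepth 100000 in
theorem rk10_168_1 : chkC2 52 10 43 5 5 3 rd10_168.me rd10_168.mo gs10 [rd10_168.c0, rd10_168.c1]
    rd10_168.v1 = true := by decide +kernel

set_option maxRecDepth 100000 in
theorem rk10_168_2 : chkC1 52 10 43 5 5 3 rd10_168.me rd10_168.mo gs10 [rd10_168.c0, rd10_168.c1] true
    (Nat.beq (10 % 2) 0) rd10_168.v2 = true := by decide +kernel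

/-- run 169 -/
def rd10_169 : CRun :=
  ⟨40, 4028, 40, 3059, 10, 9,
    2582249878086908589655919172003011874329705795699717365550739706637800120677885184666891535919352778196186902478446744189,
    2582249878086908589655919172003011874329705793988905368181296572618842494015646824789072965696606219043057012402700661383,
    2074757784440496479256203931845580575506223112773028594328228365536370145032948893827719326860340938318545765612594478188077295594976127648797514050007270896167539341928537081983682,
    [363529457, 42264793, 227239180, 26863950, 36601899, 10882195]⟩

set_option maxRecDepth 100000 in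
theorem rk10_169_0 : chkC1 52 10 43 5 5 3 rd10_169.me rd10_169.mo gs10 [rd10_169.c0, rd10_169.c1] false
    (Nat.beq (10 % 2) 1) rd10_169.v0 = true := by decide +kernel

set_option maxRecDepth 100000 in
theorem rk10_169_1 : chkC2 52 10 43 5 5 3 rd10_169.me rd10_169.mo gs10 [rd10_169.c0, rd10_169.c1]
    rd10_169.v1 = true := by decide +kernel

set_option maxRecDepth 100000 in
theorem rk10_169_2 : chkC1 52 10 43 5 5 3 rd10_169.me rd10_169.mo gs10 [rd10_169.c0, rd10_169.c1] true
    (Nat.beq (10 % 2) 0) rd10_169.v2 = true := by decide +kernel

/-- run 170 -/
def rd10_170 : CRun :=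
  ⟨40, 4034, 40, 3065, 10, 9,
    2582249878086908589655919172003011874329705795221405115443182181450889129677169926216573357685716034400973625034585821524,
    2582249878086908589655919172003011874329705793701780101366597339224851419038653518287710037017307124007168710837737105795,
    2074757784440496479256203931845580575506223098063060458064861352447954126248593657537039342523203326300502293767570258237643809165680587415862858818676613351303495342965839371604302,
    [298777819, 38583135, 198066849, 23302217, 84636302, 7722351]⟩

set_option maxRecDepth 100000 in
theorem rk10_170_0 : chkC1 52 10 43 5 5 3 rd10_170.me rd10_170.mo gs10 [rd10_170.c0, rd10_170.c1] false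
    (Nat.beq (10 % 2) 1) rd10_170.v0 = true := by decide +kernel

set_option maxRecDepth 100000 in
theorem rk10_170_1 : chkC2 52 10 43 5 5 3 rd10_170.me rd10_170.mo gs10 [rd10_170.c0, rd10_170.c1]
    rd10_170.v1 = true := by decide +kernel

set_option maxRecDepth 100000 in
theorem rk10_170_2 : chkC1 52 10 43 5 5 3 rd10_170.me rd10_170.mo gs10 [rd10_170.c0, rd10_170.c1] true
    (Nat.beq (10 % 2) 0) rd10_170.v2 = true := by decide +kernel

/-- run 171 -/
def rd10_171 : CRun :=
  ⟨40, 4058, 40, 3067, 10, 9,
    2582249878086908589655919172003011874329705793174205928089885347026511524521468633144939851665029400464242995601228539866,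
    2582249878086908589655919172003011874329705792948593489067335970259621454158177672280380433800505875980915993011074542146,
    2074757784440496479256203931845580575506223114099596361844486148776946610450052667891229052694957249075457528487189918108586822504607183279809792612737560844874503244632921611903704,
    [147122411, 14652068, 94293094, 8618824, 30907788, 2382562]⟩

set_option maxRecDepth 100000 in
theorem rk10_171_0 : chkC1 52 10 43 5 5 3 rd10_171.me rd10_171.mo gs10 [rd10_171.c0, rd10_171.c1] false
    (Nat.beq (10 % 2) 1) rd10_171.v0 = true := by decide +kernel

set_option maxRecDepth 100000 in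
theorem rk10_171_1 : chkC2 52 10 43 5 5 3 rd10_171.me rd10_171.mo gs10 [rd10_171.c0, rd10_171.c1]
    rd10_171.v1 = true := by decide +kernel

set_option maxRecDepth 100000 in
theorem rk10_171_2 : chkC1 52 10 43 5 5 3 rd10_171.me rd10_171.mo gs10 [rd10_171.c0, rd10_171.c1] true
    (Nat.beq (10 % 2) 0) rd10_171.v2 = true := by decide +kernel

/-- run 172 -/
def rd10_172 : CRun :=
  ⟨40, 4064, 40, 3071, 10, 9,
    2582249878086908589655919172003011874329705793564014735523942587587973868000309262533972420535977094004087147514538617260,
    2582249878086908589655919172003011874329705793079247464245126364228188182833927592027766745559174866495196401788621364788,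
    2074757784440496479256203931845580575506223109345400058216046509690196169373308766166105123900744346450574502014519547051391200370599259540201473777697167877842074341043370862681652,
    [361102287, 21383679, 228808176, 12473584, 59045802, 3243797]⟩

set_option maxRecDepth 100000 in
theorem rk10_172_0 : chkC1 52 10 43 5 5 3 rd10_172.me rd10_172.mo gs10 [rd10_172.c0, rd10_172.c1] false
    (Nat.beq (10 % 2) 1) rd10_172.v0 = true := by decide +kernel

set_option maxRecDepth 100000 in
theorem rk10_172_1 : chkC2 52 10 43 5 5 3 rd10_172.me rd10_172.mo gs10 [rd10_172.c0, rd10_172.c1]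
    rd10_172.v1 = true := by decide +kernel

set_option maxRecDepth 100000 in
theorem rk10_172_2 : chkC1 52 10 43 5 5 3 rd10_172.me rd10_172.mo gs10 [rd10_172.c0, rd10_172.c1] true
    (Nat.beq (10 % 2) 0) rd10_172.v2 = true := by decide +kernel

/-- run 173 -/
def rd10_173 : CRun :=
  ⟨40, 4070, 40, 3073, 10, 9,
    2582249878086908589655919172003011874329705792927378816487411792670619252509082544106361588928386081519804606312057625443,
    2582249878086908589655919172003011874329705792863016782306166576355862985282351544509014557938103713292202246118009985459,
    2074757784440496479256203931845580575506222965363597813625243389917712733007352767993591335924048306823742681127622195401114758270623501275992262681330221026171962605196002725750727,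
    [609880017, 7815510, 433225107, 4585805, 255063795, 1241068]⟩

set_option maxRecDepth 100000 in
theorem rk10_173_0 : chkC1 52 10 43 5 5 3 rd10_173.me rd10_173.mo gs10 [rd10_173.c0, rd10_173.c1] false
    (Nat.beq (10 % 2) 1) rd10_173.v0 = true := by decide +kernel

set_option maxRecDepth 100000 in
theorem rk10_173_1 : chkC2 52 10 43 5 5 3 rd10_173.me rd10_173.mo gs10 [rd10_173.c0, rd10_173.c1]
    rd10_173.v1 = true := by decide +kernel

set_option maxRecDepth 100000 in
theorem rk10_173_2 : chkC1 52 10 43 5 5 3 rd10_173.me rd10_173.mo gs10 [rd10_173.c0, rd10_173.c1] true
    (Nat.beq (10 % 2) 0) rd10_173.v2 = true := by decide +kernel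

/-- run 174 -/
def rd10_174 : CRun :=
  ⟨40, 4082, 40, 3095, 10, 9,
    2582249878086908589655919172003011874329705795542093034511268740145228406003992292848694887417202985363362494885465352480,
    2582249878086908589655919172003011874329705793912242925949676324963321697781292623573298872565841656391335108408523924228,
    2074757784440496479256203931845580575506223107511722252351257438858561606408074782964352159720948396669465528704301638107067916570253260877680056050805785378867976649132010316031886,
    [200757042, 41087990, 133402992, 25960829, 58409355, 10297056]⟩

set_option maxRecDepth 100000 in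
theorem rk10_174_0 : chkC1 52 10 43 5 5 3 rd10_174.me rd10_174.mo gs10 [rd10_174.c0, rd10_174.c1] false
    (Nat.beq (10 % 2) 1) rd10_174.v0 = true := by decide +kernel

set_option maxRecDepth 100000 in
theorem rk10_174_1 : chkC2 52 10 43 5 5 3 rd10_174.me rd10_174.mo gs10 [rd10_174.c0, rd10_174.c1]
    rd10_174.v1 = true := by decide +kernel

set_option maxRecDepth 100000 in
theorem rk10_174_2 : chkC1 52 10 43 5 5 3 rd10_174.me rd10_174.mo gs10 [rd10_174.c0, rd10_174.c1] true
    (Nat.beq (10 % 2) 0) rd10_174.v2 = true := by decide +kernel

/-- run 175 -/
def rd10_175 : CRun :=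
  ⟨40, 4088, 40, 3101, 10, 9,
    2582249878086908589655919172003011874329705801140541169896430002595543935692494475589999235208956140725385629958502601286,
    2582249878086908589655919172003011874329705796010037170838445844003583608475105796289023600637980530697120953825606829158,
    2074757784440496479256203931845580575506223083514050725432118943982644925133976401951785642066985204785758987570098440402070190167336521493696309466858069326080739003094106947417454,
    [256945310, 71917632, 185467162, 44490732, 115272604, 16343742]⟩

set_option maxRecDepth 100000 in
theorem rk10_175_0 : chkC1 52 10 43 5 5 3 rd10_175.me rd10_175.mo gs10 [rd10_175.c0, rd10_175.c1] false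
    (Nat.beq (10 % 2) 1) rd10_175.v0 = true := by decide +kernel

set_option maxRecDepth 100000 in
theorem rk10_175_1 : chkC2 52 10 43 5 5 3 rd10_175.me rd10_175.mo gs10 [rd10_175.c0, rd10_175.c1]
    rd10_175.v1 = true := by decide +kernel

set_option maxRecDepth 100000 in
theorem rk10_175_2 : chkC1 52 10 43 5 5 3 rd10_175.me rd10_175.mo gs10 [rd10_175.c0, rd10_175.c1] true
    (Nat.beq (10 % 2) 0) rd10_175.v2 = true := by decide +kernel

/-- runs of this file -/
def rds10_21 : List CRun :=
  [rd10_168, rd10_169, rd10_170, rd10_171, rd10_172, rd10_173, rd10_174, rd10_175]

theorem ac10_21 : allC 52 10 43 5 5 3 gs10 rds10_21 :=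
  allC_cons rk10_168_0 rk10_168_1 rk10_168_2
    (allC_cons rk10_169_0 rk10_169_1 rk10_169_2
    (allC_cons rk10_170_0 rk10_170_1 rk10_170_2
    (allC_cons rk10_171_0 rk10_171_1 rk10_171_2
    (allC_cons rk10_172_0 rk10_172_1 rk10_172_2
    (allC_cons rk10_173_0 rk10_173_1 rk10_173_2
    (allC_cons rk10_174_0 rk10_174_1 rk10_174_2
    (allC_cons rk10_175_0 rk10_175_1 rk10_175_2
    (allC_nil))))))))

end Crest.Agent.R347
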