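import Crest.Agent.R347.G10c

/-! Row 347, Chebyshev numerics, ring with 10 sites: run certificates 176..183 (generated) -/

set_option autoImplicit false
set_option Elab.async false

namespace Crest.Agent.R347

/-- run 176 -/
def rd10_176 : CRun :=
  ⟨10, 4148, 40, 3103, 10, 9,
    2582249878086908589655919172003011874329705793725485055757217369693449172787940038659765851760939791173646864577212856057,
    2582249878086908589655919172003011874329705793150834576818879306931871038968443939592643522854864645358271522039824881305,
    2074757784440496479256203931845580575506223114338477172119411533752051608460141210879716644969733587274252075365986987397479518364706729572631393327967740969846911343743613782706486,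
    [67516392, 23616624, 46964906, 14147052, 26285739, 4439944]⟩

set_option maxRecDepth 100000 in
theorem rk10_176_0 : chkC1 52 10 43 5 5 3 rd10_176.me rd10_176.mo gs10 [rd10_176.c0, rd10_176.c1] false
    (Nat.beq (10 % 2) 1) rd10_176.v0 = true := by decide +kernel

set_option maxRecDepth 100000 in
theorem rk10_176_1 : chkC2 52 10 43 5 5 3 rd10_176.me rd10_176.mo gs10 [rd10_176.c0, rd10_176.c1]
    rd10_176.v1 = true := by decide +kernel

set_option maxRecDepth 100000 in
theorem rk10_176_2 : chkC1 52 10 43 5 5 3 rd10_176.me rd10_176.mo gs10 [rd10_176.c0, rd10_176.c1] true
    (Nat.beq (10 % 2) 0) rd10_176.v2 = true := by decide +kernel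

/-- run 177 -/
def rd10_177 : CRun :=
  ⟨40, 4154, 40, 3113, 10, 9,
    2582249878086908589655919172003011874329705796457918728639855450074931733174767145840762640088727246741214797363761702767,
    2582249878086908589655919172003011874329705794208445492451051734686994857157415222697148911418733612795974945476649335938,
    2074757784440496479256203931845580575506223113889084487064883843873589673029145661973357042019231103351088769861130668669738932508799492340919052967828148916376695889746554409378719,
    [134771082, 47519918, 86775467, 29296621, 29930987, 10591007]⟩

set_option maxRecDepth 100000 in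
theorem rk10_177_0 : chkC1 52 10 43 5 5 3 rd10_177.me rd10_177.mo gs10 [rd10_177.c0, rd10_177.c1] false
    (Nat.beq (10 % 2) 1) rd10_177.v0 = true := by decide +kernel

set_option maxRecDepth 100000 in
theorem rk10_177_1 : chkC2 52 10 43 5 5 3 rd10_177.me rd10_177.mo gs10 [rd10_177.c0, rd10_177.c1]
    rd10_177.v1 = true := by decide +kernel

set_option maxRecDepth 100000 in
theorem rk10_177_2 : chkC1 52 10 43 5 5 3 rd10_177.me rd10_177.mo gs10 [rd10_177.c0, rd10_177.c1] true
    (Nat.beq (10 % 2) 0) rd10_177.v2 = true := by decide +kernel

/-- run 178 -/
def rd10_178 : CRun :=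
  ⟨20, 4156, 40, 3119, 10, 9,
    2582249878086908589655919172003011874329705800700884269262160017654586734328500200608718299406606514499243932184558033182,
    2582249878086908589655919172003011874329705795550565381731232685037128915367275685128360910088122500805754503701985229216,
    2074757784440496479256203931845580575506223116137297810461424753772924172059477371722323439924963193216518482872959731974129114738734029640013460380238681583639587046966481466390129,
    [55665941, 69989618, 34426850, 41152099, 2495479, 11546666]⟩

set_option maxRecDepth 100000 in
theorem rk10_178_0 : chkC1 52 10 43 5 5 3 rd10_178.me rd10_178.mo gs10 [rd10_178.c0, rd10_178.c1] false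
    (Nat.beq (10 % 2) 1) rd10_178.v0 = true := by decide +kernel

set_option maxRecDepth 100000 in
theorem rk10_178_1 : chkC2 52 10 43 5 5 3 rd10_178.me rd10_178.mo gs10 [rd10_178.c0, rd10_178.c1]
    rd10_178.v1 = true := by decide +kernel

set_option maxRecDepth 100000 in
theorem rk10_178_2 : chkC1 52 10 43 5 5 3 rd10_178.me rd10_178.mo gs10 [rd10_178.c0, rd10_178.c1] true
    (Nat.beq (10 % 2) 0) rd10_178.v2 = true := by decide +kernel

/-- run 179 -/
def rd10_179 : CRun :=
  ⟨20, 4172, 40, 3121, 10, 9,
    2582249878086908589655919172003011874329705794413610806637802298740683802589643725613043501726621878906522285940181137329,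
    2582249878086908589655919172003011874329705793372731447435628935397738409431772868444528338092063823298104260192358957761,
    2074757784440496479256203931845580575506223112834271751444706574341489662816338164038296879895106046082068338409666593185584640226152772986892501126604640118097622710525404939920892,
    [280959324, 31400106, 176155670, 18390917, 35917115, 4960416]⟩

set_option maxRecDepth 100000 in
theorem rk10_179_0 : chkC1 52 10 43 5 5 3 rd10_179.me rd10_179.mo gs10 [rd10_179.c0, rd10_179.c1] false
    (Nat.beq (10 % 2) 1) rd10_179.v0 = true := by decide +kernel

set_option maxRecDepth 100000 in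
theorem rk10_179_1 : chkC2 52 10 43 5 5 3 rd10_179.me rd10_179.mo gs10 [rd10_179.c0, rd10_179.c1]
    rd10_179.v1 = true := by decide +kernel

set_option maxRecDepth 100000 in
theorem rk10_179_2 : chkC1 52 10 43 5 5 3 rd10_179.me rd10_179.mo gs10 [rd10_179.c0, rd10_179.c1] true
    (Nat.beq (10 % 2) 0) rd10_179.v2 = true := by decide +kernel

/-- run 180 -/
def rd10_180 : CRun :=
  ⟨40, 4178, 40, 3125, 10, 9,
    2582249878086908589655919172003011874329705797508293050913176596378982968538508852039576726127724525645176426974901902932,
    2582249878086908589655919172003011874329705794480298502397590876844139373152672041696459913673023465297012365597779601647,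
    2074757784440496479256203931845580575506223081419386918649261070802480527480264351554862554788809126085247117396898043954154549337958863838288571446840428518376867490762237125821969,
    [307998286, 53961025, 213940627, 32054119, 117037757, 9601979]⟩

set_option maxRecDepth 100000 in
theorem rk10_180_0 : chkC1 52 10 43 5 5 3 rd10_180.me rd10_180.mo gs10 [rd10_180.c0, rd10_180.c1] false
    (Nat.beq (10 % 2) 1) rd10_180.v0 = true := by decide +kernel

set_option maxRecDepth 100000 in
theorem rk10_180_1 : chkC2 52 10 43 5 5 3 rd10_180.me rd10_180.mo gs10 [rd10_180.c0, rd10_180.c1]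
    rd10_180.v1 = true := by decide +kernel

set_option maxRecDepth 100000 in
theorem rk10_180_2 : chkC1 52 10 43 5 5 3 rd10_180.me rd10_180.mo gs10 [rd10_180.c0, rd10_180.c1] true
    (Nat.beq (10 % 2) 0) rd10_180.v2 = true := by decide +kernel

/-- run 181 -/
def rd10_181 : CRun :=
  ⟨20, 4196, 40, 3127, 10, 9,
    2582249878086908589655919172003011874329705793559738819556852823616549865493625600482690620578614988730940590873153847314,
    2582249878086908589655919172003011874329705793094484460186463627846049883536075046042943278738093594264170197882843207417,
    2074757784440496479256203931845580575506223075302118816780830525565259878102728574543832576413792073059937255285145011091889796897756033959065471934224429150166249008490525742522110,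
    [265747760, 21321370, 194618105, 12848047, 125771556, 4201058]⟩

set_option maxRecDepth 100000 in
theorem rk10_181_0 : chkC1 52 10 43 5 5 3 rd10_181.me rd10_181.mo gs10 [rd10_181.c0, rd10_181.c1] false
    (Nat.beq (10 % 2) 1) rd10_181.v0 = true := by decide +kernel

set_option maxRecDepth 100000 in
theorem rk10_181_1 : chkC2 52 10 43 5 5 3 rd10_181.me rd10_181.mo gs10 [rd10_181.c0, rd10_181.c1]
    rd10_181.v1 = true := by decide +kernel

set_option maxRecDepth 100000 in
theorem rk10_181_2 : chkC1 52 10 43 5 5 3 rd10_181.me rd10_181.mo gs10 [rd10_181.c0, rd10_181.c1] true
    (Nat.beq (10 % 2) 0) rd10_181.v2 = true := by decide +kernel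

/-- run 182 -/
def rd10_182 : CRun :=
  ⟨20, 4586, 40, 3137, 10, 9,
    2582249878086908589655919172003011874329705794930855310761557671727531191104599827128283336580355071931809512944557338369,
    2582249878086908589655919172003011874329705793573514131493283331653469188894888425748449987794674824070040662331953748912,
    2074757784440496479256203931845580575506223097103832538178216616804620178391085210897802319077310722736676674034079989032940427870465205383196390468859438024709495024209924741672284,
    [148807254, 36164191, 116191788, 21521459, 86692199, 6538777]⟩

set_option maxRecDepth 100000 in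
theorem rk10_182_0 : chkC1 52 10 43 5 5 3 rd10_182.me rd10_182.mo gs10 [rd10_182.c0, rd10_182.c1] false
    (Nat.beq (10 % 2) 1) rd10_182.v0 = true := by decide +kernel

set_option maxRecDepth 100000 in
theorem rk10_182_1 : chkC2 52 10 43 5 5 3 rd10_182.me rd10_182.mo gs10 [rd10_182.c0, rd10_182.c1]
    rd10_182.v1 = true := by decide +kernel

set_option maxRecDepth 100000 in
theorem rk10_182_2 : chkC1 52 10 43 5 5 3 rd10_182.me rd10_182.mo gs10 [rd10_182.c0, rd10_182.c1] true
    (Nat.beq (10 % 2) 0) rd10_182.v2 = true := by decide +kernel

/-- run 183 -/
def rd10_183 : CRun :=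
  ⟨10, 4598, 40, 3139, 10, 9,
    2582249878086908589655919172003011874329705794015809291094526777419708619280721380824674778844008057797496687045235275181,
    2582249878086908589655919172003011874329705793277741110796522873414594917003605441034834959255439341202761782884196539079,
    2074757784440496479256203931845580575506223074995042937909991452452083881429984361249168115289051652710872612463534226598459805007590138775029196027053580328289480735415662034378310,
    [207195436, 27173777, 167659775, 16706681, 131556094, 6008987]⟩

set_option maxRecDepth 100000 in
theorem rk10_183_0 : chkC1 52 10 43 5 5 3 rd10_183.me rd10_183.mo gs10 [rd10_183.c0, rd10_183.c1] false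
    (Nat.beq (10 % 2) 1) rd10_183.v0 = true := by decide +kernel

set_option maxRecDepth 100000 in
theorem rk10_183_1 : chkC2 52 10 43 5 5 3 rd10_183.me rd10_183.mo gs10 [rd10_183.c0, rd10_183.c1]
    rd10_183.v1 = true := by decide +kernel

set_option maxRecDepth 100000 in
theorem rk10_183_2 : chkC1 52 10 43 5 5 3 rd10_183.me rd10_183.mo gs10 [rd10_183.c0, rd10_183.c1] true
    (Nat.beq (10 % 2) 0) rd10_183.v2 = true := by decide +kernel

/-- runs of this file -/
def rds10_22 : List CRun :=
  [rd10_176, rd10_177, rd10_178, rd10_179, rd10_180, rd10_181, rd10_182, rd10_183]

theorem ac10_22 : allC 52 10 43 5 5 3 gs10 rds10_22 :=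
  allC_cons rk10_176_0 rk10_176_1 rk10_176_2
    (allC_cons rk10_177_0 rk10_177_1 rk10_177_2
    (allC_cons rk10_178_0 rk10_178_1 rk10_178_2
    (allC_cons rk10_179_0 rk10_179_1 rk10_179_2
    (allC_cons rk10_180_0 rk10_180_1 rk10_180_2
    (allC_cons rk10_181_0 rk10_181_1 rk10_181_2
    (allC_cons rk10_182_0 rk10_182_1 rk10_182_2
    (allC_cons rk10_183_0 rk10_183_1 rk10_183_2
    (allC_nil))))))))

end Crest.Agent.R347
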