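import Crest.Agent.R347.G10c

/-! Row 347, Chebyshev numerics, ring with 10 sites: run certificates 184..191 (generated) -/

set_option autoImplicit false
set_option Elab.async false

namespace Crest.Agent.R347

/-- run 184 -/
def rd10_184 : CRun :=
  ⟨40, 4748, 40, 3143, 10, 9,
    2582249878086908589655919172003011874329705793996454436357431018342372839349302313925543746057052036104416111987601891929,
    2582249878086908589655919172003011874329705793266667065927695906191858275381404049462604590500789675295399868809201575140,
    2074757784440496479256203931845580575506222813408216231186415891762100859153527298860328686065622173503002611666183107276017664137662630440598201283440061539695720955504467021246731,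
    [585800692, 26951245, 460403073, 16499146, 345221700, 5836998]⟩

set_option maxRecDepth 100000 in
theorem rk10_184_0 : chkC1 52 10 43 5 5 3 rd10_184.me rd10_184.mo gs10 [rd10_184.c0, rd10_184.c1] false
    (Nat.beq (10 % 2) 1) rd10_184.v0 = true := by decide +kernel

set_option maxRecDepth 100000 in
theorem rk10_184_1 : chkC2 52 10 43 5 5 3 rd10_184.me rd10_184.mo gs10 [rd10_184.c0, rd10_184.c1]
    rd10_184.v1 = true := by decide +kernel

set_option maxRecDepth 100000 in
theorem rk10_184_2 : chkC1 52 10 43 5 5 3 rd10_184.me rd10_184.mo gs10 [rd10_184.c0, rd10_184.c1] true
    (Nat.beq (10 % 2) 0) rd10_184.v2 = true := by decide +kernel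

/-- run 185 -/
def rd10_185 : CRun :=
  ⟨20, 4760, 40, 3145, 10, 9,
    2582249878086908589655919172003011874329705793194792413346177627046620554533971218518172581748660493462290233617912754046,
    2582249878086908589655919172003011874329705792971552298317597949298024266365047693772581420669866430535597924214988743242,
    2074757784440496479256203931845580575506222228972744021223464920976149398700399295542473535926535965611478498579505952110021873702881957648540347899014814290710049924785698336723636,
    [949221094, 15082908, 773586541, 9411240, 611701283, 3624683]⟩

set_option maxRecDepth 100000 in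
theorem rk10_185_0 : chkC1 52 10 43 5 5 3 rd10_185.me rd10_185.mo gs10 [rd10_185.c0, rd10_185.c1] false
    (Nat.beq (10 % 2) 1) rd10_185.v0 = true := by decide +kernel

set_option maxRecDepth 100000 in
theorem rk10_185_1 : chkC2 52 10 43 5 5 3 rd10_185.me rd10_185.mo gs10 [rd10_185.c0, rd10_185.c1]
    rd10_185.v1 = true := by decide +kernel

set_option maxRecDepth 100000 in
theorem rk10_185_2 : chkC1 52 10 43 5 5 3 rd10_185.me rd10_185.mo gs10 [rd10_185.c0, rd10_185.c1] true
    (Nat.beq (10 % 2) 0) rd10_185.v2 = true := by decide +kernel

/-- run 186 -/
def rd10_186 : CRun :=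
  ⟨40, 4766, 40, 3203, 10, 9,
    2582249878086908589655919172003011874329705794781613995448999733593560849295408803503345332875218311265216552937884757132,
    2582249878086908589655919172003011874329705793604852056024220266740648973262416892823660380456818143969860975866324971829,
    2074757784440496479256203931845580575506222711647911903077524920552633653835914110410450396431345941415013969833152002444281572671557118206940976788365103961756155818514298861547094,
    [736718364, 34856500, 566099232, 21969862, 407628899, 8663877]⟩

set_option maxRecDepth 100000 in
theorem rk10_186_0 : chkC1 52 10 43 5 5 3 rd10_186.me rd10_186.mo gs10 [rd10_186.c0, rd10_186.c1] false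
    (Nat.beq (10 % 2) 1) rd10_186.v0 = true := by decide +kernel

set_option maxRecDepth 100000 in
theorem rk10_186_1 : chkC2 52 10 43 5 5 3 rd10_186.me rd10_186.mo gs10 [rd10_186.c0, rd10_186.c1]
    rd10_186.v1 = true := by decide +kernel

set_option maxRecDepth 100000 in
theorem rk10_186_2 : chkC1 52 10 43 5 5 3 rd10_186.me rd10_186.mo gs10 [rd10_186.c0, rd10_186.c1] true
    (Nat.beq (10 % 2) 0) rd10_186.v2 = true := by decide +kernel

/-- run 187 -/
def rd10_187 : CRun :=
  ⟨40, 4802, 40, 3209, 10, 9,
    2582249878086908589655919172003011874329705795731304148361375783423902484460184502472842981618181463784136390877135252821,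
    2582249878086908589655919172003011874329705793910402674637314765603566511612604451802276015702894553166164528962406264899,
    2074757784440496479256203931845580575506222567689928895641581977622370183058762791575103758464046878593594920929194830984977053056422728012053914301951782710097403346862172254527099,
    [825880533, 42496697, 637071094, 25938764, 461052536, 8986551]⟩

set_option maxRecDepth 100000 in
theorem rk10_187_0 : chkC1 52 10 43 5 5 3 rd10_187.me rd10_187.mo gs10 [rd10_187.c0, rd10_187.c1] false
    (Nat.beq (10 % 2) 1) rd10_187.v0 = true := by decide +kernel

set_option maxRecDepth 100000 in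
theorem rk10_187_1 : chkC2 52 10 43 5 5 3 rd10_187.me rd10_187.mo gs10 [rd10_187.c0, rd10_187.c1]
    rd10_187.v1 = true := by decide +kernel

set_option maxRecDepth 100000 in
theorem rk10_187_2 : chkC1 52 10 43 5 5 3 rd10_187.me rd10_187.mo gs10 [rd10_187.c0, rd10_187.c1] true
    (Nat.beq (10 % 2) 0) rd10_187.v2 = true := by decide +kernel

/-- run 188 -/
def rd10_188 : CRun :=
  ⟨40, 4814, 40, 3211, 10, 9,
    2582249878086908589655919172003011874329705793146318104235463105704176766792840837581237506189042628848714534020905764221,
    2582249878086908589655919172003011874329705792941034765362261436217981528610748290997285790575404840511449133599949957849,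
    2074757784440496479256203931845580575506222806430543972816422443175121763577237914249520422200465310583591219089418209207776472576931404028175745925416972378608532786151777164687073,
    [601830048, 14047365, 473463858, 8341482, 355058949, 2463399]⟩

set_option maxRecDepth 100000 in
theorem rk10_188_0 : chkC1 52 10 43 5 5 3 rd10_188.me rd10_188.mo gs10 [rd10_188.c0, rd10_188.c1] false
    (Nat.beq (10 % 2) 1) rd10_188.v0 = true := by decide +kernel

set_option maxRecDepth 100000 in
theorem rk10_188_1 : chkC2 52 10 43 5 5 3 rd10_188.me rd10_188.mo gs10 [rd10_188.c0, rd10_188.c1]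
    rd10_188.v1 = true := by decide +kernel

set_option maxRecDepth 100000 in
theorem rk10_188_2 : chkC1 52 10 43 5 5 3 rd10_188.me rd10_188.mo gs10 [rd10_188.c0, rd10_188.c1] true
    (Nat.beq (10 % 2) 0) rd10_188.v2 = true := by decide +kernel

/-- run 189 -/
def rd10_189 : CRun :=
  ⟨40, 4820, 40, 3221, 10, 9,
    2582249878086908589655919172003011874329705803427510044136181562738121102525145041721248744298854651320593999371798689958,
    2582249878086908589655919172003011874329705797000099380469246038264412916338683070220725228601861825280261865327312354966,
    2074757784440496479256203931845580575506222861519171408510975746009892409366322576970148289122789557751251803747515043084904291392390746129813877621982406779551835737513050524414214,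
    [730575851, 81211637, 522812874, 50946467, 318461535, 19642542]⟩

set_option maxRecDepth 100000 in
theorem rk10_189_0 : chkC1 52 10 43 5 5 3 rd10_189.me rd10_189.mo gs10 [rd10_189.c0, rd10_189.c1] false
    (Nat.beq (10 % 2) 1) rd10_189.v0 = true := by decide +kernel

set_option maxRecDepth 100000 in
theorem rk10_189_1 : chkC2 52 10 43 5 5 3 rd10_189.me rd10_189.mo gs10 [rd10_189.c0, rd10_189.c1]
    rd10_189.v1 = true := by decide +kernel

set_option maxRecDepth 100000 in
theorem rk10_189_2 : chkC1 52 10 43 5 5 3 rd10_189.me rd10_189.mo gs10 [rd10_189.c0, rd10_189.c1] true
    (Nat.beq (10 % 2) 0) rd10_189.v2 = true := by decide +kernel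

/-- run 190 -/
def rd10_190 : CRun :=
  ⟨40, 4826, 40, 3227, 10, 9,
    2582249878086908589655919172003011874329705802698007357350285888174921353372277698538220109282686788784887387502638468640,
    2582249878086908589655919172003011874329705796310504800934510413262641816315769107381185348276659801184742178807251915080,
    2074757784440496479256203931845580575506223103472787793243819153491722992557716203143635814692223841546250441198911257030039856940913672678286042645663763576496780480762220550589913,
    [478172859, 78366826, 304970323, 46544674, 83512566, 13875018]⟩

set_option maxRecDepth 100000 in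
theorem rk10_190_0 : chkC1 52 10 43 5 5 3 rd10_190.me rd10_190.mo gs10 [rd10_190.c0, rd10_190.c1] false
    (Nat.beq (10 % 2) 1) rd10_190.v0 = true := by decide +kernel

set_option maxRecDepth 100000 in
theorem rk10_190_1 : chkC2 52 10 43 5 5 3 rd10_190.me rd10_190.mo gs10 [rd10_190.c0, rd10_190.c1]
    rd10_190.v1 = true := by decide +kernel

set_option maxRecDepth 100000 in
theorem rk10_190_2 : chkC1 52 10 43 5 5 3 rd10_190.me rd10_190.mo gs10 [rd10_190.c0, rd10_190.c1] true
    (Nat.beq (10 % 2) 0) rd10_190.v2 = true := by decide +kernel

/-- run 191 -/
def rd10_191 : CRun :=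
  ⟨40, 4910, 40, 3229, 10, 9,
    2582249878086908589655919172003011874329705794486408757821327996526180086271070610400717445745569261504402160326853062104,
    2582249878086908589655919172003011874329705793403171887303344925844293571348253010346951263708332428521161739422260235791,
    2074757784440496479256203931845580575506222324272988083640061010003555621504061488136756120501526460276847857118556820430327912349851022834067332483750003144058392488425533012113630,
    [973253499, 32113376, 762984877, 18898914, 568046764, 5216636]⟩

set_option maxRecDepth 100000 in
theorem rk10_191_0 : chkC1 52 10 43 5 5 3 rd10_191.me rd10_191.mo gs10 [rd10_191.c0, rd10_191.c1] false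
    (Nat.beq (10 % 2) 1) rd10_191.v0 = true := by decide +kernel

set_option maxRecDepth 100000 in
theorem rk10_191_1 : chkC2 52 10 43 5 5 3 rd10_191.me rd10_191.mo gs10 [rd10_191.c0, rd10_191.c1]
    rd10_191.v1 = true := by decide +kernel

set_option maxRecDepth 100000 in
theorem rk10_191_2 : chkC1 52 10 43 5 5 3 rd10_191.me rd10_191.mo gs10 [rd10_191.c0, rd10_191.c1] true
    (Nat.beq (10 % 2) 0) rd10_191.v2 = true := by decide +kernel

/-- runs of this file -/
def rds10_23 : List CRun :=
  [rd10_184, rd10_185, rd10_186, rd10_187, rd10_188, rd10_189, rd10_190, rd10_191]

theorem ac10_23 : allC 52 10 43 5 5 3 gs10 rds10_23 :=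
  allC_cons rk10_184_0 rk10_184_1 rk10_184_2
    (allC_cons rk10_185_0 rk10_185_1 rk10_185_2
    (allC_cons rk10_186_0 rk10_186_1 rk10_186_2
    (allC_cons rk10_187_0 rk10_187_1 rk10_187_2
    (allC_cons rk10_188_0 rk10_188_1 rk10_188_2
    (allC_cons rk10_189_0 rk10_189_1 rk10_189_2
    (allC_cons rk10_190_0 rk10_190_1 rk10_190_2
    (allC_cons rk10_191_0 rk10_191_1 rk10_191_2
    (allC_nil))))))))

end Crest.Agent.R347
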