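import Crest.Agent.R347.G10c

/-! Row 347, Chebyshev numerics, ring with 10 sites: run certificates 192..199 (generated) -/

set_option autoImplicit false
set_option Elab.async false

namespace Crest.Agent.R347

/-- run 192 -/
def rd10_192 : CRun :=
  ⟨20, 4922, 40, 3233, 10, 9,
    2582249878086908589655919172003011874329705797179146274705468439850295566336600172666748685259394934648989649946220195609,
    2582249878086908589655919172003011874329705794360518375309443550594633226980407487152098216600464136099525181493736531144,
    2074757784440496479256203931845580575506217901652182189842123433358390548337365741427362445290195391243778568238594357324024789780907420461250512687808279452695553827761286177695904,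
    [2307855995, 52028489, 1892210612, 30869518, 1507684893, 9150318]⟩

set_option maxRecDepth 100000 in
theorem rk10_192_0 : chkC1 52 10 43 5 5 3 rd10_192.me rd10_192.mo gs10 [rd10_192.c0, rd10_192.c1] false
    (Nat.beq (10 % 2) 1) rd10_192.v0 = true := by decide +kernel

set_option maxRecDepth 100000 in
theorem rk10_192_1 : chkC2 52 10 43 5 5 3 rd10_192.me rd10_192.mo gs10 [rd10_192.c0, rd10_192.c1]
    rd10_192.v1 = true := by decide +kernel

set_option maxRecDepth 100000 in
theorem rk10_192_2 : chkC1 52 10 43 5 5 3 rd10_192.me rd10_192.mo gs10 [rd10_192.c0, rd10_192.c1] true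
    (Nat.beq (10 % 2) 0) rd10_192.v2 = true := by decide +kernel

/-- run 193 -/
def rd10_193 : CRun :=
  ⟨40, 4928, 40, 3235, 10, 9,
    2582249878086908589655919172003011874329705793455204956475849249423964650862478845100577878258818168096623355207526723631,
    2582249878086908589655919172003011874329705793055557162410048723451414128479260774189696461058521372022428306194446330847,
    2074757784440496479256203931845580575506221058118723610491009504629503350053812272932386921038382797959988382421012845275682552937347085243121930580401447601268423205764162684859582,
    [1737757731, 19737002, 1326442601, 11867931, 940729210, 3818540]⟩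

set_option maxRecDepth 100000 in
theorem rk10_193_0 : chkC1 52 10 43 5 5 3 rd10_193.me rd10_193.mo gs10 [rd10_193.c0, rd10_193.c1] false
    (Nat.beq (10 % 2) 1) rd10_193.v0 = true := by decide +kernel

set_option maxRecDepth 100000 in
theorem rk10_193_1 : chkC2 52 10 43 5 5 3 rd10_193.me rd10_193.mo gs10 [rd10_193.c0, rd10_193.c1]
    rd10_193.v1 = true := by decide +kernel

set_option maxRecDepth 100000 in
theorem rk10_193_2 : chkC1 52 10 43 5 5 3 rd10_193.me rd10_193.mo gs10 [rd10_193.c0, rd10_193.c1] true
    (Nat.beq (10 % 2) 0) rd10_193.v2 = true := by decide +kernel

/-- run 194 -/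
def rd10_194 : CRun :=
  ⟨20, 4934, 40, 3257, 10, 9,
    2582249878086908589655919172003011874329705795887676928553789069237252053389713886725132279337988648827787050394621100911,
    2582249878086908589655919172003011874329705793985669699786390970494179913635346898717009444248383880839211800971931680851,
    2074757784440496479256203931845580575506222953710701590835502702892029824033942870748883840190945988480218171407444630411566122474579731569992076546743110774319801702856593592899429,
    [870665070, 43626601, 590358332, 26826447, 287504188, 9558042]⟩

set_option maxRecDepth 100000 in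
theorem rk10_194_0 : chkC1 52 10 43 5 5 3 rd10_194.me rd10_194.mo gs10 [rd10_194.c0, rd10_194.c1] false
    (Nat.beq (10 % 2) 1) rd10_194.v0 = true := by decide +kernel

set_option maxRecDepth 100000 in
theorem rk10_194_1 : chkC2 52 10 43 5 5 3 rd10_194.me rd10_194.mo gs10 [rd10_194.c0, rd10_194.c1]
    rd10_194.v1 = true := by decide +kernel

set_option maxRecDepth 100000 in
theorem rk10_194_2 : chkC1 52 10 43 5 5 3 rd10_194.me rd10_194.mo gs10 [rd10_194.c0, rd10_194.c1] true
    (Nat.beq (10 % 2) 0) rd10_194.v2 = true := by decide +kernel

/-- run 195 -/
def rd10_195 : CRun :=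
  ⟨40, 4964, 40, 3263, 10, 9,
    2582249878086908589655919172003011874329705803135984638074652250161389633099890700059137650793162285981369808439786640158,
    2582249878086908589655919172003011874329705796525689129994653551253286075139438975806095778200719764678402975781583415256,
    2074757784440496479256203931845580575506222570124653981567700940033264020208998647673965804691019912156166716255169733255349934879877226250049476415107793027640323947831333939157777,
    [921805897, 80086911, 687439045, 47961612, 464767662, 14925668]⟩

set_option maxRecDepth 100000 in
theorem rk10_195_0 : chkC1 52 10 43 5 5 3 rd10_195.me rd10_195.mo gs10 [rd10_195.c0, rd10_195.c1] false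
    (Nat.beq (10 % 2) 1) rd10_195.v0 = true := by decide +kernel

set_option maxRecDepth 100000 in
theorem rk10_195_1 : chkC2 52 10 43 5 5 3 rd10_195.me rd10_195.mo gs10 [rd10_195.c0, rd10_195.c1]
    rd10_195.v1 = true := by decide +kernel

set_option maxRecDepth 100000 in
theorem rk10_195_2 : chkC1 52 10 43 5 5 3 rd10_195.me rd10_195.mo gs10 [rd10_195.c0, rd10_195.c1] true
    (Nat.beq (10 % 2) 0) rd10_195.v2 = true := by decide +kernel

/-- run 196 -/
def rd10_196 : CRun :=
  ⟨40, 4976, 40, 3265, 10, 9,
    2582249878086908589655919172003011874329705794272348107205140629918176278826011368671475581185632839417075298488238629434,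
    2582249878086908589655919172003011874329705793333421428730291840435594558119962089102260134548531878572601615963940215179,
    2074757784440496479256203931845580575506222309121402966537670164623295657583244882420818817330626553663271754207358941443672463849068716728173481672164200428902095882735289125201542,
    [1038210710, 29967627, 804564306, 17713361, 588296616, 5056095]⟩

set_option maxRecDepth 100000 in
theorem rk10_196_0 : chkC1 52 10 43 5 5 3 rd10_196.me rd10_196.mo gs10 [rd10_196.c0, rd10_196.c1] false
    (Nat.beq (10 % 2) 1) rd10_196.v0 = true := by decide +kernel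

set_option maxRecDepth 100000 in
theorem rk10_196_1 : chkC2 52 10 43 5 5 3 rd10_196.me rd10_196.mo gs10 [rd10_196.c0, rd10_196.c1]
    rd10_196.v1 = true := by decide +kernel

set_option maxRecDepth 100000 in
theorem rk10_196_2 : chkC1 52 10 43 5 5 3 rd10_196.me rd10_196.mo gs10 [rd10_196.c0, rd10_196.c1] true
    (Nat.beq (10 % 2) 0) rd10_196.v2 = true := by decide +kernel

/-- run 197 -/
def rd10_197 : CRun :=
  ⟨40, 4982, 40, 3275, 10, 9,
    2582249878086908589655919172003011874329705803330710639553149555586125984661036865954373173472489873506393507604445740567,
    2582249878086908589655919172003011874329705796657584299560871469524948273972866024162416648994118290203667613535873637033,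
    2074757784440496479256203931845580575506222699495992289025988009253334986234646347798601848985939670030832254774900336236988919077247810950688429724860493332405572690415168309085648,
    [1272003143, 80839913, 863115590, 48809782, 428982787, 15865267]⟩

set_option maxRecDepth 100000 in
theorem rk10_197_0 : chkC1 52 10 43 5 5 3 rd10_197.me rd10_197.mo gs10 [rd10_197.c0, rd10_197.c1] false
    (Nat.beq (10 % 2) 1) rd10_197.v0 = true := by decide +kernel

set_option maxRecDepth 100000 in
theorem rk10_197_1 : chkC2 52 10 43 5 5 3 rd10_197.me rd10_197.mo gs10 [rd10_197.c0, rd10_197.c1]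
    rd10_197.v1 = true := by decide +kernel

set_option maxRecDepth 100000 in
theorem rk10_197_2 : chkC1 52 10 43 5 5 3 rd10_197.me rd10_197.mo gs10 [rd10_197.c0, rd10_197.c1] true
    (Nat.beq (10 % 2) 0) rd10_197.v2 = true := by decide +kernel

/-- run 198 -/
def rd10_198 : CRun :=
  ⟨20, 4988, 40, 3281, 10, 9,
    2582249878086908589655919172003011874329705826933466963594214918024561001099029264579801021996218585878313477597878907969,
    2582249878086908589655919172003011874329705805030751974896433094542318480589395225210050308034104016041305652460745346631,
    2074757784440496479256203931845580575506223138912972539240604164384067397075923910596508344093962416325770183016909535400982330919625609742833106985313409022214729490432691181621468,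
    [1007034040, 145681581, 630151839, 87137993, 93955398, 27024774]⟩

set_option maxRecDepth 100000 in
theorem rk10_198_0 : chkC1 52 10 43 5 5 3 rd10_198.me rd10_198.mo gs10 [rd10_198.c0, rd10_198.c1] false
    (Nat.beq (10 % 2) 1) rd10_198.v0 = true := by decide +kernel

set_option maxRecDepth 100000 in
theorem rk10_198_1 : chkC2 52 10 43 5 5 3 rd10_198.me rd10_198.mo gs10 [rd10_198.c0, rd10_198.c1]
    rd10_198.v1 = true := by decide +kernel

set_option maxRecDepth 100000 in
theorem rk10_198_2 : chkC1 52 10 43 5 5 3 rd10_198.me rd10_198.mo gs10 [rd10_198.c0, rd10_198.c1] true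
    (Nat.beq (10 % 2) 0) rd10_198.v2 = true := by decide +kernel

/-- run 199 -/
def rd10_199 : CRun :=
  ⟨40, 5000, 40, 3283, 10, 9,
    2582249878086908589655919172003011874329705801891155965927550896971932129404101522070034324521568361724598230279973653814,
    2582249878086908589655919172003011874329705796234890921215063962908923688907597835601379920615250404663172170596380406308,
    2074757784440496479256203931845580575506223116663377686492684976128696615532436166711908918386307315231791841865620660772707124257127317561890180305335803425234413392450953817688457,
    [606604388, 75094970, 377842346, 46036421, 39136049, 16213241]⟩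

set_option maxRecDepth 100000 in
theorem rk10_199_0 : chkC1 52 10 43 5 5 3 rd10_199.me rd10_199.mo gs10 [rd10_199.c0, rd10_199.c1] false
    (Nat.beq (10 % 2) 1) rd10_199.v0 = true := by decide +kernel

set_option maxRecDepth 100000 in
theorem rk10_199_1 : chkC2 52 10 43 5 5 3 rd10_199.me rd10_199.mo gs10 [rd10_199.c0, rd10_199.c1]
    rd10_199.v1 = true := by decide +kernel

set_option maxRecDepth 100000 in
theorem rk10_199_2 : chkC1 52 10 43 5 5 3 rd10_199.me rd10_199.mo gs10 [rd10_199.c0, rd10_199.c1] true
    (Nat.beq (10 % 2) 0) rd10_199.v2 = true := by decide +kernel

/-- runs of this file -/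
def rds10_24 : List CRun :=
  [rd10_192, rd10_193, rd10_194, rd10_195, rd10_196, rd10_197, rd10_198, rd10_199]

theorem ac10_24 : allC 52 10 43 5 5 3 gs10 rds10_24 :=
  allC_cons rk10_192_0 rk10_192_1 rk10_192_2
    (allC_cons rk10_193_0 rk10_193_1 rk10_193_2
    (allC_cons rk10_194_0 rk10_194_1 rk10_194_2
    (allC_cons rk10_195_0 rk10_195_1 rk10_195_2
    (allC_cons rk10_196_0 rk10_196_1 rk10_196_2
    (allC_cons rk10_197_0 rk10_197_1 rk10_197_2
    (allC_cons rk10_198_0 rk10_198_1 rk10_198_2
    (allC_cons rk10_199_0 rk10_199_1 rk10_199_2
    (allC_nil))))))))

end Crest.Agent.R347
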