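import Crest.Agent.R347.G10c

/-! Row 347, Chebyshev numerics, ring with 10 sites: run certificates 200..207 (generated) -/

set_option autoImplicit false
set_option Elab.async false

namespace Crest.Agent.R347

/-- run 200 -/
def rd10_200 : CRun :=
  ⟨20, 5030, 40, 3287, 10, 9,
    2582249878086908589655919172003011874329705829785364045772408400555826098562882562189662904146741550643774671330421326675,
    2582249878086908589655919172003011874329705807327450758264781699818365810343940468633148756969048676011185895057889717967,
    2074757784440496479256203931845580575506223093404189423310383037054669619703229482566226059449979962258140442846568291086591658806538068217334062836619765267910807432798322607496574,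
    [279427795, 151650463, 192903782, 94985626, 104659556, 36470126]⟩

set_option maxRecDepth 100000 in
theorem rk10_200_0 : chkC1 52 10 43 5 5 3 rd10_200.me rd10_200.mo gs10 [rd10_200.c0, rd10_200.c1] false
    (Nat.beq (10 % 2) 1) rd10_200.v0 = true := by decide +kernel

set_option maxRecDepth 100000 in
theorem rk10_200_1 : chkC2 52 10 43 5 5 3 rd10_200.me rd10_200.mo gs10 [rd10_200.c0, rd10_200.c1]
    rd10_200.v1 = true := by decide +kernel

set_option maxRecDepth 100000 in
theorem rk10_200_2 : chkC1 52 10 43 5 5 3 rd10_200.me rd10_200.mo gs10 [rd10_200.c0, rd10_200.c1] true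
    (Nat.beq (10 % 2) 0) rd10_200.v2 = true := by decide +kernel

/-- run 201 -/
def rd10_201 : CRun :=
  ⟨20, 5036, 40, 3289, 10, 9,
    2582249878086908589655919172003011874329705799151233274303782881611434173891692245733873640411258565819978415340816523384,
    2582249878086908589655919172003011874329705795365500662351966238858741791596655084149851641176875535024808824179638653648,
    2074757784440496479256203931845580575506223123227760559798658541183119059246119658670693083211211481760826474987183305045971808674816838077112397313974897811971849457940980665623683,
    [565997327, 62723173, 352952678, 39728191, 52645534, 15929649]⟩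

set_option maxRecDepth 100000 in
theorem rk10_201_0 : chkC1 52 10 43 5 5 3 rd10_201.me rd10_201.mo gs10 [rd10_201.c0, rd10_201.c1] false
    (Nat.beq (10 % 2) 1) rd10_201.v0 = true := by decide +kernel

set_option maxRecDepth 100000 in
theorem rk10_201_1 : chkC2 52 10 43 5 5 3 rd10_201.me rd10_201.mo gs10 [rd10_201.c0, rd10_201.c1]
    rd10_201.v1 = true := by decide +kernel

set_option maxRecDepth 100000 in
theorem rk10_201_2 : chkC1 52 10 43 5 5 3 rd10_201.me rd10_201.mo gs10 [rd10_201.c0, rd10_201.c1] true
    (Nat.beq (10 % 2) 0) rd10_201.v2 = true := by decide +kernel

/-- run 202 -/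
def rd10_202 : CRun :=
  ⟨40, 5234, 40, 3299, 10, 9,
    2582249878086908589655919172003011874329705813356869355594464291887848368650781737741169669191977538441197647664345388739,
    2582249878086908589655919172003011874329705800864661934137165308771674494557192176904637426595153485759854704167617320316,
    2074757784440496479256203931845580575506222973315225584405698837521804483656767587027751982075491025632385637254312865174398757757764723274007128981712744944202213945969264714982886,
    [438454913, 113023827, 333300727, 70713971, 235253435, 26921443]⟩

set_option maxRecDepth 100000 in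
theorem rk10_202_0 : chkC1 52 10 43 5 5 3 rd10_202.me rd10_202.mo gs10 [rd10_202.c0, rd10_202.c1] false
    (Nat.beq (10 % 2) 1) rd10_202.v0 = true := by decide +kernel

set_option maxRecDepth 100000 in
theorem rk10_202_1 : chkC2 52 10 43 5 5 3 rd10_202.me rd10_202.mo gs10 [rd10_202.c0, rd10_202.c1]
    rd10_202.v1 = true := by decide +kernel

set_option maxRecDepth 100000 in
theorem rk10_202_2 : chkC1 52 10 43 5 5 3 rd10_202.me rd10_202.mo gs10 [rd10_202.c0, rd10_202.c1] true
    (Nat.beq (10 % 2) 0) rd10_202.v2 = true := by decide +kernel

/-- run 203 -/
def rd10_203 : CRun :=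
  ⟨40, 5252, 40, 3301, 10, 9,
    2582249878086908589655919172003011874329705806919238429207399355539368896647485403639619444590957877348806533994737100486,
    2582249878086908589655919172003011874329705798641015608999949129077775095181214525900030919634272087615510405191849215800,
    2074757784440496479256203931845580575506222979410455953873869314669396527145535711906632130079857103098305013193485888818810644798660235259641460132010997629492135046227422402924401,
    [526809068, 93638870, 378391860, 60138899, 233484785, 25079168]⟩

set_option maxRecDepth 100000 in
theorem rk10_203_0 : chkC1 52 10 43 5 5 3 rd10_203.me rd10_203.mo gs10 [rd10_203.c0, rd10_203.c1] false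
    (Nat.beq (10 % 2) 1) rd10_203.v0 = true := by decide +kernel

set_option maxRecDepth 100000 in
theorem rk10_203_1 : chkC2 52 10 43 5 5 3 rd10_203.me rd10_203.mo gs10 [rd10_203.c0, rd10_203.c1]
    rd10_203.v1 = true := by decide +kernel

set_option maxRecDepth 100000 in
theorem rk10_203_2 : chkC1 52 10 43 5 5 3 rd10_203.me rd10_203.mo gs10 [rd10_203.c0, rd10_203.c1] true
    (Nat.beq (10 % 2) 0) rd10_203.v2 = true := by decide +kernel

/-- run 204 -/
def rd10_204 : CRun :=
  ⟨40, 5288, 40, 3305, 10, 9,
    2582249878086908589655919172003011874329705807579403916988009533985988768748354645651624964652368225941691673711348386818,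
    2582249878086908589655919172003011874329705798854275633130698647524516016609587654800823477227439217553079677513278578051,
    2074757784440496479256203931845580575506222590016195972420246502788313842383586204614698200867603433895342934659885564668087860075797864472003339080711631817110660181009011779535930,
    [910127863, 95807410, 676231701, 61232338, 453018606, 25154266]⟩

set_option maxRecDepth 100000 in
theorem rk10_204_0 : chkC1 52 10 43 5 5 3 rd10_204.me rd10_204.mo gs10 [rd10_204.c0, rd10_204.c1] false
    (Nat.beq (10 % 2) 1) rd10_204.v0 = true := by decide +kernel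

set_option maxRecDepth 100000 in
theorem rk10_204_1 : chkC2 52 10 43 5 5 3 rd10_204.me rd10_204.mo gs10 [rd10_204.c0, rd10_204.c1]
    rd10_204.v1 = true := by decide +kernel

set_option maxRecDepth 100000 in
theorem rk10_204_2 : chkC1 52 10 43 5 5 3 rd10_204.me rd10_204.mo gs10 [rd10_204.c0, rd10_204.c1] true
    (Nat.beq (10 % 2) 0) rd10_204.v2 = true := by decide +kernel

/-- run 205 -/
def rd10_205 : CRun :=
  ⟨20, 5300, 40, 3307, 10, 9,
    2582249878086908589655919172003011874329705797934036265799475960533317513848547453031367498652999419317139607917460831585,
    2582249878086908589655919172003011874329705794950750005469408675551472343530772279926593577427950734798634954699677336917,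
    2074757784440496479256203931845580575506222906965716800336965227809993431080900611006310433320867678642605767650531639108948226256137609994921884982286510448041747082110113771049690,
    [569876576, 56362513, 424601054, 36334959, 287249785, 15425597]⟩

set_option maxRecDepth 100000 in
theorem rk10_205_0 : chkC1 52 10 43 5 5 3 rd10_205.me rd10_205.mo gs10 [rd10_205.c0, rd10_205.c1] false
    (Nat.beq (10 % 2) 1) rd10_205.v0 = true := by decide +kernel

set_option maxRecDepth 100000 in
theorem rk10_205_1 : chkC2 52 10 43 5 5 3 rd10_205.me rd10_205.mo gs10 [rd10_205.c0, rd10_205.c1]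
    rd10_205.v1 = true := by decide +kernel

set_option maxRecDepth 100000 in
theorem rk10_205_2 : chkC1 52 10 43 5 5 3 rd10_205.me rd10_205.mo gs10 [rd10_205.c0, rd10_205.c1] true
    (Nat.beq (10 % 2) 0) rd10_205.v2 = true := by decide +kernel

/-- run 206 -/
def rd10_206 : CRun :=
  ⟨40, 5306, 40, 3329, 10, 9,
    2582249878086908589655919172003011874329705796167247593270558338469820668324647390094279158926112699857497049225034903353,
    2582249878086908589655919172003011874329705794062417131209187007748010912976861177240038919306329343562977305290968437376,
    2074757784440496479256203931845580575506222976262604896755625644990567209358583141774050309383443279044601951991501661031816655292232858007174205289999361945177714783329479327455087,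
    [806959425, 45576941, 535032339, 27702316, 233571765, 9234085]⟩

set_option maxRecDepth 100000 in
theorem rk10_206_0 : chkC1 52 10 43 5 5 3 rd10_206.me rd10_206.mo gs10 [rd10_206.c0, rd10_206.c1] false
    (Nat.beq (10 % 2) 1) rd10_206.v0 = true := by decide +kernel

set_option maxRecDepth 100000 in
theorem rk10_206_1 : chkC2 52 10 43 5 5 3 rd10_206.me rd10_206.mo gs10 [rd10_206.c0, rd10_206.c1]
    rd10_206.v1 = true := by decide +kernel

set_option maxRecDepth 100000 in
theorem rk10_206_2 : chkC1 52 10 43 5 5 3 rd10_206.me rd10_206.mo gs10 [rd10_206.c0, rd10_206.c1] true
    (Nat.beq (10 % 2) 0) rd10_206.v2 = true := by decide +kernel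

/-- run 207 -/
def rd10_207 : CRun :=
  ⟨10, 5324, 40, 3335, 10, 9,
    2582249878086908589655919172003011874329705818933418512713965758100514557919057167346583935309543768336627893266227554536,
    2582249878086908589655919172003011874329705803069567811737999549576132165876323930895861876462339905025848227686269738513,
    2074757784440496479256203931845580575506223116163690779556715275281111206328887906908902092199191274444112789644731237064250937159788743867698171707972473304989796266540907478492727,
    [356737842, 127454622, 220847544, 79828453, 4063991, 30387928]⟩

set_option maxRecDepth 100000 in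
theorem rk10_207_0 : chkC1 52 10 43 5 5 3 rd10_207.me rd10_207.mo gs10 [rd10_207.c0, rd10_207.c1] false
    (Nat.beq (10 % 2) 1) rd10_207.v0 = true := by decide +kernel

set_option maxRecDepth 100000 in
theorem rk10_207_1 : chkC2 52 10 43 5 5 3 rd10_207.me rd10_207.mo gs10 [rd10_207.c0, rd10_207.c1]
    rd10_207.v1 = true := by decide +kernel

set_option maxRecDepth 100000 in
theorem rk10_207_2 : chkC1 52 10 43 5 5 3 rd10_207.me rd10_207.mo gs10 [rd10_207.c0, rd10_207.c1] true
    (Nat.beq (10 % 2) 0) rd10_207.v2 = true := by decide +kernel

/-- runs of this file -/
def rds10_25 : List CRun :=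
  [rd10_200, rd10_201, rd10_202, rd10_203, rd10_204, rd10_205, rd10_206, rd10_207]

theorem ac10_25 : allC 52 10 43 5 5 3 gs10 rds10_25 :=
  allC_cons rk10_200_0 rk10_200_1 rk10_200_2
    (allC_cons rk10_201_0 rk10_201_1 rk10_201_2
    (allC_cons rk10_202_0 rk10_202_1 rk10_202_2
    (allC_cons rk10_203_0 rk10_203_1 rk10_203_2
    (allC_cons rk10_204_0 rk10_204_1 rk10_204_2
    (allC_cons rk10_205_0 rk10_205_1 rk10_205_2
    (allC_cons rk10_206_0 rk10_206_1 rk10_206_2
    (allC_cons rk10_207_0 rk10_207_1 rk10_207_2
    (allC_nil))))))))

end Crest.Agent.R347
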