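import Crest.Agent.R347.G10c

/-! Row 347, Chebyshev numerics, ring with 10 sites: run certificates 208..215 (generated) -/

set_option autoImplicit false
set_option Elab.async false

namespace Crest.Agent.R347

/-- run 208 -/
def rd10_208 : CRun :=
  ⟨40, 5396, 40, 3337, 10, 9,
    2582249878086908589655919172003011874329705800562292585776779282490527865116633476545814771188215383363057207412796992448,
    2582249878086908589655919172003011874329705795974937253577716612898165541301500948071477760424059212278973506640845980355,
    2074757784440496479256203931845580575506222978556221345050355426225991810252810044218494047099616119251191747237126447710867941835435365221483400546138955808865591385499735304403674,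
    [503961889, 69370749, 366549277, 44244576, 234172227, 17978122]⟩

set_option maxRecDepth 100000 in
theorem rk10_208_0 : chkC1 52 10 43 5 5 3 rd10_208.me rd10_208.mo gs10 [rd10_208.c0, rd10_208.c1] false
    (Nat.beq (10 % 2) 1) rd10_208.v0 = true := by decide +kernel

set_option maxRecDepth 100000 in
theorem rk10_208_1 : chkC2 52 10 43 5 5 3 rd10_208.me rd10_208.mo gs10 [rd10_208.c0, rd10_208.c1]
    rd10_208.v1 = true := by decide +kernel

set_option maxRecDepth 100000 in
theorem rk10_208_2 : chkC1 52 10 43 5 5 3 rd10_208.me rd10_208.mo gs10 [rd10_208.c0, rd10_208.c1] true
    (Nat.beq (10 % 2) 0) rd10_208.v2 = true := by decide +kernel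

/-- run 209 -/
def rd10_209 : CRun :=
  ⟨40, 5414, 40, 3341, 10, 9,
    2582249878086908589655919172003011874329705872432526033535831678587410710405950291464231831201033829148057859563903066024,
    2582249878086908589655919172003011874329705826557883843722033104806303702456260418272878698940639936283984297805387695054,
    2074757784440496479256203931845580575506222882925873770407085546972705422834201537869230615127569451554937945256987812278091304236229278497795535004243090773994400656116517673923463,
    [906637497, 222569668, 619708842, 144877179, 320857206, 62570458]⟩

set_option maxRecDepth 100000 in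
theorem rk10_209_0 : chkC1 52 10 43 5 5 3 rd10_209.me rd10_209.mo gs10 [rd10_209.c0, rd10_209.c1] false
    (Nat.beq (10 % 2) 1) rd10_209.v0 = true := by decide +kernel

set_option maxRecDepth 100000 in
theorem rk10_209_1 : chkC2 52 10 43 5 5 3 rd10_209.me rd10_209.mo gs10 [rd10_209.c0, rd10_209.c1]
    rd10_209.v1 = true := by decide +kernel

set_option maxRecDepth 100000 in
theorem rk10_209_2 : chkC1 52 10 43 5 5 3 rd10_209.me rd10_209.mo gs10 [rd10_209.c0, rd10_209.c1] true
    (Nat.beq (10 % 2) 0) rd10_209.v2 = true := by decide +kernel

/-- run 210 -/
def rd10_210 : CRun :=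
  ⟨40, 5450, 40, 3343, 10, 9,
    2582249878086908589655919172003011874329705806025397564309393039478929612326668099613297381122487176280609576299711253452,
    2582249878086908589655919172003011874329705798436766513194277272785581029807720304120239658542741736380944540492679442675,
    2074757784440496479256203931845580575506222972509733853354986543384941970155121562553653485930449122066822654582112303659673975011717906019972140938688248555163164703704574585192129,
    [746091902, 90620083, 500671519, 59072689, 236562029, 25713876]⟩

set_option maxRecDepth 100000 in
theorem rk10_210_0 : chkC1 52 10 43 5 5 3 rd10_210.me rd10_210.mo gs10 [rd10_210.c0, rd10_210.c1] false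
    (Nat.beq (10 % 2) 1) rd10_210.v0 = true := by decide +kernel

set_option maxRecDepth 100000 in
theorem rk10_210_1 : chkC2 52 10 43 5 5 3 rd10_210.me rd10_210.mo gs10 [rd10_210.c0, rd10_210.c1]
    rd10_210.v1 = true := by decide +kernel

set_option maxRecDepth 100000 in
theorem rk10_210_2 : chkC1 52 10 43 5 5 3 rd10_210.me rd10_210.mo gs10 [rd10_210.c0, rd10_210.c1] true
    (Nat.beq (10 % 2) 0) rd10_210.v2 = true := by decide +kernel

/-- run 211 -/
def rd10_211 : CRun :=
  ⟨20, 5462, 40, 3353, 10, 9,
    2582249878086908589655919172003011874329705802686286226948141055748562068221752497443812241685898711881727307839600589856,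
    2582249878086908589655919172003011874329705796820174218809120012652242886581031836230897401841889893733695638636896340688,
    2074757784440496479256203931845580575506222956995524201977713060094951059161513291035228737224380884396970921076627733262694878650620355803265166888613217179628816541546423822659128,
    [729004244, 78320274, 499501936, 49835477, 263041957, 20085639]⟩

set_option maxRecDepth 100000 in
theorem rk10_211_0 : chkC1 52 10 43 5 5 3 rd10_211.me rd10_211.mo gs10 [rd10_211.c0, rd10_211.c1] false
    (Nat.beq (10 % 2) 1) rd10_211.v0 = true := by decide +kernel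

set_option maxRecDepth 100000 in
theorem rk10_211_1 : chkC2 52 10 43 5 5 3 rd10_211.me rd10_211.mo gs10 [rd10_211.c0, rd10_211.c1]
    rd10_211.v1 = true := by decide +kernel

set_option maxRecDepth 100000 in
theorem rk10_211_2 : chkC1 52 10 43 5 5 3 rd10_211.me rd10_211.mo gs10 [rd10_211.c0, rd10_211.c1] true
    (Nat.beq (10 % 2) 0) rd10_211.v2 = true := by decide +kernel

/-- run 212 -/
def rd10_212 : CRun :=
  ⟨20, 5468, 40, 3355, 10, 9,
    2582249878086908589655919172003011874329705799242598556542904652110488573599772696185865157231943148034456857936911724814,
    2582249878086908589655919172003011874329705795502261853610798051989820775769595822585302467296815631485523859430616086266,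
    2074757784440496479256203931845580575506223126570860621948337457585768924507942569163530212392545967714838875381992375772933017286322599165142362897176375433735079777102113001511800,
    [1207141179, 63174783, 746811459, 40785241, 63615413, 17246171]⟩

set_option maxRecDepth 100000 in
theorem rk10_212_0 : chkC1 52 10 43 5 5 3 rd10_212.me rd10_212.mo gs10 [rd10_212.c0, rd10_212.c1] false
    (Nat.beq (10 % 2) 1) rd10_212.v0 = true := by decide +kernel

set_option maxRecDepth 100000 in
theorem rk10_212_1 : chkC2 52 10 43 5 5 3 rd10_212.me rd10_212.mo gs10 [rd10_212.c0, rd10_212.c1]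
    rd10_212.v1 = true := by decide +kernel

set_option maxRecDepth 100000 in
theorem rk10_212_2 : chkC1 52 10 43 5 5 3 rd10_212.me rd10_212.mo gs10 [rd10_212.c0, rd10_212.c1] true
    (Nat.beq (10 % 2) 0) rd10_212.v2 = true := by decide +kernel

/-- run 213 -/
def rd10_213 : CRun :=
  ⟨20, 5516, 40, 3359, 10, 9,
    2582249878086908589655919172003011874329705808728024821695357022192862965816895076258827993796130021447310539963329796249,
    2582249878086908589655919172003011874329705799503711915705536255615158915955534639615848352207879822814068423801633985893,
    2074757784440496479256203931845580575506223118310417593487739170452098479910712583405132105278645496097833594780674484990931377153388541697797175476811761439534346374943171737698665,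
    [314489760, 99467826, 195319626, 64447998, 29116881, 27541485]⟩

set_option maxRecDepth 100000 in
theorem rk10_213_0 : chkC1 52 10 43 5 5 3 rd10_213.me rd10_213.mo gs10 [rd10_213.c0, rd10_213.c1] false
    (Nat.beq (10 % 2) 1) rd10_213.v0 = true := by decide +kernel

set_option maxRecDepth 100000 in
theorem rk10_213_1 : chkC2 52 10 43 5 5 3 rd10_213.me rd10_213.mo gs10 [rd10_213.c0, rd10_213.c1]
    rd10_213.v1 = true := by decide +kernel

set_option maxRecDepth 100000 in
theorem rk10_213_2 : chkC1 52 10 43 5 5 3 rd10_213.me rd10_213.mo gs10 [rd10_213.c0, rd10_213.c1] true
    (Nat.beq (10 % 2) 0) rd10_213.v2 = true := by decide +kernel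

/-- run 214 -/
def rd10_214 : CRun :=
  ⟨10, 5612, 40, 3377, 10, 9,
    2582249878086908589655919172003011874329705793545582493672162343631927141385565912132169315917958759461337832594474373946,
    2582249878086908589655919172003011874329705793121537935256578440340016054526646563091672664514291754824984503532485429501,
    2074757784440496479256203931845580575506223116143118675493783087867305217573757484567627894108530734885296384584020332307812225494203473181625416000022622147964476470843316594522257,
    [291324219, 21113771, 179842934, 13487317, 2912236, 5557390]⟩

set_option maxRecDepth 100000 in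
theorem rk10_214_0 : chkC1 52 10 43 5 5 3 rd10_214.me rd10_214.mo gs10 [rd10_214.c0, rd10_214.c1] false
    (Nat.beq (10 % 2) 1) rd10_214.v0 = true := by decide +kernel

set_option maxRecDepth 100000 in
theorem rk10_214_1 : chkC2 52 10 43 5 5 3 rd10_214.me rd10_214.mo gs10 [rd10_214.c0, rd10_214.c1]
    rd10_214.v1 = true := by decide +kernel

set_option maxRecDepth 100000 in
theorem rk10_214_2 : chkC1 52 10 43 5 5 3 rd10_214.me rd10_214.mo gs10 [rd10_214.c0, rd10_214.c1] true
    (Nat.beq (10 % 2) 0) rd10_214.v2 = true := by decide +kernel

/-- run 215 -/
def rd10_215 : CRun :=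
  ⟨20, 5624, 40, 3419, 10, 9,
    2582249878086908589655919172003011874329705793765180395734647524275756778396665421668111488643881111897245680526532780653,
    2582249878086908589655919172003011874329705793183828832640314480666537951478289760386269517978840287924921088973621997229,
    2074757784440496479256203931845580575506223116466217241832378320416076790861808756840483067467015150153441023011339915746842071612033984522250126583484856473593756809134618511536197,
    [306504172, 24133948, 189710898, 14855014, 16168977, 5231987]⟩

set_option maxRecDepth 100000 in
theorem rk10_215_0 : chkC1 52 10 43 5 5 3 rd10_215.me rd10_215.mo gs10 [rd10_215.c0, rd10_215.c1] false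
    (Nat.beq (10 % 2) 1) rd10_215.v0 = true := by decide +kernel

set_option maxRecDepth 100000 in
theorem rk10_215_1 : chkC2 52 10 43 5 5 3 rd10_215.me rd10_215.mo gs10 [rd10_215.c0, rd10_215.c1]
    rd10_215.v1 = true := by decide +kernel

set_option maxRecDepth 100000 in
theorem rk10_215_2 : chkC1 52 10 43 5 5 3 rd10_215.me rd10_215.mo gs10 [rd10_215.c0, rd10_215.c1] true
    (Nat.beq (10 % 2) 0) rd10_215.v2 = true := by decide +kernel

/-- runs of this file -/
def rds10_26 : List CRun :=
  [rd10_208, rd10_209, rd10_210, rd10_211, rd10_212, rd10_213, rd10_214, rd10_215]

theorem ac10_26 : allC 52 10 43 5 5 3 gs10 rds10_26 :=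
  allC_cons rk10_208_0 rk10_208_1 rk10_208_2
    (allC_cons rk10_209_0 rk10_209_1 rk10_209_2
    (allC_cons rk10_210_0 rk10_210_1 rk10_210_2
    (allC_cons rk10_211_0 rk10_211_1 rk10_211_2
    (allC_cons rk10_212_0 rk10_212_1 rk10_212_2
    (allC_cons rk10_213_0 rk10_213_1 rk10_213_2
    (allC_cons rk10_214_0 rk10_214_1 rk10_214_2
    (allC_cons rk10_215_0 rk10_215_1 rk10_215_2
    (allC_nil))))))))

end Crest.Agent.R347
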