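import Crest.Agent.R347.G10c

/-! Row 347, Chebyshev numerics, ring with 10 sites: run certificates 216..223 (generated) -/

set_option autoImplicit false
set_option Elab.async false

namespace Crest.Agent.R347

/-- run 216 -/
def rd10_216 : CRun :=
  ⟨10, 7502, 40, 3425, 10, 9,
    2582249878086908589655919172003011874329705797022044642145858505930716981280151510252791074987512996711114048794742620797,
    2582249878086908589655919172003011874329705794380880283380358850666955627358777758195370073865277371276211536305570758961,
    2074757784440496479256203931845580575506223103429538888736999508481485542027937227968383972162140231061464371252331671580562035842384734290732281893537154439083289936671361708679797,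
    [128235370, 51080320, 97613087, 31074079, 70141528, 10315751]⟩

set_option maxRecDepth 100000 in
theorem rk10_216_0 : chkC1 52 10 43 5 5 3 rd10_216.me rd10_216.mo gs10 [rd10_216.c0, rd10_216.c1] false
    (Nat.beq (10 % 2) 1) rd10_216.v0 = true := by decide +kernel

set_option maxRecDepth 100000 in
theorem rk10_216_1 : chkC2 52 10 43 5 5 3 rd10_216.me rd10_216.mo gs10 [rd10_216.c0, rd10_216.c1]
    rd10_216.v1 = true := by decide +kernel

set_option maxRecDepth 100000 in
theorem rk10_216_2 : chkC1 52 10 43 5 5 3 rd10_216.me rd10_216.mo gs10 [rd10_216.c0, rd10_216.c1] true
    (Nat.beq (10 % 2) 0) rd10_216.v2 = true := by decide +kernel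

/-- run 217 -/
def rd10_217 : CRun :=
  ⟨20, 7664, 40, 3427, 10, 9,
    2582249878086908589655919172003011874329705793612851530436990749635276064027454143961393849439604179576686572843668064524,
    2582249878086908589655919172003011874329705793124928238639860728939286673653525711728407107822881837483823154387404470536,
    2074757784440496479256203931845580575506222949721432828347844638532124800660560746345674949647599629561997900991406413819391025803802853213203291975539732419153288051755271455010502,
    [457810998, 22082865, 351824365, 13565306, 254572095, 4736967]⟩

set_option maxRecDepth 100000 in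
theorem rk10_217_0 : chkC1 52 10 43 5 5 3 rd10_217.me rd10_217.mo gs10 [rd10_217.c0, rd10_217.c1] false
    (Nat.beq (10 % 2) 1) rd10_217.v0 = true := by decide +kernel

set_option maxRecDepth 100000 in
theorem rk10_217_1 : chkC2 52 10 43 5 5 3 rd10_217.me rd10_217.mo gs10 [rd10_217.c0, rd10_217.c1]
    rd10_217.v1 = true := by decide +kernel

set_option maxRecDepth 100000 in
theorem rk10_217_2 : chkC1 52 10 43 5 5 3 rd10_217.me rd10_217.mo gs10 [rd10_217.c0, rd10_217.c1] true
    (Nat.beq (10 % 2) 0) rd10_217.v2 = true := by decide +kernel

/-- run 218 -/
def rd10_218 : CRun :=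
  ⟨40, 7682, 40, 3437, 10, 9,
    2582249878086908589655919172003011874329705798421019698524138747086301163151954374359469577515626104930533201314570714640,
    2582249878086908589655919172003011874329705794946555705896738975723300509791019842444741548622146946350472118149826169978,
    2074757784440496479256203931845580575506222952267745288720525750085270601043247273213522066048370599946461775778306934831932947159899721317183370919854782397940184206604841204216063,
    [520690728, 58989689, 383006518, 36299023, 252267455, 12692795]⟩

set_option maxRecDepth 100000 in
theorem rk10_218_0 : chkC1 52 10 43 5 5 3 rd10_218.me rd10_218.mo gs10 [rd10_218.c0, rd10_218.c1] false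
    (Nat.beq (10 % 2) 1) rd10_218.v0 = true := by decide +kernel

set_option maxRecDepth 100000 in
theorem rk10_218_1 : chkC2 52 10 43 5 5 3 rd10_218.me rd10_218.mo gs10 [rd10_218.c0, rd10_218.c1]
    rd10_218.v1 = true := by decide +kernel

set_option maxRecDepth 100000 in
theorem rk10_218_2 : chkC1 52 10 43 5 5 3 rd10_218.me rd10_218.mo gs10 [rd10_218.c0, rd10_218.c1] true
    (Nat.beq (10 % 2) 0) rd10_218.v2 = true := by decide +kernel

/-- run 219 -/
def rd10_219 : CRun :=
  ⟨20, 7684, 40, 3443, 10, 9,
    2582249878086908589655919172003011874329705822828591856942242152339745509762213777047245423142016077908942392931716311056,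
    2582249878086908589655919172003011874329705804536661753615498208712221013250400989754040087004772600707869809514660096724,
    2074757784440496479256203931845580575506223102294289048146028950003907653754195672084130539123431322836596208669640178652805561404025534286349868352074811809492901428556754754243673,
    [201481659, 136633279, 138620014, 85355473, 73241232, 31910166]⟩

set_option maxRecDepth 100000 in
theorem rk10_219_0 : chkC1 52 10 43 5 5 3 rd10_219.me rd10_219.mo gs10 [rd10_219.c0, rd10_219.c1] false
    (Nat.beq (10 % 2) 1) rd10_219.v0 = true := by decide +kernel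

set_option maxRecDepth 100000 in
theorem rk10_219_1 : chkC2 52 10 43 5 5 3 rd10_219.me rd10_219.mo gs10 [rd10_219.c0, rd10_219.c1]
    rd10_219.v1 = true := by decide +kernel

set_option maxRecDepth 100000 in
theorem rk10_219_2 : chkC1 52 10 43 5 5 3 rd10_219.me rd10_219.mo gs10 [rd10_219.c0, rd10_219.c1] true
    (Nat.beq (10 % 2) 0) rd10_219.v2 = true := by decide +kernel

/-- run 220 -/
def rd10_220 : CRun :=
  ⟨40, 7718, 40, 3445, 10, 9,
    2582249878086908589655919172003011874329705803178462146505364856601733708894216449250845985229047095817907004266108193526,
    2582249878086908589655919172003011874329705797058559751025580016664646880638251622420642242233035910200327393214033976040,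
    2074757784440496479256203931845580575506222700417148986684347264028673412104625494463596376393111754757666747159649523575856375079126461738319618937591439021174887562807002434005611,
    [751295673, 80251773, 573857397, 51302266, 407862909, 20906778]⟩

set_option maxRecDepth 100000 in
theorem rk10_220_0 : chkC1 52 10 43 5 5 3 rd10_220.me rd10_220.mo gs10 [rd10_220.c0, rd10_220.c1] false
    (Nat.beq (10 % 2) 1) rd10_220.v0 = true := by decide +kernel

set_option maxRecDepth 100000 in
theorem rk10_220_1 : chkC2 52 10 43 5 5 3 rd10_220.me rd10_220.mo gs10 [rd10_220.c0, rd10_220.c1]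
    rd10_220.v1 = true := by decide +kernel

set_option maxRecDepth 100000 in
theorem rk10_220_2 : chkC1 52 10 43 5 5 3 rd10_220.me rd10_220.mo gs10 [rd10_220.c0, rd10_220.c1] true
    (Nat.beq (10 % 2) 0) rd10_220.v2 = true := by decide +kernel

/-- run 221 -/
def rd10_221 : CRun :=
  ⟨40, 7736, 40, 3449, 10, 9,
    2582249878086908589655919172003011874329705830385467422851277807515725547974333860614912523605532205518302923204338991395,
    2582249878086908589655919172003011874329705808355793227710951663050545525982365491267215055293212826279725429800485383375,
    2074757784440496479256203931845580575506222976562100148126287679169639608126708930846874870125407081575055916318428477546770321890612596668312680568003661710285952759998388917851253,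
    [615237477, 152876774, 426659895, 98296532, 233412697, 40677095]⟩

set_option maxRecDepth 100000 in
theorem rk10_221_0 : chkC1 52 10 43 5 5 3 rd10_221.me rd10_221.mo gs10 [rd10_221.c0, rd10_221.c1] false
    (Nat.beq (10 % 2) 1) rd10_221.v0 = true := by decide +kernel

set_option maxRecDepth 100000 in
theorem rk10_221_1 : chkC2 52 10 43 5 5 3 rd10_221.me rd10_221.mo gs10 [rd10_221.c0, rd10_221.c1]
    rd10_221.v1 = true := by decide +kernel

set_option maxRecDepth 100000 in
theorem rk10_221_2 : chkC1 52 10 43 5 5 3 rd10_221.me rd10_221.mo gs10 [rd10_221.c0, rd10_221.c1] true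
    (Nat.beq (10 % 2) 0) rd10_221.v2 = true := by decide +kernel

/-- run 222 -/
def rd10_222 : CRun :=
  ⟨40, 7738, 40, 3451, 10, 9,
    2582249878086908589655919172003011874329705800070783154424108873610290555048937962050324076910761134382866563402057364141,
    2582249878086908589655919172003011874329705795860574576870804275143503651218044170474498122097379481796549493865964194391,
    2074757784440496479256203931845580575506223107252459571637752373214757926325151306922847588744246555267019201632227943361000577957190417342275824910780904479445148593434176510568243,
    [275549511, 67129976, 178059636, 43432873, 60272906, 18427945]⟩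

set_option maxRecDepth 100000 in
theorem rk10_222_0 : chkC1 52 10 43 5 5 3 rd10_222.me rd10_222.mo gs10 [rd10_222.c0, rd10_222.c1] false
    (Nat.beq (10 % 2) 1) rd10_222.v0 = true := by decide +kernel

set_option maxRecDepth 100000 in
theorem rk10_222_1 : chkC2 52 10 43 5 5 3 rd10_222.me rd10_222.mo gs10 [rd10_222.c0, rd10_222.c1]
    rd10_222.v1 = true := by decide +kernel

set_option maxRecDepth 100000 in
theorem rk10_222_2 : chkC1 52 10 43 5 5 3 rd10_222.me rd10_222.mo gs10 [rd10_222.c0, rd10_222.c1] true
    (Nat.beq (10 % 2) 0) rd10_222.v2 = true := by decide +kernel

/-- run 223 -/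
def rd10_223 : CRun :=
  ⟨20, 7742, 40, 3461, 10, 9,
    2582249878086908589655919172003011874329705841377586760041262274404402755624633830579494926316902721096312663240837809969,
    2582249878086908589655919172003011874329705813084385913781820459011561241008173299427898631834927259930133226939297883745,
    2074757784440496479256203931845580575506223112492570415092066859773991060531745294376365120944277496939918825253463917492048015857201388633150039195241982765335235007487565198096004,
    [422208414, 173815191, 264674761, 112271183, 39388822, 47068734]⟩

set_option maxRecDepth 100000 in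
theorem rk10_223_0 : chkC1 52 10 43 5 5 3 rd10_223.me rd10_223.mo gs10 [rd10_223.c0, rd10_223.c1] false
    (Nat.beq (10 % 2) 1) rd10_223.v0 = true := by decide +kernel

set_option maxRecDepth 100000 in
theorem rk10_223_1 : chkC2 52 10 43 5 5 3 rd10_223.me rd10_223.mo gs10 [rd10_223.c0, rd10_223.c1]
    rd10_223.v1 = true := by decide +kernel

set_option maxRecDepth 100000 in
theorem rk10_223_2 : chkC1 52 10 43 5 5 3 rd10_223.me rd10_223.mo gs10 [rd10_223.c0, rd10_223.c1] true
    (Nat.beq (10 % 2) 0) rd10_223.v2 = true := by decide +kernel

/-- runs of this file -/
def rds10_27 : List CRun :=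
  [rd10_216, rd10_217, rd10_218, rd10_219, rd10_220, rd10_221, rd10_222, rd10_223]

theorem ac10_27 : allC 52 10 43 5 5 3 gs10 rds10_27 :=
  allC_cons rk10_216_0 rk10_216_1 rk10_216_2
    (allC_cons rk10_217_0 rk10_217_1 rk10_217_2
    (allC_cons rk10_218_0 rk10_218_1 rk10_218_2
    (allC_cons rk10_219_0 rk10_219_1 rk10_219_2
    (allC_cons rk10_220_0 rk10_220_1 rk10_220_2
    (allC_cons rk10_221_0 rk10_221_1 rk10_221_2
    (allC_cons rk10_222_0 rk10_222_1 rk10_222_2
    (allC_cons rk10_223_0 rk10_223_1 rk10_223_2
    (allC_nil))))))))

end Crest.Agent.R347
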