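import Crest.Agent.R347.G10c

/-! Row 347, Chebyshev numerics, ring with 10 sites: run certificates 224..231 (generated) -/

set_option autoImplicit false
set_option Elab.async false

namespace Crest.Agent.R347

/-- run 224 -/
def rd10_224 : CRun :=
  ⟨10, 7744, 40, 3463, 10, 9,
    2582249878086908589655919172003011874329705831641341361289437385361098087397657061337265971963323112013151800113378514993,
    2582249878086908589655919172003011874329705809572934605363624392655432117300873252752958095946079714604630636428928793160,
    2074757784440496479256203931845580575506223116136763347880024530572571929541436561539842096005245180721858111383967390125776054207637904421947515500057007881112538073346876059144569,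
    [169835133, 155411841, 105708639, 102076624, 2467153, 45123737]⟩

set_option maxRecDepth 100000 in
theorem rk10_224_0 : chkC1 52 10 43 5 5 3 rd10_224.me rd10_224.mo gs10 [rd10_224.c0, rd10_224.c1] false
    (Nat.beq (10 % 2) 1) rd10_224.v0 = true := by decide +kernel

set_option maxRecDepth 100000 in
theorem rk10_224_1 : chkC2 52 10 43 5 5 3 rd10_224.me rd10_224.mo gs10 [rd10_224.c0, rd10_224.c1]
    rd10_224.v1 = true := by decide +kernel

set_option maxRecDepth 100000 in
theorem rk10_224_2 : chkC1 52 10 43 5 5 3 rd10_224.me rd10_224.mo gs10 [rd10_224.c0, rd10_224.c1] true
    (Nat.beq (10 % 2) 0) rd10_224.v2 = true := by decide +kernel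

/-- run 225 -/
def rd10_225 : CRun :=
  ⟨20, 7826, 40, 3467, 10, 9,
    2582249878086908589655919172003011874329705826477811187679527924840312493570896264289480880374374200222161025764651136250,
    2582249878086908589655919172003011874329705807034936103415755297410796607525312657741840573543894192529444805235834631904,
    2074757784440496479256203931845580575506222949773602840455482648598951877975363004466480386677838291910801429977742818361223716519538673641656046722554081597519864806944227129909982,
    [494447390, 144705106, 370784867, 94022533, 254221666, 40221494]⟩

set_option maxRecDepth 100000 in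
theorem rk10_225_0 : chkC1 52 10 43 5 5 3 rd10_225.me rd10_225.mo gs10 [rd10_225.c0, rd10_225.c1] false
    (Nat.beq (10 % 2) 1) rd10_225.v0 = true := by decide +kernel

set_option maxRecDepth 100000 in
theorem rk10_225_1 : chkC2 52 10 43 5 5 3 rd10_225.me rd10_225.mo gs10 [rd10_225.c0, rd10_225.c1]
    rd10_225.v1 = true := by decide +kernel

set_option maxRecDepth 100000 in
theorem rk10_225_2 : chkC1 52 10 43 5 5 3 rd10_225.me rd10_225.mo gs10 [rd10_225.c0, rd10_225.c1] true
    (Nat.beq (10 % 2) 0) rd10_225.v2 = true := by decide +kernel

/-- run 226 -/
def rd10_226 : CRun :=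
  ⟨40, 7844, 40, 3491, 10, 9,
    2582249878086908589655919172003011874329705794279013263796161538587371844478860407393554643118747364195733128599025090752,
    2582249878086908589655919172003011874329705793383536276765006702699963751004547596835802562615636486966379492290860842648,
    2074757784440496479256203931845580575506222786540811850043773110345514596378158858262691755440175718827249733710604344813070444010179691169057015308874696023660959432405071039971862,
    [843364344, 30036751, 602371300, 18572821, 363897277, 6660355]⟩

set_option maxRecDepth 100000 in
theorem rk10_226_0 : chkC1 52 10 43 5 5 3 rd10_226.me rd10_226.mo gs10 [rd10_226.c0, rd10_226.c1] false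
    (Nat.beq (10 % 2) 1) rd10_226.v0 = true := by decide +kernel

set_option maxRecDepth 100000 in
theorem rk10_226_1 : chkC2 52 10 43 5 5 3 rd10_226.me rd10_226.mo gs10 [rd10_226.c0, rd10_226.c1]
    rd10_226.v1 = true := by decide +kernel

set_option maxRecDepth 100000 in
theorem rk10_226_2 : chkC1 52 10 43 5 5 3 rd10_226.me rd10_226.mo gs10 [rd10_226.c0, rd10_226.c1] true
    (Nat.beq (10 % 2) 0) rd10_226.v2 = true := by decide +kernel

/-- run 227 -/
def rd10_227 : CRun :=
  ⟨40, 7846, 40, 3497, 10, 9,
    2582249878086908589655919172003011874329705806559334007456023781687580131584443863776783072033072485052286932774482733355,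
    2582249878086908589655919172003011874329705798328126666073308089186005163787816741838003958951777233071899824225560353773,
    2074757784440496479256203931845580575506223094443443240239773223036962749910842872562934759417028916127068666259927609755393376238061043505702223530030182547771729801480423517522745,
    [335358071, 92435214, 222002092, 58497657, 93198633, 22970097]⟩

set_option maxRecDepth 100000 in
theorem rk10_227_0 : chkC1 52 10 43 5 5 3 rd10_227.me rd10_227.mo gs10 [rd10_227.c0, rd10_227.c1] false
    (Nat.beq (10 % 2) 1) rd10_227.v0 = true := by decide +kernel

set_option maxRecDepth 100000 in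
theorem rk10_227_1 : chkC2 52 10 43 5 5 3 rd10_227.me rd10_227.mo gs10 [rd10_227.c0, rd10_227.c1]
    rd10_227.v1 = true := by decide +kernel

set_option maxRecDepth 100000 in
theorem rk10_227_2 : chkC1 52 10 43 5 5 3 rd10_227.me rd10_227.mo gs10 [rd10_227.c0, rd10_227.c1] true
    (Nat.beq (10 % 2) 0) rd10_227.v2 = true := by decide +kernel

/-- run 228 -/
def rd10_228 : CRun :=
  ⟨40, 7880, 40, 3499, 10, 9,
    2582249878086908589655919172003011874329705797474525753347797090445157587960890081837170948856102851508910592111985429094,
    2582249878086908589655919172003011874329705794741251387680872913511873781782500199633018073546154673242446425704429311201,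
    2074757784440496479256203931845580575506222967316085584171351713744949845463541282576473414716882713726629020183786745013279572812026489285057921955957908746238182587847967499244143,
    [549642105, 53765963, 393891035, 34494317, 240736342, 14222561]⟩

set_option maxRecDepth 100000 in
theorem rk10_228_0 : chkC1 52 10 43 5 5 3 rd10_228.me rd10_228.mo gs10 [rd10_228.c0, rd10_228.c1] false
    (Nat.beq (10 % 2) 1) rd10_228.v0 = true := by decide +kernel

set_option maxRecDepth 100000 in
theorem rk10_228_1 : chkC2 52 10 43 5 5 3 rd10_228.me rd10_228.mo gs10 [rd10_228.c0, rd10_228.c1]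
    rd10_228.v1 = true := by decide +kernel

set_option maxRecDepth 100000 in
theorem rk10_228_2 : chkC1 52 10 43 5 5 3 rd10_228.me rd10_228.mo gs10 [rd10_228.c0, rd10_228.c1] true
    (Nat.beq (10 % 2) 0) rd10_228.v2 = true := by decide +kernel

/-- run 229 -/
def rd10_229 : CRun :=
  ⟨40, 7898, 40, 3503, 10, 9,
    2582249878086908589655919172003011874329705833103956342635630734593503588683024671611290715982090505716570017863982126764,
    2582249878086908589655919172003011874329705809773804653069999712261452484963263884099075535985844302000081836595553269918,
    2074757784440496479256203931845580575506223061706187252268049051458236421496523667310011963299799729877690255866442795894423747863597806690148179729844263296977004900065627225754452,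
    [743154499, 158313069, 475707876, 102687092, 147738235, 43609287]⟩

set_option maxRecDepth 100000 in
theorem rk10_229_0 : chkC1 52 10 43 5 5 3 rd10_229.me rd10_229.mo gs10 [rd10_229.c0, rd10_229.c1] false
    (Nat.beq (10 % 2) 1) rd10_229.v0 = true := by decide +kernel

set_option maxRecDepth 100000 in
theorem rk10_229_1 : chkC2 52 10 43 5 5 3 rd10_229.me rd10_229.mo gs10 [rd10_229.c0, rd10_229.c1]
    rd10_229.v1 = true := by decide +kernel

set_option maxRecDepth 100000 in
theorem rk10_229_2 : chkC1 52 10 43 5 5 3 rd10_229.me rd10_229.mo gs10 [rd10_229.c0, rd10_229.c1] true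
    (Nat.beq (10 % 2) 0) rd10_229.v2 = true := by decide +kernel

/-- run 230 -/
def rd10_230 : CRun :=
  ⟨20, 7900, 40, 3515, 10, 9,
    2582249878086908589655919172003011874329705804188305885971396290907575641885867177145102640963743035645942694017645560797,
    2582249878086908589655919172003011874329705797480640738585646142759659549695249379975800823811456625414688704192399686112,
    2074757784440496479256203931845580575506223116172409620178561114662285467472836627516650225125460972616503408993670645099259055970998790567111049305944972043010903611094576702596740,
    [365122649, 84076004, 226415747, 53801339, 4467367, 21994165]⟩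

set_option maxRecDepth 100000 in
theorem rk10_230_0 : chkC1 52 10 43 5 5 3 rd10_230.me rd10_230.mo gs10 [rd10_230.c0, rd10_230.c1] false
    (Nat.beq (10 % 2) 1) rd10_230.v0 = true := by decide +kernel

set_option maxRecDepth 100000 in
theorem rk10_230_1 : chkC2 52 10 43 5 5 3 rd10_230.me rd10_230.mo gs10 [rd10_230.c0, rd10_230.c1]
    rd10_230.v1 = true := by decide +kernel

set_option maxRecDepth 100000 in
theorem rk10_230_2 : chkC1 52 10 43 5 5 3 rd10_230.me rd10_230.mo gs10 [rd10_230.c0, rd10_230.c1] true
    (Nat.beq (10 % 2) 0) rd10_230.v2 = true := by decide +kernel

/-- run 231 -/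
def rd10_231 : CRun :=
  ⟨40, 7904, 40, 3517, 10, 9,
    2582249878086908589655919172003011874329705801354386674790735071943396964864048199650715671788754809702086831040447239512,
    2582249878086908589655919172003011874329705796390663076788343314834916958021766141065614057311467929915457134290216817302,
    2074757784440496479256203931845580575506223099622972672805956856379831587251275128862381336715594841316467843760520035325551834456814420667874477449070528984260293811582855127127934,
    [659597421, 72836956, 417415665, 47077482, 96482083, 19920083]⟩

set_option maxRecDepth 100000 in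
theorem rk10_231_0 : chkC1 52 10 43 5 5 3 rd10_231.me rd10_231.mo gs10 [rd10_231.c0, rd10_231.c1] false
    (Nat.beq (10 % 2) 1) rd10_231.v0 = true := by decide +kernel

set_option maxRecDepth 100000 in
theorem rk10_231_1 : chkC2 52 10 43 5 5 3 rd10_231.me rd10_231.mo gs10 [rd10_231.c0, rd10_231.c1]
    rd10_231.v1 = true := by decide +kernel

set_option maxRecDepth 100000 in
theorem rk10_231_2 : chkC1 52 10 43 5 5 3 rd10_231.me rd10_231.mo gs10 [rd10_231.c0, rd10_231.c1] true
    (Nat.beq (10 % 2) 0) rd10_231.v2 = true := by decide +kernel

/-- runs of this file -/
def rds10_28 : List CRun :=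
  [rd10_224, rd10_225, rd10_226, rd10_227, rd10_228, rd10_229, rd10_230, rd10_231]

theorem ac10_28 : allC 52 10 43 5 5 3 gs10 rds10_28 :=
  allC_cons rk10_224_0 rk10_224_1 rk10_224_2
    (allC_cons rk10_225_0 rk10_225_1 rk10_225_2
    (allC_cons rk10_226_0 rk10_226_1 rk10_226_2
    (allC_cons rk10_227_0 rk10_227_1 rk10_227_2
    (allC_cons rk10_228_0 rk10_228_1 rk10_228_2
    (allC_cons rk10_229_0 rk10_229_1 rk10_229_2
    (allC_cons rk10_230_0 rk10_230_1 rk10_230_2
    (allC_cons rk10_231_0 rk10_231_1 rk10_231_2
    (allC_nil))))))))

end Crest.Agent.R347
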