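import Crest.Agent.R347.G10c

/-! Row 347, Chebyshev numerics, ring with 10 sites: run certificates 232..239 (generated) -/

set_option autoImplicit false
set_option Elab.async false

namespace Crest.Agent.R347

/-- run 232 -/
def rd10_232 : CRun :=
  ⟨20, 7916, 40, 3521, 10, 9,
    2582249878086908589655919172003011874329705809655807563177733040171754207850496592358097158198805086463882699082087653292,
    2582249878086908589655919172003011874329705799750201487606908200336425754159727527544755282675393275421591535240411922256,
    2074757784440496479256203931845580575506223112295430615480773355975582950095573045893937324777235787847391608490690139336553218654906549767745533367501443760116615098579984919660554,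
    [402365830, 102328926, 251611470, 65627245, 39089026, 27061614]⟩

set_option maxRecDepth 100000 in
theorem rk10_232_0 : chkC1 52 10 43 5 5 3 rd10_232.me rd10_232.mo gs10 [rd10_232.c0, rd10_232.c1] false
    (Nat.beq (10 % 2) 1) rd10_232.v0 = true := by decide +kernel

set_option maxRecDepth 100000 in
theorem rk10_232_1 : chkC2 52 10 43 5 5 3 rd10_232.me rd10_232.mo gs10 [rd10_232.c0, rd10_232.c1]
    rd10_232.v1 = true := by decide +kernel

set_option maxRecDepth 100000 in
theorem rk10_232_2 : chkC1 52 10 43 5 5 3 rd10_232.me rd10_232.mo gs10 [rd10_232.c0, rd10_232.c1] true
    (Nat.beq (10 % 2) 0) rd10_232.v2 = true := by decide +kernel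

/-- run 233 -/
def rd10_233 : CRun :=
  ⟨40, 8168, 40, 3539, 10, 9,
    2582249878086908589655919172003011874329705794014059462727460220110214938137712639240637008043913610042179324177297266659,
    2582249878086908589655919172003011874329705793287933429427676857215784259362690691161758495932836727121458366772892503943,
    2074757784440496479256203931845580575506222809231521241498941523588611974953831795375427677787518280874575371866326563786844590297620728548607241739828631058621662919876493152224524,
    [815772427, 27153734, 580274649, 16895440, 345781197, 6292206]⟩

set_option maxRecDepth 100000 in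
theorem rk10_233_0 : chkC1 52 10 43 5 5 3 rd10_233.me rd10_233.mo gs10 [rd10_233.c0, rd10_233.c1] false
    (Nat.beq (10 % 2) 1) rd10_233.v0 = true := by decide +kernel

set_option maxRecDepth 100000 in
theorem rk10_233_1 : chkC2 52 10 43 5 5 3 rd10_233.me rd10_233.mo gs10 [rd10_233.c0, rd10_233.c1]
    rd10_233.v1 = true := by decide +kernel

set_option maxRecDepth 100000 in
theorem rk10_233_2 : chkC1 52 10 43 5 5 3 rd10_233.me rd10_233.mo gs10 [rd10_233.c0, rd10_233.c1] true
    (Nat.beq (10 % 2) 0) rd10_233.v2 = true := by decide +kernel

/-- run 234 -/
def rd10_234 : CRun :=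
  ⟨20, 8204, 40, 3569, 10, 9,
    2582249878086908589655919172003011874329705793375632630973440402971211116737869247571215178586836942924177774512071054712,
    2582249878086908589655919172003011874329705793042378775018487200054526459158411301456136899600814356774717909680640992400,
    2074757784440496479256203931845580575506221079480991636714209798305546799629899002448882552957140048936487490420040664977673117492773587687354061283722943407904942336413111738278342,
    [1742564031, 18439936, 1319911739, 11517242, 919410675, 4357661]⟩

set_option maxRecDepth 100000 in
theorem rk10_234_0 : chkC1 52 10 43 5 5 3 rd10_234.me rd10_234.mo gs10 [rd10_234.c0, rd10_234.c1] false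
    (Nat.beq (10 % 2) 1) rd10_234.v0 = true := by decide +kernel

set_option maxRecDepth 100000 in
theorem rk10_234_1 : chkC2 52 10 43 5 5 3 rd10_234.me rd10_234.mo gs10 [rd10_234.c0, rd10_234.c1]
    rd10_234.v1 = true := by decide +kernel

set_option maxRecDepth 100000 in
theorem rk10_234_2 : chkC1 52 10 43 5 5 3 rd10_234.me rd10_234.mo gs10 [rd10_234.c0, rd10_234.c1] true
    (Nat.beq (10 % 2) 0) rd10_234.v2 = true := by decide +kernel

/-- run 235 -/
def rd10_235 : CRun :=
  ⟨40, 8222, 40, 3571, 10, 9,
    2582249878086908589655919172003011874329705793298849125015685621679352071440013334613502268583647375306978945460667132412,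
    2582249878086908589655919172003011874329705793013005262091637086050965085714618670159185652127701612615706164484920544021,
    2074757784440496479256203931845580575506222623939316886795624072304535343917957692320824021917665993943706160000639334283787681678607714319232805078635711328149990567107266950085026,
    [1402952262, 17095285, 945269693, 10694282, 447667054, 4075618]⟩

set_option maxRecDepth 100000 in
theorem rk10_235_0 : chkC1 52 10 43 5 5 3 rd10_235.me rd10_235.mo gs10 [rd10_235.c0, rd10_235.c1] false
    (Nat.beq (10 % 2) 1) rd10_235.v0 = true := by decide +kernel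

set_option maxRecDepth 100000 in
theorem rk10_235_1 : chkC2 52 10 43 5 5 3 rd10_235.me rd10_235.mo gs10 [rd10_235.c0, rd10_235.c1]
    rd10_235.v1 = true := by decide +kernel

set_option maxRecDepth 100000 in
theorem rk10_235_2 : chkC1 52 10 43 5 5 3 rd10_235.me rd10_235.mo gs10 [rd10_235.c0, rd10_235.c1] true
    (Nat.beq (10 % 2) 0) rd10_235.v2 = true := by decide +kernel

/-- run 236 -/
def rd10_236 : CRun :=
  ⟨10, 8228, 40, 3575, 10, 9,
    2582249878086908589655919172003011874329705794090467898161005679084435237074203265363990619801408541755197517695579123723,
    2582249878086908589655919172003011874329705793311509863769624455986303123121093509792353348099889359546855383190710280207,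
    2074757784440496479256203931845580575506223116602397112883077401932218727819400123534132442801939180128344766077882000250654133161361102544074126595618987294911925588813004721380185,
    [1019704363, 28015609, 635326400, 17324190, 13708748, 6247862]⟩

set_option maxRecDepth 100000 in
theorem rk10_236_0 : chkC1 52 10 43 5 5 3 rd10_236.me rd10_236.mo gs10 [rd10_236.c0, rd10_236.c1] false
    (Nat.beq (10 % 2) 1) rd10_236.v0 = true := by decide +kernel

set_option maxRecDepth 100000 in
theorem rk10_236_1 : chkC2 52 10 43 5 5 3 rd10_236.me rd10_236.mo gs10 [rd10_236.c0, rd10_236.c1]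
    rd10_236.v1 = true := by decide +kernel

set_option maxRecDepth 100000 in
theorem rk10_236_2 : chkC1 52 10 43 5 5 3 rd10_236.me rd10_236.mo gs10 [rd10_236.c0, rd10_236.c1] true
    (Nat.beq (10 % 2) 0) rd10_236.v2 = true := by decide +kernel

/-- run 237 -/
def rd10_237 : CRun :=
  ⟨40, 8330, 40, 3695, 10, 9,
    2582249878086908589655919172003011874329705793831785879303614382232943819984156384727930052505503647353443293348172330395,
    2582249878086908589655919172003011874329705793198115217514944991418559611099521619194914045318516798712890526730086123829,
    2074757784440496479256203931845580575506222939746562091899594125933276609260300847525433221752742538637967470201858590100574685033830522498327490091083660204576376115560005832734588,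
    [918172545, 24977913, 608484899, 15151300, 263153510, 4986132]⟩

set_option maxRecDepth 100000 in
theorem rk10_237_0 : chkC1 52 10 43 5 5 3 rd10_237.me rd10_237.mo gs10 [rd10_237.c0, rd10_237.c1] false
    (Nat.beq (10 % 2) 1) rd10_237.v0 = true := by decide +kernel

set_option maxRecDepth 100000 in
theorem rk10_237_1 : chkC2 52 10 43 5 5 3 rd10_237.me rd10_237.mo gs10 [rd10_237.c0, rd10_237.c1]
    rd10_237.v1 = true := by decide +kernel

set_option maxRecDepth 100000 in
theorem rk10_237_2 : chkC1 52 10 43 5 5 3 rd10_237.me rd10_237.mo gs10 [rd10_237.c0, rd10_237.c1] true
    (Nat.beq (10 % 2) 0) rd10_237.v2 = true := by decide +kernel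

/-- run 238 -/
def rd10_238 : CRun :=
  ⟨20, 8366, 40, 3697, 10, 9,
    2582249878086908589655919172003011874329705792962446185454031802789394680213568613373600728938451316903662596366621486085,
    2582249878086908589655919172003011874329705792876992549493765734162883561931109005572147141201377339936599225073014510854,
    2074757784440496479256203931845580575506222871072378102245952901416760889136361192554890743670516453011106351775462407137536763645615051991438253958670926208960463644101944127981490,
    [923157896, 9105201, 628156269, 5452224, 316012923, 1651399]⟩

set_option maxRecDepth 100000 in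
theorem rk10_238_0 : chkC1 52 10 43 5 5 3 rd10_238.me rd10_238.mo gs10 [rd10_238.c0, rd10_238.c1] false
    (Nat.beq (10 % 2) 1) rd10_238.v0 = true := by decide +kernel

set_option maxRecDepth 100000 in
theorem rk10_238_1 : chkC2 52 10 43 5 5 3 rd10_238.me rd10_238.mo gs10 [rd10_238.c0, rd10_238.c1]
    rd10_238.v1 = true := by decide +kernel

set_option maxRecDepth 100000 in
theorem rk10_238_2 : chkC1 52 10 43 5 5 3 rd10_238.me rd10_238.mo gs10 [rd10_238.c0, rd10_238.c1] true
    (Nat.beq (10 % 2) 0) rd10_238.v2 = true := by decide +kernel

/-- run 239 -/
def rd10_239 : CRun :=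
  ⟨20, 8384, 40, 3707, 10, 9,
    2582249878086908589655919172003011874329705796222413799108695489378808504467060064228638792829098654672193211030190246150,
    2582249878086908589655919172003011874329705794129412103916516235606620351187266277641311653610657581676339532145685719737,
    2074757784440496479256203931845580575506223116622914043815419527268024601010434671052422295016021444587557640863761378553968934147678822254560248166648742439265904232779778735894692,
    [1352748215, 45952014, 836627881, 28444848, 13956828, 10313830]⟩

set_option maxRecDepth 100000 in
theorem rk10_239_0 : chkC1 52 10 43 5 5 3 rd10_239.me rd10_239.mo gs10 [rd10_239.c0, rd10_239.c1] false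
    (Nat.beq (10 % 2) 1) rd10_239.v0 = true := by decide +kernel

set_option maxRecDepth 100000 in
theorem rk10_239_1 : chkC2 52 10 43 5 5 3 rd10_239.me rd10_239.mo gs10 [rd10_239.c0, rd10_239.c1]
    rd10_239.v1 = true := by decide +kernel

set_option maxRecDepth 100000 in
theorem rk10_239_2 : chkC1 52 10 43 5 5 3 rd10_239.me rd10_239.mo gs10 [rd10_239.c0, rd10_239.c1] true
    (Nat.beq (10 % 2) 0) rd10_239.v2 = true := by decide +kernel

/-- runs of this file -/
def rds10_29 : List CRun :=
  [rd10_232, rd10_233, rd10_234, rd10_235, rd10_236, rd10_237, rd10_238, rd10_239]

theorem ac10_29 : allC 52 10 43 5 5 3 gs10 rds10_29 :=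
  allC_cons rk10_232_0 rk10_232_1 rk10_232_2
    (allC_cons rk10_233_0 rk10_233_1 rk10_233_2
    (allC_cons rk10_234_0 rk10_234_1 rk10_234_2
    (allC_cons rk10_235_0 rk10_235_1 rk10_235_2
    (allC_cons rk10_236_0 rk10_236_1 rk10_236_2
    (allC_cons rk10_237_0 rk10_237_1 rk10_237_2
    (allC_cons rk10_238_0 rk10_238_1 rk10_238_2
    (allC_cons rk10_239_0 rk10_239_1 rk10_239_2
    (allC_nil))))))))

end Crest.Agent.R347
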