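import Crest.Agent.R347.G10c

/-! Row 347, Chebyshev numerics, ring with 10 sites: run certificates 240..247 (generated) -/

set_option autoImplicit false
set_option Elab.async false

namespace Crest.Agent.R347

/-- run 240 -/
def rd10_240 : CRun :=
  ⟨20, 9140, 40, 3713, 10, 9,
    2582249878086908589655919172003011874329705797303004617461875016365070434462328002312462235902182939911535563430365933686,
    2582249878086908589655919172003011874329705794432718759075641918271743361252713330848690573413435115721798562497478733012,
    2074757784440496479256203931845580575506222953269421323393981467141216203353316715248646232292146381075136531588609056455724091151211542956698027897091262092381562737535663895918332,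
    [673368955, 52764011, 467540906, 31588884, 257314627, 9654799]⟩

set_option maxRecDepth 100000 in
theorem rk10_240_0 : chkC1 52 10 43 5 5 3 rd10_240.me rd10_240.mo gs10 [rd10_240.c0, rd10_240.c1] false
    (Nat.beq (10 % 2) 1) rd10_240.v0 = true := by decide +kernel

set_option maxRecDepth 100000 in
theorem rk10_240_1 : chkC2 52 10 43 5 5 3 rd10_240.me rd10_240.mo gs10 [rd10_240.c0, rd10_240.c1]
    rd10_240.v1 = true := by decide +kernel

set_option maxRecDepth 100000 in
theorem rk10_240_2 : chkC1 52 10 43 5 5 3 rd10_240.me rd10_240.mo gs10 [rd10_240.c0, rd10_240.c1] true
    (Nat.beq (10 % 2) 0) rd10_240.v2 = true := by decide +kernel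

/-- run 241 -/
def rd10_241 : CRun :=
  ⟨40, 9194, 40, 3715, 10, 9,
    2582249878086908589655919172003011874329705793756675558350923368938704546135902865853221152781802543330467812100973416677,
    2582249878086908589655919172003011874329705793169264494698643693866461363034065663926311440600721678088710668215528576312,
    2074757784440496479256203931845580575506223056568973174575299364939750961472651840119321443795341903622934884195321338556757664512515658330996613939775464963013396537962128847849259,
    [793897867, 24024047, 507655839, 14546753, 154436733, 4735003]⟩

set_option maxRecDepth 100000 in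
theorem rk10_241_0 : chkC1 52 10 43 5 5 3 rd10_241.me rd10_241.mo gs10 [rd10_241.c0, rd10_241.c1] false
    (Nat.beq (10 % 2) 1) rd10_241.v0 = true := by decide +kernel

set_option maxRecDepth 100000 in
theorem rk10_241_1 : chkC2 52 10 43 5 5 3 rd10_241.me rd10_241.mo gs10 [rd10_241.c0, rd10_241.c1]
    rd10_241.v1 = true := by decide +kernel

set_option maxRecDepth 100000 in
theorem rk10_241_2 : chkC1 52 10 43 5 5 3 rd10_241.me rd10_241.mo gs10 [rd10_241.c0, rd10_241.c1] true
    (Nat.beq (10 % 2) 0) rd10_241.v2 = true := by decide +kernel

/-- run 242 -/
def rd10_242 : CRun :=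
  ⟨10, 9196, 40, 3719, 10, 9,
    2582249878086908589655919172003011874329705795839786236190447900563157989374062275519429151872875975135920388250677296592,
    2582249878086908589655919172003011874329705793980967658411902010507699302653691318426369929486678892427550369407077618471,
    2074757784440496479256203931845580575506223116180739296183347467155423752023331970836518052851826103473234075630601013032177792315065102113820109568384149808044448279220833785371932,
    [388260831, 43283690, 240803490, 26771854, 4818050, 9710896]⟩

set_option maxRecDepth 100000 in
theorem rk10_242_0 : chkC1 52 10 43 5 5 3 rd10_242.me rd10_242.mo gs10 [rd10_242.c0, rd10_242.c1] false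
    (Nat.beq (10 % 2) 1) rd10_242.v0 = true := by decide +kernel

set_option maxRecDepth 100000 in
theorem rk10_242_1 : chkC2 52 10 43 5 5 3 rd10_242.me rd10_242.mo gs10 [rd10_242.c0, rd10_242.c1]
    rd10_242.v1 = true := by decide +kernel

set_option maxRecDepth 100000 in
theorem rk10_242_2 : chkC1 52 10 43 5 5 3 rd10_242.me rd10_242.mo gs10 [rd10_242.c0, rd10_242.c1] true
    (Nat.beq (10 % 2) 0) rd10_242.v2 = true := by decide +kernel

/-- run 243 -/
def rd10_243 : CRun :=
  ⟨20, 9302, 40, 3743, 10, 9,
    2582249878086908589655919172003011874329705794340869186235730263649561494767771163793871051992056939864936499080074754724,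
    2582249878086908589655919172003011874329705793402670619090972459731213752649797757269577661957045442795444315999844373165,
    2074757784440496479256203931845580575506222523387610011670999725450554433602233460151071841903598012222580792346532133734424024253679277334216162601715993915057076063638814024291904,
    [1572488149, 30670824, 1063630208, 18890660, 516660751, 6676938]⟩

set_option maxRecDepth 100000 in
theorem rk10_243_0 : chkC1 52 10 43 5 5 3 rd10_243.me rd10_243.mo gs10 [rd10_243.c0, rd10_243.c1] false
    (Nat.beq (10 % 2) 1) rd10_243.v0 = true := by decide +kernel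

set_option maxRecDepth 100000 in
theorem rk10_243_1 : chkC2 52 10 43 5 5 3 rd10_243.me rd10_243.mo gs10 [rd10_243.c0, rd10_243.c1]
    rd10_243.v1 = true := by decide +kernel

set_option maxRecDepth 100000 in
theorem rk10_243_2 : chkC1 52 10 43 5 5 3 rd10_243.me rd10_243.mo gs10 [rd10_243.c0, rd10_243.c1] true
    (Nat.beq (10 % 2) 0) rd10_243.v2 = true := by decide +kernel

/-- run 244 -/
def rd10_244 : CRun :=
  ⟨20, 9356, 40, 3749, 10, 9,
    2582249878086908589655919172003011874329705798890897023824873186845613813145596820723426325228992257623148019000695731304,
    2582249878086908589655919172003011874329705795052294289265319398992440704636500818998085657275481968623352915219076094707,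
    2074757784440496479256203931845580575506223135152630348015827293937861161273183955723984186358057946737611272800809705051717328907241921018411098669407034369307401114733311675960093,
    [1492089979, 61418147, 925247983, 37194359, 85854152, 12012295]⟩

set_option maxRecDepth 100000 in
theorem rk10_244_0 : chkC1 52 10 43 5 5 3 rd10_244.me rd10_244.mo gs10 [rd10_244.c0, rd10_244.c1] false
    (Nat.beq (10 % 2) 1) rd10_244.v0 = true := by decide +kernel

set_option maxRecDepth 100000 in
theorem rk10_244_1 : chkC2 52 10 43 5 5 3 rd10_244.me rd10_244.mo gs10 [rd10_244.c0, rd10_244.c1]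
    rd10_244.v1 = true := by decide +kernel

set_option maxRecDepth 100000 in
theorem rk10_244_2 : chkC1 52 10 43 5 5 3 rd10_244.me rd10_244.mo gs10 [rd10_244.c0, rd10_244.c1] true
    (Nat.beq (10 % 2) 0) rd10_244.v2 = true := by decide +kernel

/-- run 245 -/
def rd10_245 : CRun :=
  ⟨10, 9680, 40, 3751, 10, 9,
    2582249878086908589655919172003011874329705793847869391652750114029861377182958847996955181199260975581045505937938392259,
    2582249878086908589655919172003011874329705793204182522067521488492107020867939275272786139947067198045687882566297781104,
    2074757784440496479256203931845580575506223116749205136570334747913990578904004365764194363377841050223714114511690516177514616768892608879108175875781674553442329029738547023617708,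
    [1460081408, 25177468, 903663905, 15275391, 15623485, 4985792]⟩

set_option maxRecDepth 100000 in
theorem rk10_245_0 : chkC1 52 10 43 5 5 3 rd10_245.me rd10_245.mo gs10 [rd10_245.c0, rd10_245.c1] false
    (Nat.beq (10 % 2) 1) rd10_245.v0 = true := by decide +kernel

set_option maxRecDepth 100000 in
theorem rk10_245_1 : chkC2 52 10 43 5 5 3 rd10_245.me rd10_245.mo gs10 [rd10_245.c0, rd10_245.c1]
    rd10_245.v1 = true := by decide +kernel

set_option maxRecDepth 100000 in
theorem rk10_245_2 : chkC1 52 10 43 5 5 3 rd10_245.me rd10_245.mo gs10 [rd10_245.c0, rd10_245.c1] true
    (Nat.beq (10 % 2) 0) rd10_245.v2 = true := by decide +kernel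

/-- run 246 -/
def rd10_246 : CRun :=
  ⟨20, 9842, 40, 3761, 10, 9,
    2582249878086908589655919172003011874329705800019300963416354653348866352314562536983591781533833795827626491096965143349,
    2582249878086908589655919172003011874329705795506632391271319104208648789617370431441988011537402645509181790347516536741,
    2074757784440496479256203931845580575506220872089784253190798881174789537414589569497914046295856776453847663429734681647091183786119735129603152815772589080112628600847727387922060,
    [2823016724, 66890928, 1910402089, 40818570, 946344193, 13735586]⟩

set_option maxRecDepth 100000 in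
theorem rk10_246_0 : chkC1 52 10 43 5 5 3 rd10_246.me rd10_246.mo gs10 [rd10_246.c0, rd10_246.c1] false
    (Nat.beq (10 % 2) 1) rd10_246.v0 = true := by decide +kernel

set_option maxRecDepth 100000 in
theorem rk10_246_1 : chkC2 52 10 43 5 5 3 rd10_246.me rd10_246.mo gs10 [rd10_246.c0, rd10_246.c1]
    rd10_246.v1 = true := by decide +kernel

set_option maxRecDepth 100000 in
theorem rk10_246_2 : chkC1 52 10 43 5 5 3 rd10_246.me rd10_246.mo gs10 [rd10_246.c0, rd10_246.c1] true
    (Nat.beq (10 % 2) 0) rd10_246.v2 = true := by decide +kernel

/-- run 247 -/
def rd10_247 : CRun :=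
  ⟨20, 9844, 40, 3767, 10, 9,
    2582249878086908589655919172003011874329705825153830377443017090568910472103262705329677424446461427540367538077721039882,
    2582249878086908589655919172003011874329705805158626655017140723597421107404550369637092701435533615873163977976443330397,
    2074757784440496479256203931845580575506221421969744000021562503580443989908066875283177155862682563159800467674380713573082535796819678618662227678708185622453388083284613341474431,
    [1757575862, 141829660, 1275140716, 87593416, 810159321, 31223974]⟩

set_option maxRecDepth 100000 in
theorem rk10_247_0 : chkC1 52 10 43 5 5 3 rd10_247.me rd10_247.mo gs10 [rd10_247.c0, rd10_247.c1] false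
    (Nat.beq (10 % 2) 1) rd10_247.v0 = true := by decide +kernel

set_option maxRecDepth 100000 in
theorem rk10_247_1 : chkC2 52 10 43 5 5 3 rd10_247.me rd10_247.mo gs10 [rd10_247.c0, rd10_247.c1]
    rd10_247.v1 = true := by decide +kernel

set_option maxRecDepth 100000 in
theorem rk10_247_2 : chkC1 52 10 43 5 5 3 rd10_247.me rd10_247.mo gs10 [rd10_247.c0, rd10_247.c1] true
    (Nat.beq (10 % 2) 0) rd10_247.v2 = true := by decide +kernel

/-- runs of this file -/
def rds10_30 : List CRun :=
  [rd10_240, rd10_241, rd10_242, rd10_243, rd10_244, rd10_245, rd10_246, rd10_247]

theorem ac10_30 : allC 52 10 43 5 5 3 gs10 rds10_30 :=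
  allC_cons rk10_240_0 rk10_240_1 rk10_240_2
    (allC_cons rk10_241_0 rk10_241_1 rk10_241_2
    (allC_cons rk10_242_0 rk10_242_1 rk10_242_2
    (allC_cons rk10_243_0 rk10_243_1 rk10_243_2
    (allC_cons rk10_244_0 rk10_244_1 rk10_244_2
    (allC_cons rk10_245_0 rk10_245_1 rk10_245_2
    (allC_cons rk10_246_0 rk10_246_1 rk10_246_2
    (allC_cons rk10_247_0 rk10_247_1 rk10_247_2
    (allC_nil))))))))

end Crest.Agent.R347
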