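import Crest.Agent.R347.G10c

/-! Row 347, Chebyshev numerics, ring with 10 sites: run certificates 288..295 (generated) -/

set_option autoImplicit false
set_option Elab.async false

namespace Crest.Agent.R347

/-- run 288 -/
def rd10_288 : CRun :=
  ⟨2, 14762, 40, 4739, 10, 9,
    2582249878086908589655919172003011874329705869232482349350391277190663555549624237482142539090397354091531153709043096377,
    2582249878086908589655919172003011874329705821672337211265845092688276404910824528922700135994691213154669887157016045799,
    2074757784440496479256203931845580575505500585651637227749509712305466927006834978904543369580079796059046031772652368808244369607954489586949799479232424321065528304308757404388682,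
    [25156287257, 218050143, 21449490423, 133974303, 17951997528, 46426549]⟩

set_option maxRecDepth 100000 in
theorem rk10_288_0 : chkC1 52 10 43 5 5 3 rd10_288.me rd10_288.mo gs10 [rd10_288.c0, rd10_288.c1] false
    (Nat.beq (10 % 2) 1) rd10_288.v0 = true := by decide +kernel

set_option maxRecDepth 100000 in
theorem rk10_288_1 : chkC2 52 10 43 5 5 3 rd10_288.me rd10_288.mo gs10 [rd10_288.c0, rd10_288.c1]
    rd10_288.v1 = true := by decide +kernel

set_option maxRecDepth 100000 in
theorem rk10_288_2 : chkC1 52 10 43 5 5 3 rd10_288.me rd10_288.mo gs10 [rd10_288.c0, rd10_288.c1] true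
    (Nat.beq (10 % 2) 0) rd10_288.v2 = true := by decide +kernel

/-- run 289 -/
def rd10_289 : CRun :=
  ⟨1, 29524, 40, 4745, 10, 9,
    2582249878086908589655919172003011874329705887212949008537602886194174354205763042544222792778210737599203000368521339955,
    2582249878086908589655919172003011874329705831105029157299151537137298246797648104544452562582179186354331425382349951744,
    2074757784440496479256203931845580575506223119410853170009337505019390643154751926283242498857008915403945763831343099208575580724094365382069699766659132562662883220156427361538721,
    [4003877192, 242353331, 2468168908, 154334353, 35692315, 61780251]⟩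

set_option maxRecDepth 100000 in
theorem rk10_289_0 : chkC1 52 10 43 5 5 3 rd10_289.me rd10_289.mo gs10 [rd10_289.c0, rd10_289.c1] false
    (Nat.beq (10 % 2) 1) rd10_289.v0 = true := by decide +kernel

set_option maxRecDepth 100000 in
theorem rk10_289_1 : chkC2 52 10 43 5 5 3 rd10_289.me rd10_289.mo gs10 [rd10_289.c0, rd10_289.c1]
    rd10_289.v1 = true := by decide +kernel

set_option maxRecDepth 100000 in
theorem rk10_289_2 : chkC1 52 10 43 5 5 3 rd10_289.me rd10_289.mo gs10 [rd10_289.c0, rd10_289.c1] true
    (Nat.beq (10 % 2) 0) rd10_289.v2 = true := by decide +kernel

/-- run 290 -/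
def rd10_290 : CRun :=
  ⟨20, 80, 40, 4757, 8, 9,
    2582249878086908589655919172003011874329705851560883617915676642398447998803054503874118833901609996619630844956721410735,
    2582249878086908589655919172003011874329705816737892150560336309375118650078324641589568739016648788550403969300805580328,
    2074757784440496479256203931845580575506223116121218449997828664845326405706454073199853524473551897144102811167783143432688167748916075972375930658912398430022917494650263149330841,
    [625, 191177410, 626, 121977052, 615, 49060947]⟩

set_option maxRecDepth 100000 in
theorem rk10_290_0 : chkC1 52 10 43 5 5 3 rd10_290.me rd10_290.mo gs10 [rd10_290.c0, rd10_290.c1] false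
    (Nat.beq (10 % 2) 1) rd10_290.v0 = true := by decide +kernel

set_option maxRecDepth 100000 in
theorem rk10_290_1 : chkC2 52 10 43 5 5 3 rd10_290.me rd10_290.mo gs10 [rd10_290.c0, rd10_290.c1]
    rd10_290.v1 = true := by decide +kernel

set_option maxRecDepth 100000 in
theorem rk10_290_2 : chkC1 52 10 43 5 5 3 rd10_290.me rd10_290.mo gs10 [rd10_290.c0, rd10_290.c1] true
    (Nat.beq (10 % 2) 0) rd10_290.v2 = true := by decide +kernel

/-- run 291 -/
def rd10_291 : CRun :=
  ⟨40, 134, 40, 4763, 8, 9,
    2582249878086908589655919172003011874329705836639282138927488931243529520587482725318161129015977911097679460394797259484,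
    2582249878086908589655919172003011874329705811072497818844236835377042172933025947587201645800330286615832892661052546671,
    2074757784440496479256203931845580575506223116121218449997828664845326405706454073199853524473551897144102138127150523229875728450817030695636871952501115049366601654944375285118606,
    [1315, 165115313, 928, 106549601, 651, 44588590]⟩

set_option maxRecDepth 100000 in
theorem rk10_291_0 : chkC1 52 10 43 5 5 3 rd10_291.me rd10_291.mo gs10 [rd10_291.c0, rd10_291.c1] false
    (Nat.beq (10 % 2) 1) rd10_291.v0 = true := by decide +kernel

set_option maxRecDepth 100000 in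
theorem rk10_291_1 : chkC2 52 10 43 5 5 3 rd10_291.me rd10_291.mo gs10 [rd10_291.c0, rd10_291.c1]
    rd10_291.v1 = true := by decide +kernel

set_option maxRecDepth 100000 in
theorem rk10_291_2 : chkC1 52 10 43 5 5 3 rd10_291.me rd10_291.mo gs10 [rd10_291.c0, rd10_291.c1] true
    (Nat.beq (10 % 2) 0) rd10_291.v2 = true := by decide +kernel

/-- run 292 -/
def rd10_292 : CRun :=
  ⟨40, 152, 40, 4787, 8, 9,
    2582249878086908589655919172003011874329705799866464440722989892076101541314877160808795256910221269526393835721198438220,
    2582249878086908589655919172003011874329705795508349104670538301801616435971125538163643461393301864275554808250722372680,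
    2074757784440496479256203931845580575506223116121218449997828664845326405706454073199853524473551897144099274040345080512753671115759772860898487875565988110608077037620057118184152,
    [2857, 66176173, 1761, 40831654, 793, 14346314]⟩

set_option maxRecDepth 100000 in
theorem rk10_292_0 : chkC1 52 10 43 5 5 3 rd10_292.me rd10_292.mo gs10 [rd10_292.c0, rd10_292.c1] false
    (Nat.beq (10 % 2) 1) rd10_292.v0 = true := by decide +kernel

set_option maxRecDepth 100000 in
theorem rk10_292_1 : chkC2 52 10 43 5 5 3 rd10_292.me rd10_292.mo gs10 [rd10_292.c0, rd10_292.c1]
    rd10_292.v1 = true := by decide +kernel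

set_option maxRecDepth 100000 in
theorem rk10_292_2 : chkC1 52 10 43 5 5 3 rd10_292.me rd10_292.mo gs10 [rd10_292.c0, rd10_292.c1] true
    (Nat.beq (10 % 2) 0) rd10_292.v2 = true := by decide +kernel

/-- run 293 -/
def rd10_293 : CRun :=
  ⟨40, 158, 40, 4793, 8, 9,
    2582249878086908589655919172003011874329705854687773726125745964097799778332644454262228740934248935383355370632325041729,
    2582249878086908589655919172003011874329705817533893395022817182930393349269854670555581890807114546047880350827947365954,
    2074757784440496479256203931845580575506223116121218449997828664845326405706454073199853524473551897144102656760042916311427481092943901640586390184304563838136513894615797922856516,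
    [2334, 196200587, 1495, 123990943, 768, 48071701]⟩

set_option maxRecDepth 100000 in
theorem rk10_293_0 : chkC1 52 10 43 5 5 3 rd10_293.me rd10_293.mo gs10 [rd10_293.c0, rd10_293.c1] false
    (Nat.beq (10 % 2) 1) rd10_293.v0 = true := by decide +kernel

set_option maxRecDepth 100000 in
theorem rk10_293_1 : chkC2 52 10 43 5 5 3 rd10_293.me rd10_293.mo gs10 [rd10_293.c0, rd10_293.c1]
    rd10_293.v1 = true := by decide +kernel

set_option maxRecDepth 100000 in
theorem rk10_293_2 : chkC1 52 10 43 5 5 3 rd10_293.me rd10_293.mo gs10 [rd10_293.c0, rd10_293.c1] true
    (Nat.beq (10 % 2) 0) rd10_293.v2 = true := by decide +kernel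

/-- run 294 -/
def rd10_294 : CRun :=
  ⟨20, 160, 40, 4799, 8, 9,
    2582249878086908589655919172003011874329705991082822570119066726836719760221150761035394821620225582679105819160584249461,
    2582249878086908589655919172003011874329705876739304133704267719296536562121530934429019492650938131209200028641902698997,
    2074757784440496479256203931845580575506223116121218449997828664845326405706454073199853524473551897144114234749322726755406612652058843286756536714470348821831141815705037598757175,
    [805, 351245666, 708, 228511207, 631, 97549418]⟩

set_option maxRecDepth 100000 in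
theorem rk10_294_0 : chkC1 52 10 43 5 5 3 rd10_294.me rd10_294.mo gs10 [rd10_294.c0, rd10_294.c1] false
    (Nat.beq (10 % 2) 1) rd10_294.v0 = true := by decide +kernel

set_option maxRecDepth 100000 in
theorem rk10_294_1 : chkC2 52 10 43 5 5 3 rd10_294.me rd10_294.mo gs10 [rd10_294.c0, rd10_294.c1]
    rd10_294.v1 = true := by decide +kernel

set_option maxRecDepth 100000 in
theorem rk10_294_2 : chkC1 52 10 43 5 5 3 rd10_294.me rd10_294.mo gs10 [rd10_294.c0, rd10_294.c1] true
    (Nat.beq (10 % 2) 0) rd10_294.v2 = true := by decide +kernel

/-- run 295 -/
def rd10_295 : CRun :=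
  ⟨40, 188, 40, 4811, 8, 9,
    2582249878086908589655919172003011874329705819454552980716998329568240830416301654291148457187711049291377180099088376676,
    2582249878086908589655919172003011874329705803701368402450492856016590614004776214401457009848536692696086052467005557322,
    2074757784440496479256203931845580575506223116121218449997828664845326405706454073199853524473551897144100722911429047931508462102341397851864588102240784868978695493119710839151989,
    [3678, 128720563, 2196, 82254194, 873, 33278393]⟩

set_option maxRecDepth 100000 in
theorem rk10_295_0 : chkC1 52 10 43 5 5 3 rd10_295.me rd10_295.mo gs10 [rd10_295.c0, rd10_295.c1] false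
    (Nat.beq (10 % 2) 1) rd10_295.v0 = true := by decide +kernel

set_option maxRecDepth 100000 in
theorem rk10_295_1 : chkC2 52 10 43 5 5 3 rd10_295.me rd10_295.mo gs10 [rd10_295.c0, rd10_295.c1]
    rd10_295.v1 = true := by decide +kernel

set_option maxRecDepth 100000 in
theorem rk10_295_2 : chkC1 52 10 43 5 5 3 rd10_295.me rd10_295.mo gs10 [rd10_295.c0, rd10_295.c1] true
    (Nat.beq (10 % 2) 0) rd10_295.v2 = true := by decide +kernel

/-- runs of this file -/
def rds10_36 : List CRun :=
  [rd10_288, rd10_289, rd10_290, rd10_291, rd10_292, rd10_293, rd10_294, rd10_295]

theorem ac10_36 : allC 52 10 43 5 5 3 gs10 rds10_36 :=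
  allC_cons rk10_288_0 rk10_288_1 rk10_288_2
    (allC_cons rk10_289_0 rk10_289_1 rk10_289_2
    (allC_cons rk10_290_0 rk10_290_1 rk10_290_2
    (allC_cons rk10_291_0 rk10_291_1 rk10_291_2
    (allC_cons rk10_292_0 rk10_292_1 rk10_292_2
    (allC_cons rk10_293_0 rk10_293_1 rk10_293_2
    (allC_cons rk10_294_0 rk10_294_1 rk10_294_2
    (allC_cons rk10_295_0 rk10_295_1 rk10_295_2
    (allC_nil))))))))

end Crest.Agent.R347
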