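import Crest.Agent.R347.G10c

/-! Row 347, Chebyshev numerics, ring with 10 sites: run certificates 296..303 (generated) -/

set_option autoImplicit false
set_option Elab.async false

namespace Crest.Agent.R347

/-- run 296 -/
def rd10_296 : CRun :=
  ⟨40, 206, 20, 4883, 8, 9,
    2582249878086908589655919172003011874329705811507939891247377212628025185944300249174971464574678392142821155491774694543,
    2582249878086908589655919172003011874329705800025685135945677904561800235992878031864226972332268517382068569742188751684,
    2074757784440496479256203931845580575506223116121218449997828664845326405706454073199853524473551897144099862898996874826716967415810985494507881723778315017349121791757119376567352,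
    [9215, 107813700, 5563, 66920618, 1911, 23922048]⟩

set_option maxRecDepth 100000 in
theorem rk10_296_0 : chkC1 52 10 43 5 5 3 rd10_296.me rd10_296.mo gs10 [rd10_296.c0, rd10_296.c1] false
    (Nat.beq (10 % 2) 1) rd10_296.v0 = true := by decide +kernel

set_option maxRecDepth 100000 in
theorem rk10_296_1 : chkC2 52 10 43 5 5 3 rd10_296.me rd10_296.mo gs10 [rd10_296.c0, rd10_296.c1]
    rd10_296.v1 = true := by decide +kernel

set_option maxRecDepth 100000 in
theorem rk10_296_2 : chkC1 52 10 43 5 5 3 rd10_296.me rd10_296.mo gs10 [rd10_296.c0, rd10_296.c1] true
    (Nat.beq (10 % 2) 0) rd10_296.v2 = true := by decide +kernel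

/-- run 297 -/
def rd10_297 : CRun :=
  ⟨20, 212, 40, 4895, 8, 9,
    2582249878086908589655919172003011874329705818279106706429172217791904328661783346627423924710424515704267060592908800406,
    2582249878086908589655919172003011874329705802803415929115554637098553295162619444215840320074785042146443198561169395593,
    2074757784440496479256203931845580575506223116121218449997828664845326405706454073199853524473551897144100314395494852345266286264480276529575019421867469483071842676977925596100069,
    [8889, 125847135, 5415, 78784232, 1911, 29210124]⟩

set_option maxRecDepth 100000 in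
theorem rk10_297_0 : chkC1 52 10 43 5 5 3 rd10_297.me rd10_297.mo gs10 [rd10_297.c0, rd10_297.c1] false
    (Nat.beq (10 % 2) 1) rd10_297.v0 = true := by decide +kernel

set_option maxRecDepth 100000 in
theorem rk10_297_1 : chkC2 52 10 43 5 5 3 rd10_297.me rd10_297.mo gs10 [rd10_297.c0, rd10_297.c1]
    rd10_297.v1 = true := by decide +kernel

set_option maxRecDepth 100000 in
theorem rk10_297_2 : chkC1 52 10 43 5 5 3 rd10_297.me rd10_297.mo gs10 [rd10_297.c0, rd10_297.c1] true
    (Nat.beq (10 % 2) 0) rd10_297.v2 = true := by decide +kernel

/-- run 298 -/
def rd10_298 : CRun :=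
  ⟨20, 224, 40, 4901, 8, 9,
    2582249878086908589655919172003011874329705947084124419662833167023180934015774761254610740464722045901625356043828658663,
    2582249878086908589655919172003011874329705854769987516940740339022711403421095024106090940929385564697080181072681524722,
    2074757784440496479256203931845580575506223116121218449997828664845326405706454073199853524473551897144108325544329473487658890609386047711463569757295804886571168169886078511521618,
    [12711, 309827469, 7834, 196330925, 2789, 76410611]⟩

set_option maxRecDepth 100000 in
theorem rk10_298_0 : chkC1 52 10 43 5 5 3 rd10_298.me rd10_298.mo gs10 [rd10_298.c0, rd10_298.c1] false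
    (Nat.beq (10 % 2) 1) rd10_298.v0 = true := by decide +kernel

set_option maxRecDepth 100000 in
theorem rk10_298_1 : chkC2 52 10 43 5 5 3 rd10_298.me rd10_298.mo gs10 [rd10_298.c0, rd10_298.c1]
    rd10_298.v1 = true := by decide +kernel

set_option maxRecDepth 100000 in
theorem rk10_298_2 : chkC1 52 10 43 5 5 3 rd10_298.me rd10_298.mo gs10 [rd10_298.c0, rd10_298.c1] true
    (Nat.beq (10 % 2) 0) rd10_298.v2 = true := by decide +kernel

/-- run 299 -/
def rd10_299 : CRun :=
  ⟨40, 296, 40, 4907, 8, 9,
    2582249878086908589655919172003011874329705996487231617665307864996021866844660507344326050018854244387096762889602424565,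
    2582249878086908589655919172003011874329705877876896724245317997124263918034147616745616633506926020101071228435088544078,
    2074757784440496479256203931845580575506223116121218449997828664845326405706454073199853524473551897144113703357189261130608818268381177780701620577793012300202570203041442873215933,
    [3809, 356000969, 2291, 230054987, 889, 95839463]⟩

set_option maxRecDepth 100000 in
theorem rk10_299_0 : chkC1 52 10 43 5 5 3 rd10_299.me rd10_299.mo gs10 [rd10_299.c0, rd10_299.c1] false
    (Nat.beq (10 % 2) 1) rd10_299.v0 = true := by decide +kernel

set_option maxRecDepth 100000 in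
theorem rk10_299_1 : chkC2 52 10 43 5 5 3 rd10_299.me rd10_299.mo gs10 [rd10_299.c0, rd10_299.c1]
    rd10_299.v1 = true := by decide +kernel

set_option maxRecDepth 100000 in
theorem rk10_299_2 : chkC1 52 10 43 5 5 3 rd10_299.me rd10_299.mo gs10 [rd10_299.c0, rd10_299.c1] true
    (Nat.beq (10 % 2) 0) rd10_299.v2 = true := by decide +kernel

/-- run 300 -/
def rd10_300 : CRun :=
  ⟨40, 314, 40, 4919, 8, 9,
    2582249878086908589655919172003011874329706073437949134453889541433395541363123314781766069470325199103507075560136824113,
    2582249878086908589655919172003011874329705911406938741464319334420809336613988012360886144316499739385362863440532225233,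
    2074757784440496479256203931845580575506223116121218449997828664845326405706454073199853524473551897144120335874498503548964150297184478586014377197388774442447983708250346781854685,
    [12184, 417879455, 7287, 271645161, 2386, 115380364]⟩

set_option maxRecDepth 100000 in
theorem rk10_300_0 : chkC1 52 10 43 5 5 3 rd10_300.me rd10_300.mo gs10 [rd10_300.c0, rd10_300.c1] false
    (Nat.beq (10 % 2) 1) rd10_300.v0 = true := by decide +kernel

set_option maxRecDepth 100000 in
theorem rk10_300_1 : chkC2 52 10 43 5 5 3 rd10_300.me rd10_300.mo gs10 [rd10_300.c0, rd10_300.c1]
    rd10_300.v1 = true := by decide +kernel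

set_option maxRecDepth 100000 in
theorem rk10_300_2 : chkC1 52 10 43 5 5 3 rd10_300.me rd10_300.mo gs10 [rd10_300.c0, rd10_300.c1] true
    (Nat.beq (10 % 2) 0) rd10_300.v2 = true := by decide +kernel

/-- run 301 -/
def rd10_301 : CRun :=
  ⟨40, 320, 40, 4955, 8, 9,
    2582249878086908589655919172003011874329705860435624489099231426997733078834089761674625125781059016824285626046228355461,
    2582249878086908589655919172003011874329705820060069973525303798092372797197102376628245670805179969446901674817427753019,
    2074757784440496479256203931845580575506223116121218449997828664845326405706454073199853524473551897144103143245137975377822689734062541445585749314332849356488589485659402137306231,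
    [10772, 205113546, 6529, 130176025, 2247, 51123662]⟩

set_option maxRecDepth 100000 in
theorem rk10_301_0 : chkC1 52 10 43 5 5 3 rd10_301.me rd10_301.mo gs10 [rd10_301.c0, rd10_301.c1] false
    (Nat.beq (10 % 2) 1) rd10_301.v0 = true := by decide +kernel

set_option maxRecDepth 100000 in
theorem rk10_301_1 : chkC2 52 10 43 5 5 3 rd10_301.me rd10_301.mo gs10 [rd10_301.c0, rd10_301.c1]
    rd10_301.v1 = true := by decide +kernel

set_option maxRecDepth 100000 in
theorem rk10_301_2 : chkC1 52 10 43 5 5 3 rd10_301.me rd10_301.mo gs10 [rd10_301.c0, rd10_301.c1] true
    (Nat.beq (10 % 2) 0) rd10_301.v2 = true := by decide +kernel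

/-- run 302 -/
def rd10_302 : CRun :=
  ⟨40, 322, 40, 4973, 8, 9,
    2582249878086908589655919172003011874329705855397453103309440364597195702188476524016057471996720444004271071956393077290,
    2582249878086908589655919172003011874329705818394934679077966616999062378563801897364359896005485841407468662226993101549,
    2074757784440496479256203931845580575506223116121218449997828664845326405706454073199853524473551897144103131492237927736000455287349732596071606710864527419184940178611374314360309,
    [2724, 197322845, 1722, 126133189, 812, 51052081]⟩

set_option maxRecDepth 100000 in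
theorem rk10_302_0 : chkC1 52 10 43 5 5 3 rd10_302.me rd10_302.mo gs10 [rd10_302.c0, rd10_302.c1] false
    (Nat.beq (10 % 2) 1) rd10_302.v0 = true := by decide +kernel

set_option maxRecDepth 100000 in
theorem rk10_302_1 : chkC2 52 10 43 5 5 3 rd10_302.me rd10_302.mo gs10 [rd10_302.c0, rd10_302.c1]
    rd10_302.v1 = true := by decide +kernel

set_option maxRecDepth 100000 in
theorem rk10_302_2 : chkC1 52 10 43 5 5 3 rd10_302.me rd10_302.mo gs10 [rd10_302.c0, rd10_302.c1] true
    (Nat.beq (10 % 2) 0) rd10_302.v2 = true := by decide +kernel

/-- run 303 -/
def rd10_303 : CRun :=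
  ⟨40, 350, 40, 5207, 8, 9,
    2582249878086908589655919172003011874329705799367783154435107178622615841463853897592154310401950421718012832748432925119,
    2582249878086908589655919172003011874329705795216152980026171993201459889888511359557312326444388226811348851495762610307,
    2074757784440496479256203931845580575506223116121218449997828664845326405706454073199853524473551897144099187064027956004581619219069506073095242619830572440479983679574190142735302,
    [12579, 63788367, 7487, 38540756, 2392, 12316299]⟩

set_option maxRecDepth 100000 in
theorem rk10_303_0 : chkC1 52 10 43 5 5 3 rd10_303.me rd10_303.mo gs10 [rd10_303.c0, rd10_303.c1] false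
    (Nat.beq (10 % 2) 1) rd10_303.v0 = true := by decide +kernel

set_option maxRecDepth 100000 in
theorem rk10_303_1 : chkC2 52 10 43 5 5 3 rd10_303.me rd10_303.mo gs10 [rd10_303.c0, rd10_303.c1]
    rd10_303.v1 = true := by decide +kernel

set_option maxRecDepth 100000 in
theorem rk10_303_2 : chkC1 52 10 43 5 5 3 rd10_303.me rd10_303.mo gs10 [rd10_303.c0, rd10_303.c1] true
    (Nat.beq (10 % 2) 0) rd10_303.v2 = true := by decide +kernel

/-- runs of this file -/
def rds10_37 : List CRun :=
  [rd10_296, rd10_297, rd10_298, rd10_299, rd10_300, rd10_301, rd10_302, rd10_303]

theorem ac10_37 : allC 52 10 43 5 5 3 gs10 rds10_37 :=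
  allC_cons rk10_296_0 rk10_296_1 rk10_296_2
    (allC_cons rk10_297_0 rk10_297_1 rk10_297_2
    (allC_cons rk10_298_0 rk10_298_1 rk10_298_2
    (allC_cons rk10_299_0 rk10_299_1 rk10_299_2
    (allC_cons rk10_300_0 rk10_300_1 rk10_300_2
    (allC_cons rk10_301_0 rk10_301_1 rk10_301_2
    (allC_cons rk10_302_0 rk10_302_1 rk10_302_2
    (allC_cons rk10_303_0 rk10_303_1 rk10_303_2
    (allC_nil))))))))

end Crest.Agent.R347
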