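import Crest.Agent.R347.G10c

/-! Row 347, Chebyshev numerics, ring with 10 sites: run certificates 304..311 (generated) -/

set_option autoImplicit false
set_option Elab.async false

namespace Crest.Agent.R347

/-- run 304 -/
def rd10_304 : CRun :=
  ⟨40, 368, 40, 5219, 8, 9,
    2582249878086908589655919172003011874329705800557729623531186093196771939004409168784274750589834833113629133503189551572,
    2582249878086908589655919172003011874329705795690777921315968326736084058639413635459913938742839546985243677343548006066,
    2074757784440496479256203931845580575506223116121218449997828664845326405706454073199853524473551897144099260043857931741603199346275499898991345128624317492911417778295973337130210,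
    [49438, 69350279, 30101, 42198930, 10152, 14039469]⟩

set_option maxRecDepth 100000 in
theorem rk10_304_0 : chkC1 52 10 43 5 5 3 rd10_304.me rd10_304.mo gs10 [rd10_304.c0, rd10_304.c1] false
    (Nat.beq (10 % 2) 1) rd10_304.v0 = true := by decide +kernel

set_option maxRecDepth 100000 in
theorem rk10_304_1 : chkC2 52 10 43 5 5 3 rd10_304.me rd10_304.mo gs10 [rd10_304.c0, rd10_304.c1]
    rd10_304.v1 = true := by decide +kernel

set_option maxRecDepth 100000 in
theorem rk10_304_2 : chkC1 52 10 43 5 5 3 rd10_304.me rd10_304.mo gs10 [rd10_304.c0, rd10_304.c1] true
    (Nat.beq (10 % 2) 0) rd10_304.v2 = true := by decide +kernel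

/-- run 305 -/
def rd10_305 : CRun :=
  ⟨40, 374, 40, 5225, 8, 9,
    2582249878086908589655919172003011874329705831940924888365873667434708321156049739071166233168051140701476021370025735079,
    2582249878086908589655919172003011874329705807671010868723960323488741174579879145674762442662427216792391376165646456577,
    2074757784440496479256203931845580575506223116121218449997828664845326405706454073199853524473551897144100781664314912120499680494290562065674857602973280307131202988029936007061942,
    [53281, 156010486, 32327, 96104459, 10786, 33823268]⟩

set_option maxRecDepth 100000 in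
theorem rk10_305_0 : chkC1 52 10 43 5 5 3 rd10_305.me rd10_305.mo gs10 [rd10_305.c0, rd10_305.c1] false
    (Nat.beq (10 % 2) 1) rd10_305.v0 = true := by decide +kernel

set_option maxRecDepth 100000 in
theorem rk10_305_1 : chkC2 52 10 43 5 5 3 rd10_305.me rd10_305.mo gs10 [rd10_305.c0, rd10_305.c1]
    rd10_305.v1 = true := by decide +kernel

set_option maxRecDepth 100000 in
theorem rk10_305_2 : chkC1 52 10 43 5 5 3 rd10_305.me rd10_305.mo gs10 [rd10_305.c0, rd10_305.c1] true
    (Nat.beq (10 % 2) 0) rd10_305.v2 = true := by decide +kernel

/-- run 306 -/
def rd10_306 : CRun :=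
  ⟨40, 376, 40, 5243, 8, 9,
    2582249878086908589655919172003011874329705822961235067407070872910351946584436692457933361924639386571256625599524379314,
    2582249878086908589655919172003011874329705804871652666481876080118577669704270203535446585276541810412695820765117703520,
    2074757784440496479256203931845580575506223116121218449997828664845326405706454073199853524473551897144100764918194699354835687100359680542625138548933811571668323748748480138713368,
    [14318, 136935010, 8562, 86568020, 2759, 33668863]⟩

set_option maxRecDepth 100000 in
theorem rk10_306_0 : chkC1 52 10 43 5 5 3 rd10_306.me rd10_306.mo gs10 [rd10_306.c0, rd10_306.c1] false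
    (Nat.beq (10 % 2) 1) rd10_306.v0 = true := by decide +kernel

set_option maxRecDepth 100000 in
theorem rk10_306_1 : chkC2 52 10 43 5 5 3 rd10_306.me rd10_306.mo gs10 [rd10_306.c0, rd10_306.c1]
    rd10_306.v1 = true := by decide +kernel

set_option maxRecDepth 100000 in
theorem rk10_306_2 : chkC1 52 10 43 5 5 3 rd10_306.me rd10_306.mo gs10 [rd10_306.c0, rd10_306.c1] true
    (Nat.beq (10 % 2) 0) rd10_306.v2 = true := by decide +kernel

/-- run 307 -/
def rd10_307 : CRun :=
  ⟨40, 386, 40, 5279, 8, 9,
    2582249878086908589655919172003011874329705867554633261459874087942270640620097702404354196480076369864672011933366424826,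
    2582249878086908589655919172003011874329705822777606894664026501006858437251584242910220757540767798923300097276861487404,
    2074757784440496479256203931845580575506223116121218449997828664845326405706454073199853524473551897144103482588590819738757352669460307100351639979570441157840923997275846188120336,
    [83468, 215642614, 51272, 136517123, 17697, 53148874]⟩

set_option maxRecDepth 100000 in
theorem rk10_307_0 : chkC1 52 10 43 5 5 3 rd10_307.me rd10_307.mo gs10 [rd10_307.c0, rd10_307.c1] false
    (Nat.beq (10 % 2) 1) rd10_307.v0 = true := by decide +kernel

set_option maxRecDepth 100000 in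
theorem rk10_307_1 : chkC2 52 10 43 5 5 3 rd10_307.me rd10_307.mo gs10 [rd10_307.c0, rd10_307.c1]
    rd10_307.v1 = true := by decide +kernel

set_option maxRecDepth 100000 in
theorem rk10_307_2 : chkC1 52 10 43 5 5 3 rd10_307.me rd10_307.mo gs10 [rd10_307.c0, rd10_307.c1] true
    (Nat.beq (10 % 2) 0) rd10_307.v2 = true := by decide +kernel

/-- run 308 -/
def rd10_308 : CRun :=
  ⟨40, 392, 40, 5381, 8, 9,
    2582249878086908589655919172003011874329705798816766121521497274976011466178109793901683409863734674497076793057250965899,
    2582249878086908589655919172003011874329705795067452953042465424854097220243284115020632193246032573220611076075145011008,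
    2074757784440496479256203931845580575506223116121218449997828664845326405706454073199853524473551897144099202830590045073153225559770018889270744326519093218390024249176925955650563,
    [65926, 61041437, 39250, 37320954, 12244, 12708374]⟩

set_option maxRecDepth 100000 in
theorem rk10_308_0 : chkC1 52 10 43 5 5 3 rd10_308.me rd10_308.mo gs10 [rd10_308.c0, rd10_308.c1] false
    (Nat.beq (10 % 2) 1) rd10_308.v0 = true := by decide +kernel

set_option maxRecDepth 100000 in
theorem rk10_308_1 : chkC2 52 10 43 5 5 3 rd10_308.me rd10_308.mo gs10 [rd10_308.c0, rd10_308.c1]
    rd10_308.v1 = true := by decide +kernel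

set_option maxRecDepth 100000 in
theorem rk10_308_2 : chkC1 52 10 43 5 5 3 rd10_308.me rd10_308.mo gs10 [rd10_308.c0, rd10_308.c1] true
    (Nat.beq (10 % 2) 0) rd10_308.v2 = true := by decide +kernel

/-- run 309 -/
def rd10_309 : CRun :=
  ⟨40, 394, 40, 5387, 8, 9,
    2582249878086908589655919172003011874329705834977665327100346366759046187806737825811618229567874982214213815160513941986,
    2582249878086908589655919172003011874329705809071843830720775988976362048708028772672513232806935858035446847326072285550,
    2074757784440496479256203931845580575506223116121218449997828664845326405706454073199853524473551897144101080380173772393279202076590961957113954830326031318413122027435849456664861,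
    [21429, 161953820, 12487, 100537593, 3564, 36467860]⟩

set_option maxRecDepth 100000 in
theorem rk10_309_0 : chkC1 52 10 43 5 5 3 rd10_309.me rd10_309.mo gs10 [rd10_309.c0, rd10_309.c1] false
    (Nat.beq (10 % 2) 1) rd10_309.v0 = true := by decide +kernel

set_option maxRecDepth 100000 in
theorem rk10_309_1 : chkC2 52 10 43 5 5 3 rd10_309.me rd10_309.mo gs10 [rd10_309.c0, rd10_309.c1]
    rd10_309.v1 = true := by decide +kernel

set_option maxRecDepth 100000 in
theorem rk10_309_2 : chkC1 52 10 43 5 5 3 rd10_309.me rd10_309.mo gs10 [rd10_309.c0, rd10_309.c1] true
    (Nat.beq (10 % 2) 0) rd10_309.v2 = true := by decide +kernel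

/-- run 310 -/
def rd10_310 : CRun :=
  ⟨40, 398, 40, 7421, 8, 9,
    2582249878086908589655919172003011874329705794209765975193847494858260556436025524751569574130789784923299808875168807642,
    2582249878086908589655919172003011874329705793352125570002854408797401541870101426114921239559735060639723875735743060855,
    2074757784440496479256203931845580575506223116121218449997828664845326405706454073199853524473551897144099011917133425351205522277854131087724123273818407406315065248033729513398646,
    [29958, 29310642, 17184, 18038924, 4538, 6534297]⟩

set_option maxRecDepth 100000 in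
theorem rk10_310_0 : chkC1 52 10 43 5 5 3 rd10_310.me rd10_310.mo gs10 [rd10_310.c0, rd10_310.c1] false
    (Nat.beq (10 % 2) 1) rd10_310.v0 = true := by decide +kernel

set_option maxRecDepth 100000 in
theorem rk10_310_1 : chkC2 52 10 43 5 5 3 rd10_310.me rd10_310.mo gs10 [rd10_310.c0, rd10_310.c1]
    rd10_310.v1 = true := by decide +kernel

set_option maxRecDepth 100000 in
theorem rk10_310_2 : chkC1 52 10 43 5 5 3 rd10_310.me rd10_310.mo gs10 [rd10_310.c0, rd10_310.c1] true
    (Nat.beq (10 % 2) 0) rd10_310.v2 = true := by decide +kernel

/-- run 311 -/
def rd10_311 : CRun :=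
  ⟨20, 400, 40, 7439, 8, 9,
    2582249878086908589655919172003011874329705795280406236999424774853033338468030720045361007310665355044868535440400057602,
    2582249878086908589655919172003011874329705793690057043626327101729081367465174892025517208530921135551541750148567238877,
    2074757784440496479256203931845580575506223116121218449997828664845326405706454073199853524473551897144099017962157852405071060323080197059023806637240486841472846325481649773960391,
    [9988, 39056047, 5756, 23145152, 1607, 6816074]⟩

set_option maxRecDepth 100000 in
theorem rk10_311_0 : chkC1 52 10 43 5 5 3 rd10_311.me rd10_311.mo gs10 [rd10_311.c0, rd10_311.c1] false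
    (Nat.beq (10 % 2) 1) rd10_311.v0 = true := by decide +kernel

set_option maxRecDepth 100000 in
theorem rk10_311_1 : chkC2 52 10 43 5 5 3 rd10_311.me rd10_311.mo gs10 [rd10_311.c0, rd10_311.c1]
    rd10_311.v1 = true := by decide +kernel

set_option maxRecDepth 100000 in
theorem rk10_311_2 : chkC1 52 10 43 5 5 3 rd10_311.me rd10_311.mo gs10 [rd10_311.c0, rd10_311.c1] true
    (Nat.beq (10 % 2) 0) rd10_311.v2 = true := by decide +kernel

/-- runs of this file -/
def rds10_38 : List CRun :=
  [rd10_304, rd10_305, rd10_306, rd10_307, rd10_308, rd10_309, rd10_310, rd10_311]

theorem ac10_38 : allC 52 10 43 5 5 3 gs10 rds10_38 :=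
  allC_cons rk10_304_0 rk10_304_1 rk10_304_2
    (allC_cons rk10_305_0 rk10_305_1 rk10_305_2
    (allC_cons rk10_306_0 rk10_306_1 rk10_306_2
    (allC_cons rk10_307_0 rk10_307_1 rk10_307_2
    (allC_cons rk10_308_0 rk10_308_1 rk10_308_2
    (allC_cons rk10_309_0 rk10_309_1 rk10_309_2
    (allC_cons rk10_310_0 rk10_310_1 rk10_310_2
    (allC_cons rk10_311_0 rk10_311_1 rk10_311_2
    (allC_nil))))))))

end Crest.Agent.R347
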