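import Crest.Agent.R347.G10c

/-! Row 347, Chebyshev numerics, ring with 10 sites: run certificates 312..319 (generated) -/

set_option autoImplicit false
set_option Elab.async false

namespace Crest.Agent.R347

/-- run 312 -/
def rd10_312 : CRun :=
  ⟨40, 422, 20, 7441, 8, 9,
    2582249878086908589655919172003011874329705793281542590199618734967168931705772643498587212298092570842229005954011396706,
    2582249878086908589655919172003011874329705792983822677175776584780548668082006715408322587074637730282735634042742546376,
    2074757784440496479256203931845580575506223116121218449997828664845326405706454073199853524473551897144098953808514235654132813131113793701118193115953315270520393091846743186177910,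
    [60123, 16777332, 36581, 9808532, 12223, 2556551]⟩

set_option maxRecDepth 100000 in
theorem rk10_312_0 : chkC1 52 10 43 5 5 3 rd10_312.me rd10_312.mo gs10 [rd10_312.c0, rd10_312.c1] false
    (Nat.beq (10 % 2) 1) rd10_312.v0 = true := by decide +kernel

set_option maxRecDepth 100000 in
theorem rk10_312_1 : chkC2 52 10 43 5 5 3 rd10_312.me rd10_312.mo gs10 [rd10_312.c0, rd10_312.c1]
    rd10_312.v1 = true := by decide +kernel

set_option maxRecDepth 100000 in
theorem rk10_312_2 : chkC1 52 10 43 5 5 3 rd10_312.me rd10_312.mo gs10 [rd10_312.c0, rd10_312.c1] true
    (Nat.beq (10 % 2) 0) rd10_312.v2 = true := by decide +kernel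

/-- run 313 -/
def rd10_313 : CRun :=
  ⟨40, 428, 40, 7475, 8, 9,
    2582249878086908589655919172003011874329705800611653729745261791523005217248450461491079386999894467098706652029344707615,
    2582249878086908589655919172003011874329705795698419984839767884390779475056419948282949961538723331723994946554404153446,
    2074757784440496479256203931845580575506223116121218449997828664845326405706454073199853524473551897144099270922481390547867612009730172366518596112695211087732713064846247829461809,
    [95276, 69591798, 57499, 42255241, 18729, 14278532]⟩

set_option maxRecDepth 100000 in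
theorem rk10_313_0 : chkC1 52 10 43 5 5 3 rd10_313.me rd10_313.mo gs10 [rd10_313.c0, rd10_313.c1] false
    (Nat.beq (10 % 2) 1) rd10_313.v0 = true := by decide +kernel

set_option maxRecDepth 100000 in
theorem rk10_313_1 : chkC2 52 10 43 5 5 3 rd10_313.me rd10_313.mo gs10 [rd10_313.c0, rd10_313.c1]
    rd10_313.v1 = true := by decide +kernel

set_option maxRecDepth 100000 in
theorem rk10_313_2 : chkC1 52 10 43 5 5 3 rd10_313.me rd10_313.mo gs10 [rd10_313.c0, rd10_313.c1] true
    (Nat.beq (10 % 2) 0) rd10_313.v2 = true := by decide +kernel

/-- run 314 -/
def rd10_314 : CRun :=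
  ⟨40, 430, 20, 7493, 8, 9,
    2582249878086908589655919172003011874329705802334769113853010540108192658585785892549270941954651132349391951585598670599,
    2582249878086908589655919172003011874329705796079660663817228114539044271804745603770371594194803097602397829011254109498,
    2074757784440496479256203931845580575506223116121218449997828664845326405706454073199853524473551897144099174853461087176859215191144077279929134090532916033782652888447463391108995,
    [27656, 76911089, 16347, 44975016, 4952, 12003856]⟩

set_option maxRecDepth 100000 in
theorem rk10_314_0 : chkC1 52 10 43 5 5 3 rd10_314.me rd10_314.mo gs10 [rd10_314.c0, rd10_314.c1] false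
    (Nat.beq (10 % 2) 1) rd10_314.v0 = true := by decide +kernel

set_option maxRecDepth 100000 in
theorem rk10_314_1 : chkC2 52 10 43 5 5 3 rd10_314.me rd10_314.mo gs10 [rd10_314.c0, rd10_314.c1]
    rd10_314.v1 = true := by decide +kernel

set_option maxRecDepth 100000 in
theorem rk10_314_2 : chkC1 52 10 43 5 5 3 rd10_314.me rd10_314.mo gs10 [rd10_314.c0, rd10_314.c1] true
    (Nat.beq (10 % 2) 0) rd10_314.v2 = true := by decide +kernel

/-- run 315 -/
def rd10_315 : CRun :=
  ⟨40, 440, 40, 7583, 8, 9,
    2582249878086908589655919172003011874329705796218479597880614188745645717606578140075718805455155449610772358990091849077,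
    2582249878086908589655919172003011874329705794052456546935216804950104302318391501397056660405459571374406718536448369909,
    2074757784440496479256203931845580575506223116121218449997828664845326405706454073199853524473551897144099066846480558849821909677428272044649732936489457851464383754333870074414302,
    [71582, 45925366, 43065, 27590212, 13855, 8768104]⟩

set_option maxRecDepth 100000 in
theorem rk10_315_0 : chkC1 52 10 43 5 5 3 rd10_315.me rd10_315.mo gs10 [rd10_315.c0, rd10_315.c1] false
    (Nat.beq (10 % 2) 1) rd10_315.v0 = true := by decide +kernel

set_option maxRecDepth 100000 in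
theorem rk10_315_1 : chkC2 52 10 43 5 5 3 rd10_315.me rd10_315.mo gs10 [rd10_315.c0, rd10_315.c1]
    rd10_315.v1 = true := by decide +kernel

set_option maxRecDepth 100000 in
theorem rk10_315_2 : chkC1 52 10 43 5 5 3 rd10_315.me rd10_315.mo gs10 [rd10_315.c0, rd10_315.c1] true
    (Nat.beq (10 % 2) 0) rd10_315.v2 = true := by decide +kernel

/-- run 316 -/
def rd10_316 : CRun :=
  ⟨40, 446, 40, 7601, 8, 9,
    2582249878086908589655919172003011874329705806230479986044542987310522259562448073204519231070957493003113476167741892387,
    2582249878086908589655919172003011874329705797468437113212497159372900644147580744390185994635411906891129845415711932663,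
    2074757784440496479256203931845580575506223116121218449997828664845326405706454073199853524473551897144099299531209983504177434715056268942326859934790640058652237535242892230581119,
    [90672, 91321533, 52697, 53730715, 14788, 14888913]⟩

set_option maxRecDepth 100000 in
theorem rk10_316_0 : chkC1 52 10 43 5 5 3 rd10_316.me rd10_316.mo gs10 [rd10_316.c0, rd10_316.c1] false
    (Nat.beq (10 % 2) 1) rd10_316.v0 = true := by decide +kernel

set_option maxRecDepth 100000 in
theorem rk10_316_1 : chkC2 52 10 43 5 5 3 rd10_316.me rd10_316.mo gs10 [rd10_316.c0, rd10_316.c1]
    rd10_316.v1 = true := by decide +kernel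

set_option maxRecDepth 100000 in
theorem rk10_316_2 : chkC1 52 10 43 5 5 3 rd10_316.me rd10_316.mo gs10 [rd10_316.c0, rd10_316.c1] true
    (Nat.beq (10 % 2) 0) rd10_316.v2 = true := by decide +kernel

/-- run 317 -/
def rd10_317 : CRun :=
  ⟨20, 448, 40, 7603, 8, 9,
    2582249878086908589655919172003011874329705795723749912359169238894975931639173479418324800632955270745272253754940030437,
    2582249878086908589655919172003011874329705793846898834772956323192337460432393170024410932986485453228955689732232027632,
    2074757784440496479256203931845580575506223116121218449997828664845326405706454073199853524473551897144099029913684037268081856719375788312992809564148241793894589404461078758576169,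
    [35172, 42441351, 20219, 25165471, 5348, 7341411]⟩

set_option maxRecDepth 100000 in
theorem rk10_317_0 : chkC1 52 10 43 5 5 3 rd10_317.me rd10_317.mo gs10 [rd10_317.c0, rd10_317.c1] false
    (Nat.beq (10 % 2) 1) rd10_317.v0 = true := by decide +kernel

set_option maxRecDepth 100000 in
theorem rk10_317_1 : chkC2 52 10 43 5 5 3 rd10_317.me rd10_317.mo gs10 [rd10_317.c0, rd10_317.c1]
    rd10_317.v1 = true := by decide +kernel

set_option maxRecDepth 100000 in
theorem rk10_317_2 : chkC1 52 10 43 5 5 3 rd10_317.me rd10_317.mo gs10 [rd10_317.c0, rd10_317.c1] true
    (Nat.beq (10 % 2) 0) rd10_317.v2 = true := by decide +kernel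

/-- run 318 -/
def rd10_318 : CRun :=
  ⟨40, 452, 40, 7637, 8, 9,
    2582249878086908589655919172003011874329705806918261988879788836239440594667352994417771402221424639230897303211472682273,
    2582249878086908589655919172003011874329705797797564758364901058539023994216751255782170772064013903883399574248426371814,
    2074757784440496479256203931845580575506223116121218449997828664845326405706454073199853524473551897144099369715695119818139380125752981456234900337321813942500822056278185970440107,
    [58627, 93635625, 33813, 55604014, 9128, 16289740]⟩

set_option maxRecDepth 100000 in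
theorem rk10_318_0 : chkC1 52 10 43 5 5 3 rd10_318.me rd10_318.mo gs10 [rd10_318.c0, rd10_318.c1] false
    (Nat.beq (10 % 2) 1) rd10_318.v0 = true := by decide +kernel

set_option maxRecDepth 100000 in
theorem rk10_318_1 : chkC2 52 10 43 5 5 3 rd10_318.me rd10_318.mo gs10 [rd10_318.c0, rd10_318.c1]
    rd10_318.v1 = true := by decide +kernel

set_option maxRecDepth 100000 in
theorem rk10_318_2 : chkC1 52 10 43 5 5 3 rd10_318.me rd10_318.mo gs10 [rd10_318.c0, rd10_318.c1] true
    (Nat.beq (10 % 2) 0) rd10_318.v2 = true := by decide +kernel

/-- run 319 -/
def rd10_319 : CRun :=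
  ⟨40, 464, 40, 7655, 8, 9,
    2582249878086908589655919172003011874329705853863523953697333501459088728759907777370518663530837607154784911885028404677,
    2582249878086908589655919172003011874329705815193207508471144531498000670636593552526287427239552588134686167190770045249,
    2074757784440496479256203931845580575506223116121218449997828664845326405706454073199853524473551897144101366589760666485197360326734056311368025691488898479747112643059993119864285,
    [42495, 194889042, 24651, 117970935, 6854, 38833149]⟩

set_option maxRecDepth 100000 in
theorem rk10_319_0 : chkC1 52 10 43 5 5 3 rd10_319.me rd10_319.mo gs10 [rd10_319.c0, rd10_319.c1] false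
    (Nat.beq (10 % 2) 1) rd10_319.v0 = true := by decide +kernel

set_option maxRecDepth 100000 in
theorem rk10_319_1 : chkC2 52 10 43 5 5 3 rd10_319.me rd10_319.mo gs10 [rd10_319.c0, rd10_319.c1]
    rd10_319.v1 = true := by decide +kernel

set_option maxRecDepth 100000 in
theorem rk10_319_2 : chkC1 52 10 43 5 5 3 rd10_319.me rd10_319.mo gs10 [rd10_319.c0, rd10_319.c1] true
    (Nat.beq (10 % 2) 0) rd10_319.v2 = true := by decide +kernel

/-- runs of this file -/
def rds10_39 : List CRun :=
  [rd10_312, rd10_313, rd10_314, rd10_315, rd10_316, rd10_317, rd10_318, rd10_319]

theorem ac10_39 : allC 52 10 43 5 5 3 gs10 rds10_39 :=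
  allC_cons rk10_312_0 rk10_312_1 rk10_312_2
    (allC_cons rk10_313_0 rk10_313_1 rk10_313_2
    (allC_cons rk10_314_0 rk10_314_1 rk10_314_2
    (allC_cons rk10_315_0 rk10_315_1 rk10_315_2
    (allC_cons rk10_316_0 rk10_316_1 rk10_316_2
    (allC_cons rk10_317_0 rk10_317_1 rk10_317_2
    (allC_cons rk10_318_0 rk10_318_1 rk10_318_2
    (allC_cons rk10_319_0 rk10_319_1 rk10_319_2
    (allC_nil))))))))

end Crest.Agent.R347
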