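import Crest.Agent.R347.G10c

/-! Row 347, Chebyshev numerics, ring with 10 sites: run certificates 320..327 (generated) -/

set_option autoImplicit false
set_option Elab.async false

namespace Crest.Agent.R347

/-- run 320 -/
def rd10_320 : CRun :=
  ⟨40, 470, 40, 7657, 8, 9,
    2582249878086908589655919172003011874329705812810761540213645038986913228006797825133164249742307609628880529602840079012,
    2582249878086908589655919172003011874329705800561470485746197587459246055863445265019301766102522222025976022940389804864,
    2074757784440496479256203931845580575506223116121218449997828664845326405706454073199853524473551897144100021162566550911997037414005436287061450533540181354089596366893536425033603,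
    [27912, 111510276, 16427, 69367061, 4913, 25898881]⟩

set_option maxRecDepth 100000 in
theorem rk10_320_0 : chkC1 52 10 43 5 5 3 rd10_320.me rd10_320.mo gs10 [rd10_320.c0, rd10_320.c1] false
    (Nat.beq (10 % 2) 1) rd10_320.v0 = true := by decide +kernel

set_option maxRecDepth 100000 in
theorem rk10_320_1 : chkC2 52 10 43 5 5 3 rd10_320.me rd10_320.mo gs10 [rd10_320.c0, rd10_320.c1]
    rd10_320.v1 = true := by decide +kernel

set_option maxRecDepth 100000 in
theorem rk10_320_2 : chkC1 52 10 43 5 5 3 rd10_320.me rd10_320.mo gs10 [rd10_320.c0, rd10_320.c1] true
    (Nat.beq (10 % 2) 0) rd10_320.v2 = true := by decide +kernel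

/-- run 321 -/
def rd10_321 : CRun :=
  ⟨40, 512, 40, 7661, 8, 9,
    2582249878086908589655919172003011874329705878409338327434172313812040169912469189728072331352363918501574287542376163988,
    2582249878086908589655919172003011874329705827494470701897304461136327929635389323729220689846255149344890714731367723723,
    2074757784440496479256203931845580575506223116121218449997828664845326405706454073199853524473551897144104607148207719412136013690639386137407496831569314817810941025896649981462405,
    [19088, 230773994, 11499, 146874901, 3768, 59368493]⟩

set_option maxRecDepth 100000 in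
theorem rk10_321_0 : chkC1 52 10 43 5 5 3 rd10_321.me rd10_321.mo gs10 [rd10_321.c0, rd10_321.c1] false
    (Nat.beq (10 % 2) 1) rd10_321.v0 = true := by decide +kernel

set_option maxRecDepth 100000 in
theorem rk10_321_1 : chkC2 52 10 43 5 5 3 rd10_321.me rd10_321.mo gs10 [rd10_321.c0, rd10_321.c1]
    rd10_321.v1 = true := by decide +kernel

set_option maxRecDepth 100000 in
theorem rk10_321_2 : chkC1 52 10 43 5 5 3 rd10_321.me rd10_321.mo gs10 [rd10_321.c0, rd10_321.c1] true
    (Nat.beq (10 % 2) 0) rd10_321.v2 = true := by decide +kernel

/-- run 322 -/
def rd10_322 : CRun :=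
  ⟨40, 530, 40, 7663, 8, 9,
    2582249878086908589655919172003011874329705809071764331610319034203839695561788222097331108599411415621438605753055818622,
    2582249878086908589655919172003011874329705799488313580022098104395851422012183651223785905759484766473853877370897058134,
    2074757784440496479256203931845580575506223116121218449997828664845326405706454073199853524473551897144100085604718481474608650697076848475060611346027417437404061950943054179405069,
    [94234, 100537347, 57429, 64373613, 19350, 26661854]⟩

set_option maxRecDepth 100000 in
theorem rk10_322_0 : chkC1 52 10 43 5 5 3 rd10_322.me rd10_322.mo gs10 [rd10_322.c0, rd10_322.c1] false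
    (Nat.beq (10 % 2) 1) rd10_322.v0 = true := by decide +kernel

set_option maxRecDepth 100000 in
theorem rk10_322_1 : chkC2 52 10 43 5 5 3 rd10_322.me rd10_322.mo gs10 [rd10_322.c0, rd10_322.c1]
    rd10_322.v1 = true := by decide +kernel

set_option maxRecDepth 100000 in
theorem rk10_322_2 : chkC1 52 10 43 5 5 3 rd10_322.me rd10_322.mo gs10 [rd10_322.c0, rd10_322.c1] true
    (Nat.beq (10 % 2) 0) rd10_322.v2 = true := by decide +kernel

/-- run 323 -/
def rd10_323 : CRun :=
  ⟨40, 536, 40, 7673, 8, 9,
    2582249878086908589655919172003011874329705835342442793003343042028915981857245487842976149858138248416843972554284974313,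
    2582249878086908589655919172003011874329705809747293730147545774892371313620438459993523279107097335156851761764141140375,
    2074757784440496479256203931845580575506223116121218449997828664845326405706454073199853524473551897144101518217631630033679799289256837563717905342072060505888496635646606655707335,
    [99815, 162653132, 59949, 102606730, 19276, 40029635]⟩

set_option maxRecDepth 100000 in
theorem rk10_323_0 : chkC1 52 10 43 5 5 3 rd10_323.me rd10_323.mo gs10 [rd10_323.c0, rd10_323.c1] false
    (Nat.beq (10 % 2) 1) rd10_323.v0 = true := by decide +kernel

set_option maxRecDepth 100000 in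
theorem rk10_323_1 : chkC2 52 10 43 5 5 3 rd10_323.me rd10_323.mo gs10 [rd10_323.c0, rd10_323.c1]
    rd10_323.v1 = true := by decide +kernel

set_option maxRecDepth 100000 in
theorem rk10_323_2 : chkC1 52 10 43 5 5 3 rd10_323.me rd10_323.mo gs10 [rd10_323.c0, rd10_323.c1] true
    (Nat.beq (10 % 2) 0) rd10_323.v2 = true := by decide +kernel

/-- run 324 -/
def rd10_324 : CRun :=
  ⟨40, 548, 40, 7675, 8, 9,
    2582249878086908589655919172003011874329705827257157881545492872171291168916154866770562854686377870526628925913381358253,
    2582249878086908589655919172003011874329705807150827805262663815297072450242809048748762460598519975650819100754488218680,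
    2074757784440496479256203931845580575506223116121218449997828664845326405706454073199853524473551897144101477246351134374706733572012401566480147203452916905303777380269204476705677,
    [217565, 146371296, 133156, 94405277, 45380, 39709888]⟩

set_option maxRecDepth 100000 in
theorem rk10_324_0 : chkC1 52 10 43 5 5 3 rd10_324.me rd10_324.mo gs10 [rd10_324.c0, rd10_324.c1] false
    (Nat.beq (10 % 2) 1) rd10_324.v0 = true := by decide +kernel

set_option maxRecDepth 100000 in
theorem rk10_324_1 : chkC2 52 10 43 5 5 3 rd10_324.me rd10_324.mo gs10 [rd10_324.c0, rd10_324.c1]
    rd10_324.v1 = true := by decide +kernel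

set_option maxRecDepth 100000 in
theorem rk10_324_2 : chkC1 52 10 43 5 5 3 rd10_324.me rd10_324.mo gs10 [rd10_324.c0, rd10_324.c1] true
    (Nat.beq (10 % 2) 0) rd10_324.v2 = true := by decide +kernel

/-- run 325 -/
def rd10_325 : CRun :=
  ⟨40, 554, 40, 7679, 8, 9,
    2582249878086908589655919172003011874329705828102466367430783043764321190055966602199298035625659517125335788862873908030,
    2582249878086908589655919172003011874329705807413980819232773656682517899191021002712396131564254450388959847382083346068,
    2074757784440496479256203931845580575506223116121218449997828664845326405706454073199853524473551897144101476756044399555200292345369995801613262355375453251802624906485281794529337,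
    [173542, 148157325, 102194, 95268656, 30510, 39706046]⟩

set_option maxRecDepth 100000 in
theorem rk10_325_0 : chkC1 52 10 43 5 5 3 rd10_325.me rd10_325.mo gs10 [rd10_325.c0, rd10_325.c1] false
    (Nat.beq (10 % 2) 1) rd10_325.v0 = true := by decide +kernel

set_option maxRecDepth 100000 in
theorem rk10_325_1 : chkC2 52 10 43 5 5 3 rd10_325.me rd10_325.mo gs10 [rd10_325.c0, rd10_325.c1]
    rd10_325.v1 = true := by decide +kernel

set_option maxRecDepth 100000 in
theorem rk10_325_2 : chkC1 52 10 43 5 5 3 rd10_325.me rd10_325.mo gs10 [rd10_325.c0, rd10_325.c1] true
    (Nat.beq (10 % 2) 0) rd10_325.v2 = true := by decide +kernel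

/-- run 326 -/
def rd10_326 : CRun :=
  ⟨20, 560, 20, 7681, 8, 9,
    2582249878086908589655919172003011874329705806570118236551419147297664998046240628403240701823399003322243918453861180286,
    2582249878086908589655919172003011874329705798537216164260920253806571621316203273009412549318703926659814645846753212518,
    2074757784440496479256203931845580575506223116121218449997828664845326405706454073199853524473551897144099963561615829039388823624863317224052827071418594024345644029464549471308180,
    [87775, 92471508, 50107, 59599435, 12883, 25197358]⟩

set_option maxRecDepth 100000 in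
theorem rk10_326_0 : chkC1 52 10 43 5 5 3 rd10_326.me rd10_326.mo gs10 [rd10_326.c0, rd10_326.c1] false
    (Nat.beq (10 % 2) 1) rd10_326.v0 = true := by decide +kernel

set_option maxRecDepth 100000 in
theorem rk10_326_1 : chkC2 52 10 43 5 5 3 rd10_326.me rd10_326.mo gs10 [rd10_326.c0, rd10_326.c1]
    rd10_326.v1 = true := by decide +kernel

set_option maxRecDepth 100000 in
theorem rk10_326_2 : chkC1 52 10 43 5 5 3 rd10_326.me rd10_326.mo gs10 [rd10_326.c0, rd10_326.c1] true
    (Nat.beq (10 % 2) 0) rd10_326.v2 = true := by decide +kernel

/-- run 327 -/
def rd10_327 : CRun :=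
  ⟨40, 584, 40, 7709, 8, 9,
    2582249878086908589655919172003011874329705854616508097677792501833202033955372553000232345641896226397389770566617985351,
    2582249878086908589655919172003011874329705817675475075315032880496458682357074831533936725194496201469309054216478022597,
    2074757784440496479256203931845580575506223116121218449997828664845326405706454073199853524473551897144102834320839377958132934481768661912852321705077852697790481696579197121303978,
    [84986, 196087536, 51051, 124345729, 16376, 49207568]⟩

set_option maxRecDepth 100000 in
theorem rk10_327_0 : chkC1 52 10 43 5 5 3 rd10_327.me rd10_327.mo gs10 [rd10_327.c0, rd10_327.c1] false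
    (Nat.beq (10 % 2) 1) rd10_327.v0 = true := by decide +kernel

set_option maxRecDepth 100000 in
theorem rk10_327_1 : chkC2 52 10 43 5 5 3 rd10_327.me rd10_327.mo gs10 [rd10_327.c0, rd10_327.c1]
    rd10_327.v1 = true := by decide +kernel

set_option maxRecDepth 100000 in
theorem rk10_327_2 : chkC1 52 10 43 5 5 3 rd10_327.me rd10_327.mo gs10 [rd10_327.c0, rd10_327.c1] true
    (Nat.beq (10 % 2) 0) rd10_327.v2 = true := by decide +kernel

/-- runs of this file -/
def rds10_40 : List CRun :=
  [rd10_320, rd10_321, rd10_322, rd10_323, rd10_324, rd10_325, rd10_326, rd10_327]

theorem ac10_40 : allC 52 10 43 5 5 3 gs10 rds10_40 :=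
  allC_cons rk10_320_0 rk10_320_1 rk10_320_2
    (allC_cons rk10_321_0 rk10_321_1 rk10_321_2
    (allC_cons rk10_322_0 rk10_322_1 rk10_322_2
    (allC_cons rk10_323_0 rk10_323_1 rk10_323_2
    (allC_cons rk10_324_0 rk10_324_1 rk10_324_2
    (allC_cons rk10_325_0 rk10_325_1 rk10_325_2
    (allC_cons rk10_326_0 rk10_326_1 rk10_326_2
    (allC_cons rk10_327_0 rk10_327_1 rk10_327_2
    (allC_nil))))))))

end Crest.Agent.R347
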