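import Crest.Agent.R347.G10c

/-! Row 347, Chebyshev numerics, ring with 10 sites: run certificates 328..335 (generated) -/

set_option autoImplicit false
set_option Elab.async false

namespace Crest.Agent.R347

/-- run 328 -/
def rd10_328 : CRun :=
  ⟨40, 590, 40, 7711, 8, 9,
    2582249878086908589655919172003011874329705814038260586668277320555446354773421602004548499959743985915040138175630745510,
    2582249878086908589655919172003011874329705801586011640474134933157366436923502134252265832057781808818842091217277331026,
    2074757784440496479256203931845580575506223116121218449997828664845326405706454073199853524473551897144100447279747777032056764132630727426108389559112093575453940161261744011641703,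
    [135320, 114884361, 80038, 73819799, 24228, 30592898]⟩

set_option maxRecDepth 100000 in
theorem rk10_328_0 : chkC1 52 10 43 5 5 3 rd10_328.me rd10_328.mo gs10 [rd10_328.c0, rd10_328.c1] false
    (Nat.beq (10 % 2) 1) rd10_328.v0 = true := by decide +kernel

set_option maxRecDepth 100000 in
theorem rk10_328_1 : chkC2 52 10 43 5 5 3 rd10_328.me rd10_328.mo gs10 [rd10_328.c0, rd10_328.c1]
    rd10_328.v1 = true := by decide +kernel

set_option maxRecDepth 100000 in
theorem rk10_328_2 : chkC1 52 10 43 5 5 3 rd10_328.me rd10_328.mo gs10 [rd10_328.c0, rd10_328.c1] true
    (Nat.beq (10 % 2) 0) rd10_328.v2 = true := by decide +kernel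

/-- run 329 -/
def rd10_329 : CRun :=
  ⟨40, 602, 40, 7715, 8, 9,
    2582249878086908589655919172003011874329706015883579539048317807206712748213453157146033854306860772046372862638749247822,
    2582249878086908589655919172003011874329705888745070883358606311020553276032769198491870275821221136467757839911858711487,
    2074757784440496479256203931845580575506223116121218449997828664845326405706454073199853524473551897144117476678914919855082420819732160783085442245193887002233088114252416446503092,
    [150560, 372568204, 89400, 244312461, 27485, 107393420]⟩

set_option maxRecDepth 100000 in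
theorem rk10_329_0 : chkC1 52 10 43 5 5 3 rd10_329.me rd10_329.mo gs10 [rd10_329.c0, rd10_329.c1] false
    (Nat.beq (10 % 2) 1) rd10_329.v0 = true := by decide +kernel

set_option maxRecDepth 100000 in
theorem rk10_329_1 : chkC2 52 10 43 5 5 3 rd10_329.me rd10_329.mo gs10 [rd10_329.c0, rd10_329.c1]
    rd10_329.v1 = true := by decide +kernel

set_option maxRecDepth 100000 in
theorem rk10_329_2 : chkC1 52 10 43 5 5 3 rd10_329.me rd10_329.mo gs10 [rd10_329.c0, rd10_329.c1] true
    (Nat.beq (10 % 2) 0) rd10_329.v2 = true := by decide +kernel

/-- run 330 -/
def rd10_330 : CRun :=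
  ⟨20, 608, 20, 7717, 8, 9,
    2582249878086908589655919172003011874329705833135844478373867939045208612913774190619441232116869853148799783032564333965,
    2582249878086908589655919172003011874329705810048671593246195364223244310378337993031317365056365029072040693069860451200,
    2074757784440496479256203931845580575506223116121218449997828664845326405706454073199853524473551897144102238121374010383754955819334814958973582334888020270794010511254676108781891,
    [212018, 158375730, 122546, 103516612, 33622, 45280999]⟩

set_option maxRecDepth 100000 in
theorem rk10_330_0 : chkC1 52 10 43 5 5 3 rd10_330.me rd10_330.mo gs10 [rd10_330.c0, rd10_330.c1] false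
    (Nat.beq (10 % 2) 1) rd10_330.v0 = true := by decide +kernel

set_option maxRecDepth 100000 in
theorem rk10_330_1 : chkC2 52 10 43 5 5 3 rd10_330.me rd10_330.mo gs10 [rd10_330.c0, rd10_330.c1]
    rd10_330.v1 = true := by decide +kernel

set_option maxRecDepth 100000 in
theorem rk10_330_2 : chkC1 52 10 43 5 5 3 rd10_330.me rd10_330.mo gs10 [rd10_330.c0, rd10_330.c1] true
    (Nat.beq (10 % 2) 0) rd10_330.v2 = true := by decide +kernel

/-- run 331 -/
def rd10_331 : CRun :=
  ⟨20, 656, 40, 7727, 8, 9,
    2582249878086908589655919172003011874329705817240656728588708463246834527882013834406564974500179804527847725630138047136,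
    2582249878086908589655919172003011874329705802792881501959172715618856358221830698748902404387026513066589075784347673802,
    2074757784440496479256203931845580575506223116121218449997828664845326405706454073199853524473551897144100586298671221165360783978940639881910942689762309542539070755062780294829597,
    [68015, 123252880, 40182, 78742617, 12159, 31975570]⟩

set_option maxRecDepth 100000 in
theorem rk10_331_0 : chkC1 52 10 43 5 5 3 rd10_331.me rd10_331.mo gs10 [rd10_331.c0, rd10_331.c1] false
    (Nat.beq (10 % 2) 1) rd10_331.v0 = true := by decide +kernel

set_option maxRecDepth 100000 in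
theorem rk10_331_1 : chkC2 52 10 43 5 5 3 rd10_331.me rd10_331.mo gs10 [rd10_331.c0, rd10_331.c1]
    rd10_331.v1 = true := by decide +kernel

set_option maxRecDepth 100000 in
theorem rk10_331_2 : chkC1 52 10 43 5 5 3 rd10_331.me rd10_331.mo gs10 [rd10_331.c0, rd10_331.c1] true
    (Nat.beq (10 % 2) 0) rd10_331.v2 = true := by decide +kernel

/-- run 332 -/
def rd10_332 : CRun :=
  ⟨40, 782, 40, 7729, 8, 9,
    2582249878086908589655919172003011874329705811090080748173945534760076198662282879686366764685859475452469467900182899571,
    2582249878086908589655919172003011874329705800426586436391774683401119304544655116958096644619931497696027059037955785456,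
    2074757784440496479256203931845580575506223116121218449997828664845326405706454073199853524473551897144100281720630973586333916260334038868119872259737118955348700686445711610916561,
    [6196, 106600936, 3706, 68759368, 1272, 28859967]⟩

set_option maxRecDepth 100000 in
theorem rk10_332_0 : chkC1 52 10 43 5 5 3 rd10_332.me rd10_332.mo gs10 [rd10_332.c0, rd10_332.c1] false
    (Nat.beq (10 % 2) 1) rd10_332.v0 = true := by decide +kernel

set_option maxRecDepth 100000 in
theorem rk10_332_1 : chkC2 52 10 43 5 5 3 rd10_332.me rd10_332.mo gs10 [rd10_332.c0, rd10_332.c1]
    rd10_332.v1 = true := by decide +kernel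

set_option maxRecDepth 100000 in
theorem rk10_332_2 : chkC1 52 10 43 5 5 3 rd10_332.me rd10_332.mo gs10 [rd10_332.c0, rd10_332.c1] true
    (Nat.beq (10 % 2) 0) rd10_332.v2 = true := by decide +kernel

/-- run 333 -/
def rd10_333 : CRun :=
  ⟨40, 800, 40, 7733, 8, 9,
    2582249878086908589655919172003011874329705837914814789079330368885921966040821571587318452442185033349416583499416714888,
    2582249878086908589655919172003011874329705811791488663329077876971575239693219393431485618592650954698890818506405404260,
    2074757784440496479256203931845580575506223116121218449997828664845326405706454073199853524473551897144102394431302623513367433632762001330632611977385906782622565252135237099952359,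
    [22049, 167501739, 13301, 108628940, 4402, 46342646]⟩

set_option maxRecDepth 100000 in
theorem rk10_333_0 : chkC1 52 10 43 5 5 3 rd10_333.me rd10_333.mo gs10 [rd10_333.c0, rd10_333.c1] false
    (Nat.beq (10 % 2) 1) rd10_333.v0 = true := by decide +kernel

set_option maxRecDepth 100000 in
theorem rk10_333_1 : chkC2 52 10 43 5 5 3 rd10_333.me rd10_333.mo gs10 [rd10_333.c0, rd10_333.c1]
    rd10_333.v1 = true := by decide +kernel

set_option maxRecDepth 100000 in
theorem rk10_333_2 : chkC1 52 10 43 5 5 3 rd10_333.me rd10_333.mo gs10 [rd10_333.c0, rd10_333.c1] true
    (Nat.beq (10 % 2) 0) rd10_333.v2 = true := by decide +kernel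

/-- run 334 -/
def rd10_334 : CRun :=
  ⟨40, 806, 40, 7817, 8, 9,
    2582249878086908589655919172003011874329705849418584085470986080630982658946147537831979453899629215432226248393623481820,
    2582249878086908589655919172003011874329705814918050974385587724900799099634092744555548145946070024087924264402305377763,
    2074757784440496479256203931845580575506223116121218449997828664845326405706454073199853524473551897144102018917606348345201148955309450992960648563699123870395293547223791295304043,
    [21306, 187658322, 12911, 117242958, 4349, 43748806]⟩

set_option maxRecDepth 100000 in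
theorem rk10_334_0 : chkC1 52 10 43 5 5 3 rd10_334.me rd10_334.mo gs10 [rd10_334.c0, rd10_334.c1] false
    (Nat.beq (10 % 2) 1) rd10_334.v0 = true := by decide +kernel

set_option maxRecDepth 100000 in
theorem rk10_334_1 : chkC2 52 10 43 5 5 3 rd10_334.me rd10_334.mo gs10 [rd10_334.c0, rd10_334.c1]
    rd10_334.v1 = true := by decide +kernel

set_option maxRecDepth 100000 in
theorem rk10_334_2 : chkC1 52 10 43 5 5 3 rd10_334.me rd10_334.mo gs10 [rd10_334.c0, rd10_334.c1] true
    (Nat.beq (10 % 2) 0) rd10_334.v2 = true := by decide +kernel

/-- run 335 -/
def rd10_335 : CRun :=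
  ⟨40, 808, 40, 7819, 8, 9,
    2582249878086908589655919172003011874329705816164184508402199209621001172702288969827199313494908873146086898842241652555,
    2582249878086908589655919172003011874329705802361290574732259039485207676188940225000766875176225996513480820114167089699,
    2074757784440496479256203931845580575506223116121218449997828664845326405706454073199853524473551897144100518948388442947160611668850724465270258805719506180053377694609340710197434,
    [5591, 120504697, 3385, 77018309, 1231, 31313334]⟩

set_option maxRecDepth 100000 in
theorem rk10_335_0 : chkC1 52 10 43 5 5 3 rd10_335.me rd10_335.mo gs10 [rd10_335.c0, rd10_335.c1] false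
    (Nat.beq (10 % 2) 1) rd10_335.v0 = true := by decide +kernel

set_option maxRecDepth 100000 in
theorem rk10_335_1 : chkC2 52 10 43 5 5 3 rd10_335.me rd10_335.mo gs10 [rd10_335.c0, rd10_335.c1]
    rd10_335.v1 = true := by decide +kernel

set_option maxRecDepth 100000 in
theorem rk10_335_2 : chkC1 52 10 43 5 5 3 rd10_335.me rd10_335.mo gs10 [rd10_335.c0, rd10_335.c1] true
    (Nat.beq (10 % 2) 0) rd10_335.v2 = true := by decide +kernel

/-- runs of this file -/
def rds10_41 : List CRun :=
  [rd10_328, rd10_329, rd10_330, rd10_331, rd10_332, rd10_333, rd10_334, rd10_335]

theorem ac10_41 : allC 52 10 43 5 5 3 gs10 rds10_41 :=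
  allC_cons rk10_328_0 rk10_328_1 rk10_328_2
    (allC_cons rk10_329_0 rk10_329_1 rk10_329_2
    (allC_cons rk10_330_0 rk10_330_1 rk10_330_2
    (allC_cons rk10_331_0 rk10_331_1 rk10_331_2
    (allC_cons rk10_332_0 rk10_332_1 rk10_332_2
    (allC_cons rk10_333_0 rk10_333_1 rk10_333_2
    (allC_cons rk10_334_0 rk10_334_1 rk10_334_2
    (allC_cons rk10_335_0 rk10_335_1 rk10_335_2
    (allC_nil))))))))

end Crest.Agent.R347
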