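import Crest.Agent.R347.G10c

/-! Row 347, Chebyshev numerics, ring with 10 sites: run certificates 336..343 (generated) -/

set_option autoImplicit false
set_option Elab.async false

namespace Crest.Agent.R347

/-- run 336 -/
def rd10_336 : CRun :=
  ⟨40, 836, 40, 7823, 8, 9,
    2582249878086908589655919172003011874329705878200668943647252825165406036003187094992734886461116703130697284601425871638,
    2582249878086908589655919172003011874329705828207595742305843102314311233015790455317136190880019496988197189485129025213,
    2074757784440496479256203931845580575506223116121218449997828664845326405706454073199853524473551897144105016669661664046891574165864351575024770958915098621167047718275078863628401,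
    [25082, 230492475, 15048, 148377947, 4876, 61477344]⟩

set_option maxRecDepth 100000 in
theorem rk10_336_0 : chkC1 52 10 43 5 5 3 rd10_336.me rd10_336.mo gs10 [rd10_336.c0, rd10_336.c1] false
    (Nat.beq (10 % 2) 1) rd10_336.v0 = true := by decide +kernel

set_option maxRecDepth 100000 in
theorem rk10_336_1 : chkC2 52 10 43 5 5 3 rd10_336.me rd10_336.mo gs10 [rd10_336.c0, rd10_336.c1]
    rd10_336.v1 = true := by decide +kernel

set_option maxRecDepth 100000 in
theorem rk10_336_2 : chkC1 52 10 43 5 5 3 rd10_336.me rd10_336.mo gs10 [rd10_336.c0, rd10_336.c1] true
    (Nat.beq (10 % 2) 0) rd10_336.v2 = true := by decide +kernel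

/-- run 337 -/
def rd10_337 : CRun :=
  ⟨40, 854, 40, 7835, 8, 9,
    2582249878086908589655919172003011874329705892147459043115264683071083704780184269026269526725415234397794751074729184502,
    2582249878086908589655919172003011874329705833881220141777294921947203763943028042364961945814477011429649955416924822440,
    2074757784440496479256203931845580575506223116121218449997828664845326405706454073199853524473551897144105890020148343765108657618523338167194653153916352320207092747984229953839675,
    [111229, 248607904, 67813, 159833414, 22918, 65749153]⟩

set_option maxRecDepth 100000 in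
theorem rk10_337_0 : chkC1 52 10 43 5 5 3 rd10_337.me rd10_337.mo gs10 [rd10_337.c0, rd10_337.c1] false
    (Nat.beq (10 % 2) 1) rd10_337.v0 = true := by decide +kernel

set_option maxRecDepth 100000 in
theorem rk10_337_1 : chkC2 52 10 43 5 5 3 rd10_337.me rd10_337.mo gs10 [rd10_337.c0, rd10_337.c1]
    rd10_337.v1 = true := by decide +kernel

set_option maxRecDepth 100000 in
theorem rk10_337_2 : chkC1 52 10 43 5 5 3 rd10_337.me rd10_337.mo gs10 [rd10_337.c0, rd10_337.c1] true
    (Nat.beq (10 % 2) 0) rd10_337.v2 = true := by decide +kernel

/-- run 338 -/
def rd10_338 : CRun :=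
  ⟨40, 860, 20, 7837, 8, 9,
    2582249878086908589655919172003011874329705885182388832580056390905831304052167494927142399260375637126669574768751642525,
    2582249878086908589655919172003011874329705832196838399382343923521152693345376595754707949940762987816623576922369304233,
    2074757784440496479256203931845580575506223116121218449997828664845326405706454073199853524473551897144106326362900112000412291176239348580317344959287031443796038018781220394312257,
    [130067, 239732176, 78530, 156520053, 25709, 67782652]⟩

set_option maxRecDepth 100000 in
theorem rk10_338_0 : chkC1 52 10 43 5 5 3 rd10_338.me rd10_338.mo gs10 [rd10_338.c0, rd10_338.c1] false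
    (Nat.beq (10 % 2) 1) rd10_338.v0 = true := by decide +kernel

set_option maxRecDepth 100000 in
theorem rk10_338_1 : chkC2 52 10 43 5 5 3 rd10_338.me rd10_338.mo gs10 [rd10_338.c0, rd10_338.c1]
    rd10_338.v1 = true := by decide +kernel

set_option maxRecDepth 100000 in
theorem rk10_338_2 : chkC1 52 10 43 5 5 3 rd10_338.me rd10_338.mo gs10 [rd10_338.c0, rd10_338.c1] true
    (Nat.beq (10 % 2) 0) rd10_338.v2 = true := by decide +kernel

/-- run 339 -/
def rd10_339 : CRun :=
  ⟨40, 862, 40, 7841, 8, 9,
    2582249878086908589655919172003011874329705870439996216160903278338473964040632222079999134215363788416251684058786404242,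
    2582249878086908589655919172003011874329705825233874445467494594131793956227819143323929054928075219112971270461708767874,
    2074757784440496479256203931845580575506223116121218449997828664845326405706454073199853524473551897144104634204906693607880713559874452597816589789044967647376594439144941493264636,
    [36999, 219766473, 21908, 142005155, 6665, 59510128]⟩

set_option maxRecDepth 100000 in
theorem rk10_339_0 : chkC1 52 10 43 5 5 3 rd10_339.me rd10_339.mo gs10 [rd10_339.c0, rd10_339.c1] false
    (Nat.beq (10 % 2) 1) rd10_339.v0 = true := by decide +kernel

set_option maxRecDepth 100000 in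
theorem rk10_339_1 : chkC2 52 10 43 5 5 3 rd10_339.me rd10_339.mo gs10 [rd10_339.c0, rd10_339.c1]
    rd10_339.v1 = true := by decide +kernel

set_option maxRecDepth 100000 in
theorem rk10_339_2 : chkC1 52 10 43 5 5 3 rd10_339.me rd10_339.mo gs10 [rd10_339.c0, rd10_339.c1] true
    (Nat.beq (10 % 2) 0) rd10_339.v2 = true := by decide +kernel

/-- run 340 -/
def rd10_340 : CRun :=
  ⟨40, 872, 40, 7871, 8, 9,
    2582249878086908589655919172003011874329705823901770008379772607658499843734254572282667349266178933454423599769042944934,
    2582249878086908589655919172003011874329705805264923956561784346088569659032137691968497748241870858980095186188921867229,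
    2074757784440496479256203931845580575506223116121218449997828664845326405706454073199853524473551897144100843067327233091747899740920019004289727031021429322213077575464604399298732,
    [189447, 139055720, 115800, 87970197, 39338, 34383494]⟩

set_option maxRecDepth 100000 in
theorem rk10_340_0 : chkC1 52 10 43 5 5 3 rd10_340.me rd10_340.mo gs10 [rd10_340.c0, rd10_340.c1] false
    (Nat.beq (10 % 2) 1) rd10_340.v0 = true := by decide +kernel

set_option maxRecDepth 100000 in
theorem rk10_340_1 : chkC2 52 10 43 5 5 3 rd10_340.me rd10_340.mo gs10 [rd10_340.c0, rd10_340.c1]
    rd10_340.v1 = true := by decide +kernel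

set_option maxRecDepth 100000 in
theorem rk10_340_2 : chkC1 52 10 43 5 5 3 rd10_340.me rd10_340.mo gs10 [rd10_340.c0, rd10_340.c1] true
    (Nat.beq (10 % 2) 0) rd10_340.v2 = true := by decide +kernel

/-- run 341 -/
def rd10_341 : CRun :=
  ⟨40, 878, 20, 7873, 8, 9,
    2582249878086908589655919172003011874329705805024918207287015043711178926210307403072505242643949045492052489506240967970,
    2582249878086908589655919172003011874329705797811034627666981599414771379980919201550678170509125980486637302704193021992,
    2074757784440496479256203931845580575506223116121218449997828664845326405706454073199853524473551897144099765215572600285806297473399167077060919519165965682367960677021311121998053,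
    [165939, 87117160, 97891, 55679338, 29301, 22615831]⟩

set_option maxRecDepth 100000 in
theorem rk10_341_0 : chkC1 52 10 43 5 5 3 rd10_341.me rd10_341.mo gs10 [rd10_341.c0, rd10_341.c1] false
    (Nat.beq (10 % 2) 1) rd10_341.v0 = true := by decide +kernel

set_option maxRecDepth 100000 in
theorem rk10_341_1 : chkC2 52 10 43 5 5 3 rd10_341.me rd10_341.mo gs10 [rd10_341.c0, rd10_341.c1]
    rd10_341.v1 = true := by decide +kernel

set_option maxRecDepth 100000 in
theorem rk10_341_2 : chkC1 52 10 43 5 5 3 rd10_341.me rd10_341.mo gs10 [rd10_341.c0, rd10_341.c1] true
    (Nat.beq (10 % 2) 0) rd10_341.v2 = true := by decide +kernel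

/-- run 342 -/
def rd10_342 : CRun :=
  ⟨40, 880, 40, 7877, 8, 9,
    2582249878086908589655919172003011874329705899650644362000075478864547960747224174284396122229658333667026925301287151708,
    2582249878086908589655919172003011874329705837661568786810159126856442314247108580345366997715272420745155567489061961937,
    2074757784440496479256203931845580575506223116121218449997828664845326405706454073199853524473551897144106917773603479955775463981004758032765095062295979848991919734996297501112875,
    [58555, 257827721, 33939, 167030647, 9287, 70445182]⟩

set_option maxRecDepth 100000 in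
theorem rk10_342_0 : chkC1 52 10 43 5 5 3 rd10_342.me rd10_342.mo gs10 [rd10_342.c0, rd10_342.c1] false
    (Nat.beq (10 % 2) 1) rd10_342.v0 = true := by decide +kernel

set_option maxRecDepth 100000 in
theorem rk10_342_1 : chkC2 52 10 43 5 5 3 rd10_342.me rd10_342.mo gs10 [rd10_342.c0, rd10_342.c1]
    rd10_342.v1 = true := by decide +kernel

set_option maxRecDepth 100000 in
theorem rk10_342_2 : chkC1 52 10 43 5 5 3 rd10_342.me rd10_342.mo gs10 [rd10_342.c0, rd10_342.c1] true
    (Nat.beq (10 % 2) 0) rd10_342.v2 = true := by decide +kernel

/-- run 343 -/
def rd10_343 : CRun :=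
  ⟨40, 884, 40, 7889, 8, 9,
    2582249878086908589655919172003011874329705819746219853701198058229941069008830215643013112964456648414684449626607409150,
    2582249878086908589655919172003011874329705803675119752578745772269359617399453479318493057800821132172541876785455511467,
    2074757784440496479256203931845580575506223116121218449997828664845326405706454073199853524473551897144100643377171522691669058397894802129697695418356732569564831240363747244070149,
    [86435, 129423677, 49796, 82154841, 13257, 32526253]⟩

set_option maxRecDepth 100000 in
theorem rk10_343_0 : chkC1 52 10 43 5 5 3 rd10_343.me rd10_343.mo gs10 [rd10_343.c0, rd10_343.c1] false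
    (Nat.beq (10 % 2) 1) rd10_343.v0 = true := by decide +kernel

set_option maxRecDepth 100000 in
theorem rk10_343_1 : chkC2 52 10 43 5 5 3 rd10_343.me rd10_343.mo gs10 [rd10_343.c0, rd10_343.c1]
    rd10_343.v1 = true := by decide +kernel

set_option maxRecDepth 100000 in
theorem rk10_343_2 : chkC1 52 10 43 5 5 3 rd10_343.me rd10_343.mo gs10 [rd10_343.c0, rd10_343.c1] true
    (Nat.beq (10 % 2) 0) rd10_343.v2 = true := by decide +kernel

/-- runs of this file -/
def rds10_42 : List CRun :=
  [rd10_336, rd10_337, rd10_338, rd10_339, rd10_340, rd10_341, rd10_342, rd10_343]

theorem ac10_42 : allC 52 10 43 5 5 3 gs10 rds10_42 :=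
  allC_cons rk10_336_0 rk10_336_1 rk10_336_2
    (allC_cons rk10_337_0 rk10_337_1 rk10_337_2
    (allC_cons rk10_338_0 rk10_338_1 rk10_338_2
    (allC_cons rk10_339_0 rk10_339_1 rk10_339_2
    (allC_cons rk10_340_0 rk10_340_1 rk10_340_2
    (allC_cons rk10_341_0 rk10_341_1 rk10_341_2
    (allC_cons rk10_342_0 rk10_342_1 rk10_342_2
    (allC_cons rk10_343_0 rk10_343_1 rk10_343_2
    (allC_nil))))))))

end Crest.Agent.R347
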