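import Crest.Agent.R347.G10c

/-! Row 347, Chebyshev numerics, ring with 10 sites: run certificates 344..351 (generated) -/

set_option autoImplicit false
set_option Elab.async false

namespace Crest.Agent.R347

/-- run 344 -/
def rd10_344 : CRun :=
  ⟨40, 886, 40, 7895, 8, 9,
    2582249878086908589655919172003011874329705838878372600386896950236386513160273310892883134391383420350622902312699855490,
    2582249878086908589655919172003011874329705811412807772141210704570345651454246540346002485472147422629865195986204887008,
    2074757784440496479256203931845580575506223116121218449997828664845326405706454073199853524473551897144101876605375612828560270084258354839258636212256373384551939397290588014477553,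
    [30229, 169282179, 17517, 107538798, 4814, 42724664]⟩

set_option maxRecDepth 100000 in
theorem rk10_344_0 : chkC1 52 10 43 5 5 3 rd10_344.me rd10_344.mo gs10 [rd10_344.c0, rd10_344.c1] false
    (Nat.beq (10 % 2) 1) rd10_344.v0 = true := by decide +kernel

set_option maxRecDepth 100000 in
theorem rk10_344_1 : chkC2 52 10 43 5 5 3 rd10_344.me rd10_344.mo gs10 [rd10_344.c0, rd10_344.c1]
    rd10_344.v1 = true := by decide +kernel

set_option maxRecDepth 100000 in
theorem rk10_344_2 : chkC1 52 10 43 5 5 3 rd10_344.me rd10_344.mo gs10 [rd10_344.c0, rd10_344.c1] true
    (Nat.beq (10 % 2) 0) rd10_344.v2 = true := by decide +kernel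

/-- run 345 -/
def rd10_345 : CRun :=
  ⟨40, 908, 20, 8123, 8, 9,
    2582249878086908589655919172003011874329705812788533784261295518136908073451612613401771435083754263653323024568448620073,
    2582249878086908589655919172003011874329705800143936948083316407843095462823160233246417954057346868845740522476511278991,
    2074757784440496479256203931845580575506223116121218449997828664845326405706454073199853524473551897144099684120057018172079587126687930107040664503613574266950033946014327911293479,
    [185841, 111448236, 112788, 67468196, 37367, 21471142]⟩

set_option maxRecDepth 100000 in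
theorem rk10_345_0 : chkC1 52 10 43 5 5 3 rd10_345.me rd10_345.mo gs10 [rd10_345.c0, rd10_345.c1] false
    (Nat.beq (10 % 2) 1) rd10_345.v0 = true := by decide +kernel

set_option maxRecDepth 100000 in
theorem rk10_345_1 : chkC2 52 10 43 5 5 3 rd10_345.me rd10_345.mo gs10 [rd10_345.c0, rd10_345.c1]
    rd10_345.v1 = true := by decide +kernel

set_option maxRecDepth 100000 in
theorem rk10_345_2 : chkC1 52 10 43 5 5 3 rd10_345.me rd10_345.mo gs10 [rd10_345.c0, rd10_345.c1] true
    (Nat.beq (10 % 2) 0) rd10_345.v2 = true := by decide +kernel

/-- run 346 -/
def rd10_346 : CRun :=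
  ⟨40, 914, 40, 8141, 8, 9,
    2582249878086908589655919172003011874329705923637426648281425926061703716714438710135194336712642163514176924170489667112,
    2582249878086908589655919172003011874329705843672898332303282526268675680059000901932923150280632271158306262767663959535,
    2074757784440496479256203931845580575506223116121218449997828664845326405706454073199853524473551897144105851873471885086971635828012751799013852038953570516324471549267840093130760,
    [309753, 285310611, 185619, 177876633, 58901, 65568379]⟩

set_option maxRecDepth 100000 in
theorem rk10_346_0 : chkC1 52 10 43 5 5 3 rd10_346.me rd10_346.mo gs10 [rd10_346.c0, rd10_346.c1] false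
    (Nat.beq (10 % 2) 1) rd10_346.v0 = true := by decide +kernel

set_option maxRecDepth 100000 in
theorem rk10_346_1 : chkC2 52 10 43 5 5 3 rd10_346.me rd10_346.mo gs10 [rd10_346.c0, rd10_346.c1]
    rd10_346.v1 = true := by decide +kernel

set_option maxRecDepth 100000 in
theorem rk10_346_2 : chkC1 52 10 43 5 5 3 rd10_346.me rd10_346.mo gs10 [rd10_346.c0, rd10_346.c1] true
    (Nat.beq (10 % 2) 0) rd10_346.v2 = true := by decide +kernel

/-- run 347 -/
def rd10_347 : CRun :=
  ⟨40, 916, 40, 8147, 8, 9,
    2582249878086908589655919172003011874329706028172450769980499311044837652215834042860073180455950064526204581754945618423,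
    2582249878086908589655919172003011874329705891945833951383136154616128358829459257961572484120719604646659835697369678511,
    2074757784440496479256203931845580575506223116121218449997828664845326405706454073199853524473551897144116876403101926145881593912247207122485077146807605474179141551607743946619493,
    [94522, 382693677, 55363, 248355427, 15994, 105639926]⟩

set_option maxRecDepth 100000 in
theorem rk10_347_0 : chkC1 52 10 43 5 5 3 rd10_347.me rd10_347.mo gs10 [rd10_347.c0, rd10_347.c1] false
    (Nat.beq (10 % 2) 1) rd10_347.v0 = true := by decide +kernel

set_option maxRecDepth 100000 in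
theorem rk10_347_1 : chkC2 52 10 43 5 5 3 rd10_347.me rd10_347.mo gs10 [rd10_347.c0, rd10_347.c1]
    rd10_347.v1 = true := by decide +kernel

set_option maxRecDepth 100000 in
theorem rk10_347_2 : chkC1 52 10 43 5 5 3 rd10_347.me rd10_347.mo gs10 [rd10_347.c0, rd10_347.c1] true
    (Nat.beq (10 % 2) 0) rd10_347.v2 = true := by decide +kernel

/-- run 348 -/
def rd10_348 : CRun :=
  ⟨40, 926, 40, 8159, 8, 9,
    2582249878086908589655919172003011874329705886516184394350889725299956180320681456380097070464362210738554025016967029130,
    2582249878086908589655919172003011874329705830872489056729616968595357857166848227568714159612194771814668374187330354279,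
    2074757784440496479256203931845580575506223116121218449997828664845326405706454073199853524473551897144105009276579312571007764794749090277782402162567404894850932051884543793944162,
    [228370, 241457117, 136755, 153864819, 43248, 61439914]⟩

set_option maxRecDepth 100000 in
theorem rk10_348_0 : chkC1 52 10 43 5 5 3 rd10_348.me rd10_348.mo gs10 [rd10_348.c0, rd10_348.c1] false
    (Nat.beq (10 % 2) 1) rd10_348.v0 = true := by decide +kernel

set_option maxRecDepth 100000 in
theorem rk10_348_1 : chkC2 52 10 43 5 5 3 rd10_348.me rd10_348.mo gs10 [rd10_348.c0, rd10_348.c1]
    rd10_348.v1 = true := by decide +kernel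

set_option maxRecDepth 100000 in
theorem rk10_348_2 : chkC1 52 10 43 5 5 3 rd10_348.me rd10_348.mo gs10 [rd10_348.c0, rd10_348.c1] true
    (Nat.beq (10 % 2) 0) rd10_348.v2 = true := by decide +kernel

/-- run 349 -/
def rd10_349 : CRun :=
  ⟨40, 932, 20, 8165, 8, 9,
    2582249878086908589655919172003011874329705883037408109649051502346872076413534940851545341595666612093024262402170319177,
    2582249878086908589655919172003011874329705830562705449274946981380534749509610094820274760187079080834872617194442723094,
    2074757784440496479256203931845580575506223116121218449997828664845326405706454073199853524473551897144105625734298039762644018451165929010924742082404088643658122053784537546964709,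
    [321441, 236931828, 186467, 153237083, 51617, 64486321]⟩

set_option maxRecDepth 100000 in
theorem rk10_349_0 : chkC1 52 10 43 5 5 3 rd10_349.me rd10_349.mo gs10 [rd10_349.c0, rd10_349.c1] false
    (Nat.beq (10 % 2) 1) rd10_349.v0 = true := by decide +kernel

set_option maxRecDepth 100000 in
theorem rk10_349_1 : chkC2 52 10 43 5 5 3 rd10_349.me rd10_349.mo gs10 [rd10_349.c0, rd10_349.c1]
    rd10_349.v1 = true := by decide +kernel

set_option maxRecDepth 100000 in
theorem rk10_349_2 : chkC1 52 10 43 5 5 3 rd10_349.me rd10_349.mo gs10 [rd10_349.c0, rd10_349.c1] true
    (Nat.beq (10 % 2) 0) rd10_349.v2 = true := by decide +kernel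

/-- run 350 -/
def rd10_350 : CRun :=
  ⟨40, 934, 40, 8195, 8, 9,
    2582249878086908589655919172003011874329706097285649916641085550299386051025217251176545223391099544994003970576277279863,
    2582249878086908589655919172003011874329705919047545972005152288553823547709038606507117994916096024786021933073403616550,
    2074757784440496479256203931845580575506223116121218449997828664845326405706454073199853524473551897144120387058549277545365370755298098892363724341896331989159122210075732888501721,
    [134474, 435274281, 77834, 280260335, 21197, 115518312]⟩

set_option maxRecDepth 100000 in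
theorem rk10_350_0 : chkC1 52 10 43 5 5 3 rd10_350.me rd10_350.mo gs10 [rd10_350.c0, rd10_350.c1] false
    (Nat.beq (10 % 2) 1) rd10_350.v0 = true := by decide +kernel

set_option maxRecDepth 100000 in
theorem rk10_350_1 : chkC2 52 10 43 5 5 3 rd10_350.me rd10_350.mo gs10 [rd10_350.c0, rd10_350.c1]
    rd10_350.v1 = true := by decide +kernel

set_option maxRecDepth 100000 in
theorem rk10_350_2 : chkC1 52 10 43 5 5 3 rd10_350.me rd10_350.mo gs10 [rd10_350.c0, rd10_350.c1] true
    (Nat.beq (10 % 2) 0) rd10_350.v2 = true := by decide +kernel

/-- run 351 -/
def rd10_351 : CRun :=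
  ⟨40, 938, 20, 8201, 8, 9,
    2582249878086908589655919172003011874329707020152093406919861767227901201097805795606018175279705857003333898095774639858,
    2582249878086908589655919172003011874329706327926721961354705410801979070808119302665228578046656517671958856926058743288,
    2074757784440496479256203931845580575506223116121218449997828664845326405706454073199853524473551897144205399453105966985969334054337262714246152455502621543396128711154987654160208,
    [234105, 873936438, 136858, 577054583, 39261, 257386525]⟩

set_option maxRecDepth 100000 in
theorem rk10_351_0 : chkC1 52 10 43 5 5 3 rd10_351.me rd10_351.mo gs10 [rd10_351.c0, rd10_351.c1] false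
    (Nat.beq (10 % 2) 1) rd10_351.v0 = true := by decide +kernel

set_option maxRecDepth 100000 in
theorem rk10_351_1 : chkC2 52 10 43 5 5 3 rd10_351.me rd10_351.mo gs10 [rd10_351.c0, rd10_351.c1]
    rd10_351.v1 = true := by decide +kernel

set_option maxRecDepth 100000 in
theorem rk10_351_2 : chkC1 52 10 43 5 5 3 rd10_351.me rd10_351.mo gs10 [rd10_351.c0, rd10_351.c1] true
    (Nat.beq (10 % 2) 0) rd10_351.v2 = true := by decide +kernel

/-- runs of this file -/
def rds10_43 : List CRun :=
  [rd10_344, rd10_345, rd10_346, rd10_347, rd10_348, rd10_349, rd10_350, rd10_351]

theorem ac10_43 : allC 52 10 43 5 5 3 gs10 rds10_43 :=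
  allC_cons rk10_344_0 rk10_344_1 rk10_344_2
    (allC_cons rk10_345_0 rk10_345_1 rk10_345_2
    (allC_cons rk10_346_0 rk10_346_1 rk10_346_2
    (allC_cons rk10_347_0 rk10_347_1 rk10_347_2
    (allC_cons rk10_348_0 rk10_348_1 rk10_348_2
    (allC_cons rk10_349_0 rk10_349_1 rk10_349_2
    (allC_cons rk10_350_0 rk10_350_1 rk10_350_2
    (allC_cons rk10_351_0 rk10_351_1 rk10_351_2
    (allC_nil))))))))

end Crest.Agent.R347
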