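import Crest.Agent.R347.G10c

/-! Row 347, Chebyshev numerics, ring with 10 sites: run certificates 352..359 (generated) -/

set_option autoImplicit false
set_option Elab.async false

namespace Crest.Agent.R347

/-- run 352 -/
def rd10_352 : CRun :=
  ⟨40, 940, 40, 8213, 8, 9,
    2582249878086908589655919172003011874329705906382672691926796247129295577778063858297956757341583200934846916514789314727,
    2582249878086908589655919172003011874329705839593693170300284553714950265998992089836480597528921616602418887659353470793,
    2074757784440496479256203931845580575506223116121218449997828664845326405706454073199853524473551897144106758282863544466159930729193963317977274541406646062225545516170260995439295,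
    [88731, 265827924, 52409, 170591914, 15742, 69737166]⟩

set_option maxRecDepth 100000 in
theorem rk10_352_0 : chkC1 52 10 43 5 5 3 rd10_352.me rd10_352.mo gs10 [rd10_352.c0, rd10_352.c1] false
    (Nat.beq (10 % 2) 1) rd10_352.v0 = true := by decide +kernel

set_option maxRecDepth 100000 in
theorem rk10_352_1 : chkC2 52 10 43 5 5 3 rd10_352.me rd10_352.mo gs10 [rd10_352.c0, rd10_352.c1]
    rd10_352.v1 = true := by decide +kernel

set_option maxRecDepth 100000 in
theorem rk10_352_2 : chkC1 52 10 43 5 5 3 rd10_352.me rd10_352.mo gs10 [rd10_352.c0, rd10_352.c1] true
    (Nat.beq (10 % 2) 0) rd10_352.v2 = true := by decide +kernel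

/-- run 353 -/
def rd10_353 : CRun :=
  ⟨40, 950, 40, 8303, 8, 9,
    2582249878086908589655919172003011874329705856584258670542257592949478354714789305373312975820033274890436233198018103376,
    2582249878086908589655919172003011874329705817659366968130092309591300560107877223560961442513008805018762673170564315426,
    2074757784440496479256203931845580575506223116121218449997828664845326405706454073199853524473551897144102353011214011951786948863938450133882324818530076842197928940519670229975100,
    [174982, 199185481, 102757, 124305416, 30086, 46063706]⟩

set_option maxRecDepth 100000 in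
theorem rk10_353_0 : chkC1 52 10 43 5 5 3 rd10_353.me rd10_353.mo gs10 [rd10_353.c0, rd10_353.c1] false
    (Nat.beq (10 % 2) 1) rd10_353.v0 = true := by decide +kernel

set_option maxRecDepth 100000 in
theorem rk10_353_1 : chkC2 52 10 43 5 5 3 rd10_353.me rd10_353.mo gs10 [rd10_353.c0, rd10_353.c1]
    rd10_353.v1 = true := by decide +kernel

set_option maxRecDepth 100000 in
theorem rk10_353_2 : chkC1 52 10 43 5 5 3 rd10_353.me rd10_353.mo gs10 [rd10_353.c0, rd10_353.c1] true
    (Nat.beq (10 % 2) 0) rd10_353.v2 = true := by decide +kernel

/-- run 354 -/
def rd10_354 : CRun :=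
  ⟨40, 952, 20, 8321, 8, 9,
    2582249878086908589655919172003011874329705897834740750630297434834854942941500496736284072321212359171776454655522390482,
    2582249878086908589655919172003011874329705835211088394199392420010688248710389619192625410616535617793704936881898453096,
    2074757784440496479256203931845580575506223116121218449997828664845326405706454073199853524473551897144105523187751867245045654973677761023735580809523371487279284393686531616471001,
    [121837, 255626865, 73045, 162401661, 23232, 63989614]⟩

set_option maxRecDepth 100000 in
theorem rk10_354_0 : chkC1 52 10 43 5 5 3 rd10_354.me rd10_354.mo gs10 [rd10_354.c0, rd10_354.c1] false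
    (Nat.beq (10 % 2) 1) rd10_354.v0 = true := by decide +kernel

set_option maxRecDepth 100000 in
theorem rk10_354_1 : chkC2 52 10 43 5 5 3 rd10_354.me rd10_354.mo gs10 [rd10_354.c0, rd10_354.c1]
    rd10_354.v1 = true := by decide +kernel

set_option maxRecDepth 100000 in
theorem rk10_354_2 : chkC1 52 10 43 5 5 3 rd10_354.me rd10_354.mo gs10 [rd10_354.c0, rd10_354.c1] true
    (Nat.beq (10 % 2) 0) rd10_354.v2 = true := by decide +kernel

/-- run 355 -/
def rd10_355 : CRun :=
  ⟨40, 956, 20, 8357, 8, 9,
    2582249878086908589655919172003011874329705870370093278256385955920446667053135924619832449385289257594892299447443412196,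
    2582249878086908589655919172003011874329705823661419126325228387211462654097149984692548081491338587902763175376738901695,
    2074757784440496479256203931845580575506223116121218449997828664845326405706454073199853524473551897144103510766656085445270059511500537038591754840337933802647852060187022593742228,
    [122319, 219667480, 72935, 138516867, 22797, 53313582]⟩

set_option maxRecDepth 100000 in
theorem rk10_355_0 : chkC1 52 10 43 5 5 3 rd10_355.me rd10_355.mo gs10 [rd10_355.c0, rd10_355.c1] false
    (Nat.beq (10 % 2) 1) rd10_355.v0 = true := by decide +kernel

set_option maxRecDepth 100000 in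
theorem rk10_355_1 : chkC2 52 10 43 5 5 3 rd10_355.me rd10_355.mo gs10 [rd10_355.c0, rd10_355.c1]
    rd10_355.v1 = true := by decide +kernel

set_option maxRecDepth 100000 in
theorem rk10_355_2 : chkC1 52 10 43 5 5 3 rd10_355.me rd10_355.mo gs10 [rd10_355.c0, rd10_355.c1] true
    (Nat.beq (10 % 2) 0) rd10_355.v2 = true := by decide +kernel

/-- run 356 -/
def rd10_356 : CRun :=
  ⟨40, 958, 40, 9113, 8, 9,
    2582249878086908589655919172003011874329705881479961527857923787625258177638786249597275636096606403572380921656226254276,
    2582249878086908589655919172003011874329705825987029809513560795691700798423889527006573662329447230016256110111502040767,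
    2074757784440496479256203931845580575506223116121218449997828664845326405706454073199853524473551897144102889187886640394364497419584879919257073639418114348827171664884715957898794,
    [65271, 234877606, 39387, 143645932, 12907, 49553290]⟩

set_option maxRecDepth 100000 in
theorem rk10_356_0 : chkC1 52 10 43 5 5 3 rd10_356.me rd10_356.mo gs10 [rd10_356.c0, rd10_356.c1] false
    (Nat.beq (10 % 2) 1) rd10_356.v0 = true := by decide +kernel

set_option maxRecDepth 100000 in
theorem rk10_356_1 : chkC2 52 10 43 5 5 3 rd10_356.me rd10_356.mo gs10 [rd10_356.c0, rd10_356.c1]
    rd10_356.v1 = true := by decide +kernel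

set_option maxRecDepth 100000 in
theorem rk10_356_2 : chkC1 52 10 43 5 5 3 rd10_356.me rd10_356.mo gs10 [rd10_356.c0, rd10_356.c1] true
    (Nat.beq (10 % 2) 0) rd10_356.v2 = true := by decide +kernel

/-- run 357 -/
def rd10_357 : CRun :=
  ⟨20, 964, 40, 9115, 8, 9,
    2582249878086908589655919172003011874329705825688582654157654908664496975463657667614489777337811259947040509628553379922,
    2582249878086908589655919172003011874329705805802221441274369397126424093505996782237203532892303379037316987086147699732,
    2074757784440496479256203931845580575506223116121218449997828664845326405706454073199853524473551897144100880953752129209581966143087192270692238541855590014390173124380515512103064,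
    [12760, 142998005, 7716, 89850523, 2614, 34724651]⟩

set_option maxRecDepth 100000 in
theorem rk10_357_0 : chkC1 52 10 43 5 5 3 rd10_357.me rd10_357.mo gs10 [rd10_357.c0, rd10_357.c1] false
    (Nat.beq (10 % 2) 1) rd10_357.v0 = true := by decide +kernel

set_option maxRecDepth 100000 in
theorem rk10_357_1 : chkC2 52 10 43 5 5 3 rd10_357.me rd10_357.mo gs10 [rd10_357.c0, rd10_357.c1]
    rd10_357.v1 = true := by decide +kernel

set_option maxRecDepth 100000 in
theorem rk10_357_2 : chkC1 52 10 43 5 5 3 rd10_357.me rd10_357.mo gs10 [rd10_357.c0, rd10_357.c1] true
    (Nat.beq (10 % 2) 0) rd10_357.v2 = true := by decide +kernel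

/-- run 358 -/
def rd10_358 : CRun :=
  ⟨40, 998, 40, 9119, 8, 9,
    2582249878086908589655919172003011874329705936222850967390206770005989682092303564308226938968955884759941948239482298100,
    2582249878086908589655919172003011874329705851385456668806774022944813520451440819933490104013953823244021876792699021054,
    2074757784440496479256203931845580575506223116121218449997828664845326405706454073199853524473551897144108647681034700805494338498063394508163168810859798181437028376959924725742898,
    [34788, 298720729, 21021, 190891680, 6974, 77711310]⟩

set_option maxRecDepth 100000 in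
theorem rk10_358_0 : chkC1 52 10 43 5 5 3 rd10_358.me rd10_358.mo gs10 [rd10_358.c0, rd10_358.c1] false
    (Nat.beq (10 % 2) 1) rd10_358.v0 = true := by decide +kernel

set_option maxRecDepth 100000 in
theorem rk10_358_1 : chkC2 52 10 43 5 5 3 rd10_358.me rd10_358.mo gs10 [rd10_358.c0, rd10_358.c1]
    rd10_358.v1 = true := by decide +kernel

set_option maxRecDepth 100000 in
theorem rk10_358_2 : chkC1 52 10 43 5 5 3 rd10_358.me rd10_358.mo gs10 [rd10_358.c0, rd10_358.c1] true
    (Nat.beq (10 % 2) 0) rd10_358.v2 = true := by decide +kernel

/-- run 359 -/
def rd10_359 : CRun :=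
  ⟨40, 1016, 40, 9121, 8, 9,
    2582249878086908589655919172003011874329705821585607117896091486773288658561863288068093457727543700912896365765129108428,
    2582249878086908589655919172003011874329705804631936844517076377145939465653535431322040033318233688703771593908158004598,
    2074757784440496479256203931845580575506223116121218449997828664845326405706454073199853524473551897144100955587846647427083754132149155570157417135461882208251328939870490450033538,
    [193343, 133772724, 117665, 85702081, 39532, 35387093]⟩

set_option maxRecDepth 100000 in
theorem rk10_359_0 : chkC1 52 10 43 5 5 3 rd10_359.me rd10_359.mo gs10 [rd10_359.c0, rd10_359.c1] false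
    (Nat.beq (10 % 2) 1) rd10_359.v0 = true := by decide +kernel

set_option maxRecDepth 100000 in
theorem rk10_359_1 : chkC2 52 10 43 5 5 3 rd10_359.me rd10_359.mo gs10 [rd10_359.c0, rd10_359.c1]
    rd10_359.v1 = true := by decide +kernel

set_option maxRecDepth 100000 in
theorem rk10_359_2 : chkC1 52 10 43 5 5 3 rd10_359.me rd10_359.mo gs10 [rd10_359.c0, rd10_359.c1] true
    (Nat.beq (10 % 2) 0) rd10_359.v2 = true := by decide +kernel

/-- runs of this file -/
def rds10_44 : List CRun :=
  [rd10_352, rd10_353, rd10_354, rd10_355, rd10_356, rd10_357, rd10_358, rd10_359]

theorem ac10_44 : allC 52 10 43 5 5 3 gs10 rds10_44 :=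
  allC_cons rk10_352_0 rk10_352_1 rk10_352_2
    (allC_cons rk10_353_0 rk10_353_1 rk10_353_2
    (allC_cons rk10_354_0 rk10_354_1 rk10_354_2
    (allC_cons rk10_355_0 rk10_355_1 rk10_355_2
    (allC_cons rk10_356_0 rk10_356_1 rk10_356_2
    (allC_cons rk10_357_0 rk10_357_1 rk10_357_2
    (allC_cons rk10_358_0 rk10_358_1 rk10_358_2
    (allC_cons rk10_359_0 rk10_359_1 rk10_359_2
    (allC_nil))))))))

end Crest.Agent.R347
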