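import Crest.Agent.R347.G10c

/-! Row 347, Chebyshev numerics, ring with 10 sites: run certificates 360..367 (generated) -/

set_option autoImplicit false
set_option Elab.async false

namespace Crest.Agent.R347

/-- run 360 -/
def rd10_360 : CRun :=
  ⟨40, 1022, 40, 9131, 8, 9,
    2582249878086908589655919172003011874329705870823229226177724432852916984155740894486342154537774449246637637029078790236,
    2582249878086908589655919172003011874329705824237491225866572689902445999432814761334720207106845697716181074527521272192,
    2074757784440496479256203931845580575506223116121218449997828664845326405706454073199853524473551897144103867781936233172159880076243690342231730453878455068372033807842768403810912,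
    [228372, 220308396, 136410, 139804911, 42856, 55358009]⟩

set_option maxRecDepth 100000 in
theorem rk10_360_0 : chkC1 52 10 43 5 5 3 rd10_360.me rd10_360.mo gs10 [rd10_360.c0, rd10_360.c1] false
    (Nat.beq (10 % 2) 1) rd10_360.v0 = true := by decide +kernel

set_option maxRecDepth 100000 in
theorem rk10_360_1 : chkC2 52 10 43 5 5 3 rd10_360.me rd10_360.mo gs10 [rd10_360.c0, rd10_360.c1]
    rd10_360.v1 = true := by decide +kernel

set_option maxRecDepth 100000 in
theorem rk10_360_2 : chkC1 52 10 43 5 5 3 rd10_360.me rd10_360.mo gs10 [rd10_360.c0, rd10_360.c1] true
    (Nat.beq (10 % 2) 0) rd10_360.v2 = true := by decide +kernel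

/-- run 361 -/
def rd10_361 : CRun :=
  ⟨40, 1024, 40, 9133, 8, 9,
    2582249878086908589655919172003011874329705861705193943916118708815830886388649317841216239120051481670362340707611765473,
    2582249878086908589655919172003011874329705821614480566204061287284022484014736301018149607593941428675631959769383324888,
    2074757784440496479256203931845580575506223116121218449997828664845326405706454073199853524473551897144104062522675378400941140222397447359393719007788185210268025823876822604659236,
    [69778, 207030485, 40879, 133839865, 11797, 56441976]⟩

set_option maxRecDepth 100000 in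
theorem rk10_361_0 : chkC1 52 10 43 5 5 3 rd10_361.me rd10_361.mo gs10 [rd10_361.c0, rd10_361.c1] false
    (Nat.beq (10 % 2) 1) rd10_361.v0 = true := by decide +kernel

set_option maxRecDepth 100000 in
theorem rk10_361_1 : chkC2 52 10 43 5 5 3 rd10_361.me rd10_361.mo gs10 [rd10_361.c0, rd10_361.c1]
    rd10_361.v1 = true := by decide +kernel

set_option maxRecDepth 100000 in
theorem rk10_361_2 : chkC1 52 10 43 5 5 3 rd10_361.me rd10_361.mo gs10 [rd10_361.c0, rd10_361.c1] true
    (Nat.beq (10 % 2) 0) rd10_361.v2 = true := by decide +kernel

/-- run 362 -/
def rd10_362 : CRun :=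
  ⟨40, 1034, 40, 9137, 8, 9,
    2582249878086908589655919172003011874329705861657601158485923810789245047658282108383895217322297428657555551947116627149,
    2582249878086908589655919172003011874329705821214765755645764966125069535003620372607860438811285213504442062967649904148,
    2074757784440496479256203931845580575506223116121218449997828664845326405706454073199853524473551897144103770204506399002719274688316263198131385396666349803203305952491758601842011,
    [454385, 206958945, 276355, 132907360, 92407, 54806812]⟩

set_option maxRecDepth 100000 in
theorem rk10_362_0 : chkC1 52 10 43 5 5 3 rd10_362.me rd10_362.mo gs10 [rd10_362.c0, rd10_362.c1] false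
    (Nat.beq (10 % 2) 1) rd10_362.v0 = true := by decide +kernel

set_option maxRecDepth 100000 in
theorem rk10_362_1 : chkC2 52 10 43 5 5 3 rd10_362.me rd10_362.mo gs10 [rd10_362.c0, rd10_362.c1]
    rd10_362.v1 = true := by decide +kernel

set_option maxRecDepth 100000 in
theorem rk10_362_2 : chkC1 52 10 43 5 5 3 rd10_362.me rd10_362.mo gs10 [rd10_362.c0, rd10_362.c1] true
    (Nat.beq (10 % 2) 0) rd10_362.v2 = true := by decide +kernel

/-- run 363 -/
def rd10_363 : CRun :=
  ⟨40, 1040, 40, 9167, 8, 9,
    2582249878086908589655919172003011874329705886060541157729544595767945209688847569274267174441304143851150534191102333444,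
    2582249878086908589655919172003011874329705830081689138260398785411387700766113759081790148973976123552866154917032951705,
    2074757784440496479256203931845580575506223116121218449997828664845326405706454073199853524473551897144104609066121756377532367811152500975137116861507650520075950171314593022290882,
    [423456, 240869242, 248095, 152257238, 71874, 59378544]⟩

set_option maxRecDepth 100000 in
theorem rk10_363_0 : chkC1 52 10 43 5 5 3 rd10_363.me rd10_363.mo gs10 [rd10_363.c0, rd10_363.c1] false
    (Nat.beq (10 % 2) 1) rd10_363.v0 = true := by decide +kernel

set_option maxRecDepth 100000 in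
theorem rk10_363_1 : chkC2 52 10 43 5 5 3 rd10_363.me rd10_363.mo gs10 [rd10_363.c0, rd10_363.c1]
    rd10_363.v1 = true := by decide +kernel

set_option maxRecDepth 100000 in
theorem rk10_363_2 : chkC1 52 10 43 5 5 3 rd10_363.me rd10_363.mo gs10 [rd10_363.c0, rd10_363.c1] true
    (Nat.beq (10 % 2) 0) rd10_363.v2 = true := by decide +kernel

/-- run 364 -/
def rd10_364 : CRun :=
  ⟨40, 1042, 40, 9169, 8, 9,
    2582249878086908589655919172003011874329705827333611147551521817999769968884283972574647446625132960606253020998810316241,
    2582249878086908589655919172003011874329705806923496670142757909558148400711379458344459454285042419171998837592861909263,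
    2074757784440496479256203931845580575506223116121218449997828664845326405706454073199853524473551897144101268199470222201909556273734773462548668120176541678786956898859598390239287,
    [160819, 146533727, 93450, 93653018, 25805, 38036627]⟩

set_option maxRecDepth 100000 in
theorem rk10_364_0 : chkC1 52 10 43 5 5 3 rd10_364.me rd10_364.mo gs10 [rd10_364.c0, rd10_364.c1] false
    (Nat.beq (10 % 2) 1) rd10_364.v0 = true := by decide +kernel

set_option maxRecDepth 100000 in
theorem rk10_364_1 : chkC2 52 10 43 5 5 3 rd10_364.me rd10_364.mo gs10 [rd10_364.c0, rd10_364.c1]
    rd10_364.v1 = true := by decide +kernel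

set_option maxRecDepth 100000 in
theorem rk10_364_2 : chkC1 52 10 43 5 5 3 rd10_364.me rd10_364.mo gs10 [rd10_364.c0, rd10_364.c1] true
    (Nat.beq (10 % 2) 0) rd10_364.v2 = true := by decide +kernel

/-- run 365 -/
def rd10_365 : CRun :=
  ⟨40, 1046, 40, 9173, 8, 9,
    2582249878086908589655919172003011874329706157068408393664722030649713635413941135797961684087695853529275018594186615906,
    2582249878086908589655919172003011874329705947164974474982489526809317950269585706401895583042612551451158814639107655937,
    2074757784440496479256203931845580575506223116121218449997828664845326405706454073199853524473551897144127212520663880269954276481100241499345904897811823077561483895252074464187491,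
    [261532, 476095160, 152419, 309908654, 42992, 132634746]⟩

set_option maxRecDepth 100000 in
theorem rk10_365_0 : chkC1 52 10 43 5 5 3 rd10_365.me rd10_365.mo gs10 [rd10_365.c0, rd10_365.c1] false
    (Nat.beq (10 % 2) 1) rd10_365.v0 = true := by decide +kernel

set_option maxRecDepth 100000 in
theorem rk10_365_1 : chkC2 52 10 43 5 5 3 rd10_365.me rd10_365.mo gs10 [rd10_365.c0, rd10_365.c1]
    rd10_365.v1 = true := by decide +kernel

set_option maxRecDepth 100000 in
theorem rk10_365_2 : chkC1 52 10 43 5 5 3 rd10_365.me rd10_365.mo gs10 [rd10_365.c0, rd10_365.c1] true
    (Nat.beq (10 % 2) 0) rd10_365.v2 = true := by decide +kernel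

/-- run 366 -/
def rd10_366 : CRun :=
  ⟨40, 1048, 40, 9185, 8, 9,
    2582249878086908589655919172003011874329705835453425206789379199100256546799835158792461021539602244202107049437798543994,
    2582249878086908589655919172003011874329705809991017277744486615272564841862759897050415179692914511787097204597724465779,
    2074757784440496479256203931845580575506223116121218449997828664845326405706454073199853524473551897144101622820014780805836452988338428200179929280233302009581027493543361615885436,
    [94900, 162865300, 55817, 103343169, 16404, 40834617]⟩

set_option maxRecDepth 100000 in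
theorem rk10_366_0 : chkC1 52 10 43 5 5 3 rd10_366.me rd10_366.mo gs10 [rd10_366.c0, rd10_366.c1] false
    (Nat.beq (10 % 2) 1) rd10_366.v0 = true := by decide +kernel

set_option maxRecDepth 100000 in
theorem rk10_366_1 : chkC2 52 10 43 5 5 3 rd10_366.me rd10_366.mo gs10 [rd10_366.c0, rd10_366.c1]
    rd10_366.v1 = true := by decide +kernel

set_option maxRecDepth 100000 in
theorem rk10_366_2 : chkC1 52 10 43 5 5 3 rd10_366.me rd10_366.mo gs10 [rd10_366.c0, rd10_366.c1] true
    (Nat.beq (10 % 2) 0) rd10_366.v2 = true := by decide +kernel

/-- run 367 -/
def rd10_367 : CRun :=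
  ⟨40, 1070, 40, 9191, 8, 9,
    2582249878086908589655919172003011874329705876301971024745468320874201865859921840218561764418089961342174235854863789772,
    2582249878086908589655919172003011874329705827076002691820026654155158664304983023435651810730274318867357062533313129262,
    2074757784440496479256203931845580575506223116121218449997828664845326405706454073199853524473551897144104642338663591737649309217095747382390547085269919638090466572883930803856508,
    [273039, 227914937, 164308, 145985695, 52992, 59552641]⟩

set_option maxRecDepth 100000 in
theorem rk10_367_0 : chkC1 52 10 43 5 5 3 rd10_367.me rd10_367.mo gs10 [rd10_367.c0, rd10_367.c1] false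
    (Nat.beq (10 % 2) 1) rd10_367.v0 = true := by decide +kernel

set_option maxRecDepth 100000 in
theorem rk10_367_1 : chkC2 52 10 43 5 5 3 rd10_367.me rd10_367.mo gs10 [rd10_367.c0, rd10_367.c1]
    rd10_367.v1 = true := by decide +kernel

set_option maxRecDepth 100000 in
theorem rk10_367_2 : chkC1 52 10 43 5 5 3 rd10_367.me rd10_367.mo gs10 [rd10_367.c0, rd10_367.c1] true
    (Nat.beq (10 % 2) 0) rd10_367.v2 = true := by decide +kernel

/-- runs of this file -/
def rds10_45 : List CRun :=
  [rd10_360, rd10_361, rd10_362, rd10_363, rd10_364, rd10_365, rd10_366, rd10_367]

theorem ac10_45 : allC 52 10 43 5 5 3 gs10 rds10_45 :=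
  allC_cons rk10_360_0 rk10_360_1 rk10_360_2
    (allC_cons rk10_361_0 rk10_361_1 rk10_361_2
    (allC_cons rk10_362_0 rk10_362_1 rk10_362_2
    (allC_cons rk10_363_0 rk10_363_1 rk10_363_2
    (allC_cons rk10_364_0 rk10_364_1 rk10_364_2
    (allC_cons rk10_365_0 rk10_365_1 rk10_365_2
    (allC_cons rk10_366_0 rk10_366_1 rk10_366_2
    (allC_cons rk10_367_0 rk10_367_1 rk10_367_2
    (allC_nil))))))))

end Crest.Agent.R347
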