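import Crest.Agent.R347.G10c

/-! Row 347, Chebyshev numerics, ring with 10 sites: run certificates 368..375 (generated) -/

set_option autoImplicit false
set_option Elab.async false

namespace Crest.Agent.R347

/-- run 368 -/
def rd10_368 : CRun :=
  ⟨40, 1076, 40, 9275, 8, 9,
    2582249878086908589655919172003011874329705979107648186715815459496425945304376951289483856813517666930528051190837322660,
    2582249878086908589655919172003011874329705866162111491798332017130737500658222706102230539051200299230694295646771205274,
    2074757784440496479256203931845580575506223116121218449997828664845326405706454073199853524473551897144109384407862135168516572220010802031672614166777596715171863094728285272626912,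
    [476399, 340472244, 281751, 213623895, 84723, 80607158]⟩

set_option maxRecDepth 100000 in
theorem rk10_368_0 : chkC1 52 10 43 5 5 3 rd10_368.me rd10_368.mo gs10 [rd10_368.c0, rd10_368.c1] false
    (Nat.beq (10 % 2) 1) rd10_368.v0 = true := by decide +kernel

set_option maxRecDepth 100000 in
theorem rk10_368_1 : chkC2 52 10 43 5 5 3 rd10_368.me rd10_368.mo gs10 [rd10_368.c0, rd10_368.c1]
    rd10_368.v1 = true := by decide +kernel

set_option maxRecDepth 100000 in
theorem rk10_368_2 : chkC1 52 10 43 5 5 3 rd10_368.me rd10_368.mo gs10 [rd10_368.c0, rd10_368.c1] true
    (Nat.beq (10 % 2) 0) rd10_368.v2 = true := by decide +kernel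

/-- run 369 -/
def rd10_369 : CRun :=
  ⟨40, 1078, 40, 9281, 8, 9,
    2582249878086908589655919172003011874329706100740550523598591335852280878752456689657562106094923452958187464231102357869,
    2582249878086908589655919172003011874329705920064909454736098808403583862652386035526018824507166829135756591247173918515,
    2074757784440496479256203931845580575506223116121218449997828664845326405706454073199853524473551897144120359261055665602169285189104667036489220691779104824225529070498690073715169,
    [163670, 437737010, 95520, 281387566, 26935, 115443414]⟩

set_option maxRecDepth 100000 in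
theorem rk10_369_0 : chkC1 52 10 43 5 5 3 rd10_369.me rd10_369.mo gs10 [rd10_369.c0, rd10_369.c1] false
    (Nat.beq (10 % 2) 1) rd10_369.v0 = true := by decide +kernel

set_option maxRecDepth 100000 in
theorem rk10_369_1 : chkC2 52 10 43 5 5 3 rd10_369.me rd10_369.mo gs10 [rd10_369.c0, rd10_369.c1]
    rd10_369.v1 = true := by decide +kernel

set_option maxRecDepth 100000 in
theorem rk10_369_2 : chkC1 52 10 43 5 5 3 rd10_369.me rd10_369.mo gs10 [rd10_369.c0, rd10_369.c1] true
    (Nat.beq (10 % 2) 0) rd10_369.v2 = true := by decide +kernel

/-- run 370 -/
def rd10_370 : CRun :=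
  ⟨40, 1088, 40, 9293, 8, 9,
    2582249878086908589655919172003011874329706165030769318777101265461535323694627714695062689911231376671151996772816675463,
    2582249878086908589655919172003011874329705946402924134677415152970532130470345701652185881962971692503601671908927148775,
    2074757784440496479256203931845580575506223116121218449997828664845326405706454073199853524473551897144124559002707780249115882096994834237274596111183210745362211244699168427020452,
    [529572, 481270808, 315895, 309142603, 98441, 126256436]⟩

set_option maxRecDepth 100000 in
theorem rk10_370_0 : chkC1 52 10 43 5 5 3 rd10_370.me rd10_370.mo gs10 [rd10_370.c0, rd10_370.c1] false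
    (Nat.beq (10 % 2) 1) rd10_370.v0 = true := by decide +kernel

set_option maxRecDepth 100000 in
theorem rk10_370_1 : chkC2 52 10 43 5 5 3 rd10_370.me rd10_370.mo gs10 [rd10_370.c0, rd10_370.c1]
    rd10_370.v1 = true := by decide +kernel

set_option maxRecDepth 100000 in
theorem rk10_370_2 : chkC1 52 10 43 5 5 3 rd10_370.me rd10_370.mo gs10 [rd10_370.c0, rd10_370.c1] true
    (Nat.beq (10 % 2) 0) rd10_370.v2 = true := by decide +kernel

/-- run 371 -/
def rd10_371 : CRun :=
  ⟨40, 1094, 40, 9329, 8, 9,
    2582249878086908589655919172003011874329705893850978276723089962240522851900620280762238248329808077068464354925642094019,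
    2582249878086908589655919172003011874329705832827088059349298835415560784587288937361446410171114928555062245921290159440,
    2074757784440496479256203931845580575506223116121218449997828664845326405706454073199853524473551897144104775387626684296997494909468896639128531595876933202099754711460859369655731,
    [891286, 250730917, 524273, 157767970, 153736, 60243785]⟩

set_option maxRecDepth 100000 in
theorem rk10_371_0 : chkC1 52 10 43 5 5 3 rd10_371.me rd10_371.mo gs10 [rd10_371.c0, rd10_371.c1] false
    (Nat.beq (10 % 2) 1) rd10_371.v0 = true := by decide +kernel

set_option maxRecDepth 100000 in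
theorem rk10_371_1 : chkC2 52 10 43 5 5 3 rd10_371.me rd10_371.mo gs10 [rd10_371.c0, rd10_371.c1]
    rd10_371.v1 = true := by decide +kernel

set_option maxRecDepth 100000 in
theorem rk10_371_2 : chkC1 52 10 43 5 5 3 rd10_371.me rd10_371.mo gs10 [rd10_371.c0, rd10_371.c1] true
    (Nat.beq (10 % 2) 0) rd10_371.v2 = true := by decide +kernel

/-- run 372 -/
def rd10_372 : CRun :=
  ⟨40, 1096, 40, 9599, 8, 9,
    2582249878086908589655919172003011874329705906367401833795925290702487665016633950524620009168946870172846133265207338813,
    2582249878086908589655919172003011874329705836209803032528104524086701808562242625424306146374297669788601368819622147286,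
    2074757784440496479256203931845580575506223116121218449997828664845326405706454073199853524473551897144104578019277960584249449882124451343309778148190135236425597710308267667252474,
    [420878, 265810049, 250410, 164303990, 76756, 59215631]⟩

set_option maxRecDepth 100000 in
theorem rk10_372_0 : chkC1 52 10 43 5 5 3 rd10_372.me rd10_372.mo gs10 [rd10_372.c0, rd10_372.c1] false
    (Nat.beq (10 % 2) 1) rd10_372.v0 = true := by decide +kernel

set_option maxRecDepth 100000 in
theorem rk10_372_1 : chkC2 52 10 43 5 5 3 rd10_372.me rd10_372.mo gs10 [rd10_372.c0, rd10_372.c1]
    rd10_372.v1 = true := by decide +kernel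

set_option maxRecDepth 100000 in
theorem rk10_372_2 : chkC1 52 10 43 5 5 3 rd10_372.me rd10_372.mo gs10 [rd10_372.c0, rd10_372.c1] true
    (Nat.beq (10 % 2) 0) rd10_372.v2 = true := by decide +kernel

/-- run 373 -/
def rd10_373 : CRun :=
  ⟨40, 1100, 40, 9601, 8, 9,
    2582249878086908589655919172003011874329705838006036254142933713764380315673381856954458638584828953440419674174767756148,
    2582249878086908589655919172003011874329705810797103825767506237040012948966428570862350980989303700285168633574714854888,
    2074757784440496479256203931845580575506223116121218449997828664845326405706454073199853524473551897144101674440580120161563417874191640291355474575483607224982698709569039493776587,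
    [847367, 167671106, 510489, 105742326, 164201, 41226078]⟩

set_option maxRecDepth 100000 in
theorem rk10_373_0 : chkC1 52 10 43 5 5 3 rd10_373.me rd10_373.mo gs10 [rd10_373.c0, rd10_373.c1] false
    (Nat.beq (10 % 2) 1) rd10_373.v0 = true := by decide +kernel

set_option maxRecDepth 100000 in
theorem rk10_373_1 : chkC2 52 10 43 5 5 3 rd10_373.me rd10_373.mo gs10 [rd10_373.c0, rd10_373.c1]
    rd10_373.v1 = true := by decide +kernel

set_option maxRecDepth 100000 in
theorem rk10_373_2 : chkC1 52 10 43 5 5 3 rd10_373.me rd10_373.mo gs10 [rd10_373.c0, rd10_373.c1] true
    (Nat.beq (10 % 2) 0) rd10_373.v2 = true := by decide +kernel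

/-- run 374 -/
def rd10_374 : CRun :=
  ⟨40, 1102, 40, 9605, 8, 9,
    2582249878086908589655919172003011874329706025873991076138002498636217000058111841519557660052694467119166146590394383283,
    2582249878086908589655919172003011874329705889169651388248497491533403312714186395314359095238484966163565442581233373196,
    2074757784440496479256203931845580575506223116121218449997828664845326405706454073199853524473551897144115388924251756096729129992560849325099762644476278698517830639318774748232323,
    [334783, 380820319, 203144, 244852600, 67111, 101163895]⟩

set_option maxRecDepth 100000 in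
theorem rk10_374_0 : chkC1 52 10 43 5 5 3 rd10_374.me rd10_374.mo gs10 [rd10_374.c0, rd10_374.c1] false
    (Nat.beq (10 % 2) 1) rd10_374.v0 = true := by decide +kernel

set_option maxRecDepth 100000 in
theorem rk10_374_1 : chkC2 52 10 43 5 5 3 rd10_374.me rd10_374.mo gs10 [rd10_374.c0, rd10_374.c1]
    rd10_374.v1 = true := by decide +kernel

set_option maxRecDepth 100000 in
theorem rk10_374_2 : chkC1 52 10 43 5 5 3 rd10_374.me rd10_374.mo gs10 [rd10_374.c0, rd10_374.c1] true
    (Nat.beq (10 % 2) 0) rd10_374.v2 = true := by decide +kernel

/-- run 375 -/
def rd10_375 : CRun :=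
  ⟨40, 1112, 20, 9607, 8, 9,
    2582249878086908589655919172003011874329705840675360821195518065857518819195097591839704463725109467218190299873388487619,
    2582249878086908589655919172003011874329705812425815526852009042332190716009221892832216699159369726283394050688220177333,
    2074757784440496479256203931845580575506223116121218449997828664845326405706454073199853524473551897144102229562148486256973365673092773068952042759082110832558137614672968659840318,
    [693570, 172553541, 417976, 110430925, 134314, 45222146]⟩

set_option maxRecDepth 100000 in
theorem rk10_375_0 : chkC1 52 10 43 5 5 3 rd10_375.me rd10_375.mo gs10 [rd10_375.c0, rd10_375.c1] false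
    (Nat.beq (10 % 2) 1) rd10_375.v0 = true := by decide +kernel

set_option maxRecDepth 100000 in
theorem rk10_375_1 : chkC2 52 10 43 5 5 3 rd10_375.me rd10_375.mo gs10 [rd10_375.c0, rd10_375.c1]
    rd10_375.v1 = true := by decide +kernel

set_option maxRecDepth 100000 in
theorem rk10_375_2 : chkC1 52 10 43 5 5 3 rd10_375.me rd10_375.mo gs10 [rd10_375.c0, rd10_375.c1] true
    (Nat.beq (10 % 2) 0) rd10_375.v2 = true := by decide +kernel

/-- runs of this file -/
def rds10_46 : List CRun :=
  [rd10_368, rd10_369, rd10_370, rd10_371, rd10_372, rd10_373, rd10_374, rd10_375]

theorem ac10_46 : allC 52 10 43 5 5 3 gs10 rds10_46 :=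
  allC_cons rk10_368_0 rk10_368_1 rk10_368_2
    (allC_cons rk10_369_0 rk10_369_1 rk10_369_2
    (allC_cons rk10_370_0 rk10_370_1 rk10_370_2
    (allC_cons rk10_371_0 rk10_371_1 rk10_371_2
    (allC_cons rk10_372_0 rk10_372_1 rk10_372_2
    (allC_cons rk10_373_0 rk10_373_1 rk10_373_2
    (allC_cons rk10_374_0 rk10_374_1 rk10_374_2
    (allC_cons rk10_375_0 rk10_375_1 rk10_375_2
    (allC_nil))))))))

end Crest.Agent.R347
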