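import Crest.Agent.R347.G10c

/-! Row 347, Chebyshev numerics, ring with 10 sites: run certificates 376..383 (generated) -/

set_option autoImplicit false
set_option Elab.async false

namespace Crest.Agent.R347

/-- run 376 -/
def rd10_376 : CRun :=
  ⟨40, 1114, 40, 9617, 8, 9,
    2582249878086908589655919172003011874329705892543506073901018832168574017758131547164679728109153139738825197252022863268,
    2582249878086908589655919172003011874329705832576374921536182317736125262287776077401299065717853033950325159465139502018,
    2074757784440496479256203931845580575506223116121218449997828664845326405706454073199853524473551897144104912097060336425537002286909985844007033351885578603414853670046872862402744,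
    [523337, 249103092, 320530, 157272735, 108817, 60945780]⟩

set_option maxRecDepth 100000 in
theorem rk10_376_0 : chkC1 52 10 43 5 5 3 rd10_376.me rd10_376.mo gs10 [rd10_376.c0, rd10_376.c1] false
    (Nat.beq (10 % 2) 1) rd10_376.v0 = true := by decide +kernel

set_option maxRecDepth 100000 in
theorem rk10_376_1 : chkC2 52 10 43 5 5 3 rd10_376.me rd10_376.mo gs10 [rd10_376.c0, rd10_376.c1]
    rd10_376.v1 = true := by decide +kernel

set_option maxRecDepth 100000 in
theorem rk10_376_2 : chkC1 52 10 43 5 5 3 rd10_376.me rd10_376.mo gs10 [rd10_376.c0, rd10_376.c1] true
    (Nat.beq (10 % 2) 0) rd10_376.v2 = true := by decide +kernel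

/-- run 377 -/
def rd10_377 : CRun :=
  ⟨40, 1118, 20, 9619, 8, 9,
    2582249878086908589655919172003011874329705884403859333475168402362523784565652188203338923308200041015213812851991107293,
    2582249878086908589655919172003011874329705830298838293900172704193537112296389122688941200599553390001447869968889775622,
    2074757784440496479256203931845580575506223116121218449997828664845326405706454073199853524473551897144105115384009030336180275422173130541463332424602270498630019942894516413191591,
    [544658, 238719576, 331381, 152700356, 110185, 61974945]⟩

set_option maxRecDepth 100000 in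
theorem rk10_377_0 : chkC1 52 10 43 5 5 3 rd10_377.me rd10_377.mo gs10 [rd10_377.c0, rd10_377.c1] false
    (Nat.beq (10 % 2) 1) rd10_377.v0 = true := by decide +kernel

set_option maxRecDepth 100000 in
theorem rk10_377_1 : chkC2 52 10 43 5 5 3 rd10_377.me rd10_377.mo gs10 [rd10_377.c0, rd10_377.c1]
    rd10_377.v1 = true := by decide +kernel

set_option maxRecDepth 100000 in
theorem rk10_377_2 : chkC1 52 10 43 5 5 3 rd10_377.me rd10_377.mo gs10 [rd10_377.c0, rd10_377.c1] true
    (Nat.beq (10 % 2) 0) rd10_377.v2 = true := by decide +kernel

/-- run 378 -/
def rd10_378 : CRun :=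
  ⟨20, 1120, 40, 9623, 8, 9,
    2582249878086908589655919172003011874329705897050689675931041008914089164053306579100997531535134634008202435685570327542,
    2582249878086908589655919172003011874329705835250439812003709157331378481700814749614412782630396034768641174479620193927,
    2074757784440496479256203931845580575506223116121218449997828664845326405706454073199853524473551897144105795421504032520046942450195931585199510855732876853388337272219098078097407,
    [303261, 254670724, 185457, 162477038, 62946, 65299941]⟩

set_option maxRecDepth 100000 in
theorem rk10_378_0 : chkC1 52 10 43 5 5 3 rd10_378.me rd10_378.mo gs10 [rd10_378.c0, rd10_378.c1] false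
    (Nat.beq (10 % 2) 1) rd10_378.v0 = true := by decide +kernel

set_option maxRecDepth 100000 in
theorem rk10_378_1 : chkC2 52 10 43 5 5 3 rd10_378.me rd10_378.mo gs10 [rd10_378.c0, rd10_378.c1]
    rd10_378.v1 = true := by decide +kernel

set_option maxRecDepth 100000 in
theorem rk10_378_2 : chkC1 52 10 43 5 5 3 rd10_378.me rd10_378.mo gs10 [rd10_378.c0, rd10_378.c1] true
    (Nat.beq (10 % 2) 0) rd10_378.v2 = true := by decide +kernel

/-- run 379 -/
def rd10_379 : CRun :=
  ⟨40, 1142, 40, 9653, 8, 9,
    2582249878086908589655919172003011874329706063393863744413951325077277290363418563326782142990030313024313693525253220157,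
    2582249878086908589655919172003011874329705901984344677476889521461290168404370193818230863609733137384335459997501616076,
    2074757784440496479256203931845580575506223116121218449997828664845326405706454073199853524473551897144115952780166616276519573085625441246469666572044363727705902892725560856990848,
    [345768, 410332535, 207327, 260628853, 65634, 102883536]⟩

set_option maxRecDepth 100000 in
theorem rk10_379_0 : chkC1 52 10 43 5 5 3 rd10_379.me rd10_379.mo gs10 [rd10_379.c0, rd10_379.c1] false
    (Nat.beq (10 % 2) 1) rd10_379.v0 = true := by decide +kernel

set_option maxRecDepth 100000 in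
theorem rk10_379_1 : chkC2 52 10 43 5 5 3 rd10_379.me rd10_379.mo gs10 [rd10_379.c0, rd10_379.c1]
    rd10_379.v1 = true := by decide +kernel

set_option maxRecDepth 100000 in
theorem rk10_379_2 : chkC1 52 10 43 5 5 3 rd10_379.me rd10_379.mo gs10 [rd10_379.c0, rd10_379.c1] true
    (Nat.beq (10 % 2) 0) rd10_379.v2 = true := by decide +kernel

/-- run 380 -/
def rd10_380 : CRun :=
  ⟨40, 1148, 20, 9659, 8, 9,
    2582249878086908589655919172003011874329706990225348293313769679274318515996221512123604318966295379471446268991539718036,
    2582249878086908589655919172003011874329706300126958188519276138810045385668527752959564648519307285913755931706417611443,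
    2074757784440496479256203931845580575506223116121218449997828664845326405706454073199853524473551897144191180965801118724455208132035756925263727923397535835430510570444374229677103,
    [863410, 863215754, 520213, 561864891, 166635, 239582214]⟩

set_option maxRecDepth 100000 in
theorem rk10_380_0 : chkC1 52 10 43 5 5 3 rd10_380.me rd10_380.mo gs10 [rd10_380.c0, rd10_380.c1] false
    (Nat.beq (10 % 2) 1) rd10_380.v0 = true := by decide +kernel

set_option maxRecDepth 100000 in
theorem rk10_380_1 : chkC2 52 10 43 5 5 3 rd10_380.me rd10_380.mo gs10 [rd10_380.c0, rd10_380.c1]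
    rd10_380.v1 = true := by decide +kernel

set_option maxRecDepth 100000 in
theorem rk10_380_2 : chkC1 52 10 43 5 5 3 rd10_380.me rd10_380.mo gs10 [rd10_380.c0, rd10_380.c1] true
    (Nat.beq (10 % 2) 0) rd10_380.v2 = true := by decide +kernel

/-- run 381 -/
def rd10_381 : CRun :=
  ⟨40, 1150, 20, 9671, 8, 9,
    2582249878086908589655919172003011874329705911841632147026903393404081116545908495639184718966037645843302785977550419243,
    2582249878086908589655919172003011874329705840143136383975545073728127375774888269921399293084860140820594272152976481285,
    2074757784440496479256203931845580575506223116121218449997828664845326405706454073199853524473551897144105946486275050746783202483500189813546171734731318500087939625698827407650252,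
    [431605, 272142617, 262461, 171591143, 86714, 66015832]⟩

set_option maxRecDepth 100000 in
theorem rk10_381_0 : chkC1 52 10 43 5 5 3 rd10_381.me rd10_381.mo gs10 [rd10_381.c0, rd10_381.c1] false
    (Nat.beq (10 % 2) 1) rd10_381.v0 = true := by decide +kernel

set_option maxRecDepth 100000 in
theorem rk10_381_1 : chkC2 52 10 43 5 5 3 rd10_381.me rd10_381.mo gs10 [rd10_381.c0, rd10_381.c1]
    rd10_381.v1 = true := by decide +kernel

set_option maxRecDepth 100000 in
theorem rk10_381_2 : chkC1 52 10 43 5 5 3 rd10_381.me rd10_381.mo gs10 [rd10_381.c0, rd10_381.c1] true
    (Nat.beq (10 % 2) 0) rd10_381.v2 = true := by decide +kernel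

/-- run 382 -/
def rd10_382 : CRun :=
  ⟨40, 1154, 40, 9761, 8, 9,
    2582249878086908589655919172003011874329705929967142861971742626533666792398683064639895157515729027242584209215586277449,
    2582249878086908589655919172003011874329705845609525312588294887181784004984516939715269539125328193236339093490284381358,
    2074757784440496479256203931845580575506223116121218449997828664845326405706454073199853524473551897144105942817841791464112937466045635023670193370102633691115643972994218102744921,
    [1349233, 292132054, 831729, 181232620, 287526, 65998539]⟩

set_option maxRecDepth 100000 in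
theorem rk10_382_0 : chkC1 52 10 43 5 5 3 rd10_382.me rd10_382.mo gs10 [rd10_382.c0, rd10_382.c1] false
    (Nat.beq (10 % 2) 1) rd10_382.v0 = true := by decide +kernel

set_option maxRecDepth 100000 in
theorem rk10_382_1 : chkC2 52 10 43 5 5 3 rd10_382.me rd10_382.mo gs10 [rd10_382.c0, rd10_382.c1]
    rd10_382.v1 = true := by decide +kernel

set_option maxRecDepth 100000 in
theorem rk10_382_2 : chkC1 52 10 43 5 5 3 rd10_382.me rd10_382.mo gs10 [rd10_382.c0, rd10_382.c1] true
    (Nat.beq (10 % 2) 0) rd10_382.v2 = true := by decide +kernel

/-- run 383 -/
def rd10_383 : CRun :=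
  ⟨20, 1156, 40, 9763, 8, 9,
    2582249878086908589655919172003011874329705858421149909907263629121425728780261359924109487912316008044742427369176942825,
    2582249878086908589655919172003011874329705818933838114672186800605819103263271832618603202484695175382989320181004942117,
    2074757784440496479256203931845580575506223116121218449997828664845326405706454073199853524473551897144102875742834198204786278376527397041885147505750032284059170462642806405437461,
    [528138, 202034542, 325717, 127455646, 112991, 49468795]⟩

set_option maxRecDepth 100000 in
theorem rk10_383_0 : chkC1 52 10 43 5 5 3 rd10_383.me rd10_383.mo gs10 [rd10_383.c0, rd10_383.c1] false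
    (Nat.beq (10 % 2) 1) rd10_383.v0 = true := by decide +kernel

set_option maxRecDepth 100000 in
theorem rk10_383_1 : chkC2 52 10 43 5 5 3 rd10_383.me rd10_383.mo gs10 [rd10_383.c0, rd10_383.c1]
    rd10_383.v1 = true := by decide +kernel

set_option maxRecDepth 100000 in
theorem rk10_383_2 : chkC1 52 10 43 5 5 3 rd10_383.me rd10_383.mo gs10 [rd10_383.c0, rd10_383.c1] true
    (Nat.beq (10 % 2) 0) rd10_383.v2 = true := by decide +kernel

/-- runs of this file -/
def rds10_47 : List CRun :=
  [rd10_376, rd10_377, rd10_378, rd10_379, rd10_380, rd10_381, rd10_382, rd10_383]

theorem ac10_47 : allC 52 10 43 5 5 3 gs10 rds10_47 :=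
  allC_cons rk10_376_0 rk10_376_1 rk10_376_2
    (allC_cons rk10_377_0 rk10_377_1 rk10_377_2
    (allC_cons rk10_378_0 rk10_378_1 rk10_378_2
    (allC_cons rk10_379_0 rk10_379_1 rk10_379_2
    (allC_cons rk10_380_0 rk10_380_1 rk10_380_2
    (allC_cons rk10_381_0 rk10_381_1 rk10_381_2
    (allC_cons rk10_382_0 rk10_382_1 rk10_382_2
    (allC_cons rk10_383_0 rk10_383_1 rk10_383_2
    (allC_nil))))))))

end Crest.Agent.R347
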