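import Crest.Agent.R347.G10c

/-! Row 347, Chebyshev numerics, ring with 10 sites: run certificates 384..391 (generated) -/

set_option autoImplicit false
set_option Elab.async false

namespace Crest.Agent.R347

/-- run 384 -/
def rd10_384 : CRun :=
  ⟨40, 1166, 40, 9767, 8, 9,
    2582249878086908589655919172003011874329706073179083923947166183006385088028646050444151259326944933903545846994381587785,
    2582249878086908589655919172003011874329705906428006600962359921221429899124635906871393958529384211755513443858768580383,
    2074757784440496479256203931845580575506223116121218449997828664845326405706454073199853524473551897144116874111148224370274804483856591741919573270202656264719794080984795395556902,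
    [527235, 417686661, 318958, 265880982, 103726, 105633175]⟩

set_option maxRecDepth 100000 in
theorem rk10_384_0 : chkC1 52 10 43 5 5 3 rd10_384.me rd10_384.mo gs10 [rd10_384.c0, rd10_384.c1] false
    (Nat.beq (10 % 2) 1) rd10_384.v0 = true := by decide +kernel

set_option maxRecDepth 100000 in
theorem rk10_384_1 : chkC2 52 10 43 5 5 3 rd10_384.me rd10_384.mo gs10 [rd10_384.c0, rd10_384.c1]
    rd10_384.v1 = true := by decide +kernel

set_option maxRecDepth 100000 in
theorem rk10_384_2 : chkC1 52 10 43 5 5 3 rd10_384.me rd10_384.mo gs10 [rd10_384.c0, rd10_384.c1] true
    (Nat.beq (10 % 2) 0) rd10_384.v2 = true := by decide +kernel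

/-- run 385 -/
def rd10_385 : CRun :=
  ⟨40, 1168, 40, 9779, 8, 9,
    2582249878086908589655919172003011874329706064091307470839095712327563255574861101251046133403628131228816600010511891816,
    2582249878086908589655919172003011874329705900547076328955069191575284971358676922474356829499292353871365399709749759351,
    2074757784440496479256203931845580575506223116121218449997828664845326405706454073199853524473551897144114698460789027799603179428648979944485826657568990161840613223006297265430536,
    [390371, 410861059, 238292, 258907290, 79808, 99017459]⟩

set_option maxRecDepth 100000 in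
theorem rk10_385_0 : chkC1 52 10 43 5 5 3 rd10_385.me rd10_385.mo gs10 [rd10_385.c0, rd10_385.c1] false
    (Nat.beq (10 % 2) 1) rd10_385.v0 = true := by decide +kernel

set_option maxRecDepth 100000 in
theorem rk10_385_1 : chkC2 52 10 43 5 5 3 rd10_385.me rd10_385.mo gs10 [rd10_385.c0, rd10_385.c1]
    rd10_385.v1 = true := by decide +kernel

set_option maxRecDepth 100000 in
theorem rk10_385_2 : chkC1 52 10 43 5 5 3 rd10_385.me rd10_385.mo gs10 [rd10_385.c0, rd10_385.c1] true
    (Nat.beq (10 % 2) 0) rd10_385.v2 = true := by decide +kernel

/-- run 386 -/
def rd10_386 : CRun :=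
  ⟨40, 1172, 40, 9815, 8, 9,
    2582249878086908589655919172003011874329705976044438434055240025036741930580395923785331979837055778100392306108606774597,
    2582249878086908589655919172003011874329705864164907314561433650233323010035704685935742036100122123934762394439016635794,
    2074757784440496479256203931845580575506223116121218449997828664845326405706454073199853524473551897144108757672681865693469140884333728321651625494196692841096535609710943256235592,
    [616894, 337661233, 376388, 210694815, 126078, 78150468]⟩

set_option maxRecDepth 100000 in
theorem rk10_386_0 : chkC1 52 10 43 5 5 3 rd10_386.me rd10_386.mo gs10 [rd10_386.c0, rd10_386.c1] false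
    (Nat.beq (10 % 2) 1) rd10_386.v0 = true := by decide +kernel

set_option maxRecDepth 100000 in
theorem rk10_386_1 : chkC2 52 10 43 5 5 3 rd10_386.me rd10_386.mo gs10 [rd10_386.c0, rd10_386.c1]
    rd10_386.v1 = true := by decide +kernel

set_option maxRecDepth 100000 in
theorem rk10_386_2 : chkC1 52 10 43 5 5 3 rd10_386.me rd10_386.mo gs10 [rd10_386.c0, rd10_386.c1] true
    (Nat.beq (10 % 2) 0) rd10_386.v2 = true := by decide +kernel

/-- run 387 -/
def rd10_387 : CRun :=
  ⟨40, 1190, 20, 9817, 8, 9,
    2582249878086908589655919172003011874329705876116767768975628154345277384789804526945163964035928089617542656238033068670,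
    2582249878086908589655919172003011874329705825393861566800998660542235744173947883651999580945542851865338353089598406598,
    2074757784440496479256203931845580575506223116121218449997828664845326405706454073199853524473551897144103505715487107281723808736145711067912631484171234729273012924373056028812404,
    [136880, 227661956, 81811, 142355274, 25531, 53284094]⟩

set_option maxRecDepth 100000 in
theorem rk10_387_0 : chkC1 52 10 43 5 5 3 rd10_387.me rd10_387.mo gs10 [rd10_387.c0, rd10_387.c1] false
    (Nat.beq (10 % 2) 1) rd10_387.v0 = true := by decide +kernel

set_option maxRecDepth 100000 in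
theorem rk10_387_1 : chkC2 52 10 43 5 5 3 rd10_387.me rd10_387.mo gs10 [rd10_387.c0, rd10_387.c1]
    rd10_387.v1 = true := by decide +kernel

set_option maxRecDepth 100000 in
theorem rk10_387_2 : chkC1 52 10 43 5 5 3 rd10_387.me rd10_387.mo gs10 [rd10_387.c0, rd10_387.c1] true
    (Nat.beq (10 % 2) 0) rd10_387.v2 = true := by decide +kernel

/-- run 388 -/
def rd10_388 : CRun :=
  ⟨40, 1232, 20, 9821, 8, 9,
    2582249878086908589655919172003011874329706597600039873022409427325891385759166813916019947939775700749973792952694646138,
    2582249878086908589655919172003011874329706118791491605425121099204970738283721887817645336321523597632684900088792604834,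
    2074757784440496479256203931845580575506223116121218449997828664845326405706454073199853524473551897144149813208855523426157959656241639104554904533591043342304370157793749169572547,
    [180328, 707679383, 108689, 450385188, 35131, 177922507]⟩

set_option maxRecDepth 100000 in
theorem rk10_388_0 : chkC1 52 10 43 5 5 3 rd10_388.me rd10_388.mo gs10 [rd10_388.c0, rd10_388.c1] false
    (Nat.beq (10 % 2) 1) rd10_388.v0 = true := by decide +kernel

set_option maxRecDepth 100000 in
theorem rk10_388_1 : chkC2 52 10 43 5 5 3 rd10_388.me rd10_388.mo gs10 [rd10_388.c0, rd10_388.c1]
    rd10_388.v1 = true := by decide +kernel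

set_option maxRecDepth 100000 in
theorem rk10_388_2 : chkC1 52 10 43 5 5 3 rd10_388.me rd10_388.mo gs10 [rd10_388.c0, rd10_388.c1] true
    (Nat.beq (10 % 2) 0) rd10_388.v2 = true := by decide +kernel

/-- run 389 -/
def rd10_389 : CRun :=
  ⟨40, 1238, 40, 9833, 8, 9,
    2582249878086908589655919172003011874329705988824936761046755114730884123319871464703623111508393608224594181003886940890,
    2582249878086908589655919172003011874329705867888513204387827477886336423396907856139714947827415894065516331025807694895,
    2074757784440496479256203931845580575506223116121218449997828664845326405706454073199853524473551897144108545524419336587953168994329304908454164857814956157777068157970100437969522,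
    [353338, 349239792, 209735, 216123832, 63578, 77301200]⟩

set_option maxRecDepth 100000 in
theorem rk10_389_0 : chkC1 52 10 43 5 5 3 rd10_389.me rd10_389.mo gs10 [rd10_389.c0, rd10_389.c1] false
    (Nat.beq (10 % 2) 1) rd10_389.v0 = true := by decide +kernel

set_option maxRecDepth 100000 in
theorem rk10_389_1 : chkC2 52 10 43 5 5 3 rd10_389.me rd10_389.mo gs10 [rd10_389.c0, rd10_389.c1]
    rd10_389.v1 = true := by decide +kernel

set_option maxRecDepth 100000 in
theorem rk10_389_2 : chkC1 52 10 43 5 5 3 rd10_389.me rd10_389.mo gs10 [rd10_389.c0, rd10_389.c1] true
    (Nat.beq (10 % 2) 0) rd10_389.v2 = true := by decide +kernel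

/-- run 390 -/
def rd10_390 : CRun :=
  ⟨40, 1240, 20, 9839, 8, 9,
    2582249878086908589655919172003011874329706263303540064052689062260727467067341487499887655150696370130934619381640813656,
    2582249878086908589655919172003011874329705973364476969695475862191842182448196138888165966190469248970384045315347816292,
    2074757784440496479256203931845580575506223116121218449997828664845326405706454073199853524473551897144121977234090419274675614014621880608161426701343105717863742504808167852710140,
    [137013, 541088612, 81083, 335182584, 24162, 119724889]⟩

set_option maxRecDepth 100000 in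
theorem rk10_390_0 : chkC1 52 10 43 5 5 3 rd10_390.me rd10_390.mo gs10 [rd10_390.c0, rd10_390.c1] false
    (Nat.beq (10 % 2) 1) rd10_390.v0 = true := by decide +kernel

set_option maxRecDepth 100000 in
theorem rk10_390_1 : chkC2 52 10 43 5 5 3 rd10_390.me rd10_390.mo gs10 [rd10_390.c0, rd10_390.c1]
    rd10_390.v1 = true := by decide +kernel

set_option maxRecDepth 100000 in
theorem rk10_390_2 : chkC1 52 10 43 5 5 3 rd10_390.me rd10_390.mo gs10 [rd10_390.c0, rd10_390.c1] true
    (Nat.beq (10 % 2) 0) rd10_390.v2 = true := by decide +kernel

/-- run 391 -/
def rd10_391 : CRun :=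
  ⟨40, 1250, 20, 9841, 8, 9,
    2582249878086908589655919172003011874329706060578842325500263247742100732941084142803242520573296340641376495875492028218,
    2582249878086908589655919172003011874329705890670115931346090694155361220735974637161284775463068336409134629975848265007,
    2074757784440496479256203931845580575506223116121218449997828664845326405706454073199853524473551897144109178429713826667485435952688988640548352304795200052190888847562709145347735,
    [445769, 408192353, 267571, 246751975, 84848, 79808104]⟩

set_option maxRecDepth 100000 in
theorem rk10_391_0 : chkC1 52 10 43 5 5 3 rd10_391.me rd10_391.mo gs10 [rd10_391.c0, rd10_391.c1] false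
    (Nat.beq (10 % 2) 1) rd10_391.v0 = true := by decide +kernel

set_option maxRecDepth 100000 in
theorem rk10_391_1 : chkC2 52 10 43 5 5 3 rd10_391.me rd10_391.mo gs10 [rd10_391.c0, rd10_391.c1]
    rd10_391.v1 = true := by decide +kernel

set_option maxRecDepth 100000 in
theorem rk10_391_2 : chkC1 52 10 43 5 5 3 rd10_391.me rd10_391.mo gs10 [rd10_391.c0, rd10_391.c1] true
    (Nat.beq (10 % 2) 0) rd10_391.v2 = true := by decide +kernel

/-- runs of this file -/
def rds10_48 : List CRun :=
  [rd10_384, rd10_385, rd10_386, rd10_387, rd10_388, rd10_389, rd10_390, rd10_391]

theorem ac10_48 : allC 52 10 43 5 5 3 gs10 rds10_48 :=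
  allC_cons rk10_384_0 rk10_384_1 rk10_384_2
    (allC_cons rk10_385_0 rk10_385_1 rk10_385_2
    (allC_cons rk10_386_0 rk10_386_1 rk10_386_2
    (allC_cons rk10_387_0 rk10_387_1 rk10_387_2
    (allC_cons rk10_388_0 rk10_388_1 rk10_388_2
    (allC_cons rk10_389_0 rk10_389_1 rk10_389_2
    (allC_cons rk10_390_0 rk10_390_1 rk10_390_2
    (allC_cons rk10_391_0 rk10_391_1 rk10_391_2
    (allC_nil))))))))

end Crest.Agent.R347
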