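import Crest.Agent.R347.G10c

/-! Row 347, Chebyshev numerics, ring with 10 sites: run certificates 392..399 (generated) -/

set_option autoImplicit false
set_option Elab.async false

namespace Crest.Agent.R347

/-- run 392 -/
def rd10_392 : CRun :=
  ⟨40, 1256, 20, 50637, 8, 9,
    2582249878086908589655919172003011874329705808793323596563334660541150413008481093563986514755189087097257905692730101919,
    2582249878086908589655919172003011874329705798421413880015898333180799763595184819171041263607896702641965732161808700554,
    2074757784440496479256203931845580575506223116121218449997828664845326405706454073199853524473551897144099401391042365235650091260093969746090774580455168634080218466957485778013933,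
    [922419, 99671882, 551379, 58991768, 171063, 16883935]⟩

set_option maxRecDepth 100000 in
theorem rk10_392_0 : chkC1 52 10 43 5 5 3 rd10_392.me rd10_392.mo gs10 [rd10_392.c0, rd10_392.c1] false
    (Nat.beq (10 % 2) 1) rd10_392.v0 = true := by decide +kernel

set_option maxRecDepth 100000 in
theorem rk10_392_1 : chkC2 52 10 43 5 5 3 rd10_392.me rd10_392.mo gs10 [rd10_392.c0, rd10_392.c1]
    rd10_392.v1 = true := by decide +kernel

set_option maxRecDepth 100000 in
theorem rk10_392_2 : chkC1 52 10 43 5 5 3 rd10_392.me rd10_392.mo gs10 [rd10_392.c0, rd10_392.c1] true
    (Nat.beq (10 % 2) 0) rd10_392.v2 = true := by decide +kernel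

/-- run 393 -/
def rd10_393 : CRun :=
  ⟨40, 1258, 40, 53409, 8, 9,
    2582249878086908589655919172003011874329705800863942758341039316435116171242046507155563733764847163517836932336874888103,
    2582249878086908589655919172003011874329705795802530119867621588403326291866790117045921278542547731949285954080242190795,
    2074757784440496479256203931845580575506223116121218449997828664845326405706454073199853524473551897144099267398300496288883319236102777629637880594318949449082883339103368643935536,
    [489542, 70710806, 296571, 43015036, 96612, 14201527]⟩

set_option maxRecDepth 100000 in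
theorem rk10_393_0 : chkC1 52 10 43 5 5 3 rd10_393.me rd10_393.mo gs10 [rd10_393.c0, rd10_393.c1] false
    (Nat.beq (10 % 2) 1) rd10_393.v0 = true := by decide +kernel

set_option maxRecDepth 100000 in
theorem rk10_393_1 : chkC2 52 10 43 5 5 3 rd10_393.me rd10_393.mo gs10 [rd10_393.c0, rd10_393.c1]
    rd10_393.v1 = true := by decide +kernel

set_option maxRecDepth 100000 in
theorem rk10_393_2 : chkC1 52 10 43 5 5 3 rd10_393.me rd10_393.mo gs10 [rd10_393.c0, rd10_393.c1] true
    (Nat.beq (10 % 2) 0) rd10_393.v2 = true := by decide +kernel

/-- run 394 -/
def rd10_394 : CRun :=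
  ⟨40, 1262, 40, 53517, 8, 9,
    2582249878086908589655919172003011874329705815073586825631268604102052130089858568441130050729147941809862614642889389294,
    2582249878086908589655919172003011874329705801070868487633583301977542827014519376510669118526953133382138553504878034052,
    2074757784440496479256203931845580575506223116121218449997828664845326405706454073199853524473551897144099834335798336236171506830835767601453886087298468027644416625385684217984621,
    [932447, 117655010, 566405, 71615559, 185881, 23547600]⟩

set_option maxRecDepth 100000 in
theorem rk10_394_0 : chkC1 52 10 43 5 5 3 rd10_394.me rd10_394.mo gs10 [rd10_394.c0, rd10_394.c1] false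
    (Nat.beq (10 % 2) 1) rd10_394.v0 = true := by decide +kernel

set_option maxRecDepth 100000 in
theorem rk10_394_1 : chkC2 52 10 43 5 5 3 rd10_394.me rd10_394.mo gs10 [rd10_394.c0, rd10_394.c1]
    rd10_394.v1 = true := by decide +kernel

set_option maxRecDepth 100000 in
theorem rk10_394_2 : chkC1 52 10 43 5 5 3 rd10_394.me rd10_394.mo gs10 [rd10_394.c0, rd10_394.c1] true
    (Nat.beq (10 % 2) 0) rd10_394.v2 = true := by decide +kernel

/-- run 395 -/
def rd10_395 : CRun :=
  ⟨40, 1274, 40, 53553, 8, 9,
    2582249878086908589655919172003011874329705808230284260116211015689030777116778935535969131009146401909896384543218125112,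
    2582249878086908589655919172003011874329705798280771388087974871583905994344322846927771406653459722088717042820743234595,
    2074757784440496479256203931845580575506223116121218449997828664845326405706454073199853524473551897144099422958301223410799946103221299093571244226909322462495592531133601538979162,
    [1135068, 97898436, 693082, 58245228, 231583, 17276822]⟩

set_option maxRecDepth 100000 in
theorem rk10_395_0 : chkC1 52 10 43 5 5 3 rd10_395.me rd10_395.mo gs10 [rd10_395.c0, rd10_395.c1] false
    (Nat.beq (10 % 2) 1) rd10_395.v0 = true := by decide +kernel

set_option maxRecDepth 100000 in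
theorem rk10_395_1 : chkC2 52 10 43 5 5 3 rd10_395.me rd10_395.mo gs10 [rd10_395.c0, rd10_395.c1]
    rd10_395.v1 = true := by decide +kernel

set_option maxRecDepth 100000 in
theorem rk10_395_2 : chkC1 52 10 43 5 5 3 rd10_395.me rd10_395.mo gs10 [rd10_395.c0, rd10_395.c1] true
    (Nat.beq (10 % 2) 0) rd10_395.v2 = true := by decide +kernel

/-- run 396 -/
def rd10_396 : CRun :=
  ⟨20, 1276, 40, 53571, 8, 9,
    2582249878086908589655919172003011874329705806315228425995133130099778440424345504648435839213597732846342593800349304494,
    2582249878086908589655919172003011874329705797638492390327735761149536864699454312828485924561511402570754617454737424814,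
    2074757784440496479256203931845580575506223116121218449997828664845326405706454073199853524473551897144099388752475536079141339709133650265314805858727549187366496531021023684763186,
    [922238, 91609833, 570476, 54706631, 199089, 16649392]⟩

set_option maxRecDepth 100000 in
theorem rk10_396_0 : chkC1 52 10 43 5 5 3 rd10_396.me rd10_396.mo gs10 [rd10_396.c0, rd10_396.c1] false
    (Nat.beq (10 % 2) 1) rd10_396.v0 = true := by decide +kernel

set_option maxRecDepth 100000 in
theorem rk10_396_1 : chkC2 52 10 43 5 5 3 rd10_396.me rd10_396.mo gs10 [rd10_396.c0, rd10_396.c1]
    rd10_396.v1 = true := by decide +kernel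

set_option maxRecDepth 100000 in
theorem rk10_396_2 : chkC1 52 10 43 5 5 3 rd10_396.me rd10_396.mo gs10 [rd10_396.c0, rd10_396.c1] true
    (Nat.beq (10 % 2) 0) rd10_396.v2 = true := by decide +kernel

/-- run 397 -/
def rd10_397 : CRun :=
  ⟨40, 1280, 40, 53733, 8, 9,
    2582249878086908589655919172003011874329705796073750245447853397634350254783739115819426707621629932639486923167180635155,
    2582249878086908589655919172003011874329705794015321476283054328848941844369738709111078683626017171767575733605214353518,
    2074757784440496479256203931845580575506223116121218449997828664845326405706454073199853524473551897144099073439900549405009976816654524990807689431727062475438653137766535157320157,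
    [883777, 44934107, 539842, 27168191, 180634, 8999042]⟩

set_option maxRecDepth 100000 in
theorem rk10_397_0 : chkC1 52 10 43 5 5 3 rd10_397.me rd10_397.mo gs10 [rd10_397.c0, rd10_397.c1] false
    (Nat.beq (10 % 2) 1) rd10_397.v0 = true := by decide +kernel

set_option maxRecDepth 100000 in
theorem rk10_397_1 : chkC2 52 10 43 5 5 3 rd10_397.me rd10_397.mo gs10 [rd10_397.c0, rd10_397.c1]
    rd10_397.v1 = true := by decide +kernel

set_option maxRecDepth 100000 in
theorem rk10_397_2 : chkC1 52 10 43 5 5 3 rd10_397.me rd10_397.mo gs10 [rd10_397.c0, rd10_397.c1] true
    (Nat.beq (10 % 2) 0) rd10_397.v2 = true := by decide +kernel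

/-- run 398 -/
def rd10_398 : CRun :=
  ⟨40, 1304, 40, 54039, 8, 9,
    2582249878086908589655919172003011874329705801030658274678121308087453410586731470827592445667125863099824810541795116279,
    2582249878086908589655919172003011874329705795835124570280930698993777514429361772422014147377274936969178345268445642912,
    2074757784440496479256203931845580575506223116121218449997828664845326405706454073199853524473551897144099275078860992021368570353648564618971429399269874859364850203339074512257874,
    [244280, 71440643, 145716, 43250166, 45204, 14368820]⟩

set_option maxRecDepth 100000 in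
theorem rk10_398_0 : chkC1 52 10 43 5 5 3 rd10_398.me rd10_398.mo gs10 [rd10_398.c0, rd10_398.c1] false
    (Nat.beq (10 % 2) 1) rd10_398.v0 = true := by decide +kernel

set_option maxRecDepth 100000 in
theorem rk10_398_1 : chkC2 52 10 43 5 5 3 rd10_398.me rd10_398.mo gs10 [rd10_398.c0, rd10_398.c1]
    rd10_398.v1 = true := by decide +kernel

set_option maxRecDepth 100000 in
theorem rk10_398_2 : chkC1 52 10 43 5 5 3 rd10_398.me rd10_398.mo gs10 [rd10_398.c0, rd10_398.c1] true
    (Nat.beq (10 % 2) 0) rd10_398.v2 = true := by decide +kernel

/-- run 399 -/
def rd10_399 : CRun :=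
  ⟨40, 1310, 40, 54057, 8, 9,
    2582249878086908589655919172003011874329705803352075605289432728289766235301830691979820501097526329177314792841270783017,
    2582249878086908589655919172003011874329705796808157353246493212776739568933531403247617749210850109352920136758642812263,
    2074757784440496479256203931845580575506223116121218449997828664845326405706454073199853524473551897144099450322501582834977170062373224546752944782418745654583572001641170183835708,
    [673634, 80922105, 403187, 49760392, 125691, 17762809]⟩

set_option maxRecDepth 100000 in
theorem rk10_399_0 : chkC1 52 10 43 5 5 3 rd10_399.me rd10_399.mo gs10 [rd10_399.c0, rd10_399.c1] false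
    (Nat.beq (10 % 2) 1) rd10_399.v0 = true := by decide +kernel

set_option maxRecDepth 100000 in
theorem rk10_399_1 : chkC2 52 10 43 5 5 3 rd10_399.me rd10_399.mo gs10 [rd10_399.c0, rd10_399.c1]
    rd10_399.v1 = true := by decide +kernel

set_option maxRecDepth 100000 in
theorem rk10_399_2 : chkC1 52 10 43 5 5 3 rd10_399.me rd10_399.mo gs10 [rd10_399.c0, rd10_399.c1] true
    (Nat.beq (10 % 2) 0) rd10_399.v2 = true := by decide +kernel

/-- runs of this file -/
def rds10_49 : List CRun :=
  [rd10_392, rd10_393, rd10_394, rd10_395, rd10_396, rd10_397, rd10_398, rd10_399]

theorem ac10_49 : allC 52 10 43 5 5 3 gs10 rds10_49 :=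
  allC_cons rk10_392_0 rk10_392_1 rk10_392_2
    (allC_cons rk10_393_0 rk10_393_1 rk10_393_2
    (allC_cons rk10_394_0 rk10_394_1 rk10_394_2
    (allC_cons rk10_395_0 rk10_395_1 rk10_395_2
    (allC_cons rk10_396_0 rk10_396_1 rk10_396_2
    (allC_cons rk10_397_0 rk10_397_1 rk10_397_2
    (allC_cons rk10_398_0 rk10_398_1 rk10_398_2
    (allC_cons rk10_399_0 rk10_399_1 rk10_399_2
    (allC_nil))))))))

end Crest.Agent.R347
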