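import Crest.Agent.R347.G10c

/-! Row 347, Chebyshev numerics, ring with 10 sites: run certificates 400..407 (generated) -/

set_option autoImplicit false
set_option Elab.async false

namespace Crest.Agent.R347

/-- run 400 -/
def rd10_400 : CRun :=
  ⟨20, 1312, 40, 54219, 8, 9,
    2582249878086908589655919172003011874329705795097383752963894790141427993756822846728207691989114583352144336720694703354,
    2582249878086908589655919172003011874329705793716496411998948237620242744793617616025532910748730810096098763629678628697,
    2074757784440496479256203931845580575506223116121218449997828664845326405706454073199853524473551897144099074461041796050651577035460226117082662216603671605220347026427464677657476,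
    [361725, 37569664, 218493, 23497900, 70408, 9034280]⟩

set_option maxRecDepth 100000 in
theorem rk10_400_0 : chkC1 52 10 43 5 5 3 rd10_400.me rd10_400.mo gs10 [rd10_400.c0, rd10_400.c1] false
    (Nat.beq (10 % 2) 1) rd10_400.v0 = true := by decide +kernel

set_option maxRecDepth 100000 in
theorem rk10_400_1 : chkC2 52 10 43 5 5 3 rd10_400.me rd10_400.mo gs10 [rd10_400.c0, rd10_400.c1]
    rd10_400.v1 = true := by decide +kernel

set_option maxRecDepth 100000 in
theorem rk10_400_2 : chkC1 52 10 43 5 5 3 rd10_400.me rd10_400.mo gs10 [rd10_400.c0, rd10_400.c1] true
    (Nat.beq (10 % 2) 0) rd10_400.v2 = true := by decide +kernel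

/-- run 401 -/
def rd10_401 : CRun :=
  ⟨40, 1316, 40, 54951, 8, 9,
    2582249878086908589655919172003011874329705793870708263977693065394699125379469931259749173489227387008542039410539513151,
    2582249878086908589655919172003011874329705793190529121650355440860622128174143046892861269570753548457597708810088011776,
    2074757784440496479256203931845580575506223116121218449997828664845326405706454073199853524473551897144098971395399956713435172741796855739846033081862950243687586543873678554454590,
    [1052230, 25458153, 641197, 14994701, 212448, 4180945]⟩

set_option maxRecDepth 100000 in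
theorem rk10_401_0 : chkC1 52 10 43 5 5 3 rd10_401.me rd10_401.mo gs10 [rd10_401.c0, rd10_401.c1] false
    (Nat.beq (10 % 2) 1) rd10_401.v0 = true := by decide +kernel

set_option maxRecDepth 100000 in
theorem rk10_401_1 : chkC2 52 10 43 5 5 3 rd10_401.me rd10_401.mo gs10 [rd10_401.c0, rd10_401.c1]
    rd10_401.v1 = true := by decide +kernel

set_option maxRecDepth 100000 in
theorem rk10_401_2 : chkC1 52 10 43 5 5 3 rd10_401.me rd10_401.mo gs10 [rd10_401.c0, rd10_401.c1] true
    (Nat.beq (10 % 2) 0) rd10_401.v2 = true := by decide +kernel

/-- run 402 -/
def rd10_402 : CRun :=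
  ⟨40, 1328, 40, 54957, 8, 9,
    2582249878086908589655919172003011874329705795328270101828507120319782431808612351701188421656402033995015972008508373448,
    2582249878086908589655919172003011874329705793709878643585714569832937408344388059190454885808218827030636549444616503456,
    2074757784440496479256203931845580575506223116121218449997828664845326405706454073199853524473551897144099018872426680744977696744365943076840409116610045687809330911605590803048589,
    [610892, 39435524, 366700, 23410106, 115607, 6857502]⟩

set_option maxRecDepth 100000 in
theorem rk10_402_0 : chkC1 52 10 43 5 5 3 rd10_402.me rd10_402.mo gs10 [rd10_402.c0, rd10_402.c1] false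
    (Nat.beq (10 % 2) 1) rd10_402.v0 = true := by decide +kernel

set_option maxRecDepth 100000 in
theorem rk10_402_1 : chkC2 52 10 43 5 5 3 rd10_402.me rd10_402.mo gs10 [rd10_402.c0, rd10_402.c1]
    rd10_402.v1 = true := by decide +kernel

set_option maxRecDepth 100000 in
theorem rk10_402_2 : chkC1 52 10 43 5 5 3 rd10_402.me rd10_402.mo gs10 [rd10_402.c0, rd10_402.c1] true
    (Nat.beq (10 % 2) 0) rd10_402.v2 = true := by decide +kernel

/-- run 403 -/
def rd10_403 : CRun :=
  ⟨40, 1334, 40, 54963, 8, 9,
    2582249878086908589655919172003011874329705794350022279713152541470076538630619062773137246987438803692901392844476995087,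
    2582249878086908589655919172003011874329705793404660147131126222385570001116835070693536783086334454620209188616871624873,
    2074757784440496479256203931845580575506223116121218449997828664845326405706454073199853524473551897144099014626821024619905661600788823977106280512393961240018809164460381363422231,
    [710043, 30763541, 426056, 18923401, 133925, 6662078]⟩

set_option maxRecDepth 100000 in
theorem rk10_403_0 : chkC1 52 10 43 5 5 3 rd10_403.me rd10_403.mo gs10 [rd10_403.c0, rd10_403.c1] false
    (Nat.beq (10 % 2) 1) rd10_403.v0 = true := by decide +kernel

set_option maxRecDepth 100000 in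
theorem rk10_403_1 : chkC2 52 10 43 5 5 3 rd10_403.me rd10_403.mo gs10 [rd10_403.c0, rd10_403.c1]
    rd10_403.v1 = true := by decide +kernel

set_option maxRecDepth 100000 in
theorem rk10_403_2 : chkC1 52 10 43 5 5 3 rd10_403.me rd10_403.mo gs10 [rd10_403.c0, rd10_403.c1] true
    (Nat.beq (10 % 2) 0) rd10_403.v2 = true := by decide +kernel

/-- run 404 -/
def rd10_404 : CRun :=
  ⟨40, 1352, 40, 54973, 8, 9,
    2582249878086908589655919172003011874329705793303545095269106566986678101335176152528387055149543913799297638580951322792,
    2582249878086908589655919172003011874329705793000726502763036734901584805662615421566893610639263754677721281870273140868,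
    2074757784440496479256203931845580575506223116121218449997828664845326405706454073199853524473551897144098959473407514053154190216274533583623395334149058370925940885088777422168247,
    [207962, 17180543, 122214, 10330856, 35294, 3171943]⟩

set_option maxRecDepth 100000 in
theorem rk10_404_0 : chkC1 52 10 43 5 5 3 rd10_404.me rd10_404.mo gs10 [rd10_404.c0, rd10_404.c1] false
    (Nat.beq (10 % 2) 1) rd10_404.v0 = true := by decide +kernel

set_option maxRecDepth 100000 in
theorem rk10_404_1 : chkC2 52 10 43 5 5 3 rd10_404.me rd10_404.mo gs10 [rd10_404.c0, rd10_404.c1]
    rd10_404.v1 = true := by decide +kernel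

set_option maxRecDepth 100000 in
theorem rk10_404_2 : chkC1 52 10 43 5 5 3 rd10_404.me rd10_404.mo gs10 [rd10_404.c0, rd10_404.c1] true
    (Nat.beq (10 % 2) 0) rd10_404.v2 = true := by decide +kernel

/-- run 405 -/
def rd10_405 : CRun :=
  ⟨40, 1382, 40, 54975, 8, 9,
    2582249878086908589655919172003011874329705796935132381512033899700999952085939689524972375731859668946457011126542914883,
    2582249878086908589655919172003011874329705794362688519784835491381879300907411039325005572067443740170675757844740735755,
    2074757784440496479256203931845580575506223116121218449997828664845326405706454073199853524473551897144099117450477764873841036907192344307718625866211344151881694486687881758355988,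
    [156080, 50548130, 91577, 30891385, 26359, 10410120]⟩

set_option maxRecDepth 100000 in
theorem rk10_405_0 : chkC1 52 10 43 5 5 3 rd10_405.me rd10_405.mo gs10 [rd10_405.c0, rd10_405.c1] false
    (Nat.beq (10 % 2) 1) rd10_405.v0 = true := by decide +kernel

set_option maxRecDepth 100000 in
theorem rk10_405_1 : chkC2 52 10 43 5 5 3 rd10_405.me rd10_405.mo gs10 [rd10_405.c0, rd10_405.c1]
    rd10_405.v1 = true := by decide +kernel

set_option maxRecDepth 100000 in
theorem rk10_405_2 : chkC1 52 10 43 5 5 3 rd10_405.me rd10_405.mo gs10 [rd10_405.c0, rd10_405.c1] true
    (Nat.beq (10 % 2) 0) rd10_405.v2 = true := by decide +kernel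

/-- run 406 -/
def rd10_406 : CRun :=
  ⟨40, 1388, 40, 55009, 8, 9,
    2582249878086908589655919172003011874329705793296475631274692177297038826108275103777092126261173641393021776020255720619,
    2582249878086908589655919172003011874329705792991197244092627085203283725911633739669632921220263371433687981110301674641,
    2074757784440496479256203931845580575506223116121218449997828664845326405706454073199853524473551897144098955559633336010157587278046231322985211002801467416265824954171528108599801,
    [236723, 17052030, 139308, 10039747, 40384, 2761462]⟩

set_option maxRecDepth 100000 in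
theorem rk10_406_0 : chkC1 52 10 43 5 5 3 rd10_406.me rd10_406.mo gs10 [rd10_406.c0, rd10_406.c1] false
    (Nat.beq (10 % 2) 1) rd10_406.v0 = true := by decide +kernel

set_option maxRecDepth 100000 in
theorem rk10_406_1 : chkC2 52 10 43 5 5 3 rd10_406.me rd10_406.mo gs10 [rd10_406.c0, rd10_406.c1]
    rd10_406.v1 = true := by decide +kernel

set_option maxRecDepth 100000 in
theorem rk10_406_2 : chkC1 52 10 43 5 5 3 rd10_406.me rd10_406.mo gs10 [rd10_406.c0, rd10_406.c1] true
    (Nat.beq (10 % 2) 0) rd10_406.v2 = true := by decide +kernel

/-- run 407 -/
def rd10_407 : CRun :=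
  ⟨40, 1406, 40, 55011, 8, 9,
    2582249878086908589655919172003011874329705796155094787089633593852844287397345718381038528490264302307182726811213068489,
    2582249878086908589655919172003011874329705794025650388991331027890291889463531458206298182663098122912599423975890906872,
    2074757784440496479256203931845580575506223116121218449997828664845326405706454073199853524473551897144099060990093065551559759786198212427778820801906466792151366071450489708471732,
    [80990, 45493899, 47650, 27286229, 13857, 8557758]⟩

set_option maxRecDepth 100000 in
theorem rk10_407_0 : chkC1 52 10 43 5 5 3 rd10_407.me rd10_407.mo gs10 [rd10_407.c0, rd10_407.c1] false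
    (Nat.beq (10 % 2) 1) rd10_407.v0 = true := by decide +kernel

set_option maxRecDepth 100000 in
theorem rk10_407_1 : chkC2 52 10 43 5 5 3 rd10_407.me rd10_407.mo gs10 [rd10_407.c0, rd10_407.c1]
    rd10_407.v1 = true := by decide +kernel

set_option maxRecDepth 100000 in
theorem rk10_407_2 : chkC1 52 10 43 5 5 3 rd10_407.me rd10_407.mo gs10 [rd10_407.c0, rd10_407.c1] true
    (Nat.beq (10 % 2) 0) rd10_407.v2 = true := by decide +kernel

/-- runs of this file -/
def rds10_50 : List CRun :=
  [rd10_400, rd10_401, rd10_402, rd10_403, rd10_404, rd10_405, rd10_406, rd10_407]

theorem ac10_50 : allC 52 10 43 5 5 3 gs10 rds10_50 :=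
  allC_cons rk10_400_0 rk10_400_1 rk10_400_2
    (allC_cons rk10_401_0 rk10_401_1 rk10_401_2
    (allC_cons rk10_402_0 rk10_402_1 rk10_402_2
    (allC_cons rk10_403_0 rk10_403_1 rk10_403_2
    (allC_cons rk10_404_0 rk10_404_1 rk10_404_2
    (allC_cons rk10_405_0 rk10_405_1 rk10_405_2
    (allC_cons rk10_406_0 rk10_406_1 rk10_406_2
    (allC_cons rk10_407_0 rk10_407_1 rk10_407_2
    (allC_nil))))))))

end Crest.Agent.R347
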