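import Crest.Agent.R347.G10c

/-! Row 347, Chebyshev numerics, ring with 10 sites: run certificates 408..415 (generated) -/

set_option autoImplicit false
set_option Elab.async false

namespace Crest.Agent.R347

/-- run 408 -/
def rd10_408 : CRun :=
  ⟨20, 1484, 40, 55017, 8, 9,
    2582249878086908589655919172003011874329705797605297666492973007625806980722374153490191687630610268142611915466831572047,
    2582249878086908589655919172003011874329705794674112843026086233797153707827306979657608873058783835016149736579740224018,
    2074757784440496479256203931845580575506223116121218449997828664845326405706454073199853524473551897144099191476062465019432792454977439638368725457753375336795478390312092400285175,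
    [31736, 54517505, 19396, 33883292, 6671, 12427262]⟩

set_option maxRecDepth 100000 in
theorem rk10_408_0 : chkC1 52 10 43 5 5 3 rd10_408.me rd10_408.mo gs10 [rd10_408.c0, rd10_408.c1] false
    (Nat.beq (10 % 2) 1) rd10_408.v0 = true := by decide +kernel

set_option maxRecDepth 100000 in
theorem rk10_408_1 : chkC2 52 10 43 5 5 3 rd10_408.me rd10_408.mo gs10 [rd10_408.c0, rd10_408.c1]
    rd10_408.v1 = true := by decide +kernel

set_option maxRecDepth 100000 in
theorem rk10_408_2 : chkC1 52 10 43 5 5 3 rd10_408.me rd10_408.mo gs10 [rd10_408.c0, rd10_408.c1] true
    (Nat.beq (10 % 2) 0) rd10_408.v2 = true := by decide +kernel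

/-- run 409 -/
def rd10_409 : CRun :=
  ⟨40, 1502, 40, 55029, 8, 9,
    2582249878086908589655919172003011874329705796221648569788863782798673198589202938804853204592632781590259761383374946850,
    2582249878086908589655919172003011874329705794077279075838819605005438090979351403551118336279539285208444063127054361472,
    2074757784440496479256203931845580575506223116121218449997828664845326405706454073199853524473551897144099082526853851302688336134210092215917068528745131006751104660721531925816851,
    [196823, 45946832, 120279, 27868744, 40938, 9307931]⟩

set_option maxRecDepth 100000 in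
theorem rk10_409_0 : chkC1 52 10 43 5 5 3 rd10_409.me rd10_409.mo gs10 [rd10_409.c0, rd10_409.c1] false
    (Nat.beq (10 % 2) 1) rd10_409.v0 = true := by decide +kernel

set_option maxRecDepth 100000 in
theorem rk10_409_1 : chkC2 52 10 43 5 5 3 rd10_409.me rd10_409.mo gs10 [rd10_409.c0, rd10_409.c1]
    rd10_409.v1 = true := by decide +kernel

set_option maxRecDepth 100000 in
theorem rk10_409_2 : chkC1 52 10 43 5 5 3 rd10_409.me rd10_409.mo gs10 [rd10_409.c0, rd10_409.c1] true
    (Nat.beq (10 % 2) 0) rd10_409.v2 = true := by decide +kernel

/-- run 410 -/
def rd10_410 : CRun :=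
  ⟨40, 1508, 40, 55179, 8, 9,
    2582249878086908589655919172003011874329705794961200581057267797803412287580008166517381057386799088314701660857280640311,
    2582249878086908589655919172003011874329705793677395744237974848607969152218080695300627435244087595036041537649228351943,
    2074757784440496479256203931845580575506223116121218449997828664845326405706454073199853524473551897144099073201542458103679574129749526609419557724778467846158218414527981698434728,
    [248937, 36424341, 148928, 22974310, 46792, 8990796]⟩

set_option maxRecDepth 100000 in
theorem rk10_410_0 : chkC1 52 10 43 5 5 3 rd10_410.me rd10_410.mo gs10 [rd10_410.c0, rd10_410.c1] false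
    (Nat.beq (10 % 2) 1) rd10_410.v0 = true := by decide +kernel

set_option maxRecDepth 100000 in
theorem rk10_410_1 : chkC2 52 10 43 5 5 3 rd10_410.me rd10_410.mo gs10 [rd10_410.c0, rd10_410.c1]
    rd10_410.v1 = true := by decide +kernel

set_option maxRecDepth 100000 in
theorem rk10_410_2 : chkC1 52 10 43 5 5 3 rd10_410.me rd10_410.mo gs10 [rd10_410.c0, rd10_410.c1] true
    (Nat.beq (10 % 2) 0) rd10_410.v2 = true := by decide +kernel

/-- run 411 -/
def rd10_411 : CRun :=
  ⟨40, 1520, 40, 55191, 8, 9,
    2582249878086908589655919172003011874329705794981934493363590609898407865274763806860522955044411580982880949388394616902,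
    2582249878086908589655919172003011874329705793666376878114535442046526848659228382594751404041277639671166485056283064410,
    2074757784440496479256203931845580575506223116121218449997828664845326405706454073199853524473551897144099064451392530781738186290942942717325622529230914647801168956204001650014670,
    [489185, 36601030, 297564, 22824589, 99526, 8682695]⟩

set_option maxRecDepth 100000 in
theorem rk10_411_0 : chkC1 52 10 43 5 5 3 rd10_411.me rd10_411.mo gs10 [rd10_411.c0, rd10_411.c1] false
    (Nat.beq (10 % 2) 1) rd10_411.v0 = true := by decide +kernel

set_option maxRecDepth 100000 in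
theorem rk10_411_1 : chkC2 52 10 43 5 5 3 rd10_411.me rd10_411.mo gs10 [rd10_411.c0, rd10_411.c1]
    rd10_411.v1 = true := by decide +kernel

set_option maxRecDepth 100000 in
theorem rk10_411_2 : chkC1 52 10 43 5 5 3 rd10_411.me rd10_411.mo gs10 [rd10_411.c0, rd10_411.c1] true
    (Nat.beq (10 % 2) 0) rd10_411.v2 = true := by decide +kernel

/-- run 412 -/
def rd10_412 : CRun :=
  ⟨40, 1526, 40, 55459, 8, 9,
    2582249878086908589655919172003011874329705792956541682801354900722738037833105541960444987542728608581997767079341600580,
    2582249878086908589655919172003011874329705792875818846992903421749066845701345443623026111998015433564869210362072237796,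
    2074757784440496479256203931845580575506223116121218449997828664845326405706454073199853524473551897144098948154623838082608552990714563611278185119249039773361393753085553543784292,
    [510650, 8901140, 300501, 5384826, 88002, 1737103]⟩

set_option maxRecDepth 100000 in
theorem rk10_412_0 : chkC1 52 10 43 5 5 3 rd10_412.me rd10_412.mo gs10 [rd10_412.c0, rd10_412.c1] false
    (Nat.beq (10 % 2) 1) rd10_412.v0 = true := by decide +kernel

set_option maxRecDepth 100000 in
theorem rk10_412_1 : chkC2 52 10 43 5 5 3 rd10_412.me rd10_412.mo gs10 [rd10_412.c0, rd10_412.c1]
    rd10_412.v1 = true := by decide +kernel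

set_option maxRecDepth 100000 in
theorem rk10_412_2 : chkC1 52 10 43 5 5 3 rd10_412.me rd10_412.mo gs10 [rd10_412.c0, rd10_412.c1] true
    (Nat.beq (10 % 2) 0) rd10_412.v2 = true := by decide +kernel

/-- run 413 -/
def rd10_413 : CRun :=
  ⟨40, 1532, 40, 55495, 8, 9,
    2582249878086908589655919172003011874329705792989268366450659348312168925859968880375227171678745245336803583943702305190,
    2582249878086908589655919172003011874329705792886031972561482200542991599968704980547005097581141530354159808200509795125,
    2074757784440496479256203931845580575506223116121218449997828664845326405706454073199853524473551897144098948528542027704948355557199641341023023113613882375614131849054196182097274,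
    [366792, 9979788, 217517, 5945755, 65717, 1802835]⟩

set_option maxRecDepth 100000 in
theorem rk10_413_0 : chkC1 52 10 43 5 5 3 rd10_413.me rd10_413.mo gs10 [rd10_413.c0, rd10_413.c1] false
    (Nat.beq (10 % 2) 1) rd10_413.v0 = true := by decide +kernel

set_option maxRecDepth 100000 in
theorem rk10_413_1 : chkC2 52 10 43 5 5 3 rd10_413.me rd10_413.mo gs10 [rd10_413.c0, rd10_413.c1]
    rd10_413.v1 = true := by decide +kernel

set_option maxRecDepth 100000 in
theorem rk10_413_2 : chkC1 52 10 43 5 5 3 rd10_413.me rd10_413.mo gs10 [rd10_413.c0, rd10_413.c1] true
    (Nat.beq (10 % 2) 0) rd10_413.v2 = true := by decide +kernel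

/-- run 414 -/
def rd10_414 : CRun :=
  ⟨40, 1556, 40, 55497, 8, 9,
    2582249878086908589655919172003011874329705794172467457254801675191694665534576970881188610382370522174660419050169230466,
    2582249878086908589655919172003011874329705793334796659614780593286910130137191754598279378153252549826970495554825608447,
    2074757784440496479256203931845580575506223116121218449997828664845326405706454073199853524473551897144099007411940526330078710423551193935878805185939687778022606005908058914472363,
    [356763, 28911983, 215936, 17737501, 70872, 6316126]⟩

set_option maxRecDepth 100000 in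
theorem rk10_414_0 : chkC1 52 10 43 5 5 3 rd10_414.me rd10_414.mo gs10 [rd10_414.c0, rd10_414.c1] false
    (Nat.beq (10 % 2) 1) rd10_414.v0 = true := by decide +kernel

set_option maxRecDepth 100000 in
theorem rk10_414_1 : chkC2 52 10 43 5 5 3 rd10_414.me rd10_414.mo gs10 [rd10_414.c0, rd10_414.c1]
    rd10_414.v1 = true := by decide +kernel

set_option maxRecDepth 100000 in
theorem rk10_414_2 : chkC1 52 10 43 5 5 3 rd10_414.me rd10_414.mo gs10 [rd10_414.c0, rd10_414.c1] true
    (Nat.beq (10 % 2) 0) rd10_414.v2 = true := by decide +kernel

/-- run 415 -/
def rd10_415 : CRun :=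
  ⟨40, 1562, 40, 55503, 8, 9,
    2582249878086908589655919172003011874329705795062919970130513550602455897716111340257447235983831908384599451862573742012,
    2582249878086908589655919172003011874329705793727078504146233403139712038883954773631259698091869288580792850648223175130,
    2074757784440496479256203931845580575506223116121218449997828664845326405706454073199853524473551897144099086282978864478587067566359600540568039988754047259351642060659627992477095,
    [651833, 37283143, 387345, 23637609, 117853, 9432657]⟩

set_option maxRecDepth 100000 in
theorem rk10_415_0 : chkC1 52 10 43 5 5 3 rd10_415.me rd10_415.mo gs10 [rd10_415.c0, rd10_415.c1] false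
    (Nat.beq (10 % 2) 1) rd10_415.v0 = true := by decide +kernel

set_option maxRecDepth 100000 in
theorem rk10_415_1 : chkC2 52 10 43 5 5 3 rd10_415.me rd10_415.mo gs10 [rd10_415.c0, rd10_415.c1]
    rd10_415.v1 = true := by decide +kernel

set_option maxRecDepth 100000 in
theorem rk10_415_2 : chkC1 52 10 43 5 5 3 rd10_415.me rd10_415.mo gs10 [rd10_415.c0, rd10_415.c1] true
    (Nat.beq (10 % 2) 0) rd10_415.v2 = true := by decide +kernel

/-- runs of this file -/
def rds10_51 : List CRun :=
  [rd10_408, rd10_409, rd10_410, rd10_411, rd10_412, rd10_413, rd10_414, rd10_415]

theorem ac10_51 : allC 52 10 43 5 5 3 gs10 rds10_51 :=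
  allC_cons rk10_408_0 rk10_408_1 rk10_408_2
    (allC_cons rk10_409_0 rk10_409_1 rk10_409_2
    (allC_cons rk10_410_0 rk10_410_1 rk10_410_2
    (allC_cons rk10_411_0 rk10_411_1 rk10_411_2
    (allC_cons rk10_412_0 rk10_412_1 rk10_412_2
    (allC_cons rk10_413_0 rk10_413_1 rk10_413_2
    (allC_cons rk10_414_0 rk10_414_1 rk10_414_2
    (allC_cons rk10_415_0 rk10_415_1 rk10_415_2
    (allC_nil))))))))

end Crest.Agent.R347
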