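import Crest.Agent.R347.G10c

/-! Row 347, Chebyshev numerics, ring with 10 sites: run certificates 416..423 (generated) -/

set_option autoImplicit false
set_option Elab.async false

namespace Crest.Agent.R347

/-- run 416 -/
def rd10_416 : CRun :=
  ⟨40, 1574, 40, 55515, 8, 9,
    2582249878086908589655919172003011874329705794665566950525872341819704179338759845887016888426640549626498499185415030619,
    2582249878086908589655919172003011874329705793539357605936226372612408149754463771471852419079152451048401437651441219855,
    2074757784440496479256203931845580575506223116121218449997828664845326405706454073199853524473551897144099043932395004549209311627328189902058438022639839685262830503357130608229906,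
    [782359, 33804724, 469386, 21021835, 148817, 7913292]⟩

set_option maxRecDepth 100000 in
theorem rk10_416_0 : chkC1 52 10 43 5 5 3 rd10_416.me rd10_416.mo gs10 [rd10_416.c0, rd10_416.c1] false
    (Nat.beq (10 % 2) 1) rd10_416.v0 = true := by decide +kernel

set_option maxRecDepth 100000 in
theorem rk10_416_1 : chkC2 52 10 43 5 5 3 rd10_416.me rd10_416.mo gs10 [rd10_416.c0, rd10_416.c1]
    rd10_416.v1 = true := by decide +kernel

set_option maxRecDepth 100000 in
theorem rk10_416_2 : chkC1 52 10 43 5 5 3 rd10_416.me rd10_416.mo gs10 [rd10_416.c0, rd10_416.c1] true
    (Nat.beq (10 % 2) 0) rd10_416.v2 = true := by decide +kernel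

/-- run 417 -/
def rd10_417 : CRun :=
  ⟨40, 1580, 40, 55677, 8, 9,
    2582249878086908589655919172003011874329705793604742520934770144092962157432221034760986625492824928034962566282295790196,
    2582249878086908589655919172003011874329705793139165553743978808411276340277171526963386731193956511036219087555833175974,
    2074757784440496479256203931845580575506223116121218449997828664845326405706454073199853524473551897144098993556981558431835997822036313499676722393035907098006542905495988617802912,
    [1448713, 21968311, 860624, 13888032, 260687, 5592091]⟩

set_option maxRecDepth 100000 in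
theorem rk10_417_0 : chkC1 52 10 43 5 5 3 rd10_417.me rd10_417.mo gs10 [rd10_417.c0, rd10_417.c1] false
    (Nat.beq (10 % 2) 1) rd10_417.v0 = true := by decide +kernel

set_option maxRecDepth 100000 in
theorem rk10_417_1 : chkC2 52 10 43 5 5 3 rd10_417.me rd10_417.mo gs10 [rd10_417.c0, rd10_417.c1]
    rd10_417.v1 = true := by decide +kernel

set_option maxRecDepth 100000 in
theorem rk10_417_2 : chkC1 52 10 43 5 5 3 rd10_417.me rd10_417.mo gs10 [rd10_417.c0, rd10_417.c1] true
    (Nat.beq (10 % 2) 0) rd10_417.v2 = true := by decide +kernel

/-- run 418 -/
def rd10_418 : CRun :=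
  ⟨40, 1586, 40, 56169, 8, 9,
    2582249878086908589655919172003011874329705792880058835294239994096343145631384429560491319512346424704998944635849243000,
    2582249878086908589655919172003011874329705792849410022133411073844160977348468555891704690124221836306721996718482781795,
    2074757784440496479256203931845580575506223116121218449997828664845326405706454073199853524473551897144098946573227064941086778914440548846278931422986257529109668738670572607494534,
    [1549394, 5624491, 942073, 3544305, 311145, 1425980]⟩

set_option maxRecDepth 100000 in
theorem rk10_418_0 : chkC1 52 10 43 5 5 3 rd10_418.me rd10_418.mo gs10 [rd10_418.c0, rd10_418.c1] false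
    (Nat.beq (10 % 2) 1) rd10_418.v0 = true := by decide +kernel

set_option maxRecDepth 100000 in
theorem rk10_418_1 : chkC2 52 10 43 5 5 3 rd10_418.me rd10_418.mo gs10 [rd10_418.c0, rd10_418.c1]
    rd10_418.v1 = true := by decide +kernel

set_option maxRecDepth 100000 in
theorem rk10_418_2 : chkC1 52 10 43 5 5 3 rd10_418.me rd10_418.mo gs10 [rd10_418.c0, rd10_418.c1] true
    (Nat.beq (10 % 2) 0) rd10_418.v2 = true := by decide +kernel

/-- run 419 -/
def rd10_419 : CRun :=
  ⟨40, 1598, 20, 56979, 8, 9,
    2582249878086908589655919172003011874329705792895924650184275862648873906396518642836698921134400210727111441291798433351,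
    2582249878086908589655919172003011874329705792855724098600272153898084985920174740330983830690273981272840712142369825987,
    2074757784440496479256203931845580575506223116121218449997828664845326405706454073199853524473551897144098947542643162290512483529431703796371932463592940717706106325862529426825135,
    [1153759, 6442688, 695726, 4060955, 222612, 1623788]⟩

set_option maxRecDepth 100000 in
theorem rk10_419_0 : chkC1 52 10 43 5 5 3 rd10_419.me rd10_419.mo gs10 [rd10_419.c0, rd10_419.c1] false
    (Nat.beq (10 % 2) 1) rd10_419.v0 = true := by decide +kernel

set_option maxRecDepth 100000 in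
theorem rk10_419_1 : chkC2 52 10 43 5 5 3 rd10_419.me rd10_419.mo gs10 [rd10_419.c0, rd10_419.c1]
    rd10_419.v1 = true := by decide +kernel

set_option maxRecDepth 100000 in
theorem rk10_419_2 : chkC1 52 10 43 5 5 3 rd10_419.me rd10_419.mo gs10 [rd10_419.c0, rd10_419.c1] true
    (Nat.beq (10 % 2) 0) rd10_419.v2 = true := by decide +kernel

/-- run 420 -/
def rd10_420 : CRun :=
  ⟨20, 1604, 40, 57033, 8, 9,
    2582249878086908589655919172003011874329705792895099331617562454312093645680681695376041700133251867578215982950366615074,
    2582249878086908589655919172003011874329705792856087751214351514058251968310896902729958907251100864459913122339102057074,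
    2074757784440496479256203931845580575506223116121218449997828664845326405706454073199853524473551897144098947925143395203023313035903813409608967708011560270163264880910863975875103,
    [973478, 6402705, 591797, 4088724, 195370, 1695500]⟩

set_option maxRecDepth 100000 in
theorem rk10_420_0 : chkC1 52 10 43 5 5 3 rd10_420.me rd10_420.mo gs10 [rd10_420.c0, rd10_420.c1] false
    (Nat.beq (10 % 2) 1) rd10_420.v0 = true := by decide +kernel

set_option maxRecDepth 100000 in
theorem rk10_420_1 : chkC2 52 10 43 5 5 3 rd10_420.me rd10_420.mo gs10 [rd10_420.c0, rd10_420.c1]
    rd10_420.v1 = true := by decide +kernel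

set_option maxRecDepth 100000 in
theorem rk10_420_2 : chkC1 52 10 43 5 5 3 rd10_420.me rd10_420.mo gs10 [rd10_420.c0, rd10_420.c1] true
    (Nat.beq (10 % 2) 0) rd10_420.v2 = true := by decide +kernel

/-- run 421 -/
def rd10_421 : CRun :=
  ⟨40, 1628, 40, 57123, 8, 9,
    2582249878086908589655919172003011874329705792861054631270977930151309700733483519965183740757353791697421312152036987948,
    2582249878086908589655919172003011874329705792842156042201543505758503716159367690282598058509841730980009208874404761655,
    2074757784440496479256203931845580575506223116121218449997828664845326405706454073199853524473551897144098945542853815654476901110383136376274952988423382046252741506228888016606940,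
    [778740, 4450681, 470162, 2836888, 151786, 1179922]⟩

set_option maxRecDepth 100000 in
theorem rk10_421_0 : chkC1 52 10 43 5 5 3 rd10_421.me rd10_421.mo gs10 [rd10_421.c0, rd10_421.c1] false
    (Nat.beq (10 % 2) 1) rd10_421.v0 = true := by decide +kernel

set_option maxRecDepth 100000 in
theorem rk10_421_1 : chkC2 52 10 43 5 5 3 rd10_421.me rd10_421.mo gs10 [rd10_421.c0, rd10_421.c1]
    rd10_421.v1 = true := by decide +kernel

set_option maxRecDepth 100000 in
theorem rk10_421_2 : chkC1 52 10 43 5 5 3 rd10_421.me rd10_421.mo gs10 [rd10_421.c0, rd10_421.c1] true
    (Nat.beq (10 % 2) 0) rd10_421.v2 = true := by decide +kernel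

/-- run 422 -/
def rd10_422 : CRun :=
  ⟨40, 1634, 20, 57135, 8, 9,
    2582249878086908589655919172003011874329705792865120372671768134335363678789023121931828873611505834512198842270118132269,
    2582249878086908589655919172003011874329705792843538622160392191505346351289172219653846835852111473837554934842762498844,
    2074757784440496479256203931845580575506223116121218449997828664845326405706454073199853524473551897144098945683526262059088401368315252185836993608927761970122154083633563481074346,
    [2072799, 4726381, 1255376, 2984680, 407444, 1216453]⟩

set_option maxRecDepth 100000 in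
theorem rk10_422_0 : chkC1 52 10 43 5 5 3 rd10_422.me rd10_422.mo gs10 [rd10_422.c0, rd10_422.c1] false
    (Nat.beq (10 % 2) 1) rd10_422.v0 = true := by decide +kernel

set_option maxRecDepth 100000 in
theorem rk10_422_1 : chkC2 52 10 43 5 5 3 rd10_422.me rd10_422.mo gs10 [rd10_422.c0, rd10_422.c1]
    rd10_422.v1 = true := by decide +kernel

set_option maxRecDepth 100000 in
theorem rk10_422_2 : chkC1 52 10 43 5 5 3 rd10_422.me rd10_422.mo gs10 [rd10_422.c0, rd10_422.c1] true
    (Nat.beq (10 % 2) 0) rd10_422.v2 = true := by decide +kernel

/-- run 423 -/
def rd10_423 : CRun :=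
  ⟨20, 1640, 40, 57141, 8, 9,
    2582249878086908589655919172003011874329705792884769310634155122706483864516339755973108594061713645003755542239427856160,
    2582249878086908589655919172003011874329705792851132302220022674297417434923553938374890508309373623695378419018996548882,
    2074757784440496479256203931845580575506223116121218449997828664845326405706454073199853524473551897144098946755483682644558186460613857895891149932086558085219050491275608341792638,
    [3432972, 5879306, 2120164, 3692408, 735314, 1465209]⟩

set_option maxRecDepth 100000 in
theorem rk10_423_0 : chkC1 52 10 43 5 5 3 rd10_423.me rd10_423.mo gs10 [rd10_423.c0, rd10_423.c1] false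
    (Nat.beq (10 % 2) 1) rd10_423.v0 = true := by decide +kernel

set_option maxRecDepth 100000 in
theorem rk10_423_1 : chkC2 52 10 43 5 5 3 rd10_423.me rd10_423.mo gs10 [rd10_423.c0, rd10_423.c1]
    rd10_423.v1 = true := by decide +kernel

set_option maxRecDepth 100000 in
theorem rk10_423_2 : chkC1 52 10 43 5 5 3 rd10_423.me rd10_423.mo gs10 [rd10_423.c0, rd10_423.c1] true
    (Nat.beq (10 % 2) 0) rd10_423.v2 = true := by decide +kernel

/-- runs of this file -/
def rds10_52 : List CRun :=
  [rd10_416, rd10_417, rd10_418, rd10_419, rd10_420, rd10_421, rd10_422, rd10_423]

theorem ac10_52 : allC 52 10 43 5 5 3 gs10 rds10_52 :=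
  allC_cons rk10_416_0 rk10_416_1 rk10_416_2
    (allC_cons rk10_417_0 rk10_417_1 rk10_417_2
    (allC_cons rk10_418_0 rk10_418_1 rk10_418_2
    (allC_cons rk10_419_0 rk10_419_1 rk10_419_2
    (allC_cons rk10_420_0 rk10_420_1 rk10_420_2
    (allC_cons rk10_421_0 rk10_421_1 rk10_421_2
    (allC_cons rk10_422_0 rk10_422_1 rk10_422_2
    (allC_cons rk10_423_0 rk10_423_1 rk10_423_2
    (allC_nil))))))))

end Crest.Agent.R347
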