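import Crest.Agent.R347.G10c

/-! Row 347, Chebyshev numerics, ring with 10 sites: run certificates 424..431 (generated) -/

set_option autoImplicit false
set_option Elab.async false

namespace Crest.Agent.R347

/-- run 424 -/
def rd10_424 : CRun :=
  ⟨40, 1652, 40, 57189, 8, 9,
    2582249878086908589655919172003011874329705792843944221241925785129932932351551310095853249515628479831122853327502553661,
    2582249878086908589655919172003011874329705792835067039404379817543874668850310197336291222082469968956282503645704179723,
    2074757784440496479256203931845580575506223116121218449997828664845326405706454073199853524473551897144098944267859246035320717939928641238128168149262943680707686857113910779114852,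
    [1248899, 3026669, 753903, 1906945, 242250, 773812]⟩

set_option maxRecDepth 100000 in
theorem rk10_424_0 : chkC1 52 10 43 5 5 3 rd10_424.me rd10_424.mo gs10 [rd10_424.c0, rd10_424.c1] false
    (Nat.beq (10 % 2) 1) rd10_424.v0 = true := by decide +kernel

set_option maxRecDepth 100000 in
theorem rk10_424_1 : chkC2 52 10 43 5 5 3 rd10_424.me rd10_424.mo gs10 [rd10_424.c0, rd10_424.c1]
    rd10_424.v1 = true := by decide +kernel

set_option maxRecDepth 100000 in
theorem rk10_424_2 : chkC1 52 10 43 5 5 3 rd10_424.me rd10_424.mo gs10 [rd10_424.c0, rd10_424.c1] true
    (Nat.beq (10 % 2) 0) rd10_424.v2 = true := by decide +kernel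

/-- run 425 -/
def rd10_425 : CRun :=
  ⟨40, 1718, 40, 57195, 8, 9,
    2582249878086908589655919172003011874329705792864827943235023208790868298029423030889713806287826698460319175880400732357,
    2582249878086908589655919172003011874329705792843083138607188668795206253021842831062924427073864308344333112423572508112,
    2074757784440496479256203931845580575506223116121218449997828664845326405706454073199853524473551897144098945392445700876121151418810203359845525596751313754059901981315176856706499,
    [191337, 4707090, 114409, 2936813, 35959, 1139569]⟩

set_option maxRecDepth 100000 in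
theorem rk10_425_0 : chkC1 52 10 43 5 5 3 rd10_425.me rd10_425.mo gs10 [rd10_425.c0, rd10_425.c1] false
    (Nat.beq (10 % 2) 1) rd10_425.v0 = true := by decide +kernel

set_option maxRecDepth 100000 in
theorem rk10_425_1 : chkC2 52 10 43 5 5 3 rd10_425.me rd10_425.mo gs10 [rd10_425.c0, rd10_425.c1]
    rd10_425.v1 = true := by decide +kernel

set_option maxRecDepth 100000 in
theorem rk10_425_2 : chkC1 52 10 43 5 5 3 rd10_425.me rd10_425.mo gs10 [rd10_425.c0, rd10_425.c1] true
    (Nat.beq (10 % 2) 0) rd10_425.v2 = true := by decide +kernel

/-- run 426 -/
def rd10_426 : CRun :=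
  ⟨40, 1724, 40, 57357, 8, 9,
    2582249878086908589655919172003011874329705792834137751106391319597810381344460715804281779867880239312154985828134940244,
    2582249878086908589655919172003011874329705792830968928634205832336203950281241443218093717997482072240895302101597344879,
    2074757784440496479256203931845580575506223116121218449997828664845326405706454073199853524473551897144098943482161033741923113258839517123411292809128239181326938488932388689847693,
    [387034, 1748754, 227361, 1042198, 66072, 331426]⟩

set_option maxRecDepth 100000 in
theorem rk10_426_0 : chkC1 52 10 43 5 5 3 rd10_426.me rd10_426.mo gs10 [rd10_426.c0, rd10_426.c1] false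
    (Nat.beq (10 % 2) 1) rd10_426.v0 = true := by decide +kernel

set_option maxRecDepth 100000 in
theorem rk10_426_1 : chkC2 52 10 43 5 5 3 rd10_426.me rd10_426.mo gs10 [rd10_426.c0, rd10_426.c1]
    rd10_426.v1 = true := by decide +kernel

set_option maxRecDepth 100000 in
theorem rk10_426_2 : chkC1 52 10 43 5 5 3 rd10_426.me rd10_426.mo gs10 [rd10_426.c0, rd10_426.c1] true
    (Nat.beq (10 % 2) 0) rd10_426.v2 = true := by decide +kernel

/-- run 427 -/
def rd10_427 : CRun :=
  ⟨40, 1736, 20, 57619, 8, 9,
    2582249878086908589655919172003011874329705792829357239421333262491178766302613365747122158122089571709140076867635923663,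
    2582249878086908589655919172003011874329705792829276030748875416004493249695555982531514874519008055417077467212460849316,
    2074757784440496479256203931845580575506223116121218449997828664845326405706454073199853524473551897144098943314262184128442516621647163995891844394102998633850328799631759660258772,
    [509496, 288476, 302515, 180782, 92142, 73207]⟩

set_option maxRecDepth 100000 in
theorem rk10_427_0 : chkC1 52 10 43 5 5 3 rd10_427.me rd10_427.mo gs10 [rd10_427.c0, rd10_427.c1] false
    (Nat.beq (10 % 2) 1) rd10_427.v0 = true := by decide +kernel

set_option maxRecDepth 100000 in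
theorem rk10_427_1 : chkC2 52 10 43 5 5 3 rd10_427.me rd10_427.mo gs10 [rd10_427.c0, rd10_427.c1]
    rd10_427.v1 = true := by decide +kernel

set_option maxRecDepth 100000 in
theorem rk10_427_2 : chkC1 52 10 43 5 5 3 rd10_427.me rd10_427.mo gs10 [rd10_427.c0, rd10_427.c1] true
    (Nat.beq (10 % 2) 0) rd10_427.v2 = true := by decide +kernel

/-- run 428 -/
def rd10_428 : CRun :=
  ⟨40, 1742, 40, 57621, 8, 9,
    2582249878086908589655919172003011874329705792831504556111359581390053581763134959940801410480868959045217140037836746847,
    2582249878086908589655919172003011874329705792830118419146728064280579880527333089677615697540470935164073578503562088406,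
    2074757784440496479256203931845580575506223116121218449997828664845326405706454073199853524473551897144098943448661785240696526930854433451558753038936120501845811781757333909824825,
    [1122870, 1191427, 664770, 746259, 198695, 298323]⟩

set_option maxRecDepth 100000 in
theorem rk10_428_0 : chkC1 52 10 43 5 5 3 rd10_428.me rd10_428.mo gs10 [rd10_428.c0, rd10_428.c1] false
    (Nat.beq (10 % 2) 1) rd10_428.v0 = true := by decide +kernel

set_option maxRecDepth 100000 in
theorem rk10_428_1 : chkC2 52 10 43 5 5 3 rd10_428.me rd10_428.mo gs10 [rd10_428.c0, rd10_428.c1]
    rd10_428.v1 = true := by decide +kernel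

set_option maxRecDepth 100000 in
theorem rk10_428_2 : chkC1 52 10 43 5 5 3 rd10_428.me rd10_428.mo gs10 [rd10_428.c0, rd10_428.c1] true
    (Nat.beq (10 % 2) 0) rd10_428.v2 = true := by decide +kernel

/-- run 429 -/
def rd10_429 : CRun :=
  ⟨20, 1760, 40, 57627, 8, 9,
    2582249878086908589655919172003011874329705792833234232673476191371901747283862323570824684896021899057438491817937674869,
    2582249878086908589655919172003011874329705792830753557434405299550635134797612822289975402975993129139766203106648159594,
    2074757784440496479256203931845580575506223116121218449997828664845326405706454073199853524473551897144098943520561716555630364655372834118519764147466424520208909039309104540430321,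
    [1372321, 1579835, 826789, 975782, 263315, 365705]⟩

set_option maxRecDepth 100000 in
theorem rk10_429_0 : chkC1 52 10 43 5 5 3 rd10_429.me rd10_429.mo gs10 [rd10_429.c0, rd10_429.c1] false
    (Nat.beq (10 % 2) 1) rd10_429.v0 = true := by decide +kernel

set_option maxRecDepth 100000 in
theorem rk10_429_1 : chkC2 52 10 43 5 5 3 rd10_429.me rd10_429.mo gs10 [rd10_429.c0, rd10_429.c1]
    rd10_429.v1 = true := by decide +kernel

set_option maxRecDepth 100000 in
theorem rk10_429_2 : chkC1 52 10 43 5 5 3 rd10_429.me rd10_429.mo gs10 [rd10_429.c0, rd10_429.c1] true
    (Nat.beq (10 % 2) 0) rd10_429.v2 = true := by decide +kernel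

/-- run 430 -/
def rd10_430 : CRun :=
  ⟨40, 1790, 40, 57645, 8, 9,
    2582249878086908589655919172003011874329705792831926462237618104318982460324655495012220257564835951187373069346888902078,
    2582249878086908589655919172003011874329705792830242166104592624948514526779241490982633729668005747380279299338334701473,
    2074757784440496479256203931845580575506223116121218449997828664845326405706454073199853524473551897144098943434128992476754673919445184486172992930897709679827440246917259695817266,
    [409095, 1296939, 241413, 796185, 71749, 282759]⟩

set_option maxRecDepth 100000 in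
theorem rk10_430_0 : chkC1 52 10 43 5 5 3 rd10_430.me rd10_430.mo gs10 [rd10_430.c0, rd10_430.c1] false
    (Nat.beq (10 % 2) 1) rd10_430.v0 = true := by decide +kernel

set_option maxRecDepth 100000 in
theorem rk10_430_1 : chkC2 52 10 43 5 5 3 rd10_430.me rd10_430.mo gs10 [rd10_430.c0, rd10_430.c1]
    rd10_430.v1 = true := by decide +kernel

set_option maxRecDepth 100000 in
theorem rk10_430_2 : chkC1 52 10 43 5 5 3 rd10_430.me rd10_430.mo gs10 [rd10_430.c0, rd10_430.c1] true
    (Nat.beq (10 % 2) 0) rd10_430.v2 = true := by decide +kernel

/-- run 431 -/
def rd10_431 : CRun :=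
  ⟨20, 1796, 40, 57675, 8, 9,
    2582249878086908589655919172003011874329705792830570670398043857504750022425297034436349172864334560551627682583706862598,
    2582249878086908589655919172003011874329705792829737673756430009213695059203675205880082778894603340278897055873356193918,
    2074757784440496479256203931845580575506223116121218449997828664845326405706454073199853524473551897144098943379827567413221316612465618506788938528969876982267498967190156504127719,
    [1223092, 915609, 726104, 565653, 219360, 214851]⟩

set_option maxRecDepth 100000 in
theorem rk10_431_0 : chkC1 52 10 43 5 5 3 rd10_431.me rd10_431.mo gs10 [rd10_431.c0, rd10_431.c1] false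
    (Nat.beq (10 % 2) 1) rd10_431.v0 = true := by decide +kernel

set_option maxRecDepth 100000 in
theorem rk10_431_1 : chkC2 52 10 43 5 5 3 rd10_431.me rd10_431.mo gs10 [rd10_431.c0, rd10_431.c1]
    rd10_431.v1 = true := by decide +kernel

set_option maxRecDepth 100000 in
theorem rk10_431_2 : chkC1 52 10 43 5 5 3 rd10_431.me rd10_431.mo gs10 [rd10_431.c0, rd10_431.c1] true
    (Nat.beq (10 % 2) 0) rd10_431.v2 = true := by decide +kernel

/-- runs of this file -/
def rds10_53 : List CRun :=
  [rd10_424, rd10_425, rd10_426, rd10_427, rd10_428, rd10_429, rd10_430, rd10_431]

theorem ac10_53 : allC 52 10 43 5 5 3 gs10 rds10_53 :=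
  allC_cons rk10_424_0 rk10_424_1 rk10_424_2
    (allC_cons rk10_425_0 rk10_425_1 rk10_425_2
    (allC_cons rk10_426_0 rk10_426_1 rk10_426_2
    (allC_cons rk10_427_0 rk10_427_1 rk10_427_2
    (allC_cons rk10_428_0 rk10_428_1 rk10_428_2
    (allC_cons rk10_429_0 rk10_429_1 rk10_429_2
    (allC_cons rk10_430_0 rk10_430_1 rk10_430_2
    (allC_cons rk10_431_0 rk10_431_1 rk10_431_2
    (allC_nil))))))))

end Crest.Agent.R347
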