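import Crest.Agent.R347.G10c

/-! Row 347, Chebyshev numerics, ring with 10 sites: run certificates 432..439 (generated) -/

set_option autoImplicit false
set_option Elab.async false

namespace Crest.Agent.R347

/-- run 432 -/
def rd10_432 : CRun :=
  ⟨10, 1952, 40, 57681, 8, 9,
    2582249878086908589655919172003011874329705792832967062654487994574365459924217180968889479854883051869161625358928900145,
    2582249878086908589655919172003011874329705792830604599107435130074700617566796963152702854769076672207806771012110577209,
    2074757784440496479256203931845580575506223116121218449997828664845326405706454073199853524473551897144098943471155938550587131336960329955898928280888170777310551358358917763794058,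
    [112098, 1526309, 64737, 927067, 17565, 320928]⟩

set_option maxRecDepth 100000 in
theorem rk10_432_0 : chkC1 52 10 43 5 5 3 rd10_432.me rd10_432.mo gs10 [rd10_432.c0, rd10_432.c1] false
    (Nat.beq (10 % 2) 1) rd10_432.v0 = true := by decide +kernel

set_option maxRecDepth 100000 in
theorem rk10_432_1 : chkC2 52 10 43 5 5 3 rd10_432.me rd10_432.mo gs10 [rd10_432.c0, rd10_432.c1]
    rd10_432.v1 = true := by decide +kernel

set_option maxRecDepth 100000 in
theorem rk10_432_2 : chkC1 52 10 43 5 5 3 rd10_432.me rd10_432.mo gs10 [rd10_432.c0, rd10_432.c1] true
    (Nat.beq (10 % 2) 0) rd10_432.v2 = true := by decide +kernel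

/-- run 433 -/
def rd10_433 : CRun :=
  ⟨40, 2312, 40, 57843, 8, 9,
    2582249878086908589655919172003011874329705792829767471291851412309742532914511337797063370679610047135285025122585800912,
    2582249878086908589655919172003011874329705792829411808303132105688839584374202817017816079058062830071324078383936250791,
    2074757784440496479256203931845580575506223116121218449997828664845326405706454073199853524473551897144098943320985697787303505782899068067768910367946886387644071617215855248626936,
    [120321, 581813, 73202, 342311, 24600, 97690]⟩

set_option maxRecDepth 100000 in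
theorem rk10_433_0 : chkC1 52 10 43 5 5 3 rd10_433.me rd10_433.mo gs10 [rd10_433.c0, rd10_433.c1] false
    (Nat.beq (10 % 2) 1) rd10_433.v0 = true := by decide +kernel

set_option maxRecDepth 100000 in
theorem rk10_433_1 : chkC2 52 10 43 5 5 3 rd10_433.me rd10_433.mo gs10 [rd10_433.c0, rd10_433.c1]
    rd10_433.v1 = true := by decide +kernel

set_option maxRecDepth 100000 in
theorem rk10_433_2 : chkC1 52 10 43 5 5 3 rd10_433.me rd10_433.mo gs10 [rd10_433.c0, rd10_433.c1] true
    (Nat.beq (10 % 2) 0) rd10_433.v2 = true := by decide +kernel

/-- run 434 -/
def rd10_434 : CRun :=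
  ⟨40, 2318, 40, 58347, 8, 9,
    2582249878086908589655919172003011874329705792829231015322662886823999077340989365211490474545936880371018880192134581082,
    2582249878086908589655919172003011874329705792829226023591371383936050433348060398474115108006978007440157382589301891412,
    2074757784440496479256203931845580575506223116121218449997828664845326405706454073199853524473551897144098943305798129939569721102325765019553454355224568728979405160359902901832134,
    [149569, 68329, 89498, 39528, 28307, 9589]⟩

set_option maxRecDepth 100000 in
theorem rk10_434_0 : chkC1 52 10 43 5 5 3 rd10_434.me rd10_434.mo gs10 [rd10_434.c0, rd10_434.c1] false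
    (Nat.beq (10 % 2) 1) rd10_434.v0 = true := by decide +kernel

set_option maxRecDepth 100000 in
theorem rk10_434_1 : chkC2 52 10 43 5 5 3 rd10_434.me rd10_434.mo gs10 [rd10_434.c0, rd10_434.c1]
    rd10_434.v1 = true := by decide +kernel

set_option maxRecDepth 100000 in
theorem rk10_434_2 : chkC1 52 10 43 5 5 3 rd10_434.me rd10_434.mo gs10 [rd10_434.c0, rd10_434.c1] true
    (Nat.beq (10 % 2) 0) rd10_434.v2 = true := by decide +kernel

/-- run 435 -/
def rd10_435 : CRun :=
  ⟨40, 2320, 40, 53, 8, 7,
    2582249878086908589655919172003011874329705792829223513386404416705221077900548906607005368899019037008738028928309638755,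
    2582249878086908589655919172003011874329705792829223513401858339876859787380435956049050329647475063199947147624024086669,
    2074757784440496479256203931845580575506223116121218449997828664845326405706454073199853524473551897144098943305650992434820623608189010009978309930850461601410194858164407510400090,
    [45815, 589, 26835, 597, 7742, 610]⟩

set_option maxRecDepth 100000 in
theorem rk10_435_0 : chkC1 52 10 43 5 5 3 rd10_435.me rd10_435.mo gs10 [rd10_435.c0, rd10_435.c1] false
    (Nat.beq (10 % 2) 1) rd10_435.v0 = true := by decide +kernel

set_option maxRecDepth 100000 in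
theorem rk10_435_1 : chkC2 52 10 43 5 5 3 rd10_435.me rd10_435.mo gs10 [rd10_435.c0, rd10_435.c1]
    rd10_435.v1 = true := by decide +kernel

set_option maxRecDepth 100000 in
theorem rk10_435_2 : chkC1 52 10 43 5 5 3 rd10_435.me rd10_435.mo gs10 [rd10_435.c0, rd10_435.c1] true
    (Nat.beq (10 % 2) 0) rd10_435.v2 = true := by decide +kernel

/-- run 436 -/
def rd10_436 : CRun :=
  ⟨40, 2330, 40, 71, 8, 7,
    2582249878086908589655919172003011874329705792829223513433264337013857493325628063181766011551168998510438050842935701511,
    2582249878086908589655919172003011874329705792829223513477206057834119582410323016596835102917138639375428520894912476627,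
    2074757784440496479256203931845580575506223116121218449997828664845326405706454073199853524473551897144098943305651032812352861703837663552859804187243175176804819638399981968757613,
    [215643, 613, 131005, 635, 43597, 631]⟩

set_option maxRecDepth 100000 in
theorem rk10_436_0 : chkC1 52 10 43 5 5 3 rd10_436.me rd10_436.mo gs10 [rd10_436.c0, rd10_436.c1] false
    (Nat.beq (10 % 2) 1) rd10_436.v0 = true := by decide +kernel

set_option maxRecDepth 100000 in
theorem rk10_436_1 : chkC2 52 10 43 5 5 3 rd10_436.me rd10_436.mo gs10 [rd10_436.c0, rd10_436.c1]
    rd10_436.v1 = true := by decide +kernel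

set_option maxRecDepth 100000 in
theorem rk10_436_2 : chkC1 52 10 43 5 5 3 rd10_436.me rd10_436.mo gs10 [rd10_436.c0, rd10_436.c1] true
    (Nat.beq (10 % 2) 0) rd10_436.v2 = true := by decide +kernel

/-- run 437 -/
def rd10_437 : CRun :=
  ⟨40, 2336, 40, 107, 8, 7,
    2582249878086908589655919172003011874329705792829223513438461174648991067876730768588397331407725802992331602869049120736,
    2582249878086908589655919172003011874329705792829223513464879236096608868006640625386486044593190820210120717052942378402,
    2074757784440496479256203931845580575506223116121218449997828664845326405706454073199853524473551897144098943305651011869129330876417402414467854704870976504933201667260958797993599,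
    [207968, 616, 121611, 629, 34824, 620]⟩

set_option maxRecDepth 100000 in
theorem rk10_437_0 : chkC1 52 10 43 5 5 3 rd10_437.me rd10_437.mo gs10 [rd10_437.c0, rd10_437.c1] false
    (Nat.beq (10 % 2) 1) rd10_437.v0 = true := by decide +kernel

set_option maxRecDepth 100000 in
theorem rk10_437_1 : chkC2 52 10 43 5 5 3 rd10_437.me rd10_437.mo gs10 [rd10_437.c0, rd10_437.c1]
    rd10_437.v1 = true := by decide +kernel

set_option maxRecDepth 100000 in
theorem rk10_437_2 : chkC1 52 10 43 5 5 3 rd10_437.me rd10_437.mo gs10 [rd10_437.c0, rd10_437.c1] true
    (Nat.beq (10 % 2) 0) rd10_437.v2 = true := by decide +kernel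

/-- run 438 -/
def rd10_438 : CRun :=
  ⟨20, 2338, 40, 125, 8, 7,
    2582249878086908589655919172003011874329705792829223513440884437219733625212248047423647804612329285106956054427890053321,
    2582249878086908589655919172003011874329705792829223513492110408194621717215974715003299386055532072142763924427336411827,
    2074757784440496479256203931845580575506223116121218449997828664845326405706454073199853524473551897144098943305651072690127368034940341402191087725534319367794313352186981065930444,
    [80355, 617, 46540, 642, 12604, 650]⟩

set_option maxRecDepth 100000 in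
theorem rk10_438_0 : chkC1 52 10 43 5 5 3 rd10_438.me rd10_438.mo gs10 [rd10_438.c0, rd10_438.c1] false
    (Nat.beq (10 % 2) 1) rd10_438.v0 = true := by decide +kernel

set_option maxRecDepth 100000 in
theorem rk10_438_1 : chkC2 52 10 43 5 5 3 rd10_438.me rd10_438.mo gs10 [rd10_438.c0, rd10_438.c1]
    rd10_438.v1 = true := by decide +kernel

set_option maxRecDepth 100000 in
theorem rk10_438_2 : chkC1 52 10 43 5 5 3 rd10_438.me rd10_438.mo gs10 [rd10_438.c0, rd10_438.c1] true
    (Nat.beq (10 % 2) 0) rd10_438.v2 = true := by decide +kernel

/-- run 439 -/
def rd10_439 : CRun :=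
  ⟨40, 2342, 40, 131, 8, 7,
    2582249878086908589655919172003011874329705792829223513479436487839551060912775259981004636609439457130799037348704877966,
    2582249878086908589655919172003011874329705792829223513527205935081238064833811167100030377294616985526980119953391172095,
    2074757784440496479256203931845580575506223116121218449997828664845326405706454073199853524473551897144098943305651050213884942984443357396767302149692997889741039312263593943474453,
    [124726, 636, 72379, 659, 19919, 639]⟩

set_option maxRecDepth 100000 in
theorem rk10_439_0 : chkC1 52 10 43 5 5 3 rd10_439.me rd10_439.mo gs10 [rd10_439.c0, rd10_439.c1] false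
    (Nat.beq (10 % 2) 1) rd10_439.v0 = true := by decide +kernel

set_option maxRecDepth 100000 in
theorem rk10_439_1 : chkC2 52 10 43 5 5 3 rd10_439.me rd10_439.mo gs10 [rd10_439.c0, rd10_439.c1]
    rd10_439.v1 = true := by decide +kernel

set_option maxRecDepth 100000 in
theorem rk10_439_2 : chkC1 52 10 43 5 5 3 rd10_439.me rd10_439.mo gs10 [rd10_439.c0, rd10_439.c1] true
    (Nat.beq (10 % 2) 0) rd10_439.v2 = true := by decide +kernel

/-- runs of this file -/
def rds10_54 : List CRun :=
  [rd10_432, rd10_433, rd10_434, rd10_435, rd10_436, rd10_437, rd10_438, rd10_439]

theorem ac10_54 : allC 52 10 43 5 5 3 gs10 rds10_54 :=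
  allC_cons rk10_432_0 rk10_432_1 rk10_432_2
    (allC_cons rk10_433_0 rk10_433_1 rk10_433_2
    (allC_cons rk10_434_0 rk10_434_1 rk10_434_2
    (allC_cons rk10_435_0 rk10_435_1 rk10_435_2
    (allC_cons rk10_436_0 rk10_436_1 rk10_436_2
    (allC_cons rk10_437_0 rk10_437_1 rk10_437_2
    (allC_cons rk10_438_0 rk10_438_1 rk10_438_2
    (allC_cons rk10_439_0 rk10_439_1 rk10_439_2
    (allC_nil))))))))

end Crest.Agent.R347
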