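import Crest.Agent.R347.G10c

/-! Row 347, Chebyshev numerics, ring with 10 sites: run certificates 440..447 (generated) -/

set_option autoImplicit false
set_option Elab.async false

namespace Crest.Agent.R347

/-- run 440 -/
def rd10_440 : CRun :=
  ⟨40, 2366, 40, 133, 8, 7,
    2582249878086908589655919172003011874329705792829223513415684434809664139711198997891553692679576097758454297224278918038,
    2582249878086908589655919172003011874329705792829223513456720811645905974377714083843669962060185595610685477830067985235,
    2074757784440496479256203931845580575506223116121218449997828664845326405706454073199853524473551897144098943305651016386232173288439066962923296275879052194845817190691619379323053,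
    [214574, 604, 129383, 625, 41975, 623]⟩

set_option maxRecDepth 100000 in
theorem rk10_440_0 : chkC1 52 10 43 5 5 3 rd10_440.me rd10_440.mo gs10 [rd10_440.c0, rd10_440.c1] false
    (Nat.beq (10 % 2) 1) rd10_440.v0 = true := by decide +kernel

set_option maxRecDepth 100000 in
theorem rk10_440_1 : chkC2 52 10 43 5 5 3 rd10_440.me rd10_440.mo gs10 [rd10_440.c0, rd10_440.c1]
    rd10_440.v1 = true := by decide +kernel

set_option maxRecDepth 100000 in
theorem rk10_440_2 : chkC1 52 10 43 5 5 3 rd10_440.me rd10_440.mo gs10 [rd10_440.c0, rd10_440.c1] true
    (Nat.beq (10 % 2) 0) rd10_440.v2 = true := by decide +kernel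

/-- run 441 -/
def rd10_441 : CRun :=
  ⟨40, 2372, 40, 143, 8, 7,
    2582249878086908589655919172003011874329705792829223513530487302567614922976467853692591031328967324040284583060328953340,
    2582249878086908589655919172003011874329705792829223513547209099856173975783757511225493169370813368393588325211986371975,
    2074757784440496479256203931845580575506223116121218449997828664845326405706454073199853524473551897144098943305651068804551177016701855141726748444603146469107474385393909741861544,
    [377480, 660, 223612, 668, 67776, 648]⟩

set_option maxRecDepth 100000 in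
theorem rk10_441_0 : chkC1 52 10 43 5 5 3 rd10_441.me rd10_441.mo gs10 [rd10_441.c0, rd10_441.c1] false
    (Nat.beq (10 % 2) 1) rd10_441.v0 = true := by decide +kernel

set_option maxRecDepth 100000 in
theorem rk10_441_1 : chkC2 52 10 43 5 5 3 rd10_441.me rd10_441.mo gs10 [rd10_441.c0, rd10_441.c1]
    rd10_441.v1 = true := by decide +kernel

set_option maxRecDepth 100000 in
theorem rk10_441_2 : chkC1 52 10 43 5 5 3 rd10_441.me rd10_441.mo gs10 [rd10_441.c0, rd10_441.c1] true
    (Nat.beq (10 % 2) 0) rd10_441.v2 = true := by decide +kernel

/-- run 442 -/
def rd10_442 : CRun :=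
  ⟨40, 2384, 40, 149, 8, 7,
    2582249878086908589655919172003011874329705792829223513485226285613016202875552949399709845466326954517398440000414899032,
    2582249878086908589655919172003011874329705792829223513545435040255312050519559185075548525857628856288452121900678317290,
    2074757784440496479256203931845580575506223116121218449997828664845326405706454073199853524473551897144098943305651053323310058625589540570463950829842633770203832281967732584312087,
    [285790, 639, 169903, 667, 52244, 641]⟩

set_option maxRecDepth 100000 in
theorem rk10_442_0 : chkC1 52 10 43 5 5 3 rd10_442.me rd10_442.mo gs10 [rd10_442.c0, rd10_442.c1] false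
    (Nat.beq (10 % 2) 1) rd10_442.v0 = true := by decide +kernel

set_option maxRecDepth 100000 in
theorem rk10_442_1 : chkC2 52 10 43 5 5 3 rd10_442.me rd10_442.mo gs10 [rd10_442.c0, rd10_442.c1]
    rd10_442.v1 = true := by decide +kernel

set_option maxRecDepth 100000 in
theorem rk10_442_2 : chkC1 52 10 43 5 5 3 rd10_442.me rd10_442.mo gs10 [rd10_442.c0, rd10_442.c1] true
    (Nat.beq (10 % 2) 0) rd10_442.v2 = true := by decide +kernel

/-- run 443 -/
def rd10_443 : CRun :=
  ⟨20, 2390, 20, 151, 8, 7,
    2582249878086908589655919172003011874329705792829223513448205646949377584907617226716354141429420441946630458783400887344,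
    2582249878086908589655919172003011874329705792829223513465154022502177155343758300904276383398222116922057574681686259205,
    2074757784440496479256203931845580575506223116121218449997828664845326405706454073199853524473551897144098943305651048794958649903754944093214774612446419862635795802057525185086842,
    [452034, 620, 262100, 629, 72177, 639]⟩

set_option maxRecDepth 100000 in
theorem rk10_443_0 : chkC1 52 10 43 5 5 3 rd10_443.me rd10_443.mo gs10 [rd10_443.c0, rd10_443.c1] false
    (Nat.beq (10 % 2) 1) rd10_443.v0 = true := by decide +kernel

set_option maxRecDepth 100000 in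
theorem rk10_443_1 : chkC2 52 10 43 5 5 3 rd10_443.me rd10_443.mo gs10 [rd10_443.c0, rd10_443.c1]
    rd10_443.v1 = true := by decide +kernel

set_option maxRecDepth 100000 in
theorem rk10_443_2 : chkC1 52 10 43 5 5 3 rd10_443.me rd10_443.mo gs10 [rd10_443.c0, rd10_443.c1] true
    (Nat.beq (10 % 2) 0) rd10_443.v2 = true := by decide +kernel

/-- run 444 -/
def rd10_444 : CRun :=
  ⟨40, 2474, 40, 155, 8, 7,
    2582249878086908589655919172003011874329705792829223513538044732189764954242341701412871519048629244720045057690685143870,
    2582249878086908589655919172003011874329705792829223513548329135673022492005810258803854959704771343880254931793361148420,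
    2074757784440496479256203931845580575506223116121218449997828664845326405706454073199853524473551897144098943305651077032073963622732065916572661231355671382786802553293224663524347,
    [261582, 664, 158657, 669, 52651, 652]⟩

set_option maxRecDepth 100000 in
theorem rk10_444_0 : chkC1 52 10 43 5 5 3 rd10_444.me rd10_444.mo gs10 [rd10_444.c0, rd10_444.c1] false
    (Nat.beq (10 % 2) 1) rd10_444.v0 = true := by decide +kernel

set_option maxRecDepth 100000 in
theorem rk10_444_1 : chkC2 52 10 43 5 5 3 rd10_444.me rd10_444.mo gs10 [rd10_444.c0, rd10_444.c1]
    rd10_444.v1 = true := by decide +kernel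

set_option maxRecDepth 100000 in
theorem rk10_444_2 : chkC1 52 10 43 5 5 3 rd10_444.me rd10_444.mo gs10 [rd10_444.c0, rd10_444.c1] true
    (Nat.beq (10 % 2) 0) rd10_444.v2 = true := by decide +kernel

/-- run 445 -/
def rd10_445 : CRun :=
  ⟨40, 2480, 40, 179, 8, 7,
    2582249878086908589655919172003011874329705792829223513516087530753010111117336331383121873247765863012996976431718682638,
    2582249878086908589655919172003011874329705792829223513558018972079904203367328290220672170197980227932765172604107590707,
    2074757784440496479256203931845580575506223116121218449997828664845326405706454073199853524473551897144098943305651062960117510046754222995610618599794761095855185997376366766571704,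
    [333192, 654, 197614, 673, 60078, 645]⟩

set_option maxRecDepth 100000 in
theorem rk10_445_0 : chkC1 52 10 43 5 5 3 rd10_445.me rd10_445.mo gs10 [rd10_445.c0, rd10_445.c1] false
    (Nat.beq (10 % 2) 1) rd10_445.v0 = true := by decide +kernel

set_option maxRecDepth 100000 in
theorem rk10_445_1 : chkC2 52 10 43 5 5 3 rd10_445.me rd10_445.mo gs10 [rd10_445.c0, rd10_445.c1]
    rd10_445.v1 = true := by decide +kernel

set_option maxRecDepth 100000 in
theorem rk10_445_2 : chkC1 52 10 43 5 5 3 rd10_445.me rd10_445.mo gs10 [rd10_445.c0, rd10_445.c1] true
    (Nat.beq (10 % 2) 0) rd10_445.v2 = true := by decide +kernel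

/-- run 446 -/
def rd10_446 : CRun :=
  ⟨40, 2482, 40, 185, 8, 7,
    2582249878086908589655919172003011874329705792829223513600419639315721920777778501989186086628131076126717944329473918352,
    2582249878086908589655919172003011874329705792829223513632555186324813208308066659911824656353370091596386235441811347001,
    2074757784440496479256203931845580575506223116121218449997828664845326405706454073199853524473551897144098943305651156795657666506232372992945038769643772777376804949781188070797461,
    [110252, 693, 64311, 707, 18028, 689]⟩

set_option maxRecDepth 100000 in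
theorem rk10_446_0 : chkC1 52 10 43 5 5 3 rd10_446.me rd10_446.mo gs10 [rd10_446.c0, rd10_446.c1] false
    (Nat.beq (10 % 2) 1) rd10_446.v0 = true := by decide +kernel

set_option maxRecDepth 100000 in
theorem rk10_446_1 : chkC2 52 10 43 5 5 3 rd10_446.me rd10_446.mo gs10 [rd10_446.c0, rd10_446.c1]
    rd10_446.v1 = true := by decide +kernel

set_option maxRecDepth 100000 in
theorem rk10_446_2 : chkC1 52 10 43 5 5 3 rd10_446.me rd10_446.mo gs10 [rd10_446.c0, rd10_446.c1] true
    (Nat.beq (10 % 2) 0) rd10_446.v2 = true := by decide +kernel

/-- run 447 -/
def rd10_447 : CRun :=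
  ⟨40, 2492, 40, 197, 8, 7,
    2582249878086908589655919172003011874329705792829223513542984459737817090349357692884728252888782496722933363196445928264,
    2582249878086908589655919172003011874329705792829223513550627057076312848099835264595902822226378094161364325667975732109,
    2074757784440496479256203931845580575506223116121218449997828664845326405706454073199853524473551897144098943305651054343715716730048365539609879466480886371802733334041195686185704,
    [631245, 666, 381190, 670, 124157, 641]⟩

set_option maxRecDepth 100000 in
theorem rk10_447_0 : chkC1 52 10 43 5 5 3 rd10_447.me rd10_447.mo gs10 [rd10_447.c0, rd10_447.c1] false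
    (Nat.beq (10 % 2) 1) rd10_447.v0 = true := by decide +kernel

set_option maxRecDepth 100000 in
theorem rk10_447_1 : chkC2 52 10 43 5 5 3 rd10_447.me rd10_447.mo gs10 [rd10_447.c0, rd10_447.c1]
    rd10_447.v1 = true := by decide +kernel

set_option maxRecDepth 100000 in
theorem rk10_447_2 : chkC1 52 10 43 5 5 3 rd10_447.me rd10_447.mo gs10 [rd10_447.c0, rd10_447.c1] true
    (Nat.beq (10 % 2) 0) rd10_447.v2 = true := by decide +kernel

/-- runs of this file -/
def rds10_55 : List CRun :=
  [rd10_440, rd10_441, rd10_442, rd10_443, rd10_444, rd10_445, rd10_446, rd10_447]

theorem ac10_55 : allC 52 10 43 5 5 3 gs10 rds10_55 :=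
  allC_cons rk10_440_0 rk10_440_1 rk10_440_2
    (allC_cons rk10_441_0 rk10_441_1 rk10_441_2
    (allC_cons rk10_442_0 rk10_442_1 rk10_442_2
    (allC_cons rk10_443_0 rk10_443_1 rk10_443_2
    (allC_cons rk10_444_0 rk10_444_1 rk10_444_2
    (allC_cons rk10_445_0 rk10_445_1 rk10_445_2
    (allC_cons rk10_446_0 rk10_446_1 rk10_446_2
    (allC_cons rk10_447_0 rk10_447_1 rk10_447_2
    (allC_nil))))))))

end Crest.Agent.R347
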