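import Crest.Agent.R347.G10c

/-! Row 347, Chebyshev numerics, ring with 10 sites: run certificates 448..455 (generated) -/

set_option autoImplicit false
set_option Elab.async false

namespace Crest.Agent.R347

/-- run 448 -/
def rd10_448 : CRun :=
  ⟨40, 2498, 20, 203, 8, 7,
    2582249878086908589655919172003011874329705792829223513556701282883611831341383881304952416863912021477863282874652754138,
    2582249878086908589655919172003011874329705792829223513592090879432327574179644512464581840859258498009941729199707202013,
    2074757784440496479256203931845580575506223116121218449997828664845326405706454073199853524473551897144098943305651080397002228301057702901441282593750161064279871534461430717301665,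
    [659200, 673, 384391, 689, 108189, 654]⟩

set_option maxRecDepth 100000 in
theorem rk10_448_0 : chkC1 52 10 43 5 5 3 rd10_448.me rd10_448.mo gs10 [rd10_448.c0, rd10_448.c1] false
    (Nat.beq (10 % 2) 1) rd10_448.v0 = true := by decide +kernel

set_option maxRecDepth 100000 in
theorem rk10_448_1 : chkC2 52 10 43 5 5 3 rd10_448.me rd10_448.mo gs10 [rd10_448.c0, rd10_448.c1]
    rd10_448.v1 = true := by decide +kernel

set_option maxRecDepth 100000 in
theorem rk10_448_2 : chkC1 52 10 43 5 5 3 rd10_448.me rd10_448.mo gs10 [rd10_448.c0, rd10_448.c1] true
    (Nat.beq (10 % 2) 0) rd10_448.v2 = true := by decide +kernel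

/-- run 449 -/
def rd10_449 : CRun :=
  ⟨40, 2500, 40, 269, 8, 7,
    2582249878086908589655919172003011874329705792829223513438562411745779384264089912200214824651684701780939918849545390929,
    2582249878086908589655919172003011874329705792829223513483477937020862421455763294643242660554782797660162761339517870427,
    2074757784440496479256203931845580575506223116121218449997828664845326405706454073199853524473551897144098943305651036522772805897846209779250275402987624400571532282868638799290016,
    [274086, 616, 159958, 638, 44948, 633]⟩

set_option maxRecDepth 100000 in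
theorem rk10_449_0 : chkC1 52 10 43 5 5 3 rd10_449.me rd10_449.mo gs10 [rd10_449.c0, rd10_449.c1] false
    (Nat.beq (10 % 2) 1) rd10_449.v0 = true := by decide +kernel

set_option maxRecDepth 100000 in
theorem rk10_449_1 : chkC2 52 10 43 5 5 3 rd10_449.me rd10_449.mo gs10 [rd10_449.c0, rd10_449.c1]
    rd10_449.v1 = true := by decide +kernel

set_option maxRecDepth 100000 in
theorem rk10_449_2 : chkC1 52 10 43 5 5 3 rd10_449.me rd10_449.mo gs10 [rd10_449.c0, rd10_449.c1] true
    (Nat.beq (10 % 2) 0) rd10_449.v2 = true := by decide +kernel

/-- run 450 -/
def rd10_450 : CRun :=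
  ⟨40, 2504, 40, 287, 8, 7,
    2582249878086908589655919172003011874329705792829223513506963336537707564332809070622808751990644794414298278817569512942,
    2582249878086908589655919172003011874329705792829223513534157549060702456765805695111498246713128035678084481828372272824,
    2074757784440496479256203931845580575506223116121218449997828664845326405706454073199853524473551897144098943305651064996108012122894902107276589596047778491486379120174891932371030,
    [464445, 649, 273324, 662, 80302, 646]⟩

set_option maxRecDepth 100000 in
theorem rk10_450_0 : chkC1 52 10 43 5 5 3 rd10_450.me rd10_450.mo gs10 [rd10_450.c0, rd10_450.c1] false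
    (Nat.beq (10 % 2) 1) rd10_450.v0 = true := by decide +kernel

set_option maxRecDepth 100000 in
theorem rk10_450_1 : chkC2 52 10 43 5 5 3 rd10_450.me rd10_450.mo gs10 [rd10_450.c0, rd10_450.c1]
    rd10_450.v1 = true := by decide +kernel

set_option maxRecDepth 100000 in
theorem rk10_450_2 : chkC1 52 10 43 5 5 3 rd10_450.me rd10_450.mo gs10 [rd10_450.c0, rd10_450.c1] true
    (Nat.beq (10 % 2) 0) rd10_450.v2 = true := by decide +kernel

/-- run 451 -/
def rd10_451 : CRun :=
  ⟨40, 2506, 40, 293, 8, 7,
    2582249878086908589655919172003011874329705792829223513561575125971849348847102652331023163037361863158006493140618582017,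
    2582249878086908589655919172003011874329705792829223513574600965758612724020645797051540627093406840625609811843498178456,
    2074757784440496479256203931845580575506223116121218449997828664845326405706454073199853524473551897144098943305651102272249824798692323854171245633996669199029225899620287004019839,
    [176183, 675, 104723, 681, 32155, 664]⟩

set_option maxRecDepth 100000 in
theorem rk10_451_0 : chkC1 52 10 43 5 5 3 rd10_451.me rd10_451.mo gs10 [rd10_451.c0, rd10_451.c1] false
    (Nat.beq (10 % 2) 1) rd10_451.v0 = true := by decide +kernel

set_option maxRecDepth 100000 in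
theorem rk10_451_1 : chkC2 52 10 43 5 5 3 rd10_451.me rd10_451.mo gs10 [rd10_451.c0, rd10_451.c1]
    rd10_451.v1 = true := by decide +kernel

set_option maxRecDepth 100000 in
theorem rk10_451_2 : chkC1 52 10 43 5 5 3 rd10_451.me rd10_451.mo gs10 [rd10_451.c0, rd10_451.c1] true
    (Nat.beq (10 % 2) 0) rd10_451.v2 = true := by decide +kernel

/-- run 452 -/
def rd10_452 : CRun :=
  ⟨40, 2528, 40, 295, 8, 7,
    2582249878086908589655919172003011874329705792829223513463645107678617963475024398499568031714453768310895532317730043419,
    2582249878086908589655919172003011874329705792829223513489931400206606526402339814406084769566511964883194457404117942532,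
    2074757784440496479256203931845580575506223116121218449997828664845326405706454073199853524473551897144098943305651020887265635257870828755959116923475501859536402776294355688541596,
    [420819, 628, 252223, 641, 79950, 625]⟩

set_option maxRecDepth 100000 in
theorem rk10_452_0 : chkC1 52 10 43 5 5 3 rd10_452.me rd10_452.mo gs10 [rd10_452.c0, rd10_452.c1] false
    (Nat.beq (10 % 2) 1) rd10_452.v0 = true := by decide +kernel

set_option maxRecDepth 100000 in
theorem rk10_452_1 : chkC2 52 10 43 5 5 3 rd10_452.me rd10_452.mo gs10 [rd10_452.c0, rd10_452.c1]
    rd10_452.v1 = true := by decide +kernel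

set_option maxRecDepth 100000 in
theorem rk10_452_2 : chkC1 52 10 43 5 5 3 rd10_452.me rd10_452.mo gs10 [rd10_452.c0, rd10_452.c1] true
    (Nat.beq (10 % 2) 0) rd10_452.v2 = true := by decide +kernel

/-- run 453 -/
def rd10_453 : CRun :=
  ⟨40, 2534, 40, 305, 8, 7,
    2582249878086908589655919172003011874329705792829223513707923794476648370211535765966809864736866456410786785619986322231,
    2582249878086908589655919172003011874329705792829223513688224340992077408423666852676799552392546769910003527846358925427,
    2074757784440496479256203931845580575506223116121218449997828664845326405706454073199853524473551897144098943305651159382827917763206716615504007438915562838123624940077671155362480,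
    [788040, 739, 464046, 731, 136288, 690]⟩

set_option maxRecDepth 100000 in
theorem rk10_453_0 : chkC1 52 10 43 5 5 3 rd10_453.me rd10_453.mo gs10 [rd10_453.c0, rd10_453.c1] false
    (Nat.beq (10 % 2) 1) rd10_453.v0 = true := by decide +kernel

set_option maxRecDepth 100000 in
theorem rk10_453_1 : chkC2 52 10 43 5 5 3 rd10_453.me rd10_453.mo gs10 [rd10_453.c0, rd10_453.c1]
    rd10_453.v1 = true := by decide +kernel

set_option maxRecDepth 100000 in
theorem rk10_453_2 : chkC1 52 10 43 5 5 3 rd10_453.me rd10_453.mo gs10 [rd10_453.c0, rd10_453.c1] true
    (Nat.beq (10 % 2) 0) rd10_453.v2 = true := by decide +kernel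

/-- run 454 -/
def rd10_454 : CRun :=
  ⟨40, 2536, 40, 311, 8, 7,
    2582249878086908589655919172003011874329705792829223513687996155789792631804539894059687107302988617084886371135099109445,
    2582249878086908589655919172003011874329705792829223513633991788936380745614401174022377655720024941072828052262090873272,
    2074757784440496479256203931845580575506223116121218449997828664845326405706454073199853524473551897144098943305651116900206841688280802112652172215599839958643078304383468105297136,
    [294434, 731, 172210, 708, 48855, 671]⟩

set_option maxRecDepth 100000 in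
theorem rk10_454_0 : chkC1 52 10 43 5 5 3 rd10_454.me rd10_454.mo gs10 [rd10_454.c0, rd10_454.c1] false
    (Nat.beq (10 % 2) 1) rd10_454.v0 = true := by decide +kernel

set_option maxRecDepth 100000 in
theorem rk10_454_1 : chkC2 52 10 43 5 5 3 rd10_454.me rd10_454.mo gs10 [rd10_454.c0, rd10_454.c1]
    rd10_454.v1 = true := by decide +kernel

set_option maxRecDepth 100000 in
theorem rk10_454_2 : chkC1 52 10 43 5 5 3 rd10_454.me rd10_454.mo gs10 [rd10_454.c0, rd10_454.c1] true
    (Nat.beq (10 % 2) 0) rd10_454.v2 = true := by decide +kernel

/-- run 455 -/
def rd10_455 : CRun :=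
  ⟨40, 2546, 40, 313, 8, 7,
    2582249878086908589655919172003011874329705792829223513574788977509791025882884206616344543117901938375882399350653107909,
    2582249878086908589655919172003011874329705792829223513553090493098161880192241092483461824496044631350833347206102712998,
    2074757784440496479256203931845580575506223116121218449997828664845326405706454073199853524473551897144098943305651079323567614736052198839410604909853542579448271687555829888080643,
    [869708, 681, 516639, 671, 157661, 653]⟩

set_option maxRecDepth 100000 in
theorem rk10_455_0 : chkC1 52 10 43 5 5 3 rd10_455.me rd10_455.mo gs10 [rd10_455.c0, rd10_455.c1] false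
    (Nat.beq (10 % 2) 1) rd10_455.v0 = true := by decide +kernel

set_option maxRecDepth 100000 in
theorem rk10_455_1 : chkC2 52 10 43 5 5 3 rd10_455.me rd10_455.mo gs10 [rd10_455.c0, rd10_455.c1]
    rd10_455.v1 = true := by decide +kernel

set_option maxRecDepth 100000 in
theorem rk10_455_2 : chkC1 52 10 43 5 5 3 rd10_455.me rd10_455.mo gs10 [rd10_455.c0, rd10_455.c1] true
    (Nat.beq (10 % 2) 0) rd10_455.v2 = true := by decide +kernel

/-- runs of this file -/
def rds10_56 : List CRun :=
  [rd10_448, rd10_449, rd10_450, rd10_451, rd10_452, rd10_453, rd10_454, rd10_455]

theorem ac10_56 : allC 52 10 43 5 5 3 gs10 rds10_56 :=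
  allC_cons rk10_448_0 rk10_448_1 rk10_448_2
    (allC_cons rk10_449_0 rk10_449_1 rk10_449_2
    (allC_cons rk10_450_0 rk10_450_1 rk10_450_2
    (allC_cons rk10_451_0 rk10_451_1 rk10_451_2
    (allC_cons rk10_452_0 rk10_452_1 rk10_452_2
    (allC_cons rk10_453_0 rk10_453_1 rk10_453_2
    (allC_cons rk10_454_0 rk10_454_1 rk10_454_2
    (allC_cons rk10_455_0 rk10_455_1 rk10_455_2
    (allC_nil))))))))

end Crest.Agent.R347
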