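import Crest.Agent.R347.G10c

/-! Row 347, Chebyshev numerics, ring with 10 sites: run certificates 456..463 (generated) -/

set_option autoImplicit false
set_option Elab.async false

namespace Crest.Agent.R347

/-- run 456 -/
def rd10_456 : CRun :=
  ⟨40, 2552, 40, 317, 8, 7,
    2582249878086908589655919172003011874329705792829223513637731133765371415985587319811255541096094107439360613897354251044,
    2582249878086908589655919172003011874329705792829223513645061985123280929622609750876515924888800397496997713030297381426,
    2074757784440496479256203931845580575506223116121218449997828664845326405706454073199853524473551897144098943305651162395836750748813483256682930578595442567254238282814303236925885,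
    [1654441, 709, 977483, 712, 290631, 692]⟩

set_option maxRecDepth 100000 in
theorem rk10_456_0 : chkC1 52 10 43 5 5 3 rd10_456.me rd10_456.mo gs10 [rd10_456.c0, rd10_456.c1] false
    (Nat.beq (10 % 2) 1) rd10_456.v0 = true := by decide +kernel

set_option maxRecDepth 100000 in
theorem rk10_456_1 : chkC2 52 10 43 5 5 3 rd10_456.me rd10_456.mo gs10 [rd10_456.c0, rd10_456.c1]
    rd10_456.v1 = true := by decide +kernel

set_option maxRecDepth 100000 in
theorem rk10_456_2 : chkC1 52 10 43 5 5 3 rd10_456.me rd10_456.mo gs10 [rd10_456.c0, rd10_456.c1] true
    (Nat.beq (10 % 2) 0) rd10_456.v2 = true := by decide +kernel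

/-- run 457 -/
def rd10_457 : CRun :=
  ⟨40, 2554, 40, 319, 8, 7,
    2582249878086908589655919172003011874329705792829223513493151704047301542914525906439136459421966459682735174897802797239,
    2582249878086908589655919172003011874329705792829223513527483935362894870151479926542005398424853326644904543366144181077,
    2074757784440496479256203931845580575506223116121218449997828664845326405706454073199853524473551897144098943305651066747670480365194302448015270247915015240687642343419101681366160,
    [845788, 643, 507430, 659, 160371, 647]⟩

set_option maxRecDepth 100000 in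
theorem rk10_457_0 : chkC1 52 10 43 5 5 3 rd10_457.me rd10_457.mo gs10 [rd10_457.c0, rd10_457.c1] false
    (Nat.beq (10 % 2) 1) rd10_457.v0 = true := by decide +kernel

set_option maxRecDepth 100000 in
theorem rk10_457_1 : chkC2 52 10 43 5 5 3 rd10_457.me rd10_457.mo gs10 [rd10_457.c0, rd10_457.c1]
    rd10_457.v1 = true := by decide +kernel

set_option maxRecDepth 100000 in
theorem rk10_457_2 : chkC1 52 10 43 5 5 3 rd10_457.me rd10_457.mo gs10 [rd10_457.c0, rd10_457.c1] true
    (Nat.beq (10 % 2) 0) rd10_457.v2 = true := by decide +kernel

/-- run 458 -/
def rd10_458 : CRun :=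
  ⟨40, 2558, 40, 341, 8, 7,
    2582249878086908589655919172003011874329705792829223513541430550649018646752908615541434348652143526427945405109441079266,
    2582249878086908589655919172003011874329705792829223513556214380656201357287894666790973044595347793970747097308438621780,
    2074757784440496479256203931845580575506223116121218449997828664845326405706454073199853524473551897144098943305651068835082999857622670377024028199085235917029331267267087346704016,
    [1727195, 666, 1047581, 672, 343988, 648]⟩

set_option maxRecDepth 100000 in
theorem rk10_458_0 : chkC1 52 10 43 5 5 3 rd10_458.me rd10_458.mo gs10 [rd10_458.c0, rd10_458.c1] false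
    (Nat.beq (10 % 2) 1) rd10_458.v0 = true := by decide +kernel

set_option maxRecDepth 100000 in
theorem rk10_458_1 : chkC2 52 10 43 5 5 3 rd10_458.me rd10_458.mo gs10 [rd10_458.c0, rd10_458.c1]
    rd10_458.v1 = true := by decide +kernel

set_option maxRecDepth 100000 in
theorem rk10_458_2 : chkC1 52 10 43 5 5 3 rd10_458.me rd10_458.mo gs10 [rd10_458.c0, rd10_458.c1] true
    (Nat.beq (10 % 2) 0) rd10_458.v2 = true := by decide +kernel

/-- run 459 -/
def rd10_459 : CRun :=
  ⟨40, 2560, 40, 347, 8, 7,
    2582249878086908589655919172003011874329705792829223513807335409646686544617663708847403547979300022418165481463309334385,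
    2582249878086908589655919172003011874329705792829223513693133536717288623715447546868901804143252100056009959929279137736,
    2074757784440496479256203931845580575506223116121218449997828664845326405706454073199853524473551897144098943305651108892834567145732259087055066079586591590505560284726788400375878,
    [707987, 780, 431756, 733, 144875, 667]⟩

set_option maxRecDepth 100000 in
theorem rk10_459_0 : chkC1 52 10 43 5 5 3 rd10_459.me rd10_459.mo gs10 [rd10_459.c0, rd10_459.c1] false
    (Nat.beq (10 % 2) 1) rd10_459.v0 = true := by decide +kernel

set_option maxRecDepth 100000 in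
theorem rk10_459_1 : chkC2 52 10 43 5 5 3 rd10_459.me rd10_459.mo gs10 [rd10_459.c0, rd10_459.c1]
    rd10_459.v1 = true := by decide +kernel

set_option maxRecDepth 100000 in
theorem rk10_459_2 : chkC1 52 10 43 5 5 3 rd10_459.me rd10_459.mo gs10 [rd10_459.c0, rd10_459.c1] true
    (Nat.beq (10 % 2) 0) rd10_459.v2 = true := by decide +kernel

/-- run 460 -/
def rd10_460 : CRun :=
  ⟨40, 2570, 40, 349, 8, 7,
    2582249878086908589655919172003011874329705792829223513513252892042937252271280310252232062416916696931964131846410516251,
    2582249878086908589655919172003011874329705792829223513556736635520585529127445804470983922441167509943726504648917666099,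
    2074757784440496479256203931845580575506223116121218449997828664845326405706454073199853524473551897144098943305651053498466305449819480604537818895029357445123958604292230689429321,
    [1444708, 652, 875461, 673, 285984, 641]⟩

set_option maxRecDepth 100000 in
theorem rk10_460_0 : chkC1 52 10 43 5 5 3 rd10_460.me rd10_460.mo gs10 [rd10_460.c0, rd10_460.c1] false
    (Nat.beq (10 % 2) 1) rd10_460.v0 = true := by decide +kernel

set_option maxRecDepth 100000 in
theorem rk10_460_1 : chkC2 52 10 43 5 5 3 rd10_460.me rd10_460.mo gs10 [rd10_460.c0, rd10_460.c1]
    rd10_460.v1 = true := by decide +kernel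

set_option maxRecDepth 100000 in
theorem rk10_460_2 : chkC1 52 10 43 5 5 3 rd10_460.me rd10_460.mo gs10 [rd10_460.c0, rd10_460.c1] true
    (Nat.beq (10 % 2) 0) rd10_460.v2 = true := by decide +kernel

/-- run 461 -/
def rd10_461 : CRun :=
  ⟨40, 2572, 40, 359, 8, 7,
    2582249878086908589655919172003011874329705792829223513885731489073905644200253871484359506705948217672852813570105457271,
    2582249878086908589655919172003011874329705792829223513701679233236657934000779701275972106863465175576946852550466084341,
    2074757784440496479256203931845580575506223116121218449997828664845326405706454073199853524473551897144098943305651062262706398838352443410399070523730191601219086695644333088680660,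
    [1159754, 811, 713770, 737, 245871, 645]⟩

set_option maxRecDepth 100000 in
theorem rk10_461_0 : chkC1 52 10 43 5 5 3 rd10_461.me rd10_461.mo gs10 [rd10_461.c0, rd10_461.c1] false
    (Nat.beq (10 % 2) 1) rd10_461.v0 = true := by decide +kernel

set_option maxRecDepth 100000 in
theorem rk10_461_1 : chkC2 52 10 43 5 5 3 rd10_461.me rd10_461.mo gs10 [rd10_461.c0, rd10_461.c1]
    rd10_461.v1 = true := by decide +kernel

set_option maxRecDepth 100000 in
theorem rk10_461_2 : chkC1 52 10 43 5 5 3 rd10_461.me rd10_461.mo gs10 [rd10_461.c0, rd10_461.c1] true
    (Nat.beq (10 % 2) 0) rd10_461.v2 = true := by decide +kernel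

/-- run 462 -/
def rd10_462 : CRun :=
  ⟨40, 2576, 40, 365, 8, 7,
    2582249878086908589655919172003011874329705792829223514757816765693259666736876698997908451094747782398774485359952454916,
    2582249878086908589655919172003011874329705792829223514013097398461873213439709786923320054581858026960076972878628172586,
    2074757784440496479256203931845580575506223116121218449997828664845326405706454073199853524473551897144098943305651136916227120978263674263331994417121216975203568862851081342332903,
    [1190302, 1096, 726336, 858, 243126, 680]⟩

set_option maxRecDepth 100000 in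
theorem rk10_462_0 : chkC1 52 10 43 5 5 3 rd10_462.me rd10_462.mo gs10 [rd10_462.c0, rd10_462.c1] false
    (Nat.beq (10 % 2) 1) rd10_462.v0 = true := by decide +kernel

set_option maxRecDepth 100000 in
theorem rk10_462_1 : chkC2 52 10 43 5 5 3 rd10_462.me rd10_462.mo gs10 [rd10_462.c0, rd10_462.c1]
    rd10_462.v1 = true := by decide +kernel

set_option maxRecDepth 100000 in
theorem rk10_462_2 : chkC1 52 10 43 5 5 3 rd10_462.me rd10_462.mo gs10 [rd10_462.c0, rd10_462.c1] true
    (Nat.beq (10 % 2) 0) rd10_462.v2 = true := by decide +kernel

/-- run 463 -/
def rd10_463 : CRun :=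
  ⟨40, 2578, 40, 367, 8, 7,
    2582249878086908589655919172003011874329705792829223513750837074948584705519883863642780612037221887359756268144516861701,
    2582249878086908589655919172003011874329705792829223513642558375650325422773315373936648393554070805232684121016636681965,
    2074757784440496479256203931845580575506223116121218449997828664845326405706454073199853524473551897144098943305651071944508115498768853550720676879234871797492124236971125955872064,
    [691964, 757, 423333, 711, 143627, 650]⟩

set_option maxRecDepth 100000 in
theorem rk10_463_0 : chkC1 52 10 43 5 5 3 rd10_463.me rd10_463.mo gs10 [rd10_463.c0, rd10_463.c1] false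
    (Nat.beq (10 % 2) 1) rd10_463.v0 = true := by decide +kernel

set_option maxRecDepth 100000 in
theorem rk10_463_1 : chkC2 52 10 43 5 5 3 rd10_463.me rd10_463.mo gs10 [rd10_463.c0, rd10_463.c1]
    rd10_463.v1 = true := by decide +kernel

set_option maxRecDepth 100000 in
theorem rk10_463_2 : chkC1 52 10 43 5 5 3 rd10_463.me rd10_463.mo gs10 [rd10_463.c0, rd10_463.c1] true
    (Nat.beq (10 % 2) 0) rd10_463.v2 = true := by decide +kernel

/-- runs of this file -/
def rds10_57 : List CRun :=
  [rd10_456, rd10_457, rd10_458, rd10_459, rd10_460, rd10_461, rd10_462, rd10_463]

theorem ac10_57 : allC 52 10 43 5 5 3 gs10 rds10_57 :=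
  allC_cons rk10_456_0 rk10_456_1 rk10_456_2
    (allC_cons rk10_457_0 rk10_457_1 rk10_457_2
    (allC_cons rk10_458_0 rk10_458_1 rk10_458_2
    (allC_cons rk10_459_0 rk10_459_1 rk10_459_2
    (allC_cons rk10_460_0 rk10_460_1 rk10_460_2
    (allC_cons rk10_461_0 rk10_461_1 rk10_461_2
    (allC_cons rk10_462_0 rk10_462_1 rk10_462_2
    (allC_cons rk10_463_0 rk10_463_1 rk10_463_2
    (allC_nil))))))))

end Crest.Agent.R347
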