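import Crest.Agent.R347.G10c

/-! Row 347, Chebyshev numerics, ring with 10 sites: run certificates 464..471 (generated) -/

set_option autoImplicit false
set_option Elab.async false

namespace Crest.Agent.R347

/-- run 464 -/
def rd10_464 : CRun :=
  ⟨40, 2584, 40, 371, 8, 7,
    2582249878086908589655919172003011874329705792829223514663508785751788045445870027722590300277924733099649938050067642931,
    2582249878086908589655919172003011874329705792829223514034561269919040546550123774590720963463747092348033736261220850026,
    2074757784440496479256203931845580575506223116121218449997828664845326405706454073199853524473551897144098943305651207049431124617635260016725552554821841454231029519061527048495299,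
    [158431, 1068, 95056, 866, 30377, 712]⟩

set_option maxRecDepth 100000 in
theorem rk10_464_0 : chkC1 52 10 43 5 5 3 rd10_464.me rd10_464.mo gs10 [rd10_464.c0, rd10_464.c1] false
    (Nat.beq (10 % 2) 1) rd10_464.v0 = true := by decide +kernel

set_option maxRecDepth 100000 in
theorem rk10_464_1 : chkC2 52 10 43 5 5 3 rd10_464.me rd10_464.mo gs10 [rd10_464.c0, rd10_464.c1]
    rd10_464.v1 = true := by decide +kernel

set_option maxRecDepth 100000 in
theorem rk10_464_2 : chkC1 52 10 43 5 5 3 rd10_464.me rd10_464.mo gs10 [rd10_464.c0, rd10_464.c1] true
    (Nat.beq (10 % 2) 0) rd10_464.v2 = true := by decide +kernel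

/-- run 465 -/
def rd10_465 : CRun :=
  ⟨40, 2600, 40, 373, 8, 7,
    2582249878086908589655919172003011874329705792829223513657411303993411269890149729556157759489183527504218475382000549594,
    2582249878086908589655919172003011874329705792829223513605203493873480934828066923138085727695839674439209318718760967629,
    2074757784440496479256203931845580575506223116121218449997828664845326405706454073199853524473551897144098943305651064697217535890722710856471640420591534422356622276575430523198890,
    [606534, 718, 361595, 695, 111379, 646]⟩

set_option maxRecDepth 100000 in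
theorem rk10_465_0 : chkC1 52 10 43 5 5 3 rd10_465.me rd10_465.mo gs10 [rd10_465.c0, rd10_465.c1] false
    (Nat.beq (10 % 2) 1) rd10_465.v0 = true := by decide +kernel

set_option maxRecDepth 100000 in
theorem rk10_465_1 : chkC2 52 10 43 5 5 3 rd10_465.me rd10_465.mo gs10 [rd10_465.c0, rd10_465.c1]
    rd10_465.v1 = true := by decide +kernel

set_option maxRecDepth 100000 in
theorem rk10_465_2 : chkC1 52 10 43 5 5 3 rd10_465.me rd10_465.mo gs10 [rd10_465.c0, rd10_465.c1] true
    (Nat.beq (10 % 2) 0) rd10_465.v2 = true := by decide +kernel

/-- run 466 -/
def rd10_466 : CRun :=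
  ⟨40, 2606, 40, 383, 8, 7,
    2582249878086908589655919172003011874329705792829223514478956772182775789270702307303484798866057285872677532074518537065,
    2582249878086908589655919172003011874329705792829223513929793730247487157555614472056354185267107023762376992787223485861,
    2074757784440496479256203931845580575506223116121218449997828664845326405706454073199853524473551897144098943305651152707607281911361112014193475853726111960892388766356318509026984,
    [1674936, 1013, 1009051, 828, 322134, 687]⟩

set_option maxRecDepth 100000 in
theorem rk10_466_0 : chkC1 52 10 43 5 5 3 rd10_466.me rd10_466.mo gs10 [rd10_466.c0, rd10_466.c1] false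
    (Nat.beq (10 % 2) 1) rd10_466.v0 = true := by decide +kernel

set_option maxRecDepth 100000 in
theorem rk10_466_1 : chkC2 52 10 43 5 5 3 rd10_466.me rd10_466.mo gs10 [rd10_466.c0, rd10_466.c1]
    rd10_466.v1 = true := by decide +kernel

set_option maxRecDepth 100000 in
theorem rk10_466_2 : chkC1 52 10 43 5 5 3 rd10_466.me rd10_466.mo gs10 [rd10_466.c0, rd10_466.c1] true
    (Nat.beq (10 % 2) 0) rd10_466.v2 = true := by decide +kernel

/-- run 467 -/
def rd10_467 : CRun :=
  ⟨40, 2608, 40, 385, 8, 7,
    2582249878086908589655919172003011874329705792829223514029431923681765849590593831591967972436496220391879062308710903312,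
    2582249878086908589655919172003011874329705792829223513786099723391803988126376679797115084186969109855325873934870700527,
    2074757784440496479256203931845580575506223116121218449997828664845326405706454073199853524473551897144098943305651111721045525041555144040908348600032772029582829342442189443206494,
    [887022, 864, 539735, 772, 178609, 669]⟩

set_option maxRecDepth 100000 in
theorem rk10_467_0 : chkC1 52 10 43 5 5 3 rd10_467.me rd10_467.mo gs10 [rd10_467.c0, rd10_467.c1] false
    (Nat.beq (10 % 2) 1) rd10_467.v0 = true := by decide +kernel

set_option maxRecDepth 100000 in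
theorem rk10_467_1 : chkC2 52 10 43 5 5 3 rd10_467.me rd10_467.mo gs10 [rd10_467.c0, rd10_467.c1]
    rd10_467.v1 = true := by decide +kernel

set_option maxRecDepth 100000 in
theorem rk10_467_2 : chkC1 52 10 43 5 5 3 rd10_467.me rd10_467.mo gs10 [rd10_467.c0, rd10_467.c1] true
    (Nat.beq (10 % 2) 0) rd10_467.v2 = true := by decide +kernel

/-- run 468 -/
def rd10_468 : CRun :=
  ⟨40, 2612, 40, 389, 8, 7,
    2582249878086908589655919172003011874329705792829223514111970689387084626103531172502979448352446654964538440520176496489,
    2582249878086908589655919172003011874329705792829223513810039886375174425251400831048813724639344890056701924273042839134,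
    2074757784440496479256203931845580575506223116121218449997828664845326405706454073199853524473551897144098943305651137763083470302751549473946017080913908504404546586383201330929038,
    [2793896, 893, 1723127, 781, 595731, 681]⟩

set_option maxRecDepth 100000 in
theorem rk10_468_0 : chkC1 52 10 43 5 5 3 rd10_468.me rd10_468.mo gs10 [rd10_468.c0, rd10_468.c1] false
    (Nat.beq (10 % 2) 1) rd10_468.v0 = true := by decide +kernel

set_option maxRecDepth 100000 in
theorem rk10_468_1 : chkC2 52 10 43 5 5 3 rd10_468.me rd10_468.mo gs10 [rd10_468.c0, rd10_468.c1]
    rd10_468.v1 = true := by decide +kernel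

set_option maxRecDepth 100000 in
theorem rk10_468_2 : chkC1 52 10 43 5 5 3 rd10_468.me rd10_468.mo gs10 [rd10_468.c0, rd10_468.c1] true
    (Nat.beq (10 % 2) 0) rd10_468.v2 = true := by decide +kernel

/-- run 469 -/
def rd10_469 : CRun :=
  ⟨40, 2614, 40, 413, 8, 7,
    2582249878086908589655919172003011874329705792829223513722868318288256979774076013425582676940322944252966759638080442935,
    2582249878086908589655919172003011874329705792829223513629979264639866046896372894677801772701527000197352419004639489626,
    2074757784440496479256203931845580575506223116121218449997828664845326405706454073199853524473551897144098943305651093318391042187598508534358467109038647945314144541898665082109750,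
    [1127297, 746, 694228, 706, 239607, 660]⟩

set_option maxRecDepth 100000 in
theorem rk10_469_0 : chkC1 52 10 43 5 5 3 rd10_469.me rd10_469.mo gs10 [rd10_469.c0, rd10_469.c1] false
    (Nat.beq (10 % 2) 1) rd10_469.v0 = true := by decide +kernel

set_option maxRecDepth 100000 in
theorem rk10_469_1 : chkC2 52 10 43 5 5 3 rd10_469.me rd10_469.mo gs10 [rd10_469.c0, rd10_469.c1]
    rd10_469.v1 = true := by decide +kernel

set_option maxRecDepth 100000 in
theorem rk10_469_2 : chkC1 52 10 43 5 5 3 rd10_469.me rd10_469.mo gs10 [rd10_469.c0, rd10_469.c1] true
    (Nat.beq (10 % 2) 0) rd10_469.v2 = true := by decide +kernel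

/-- run 470 -/
def rd10_470 : CRun :=
  ⟨40, 2624, 40, 419, 8, 7,
    2582249878086908589655919172003011874329705792829223515005993884186662383881852866501169944590879334961582793435006655745,
    2582249878086908589655919172003011874329705792829223514134017879354317972683966892409900199259051280039238350858141885711,
    2074757784440496479256203931845580575506223116121218449997828664845326405706454073199853524473551897144098943305651156694420569717915985633801426952150528818478016341465285327423536,
    [1102313, 1164, 665946, 901, 214955, 689]⟩

set_option maxRecDepth 100000 in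
theorem rk10_470_0 : chkC1 52 10 43 5 5 3 rd10_470.me rd10_470.mo gs10 [rd10_470.c0, rd10_470.c1] false
    (Nat.beq (10 % 2) 1) rd10_470.v0 = true := by decide +kernel

set_option maxRecDepth 100000 in
theorem rk10_470_1 : chkC2 52 10 43 5 5 3 rd10_470.me rd10_470.mo gs10 [rd10_470.c0, rd10_470.c1]
    rd10_470.v1 = true := by decide +kernel

set_option maxRecDepth 100000 in
theorem rk10_470_2 : chkC1 52 10 43 5 5 3 rd10_470.me rd10_470.mo gs10 [rd10_470.c0, rd10_470.c1] true
    (Nat.beq (10 % 2) 0) rd10_470.v2 = true := by decide +kernel

/-- run 471 -/
def rd10_471 : CRun :=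
  ⟨40, 2626, 40, 421, 8, 7,
    2582249878086908589655919172003011874329705792829223513859951382029858663209734173636930235073684515043595467516154223150,
    2582249878086908589655919172003011874329705792829223513704777409785989267252024604190005868361127982948960076905405724553,
    2074757784440496479256203931845580575506223116121218449997828664845326405706454073199853524473551897144098943305651088028351000487002521450219259121931360442221889008944624724462565,
    [864764, 801, 527206, 738, 175687, 657]⟩

set_option maxRecDepth 100000 in
theorem rk10_471_0 : chkC1 52 10 43 5 5 3 rd10_471.me rd10_471.mo gs10 [rd10_471.c0, rd10_471.c1] false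
    (Nat.beq (10 % 2) 1) rd10_471.v0 = true := by decide +kernel

set_option maxRecDepth 100000 in
theorem rk10_471_1 : chkC2 52 10 43 5 5 3 rd10_471.me rd10_471.mo gs10 [rd10_471.c0, rd10_471.c1]
    rd10_471.v1 = true := by decide +kernel

set_option maxRecDepth 100000 in
theorem rk10_471_2 : chkC1 52 10 43 5 5 3 rd10_471.me rd10_471.mo gs10 [rd10_471.c0, rd10_471.c1] true
    (Nat.beq (10 % 2) 0) rd10_471.v2 = true := by decide +kernel

/-- runs of this file -/
def rds10_58 : List CRun :=
  [rd10_464, rd10_465, rd10_466, rd10_467, rd10_468, rd10_469, rd10_470, rd10_471]

theorem ac10_58 : allC 52 10 43 5 5 3 gs10 rds10_58 :=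
  allC_cons rk10_464_0 rk10_464_1 rk10_464_2
    (allC_cons rk10_465_0 rk10_465_1 rk10_465_2
    (allC_cons rk10_466_0 rk10_466_1 rk10_466_2
    (allC_cons rk10_467_0 rk10_467_1 rk10_467_2
    (allC_cons rk10_468_0 rk10_468_1 rk10_468_2
    (allC_cons rk10_469_0 rk10_469_1 rk10_469_2
    (allC_cons rk10_470_0 rk10_470_1 rk10_470_2
    (allC_cons rk10_471_0 rk10_471_1 rk10_471_2
    (allC_nil))))))))

end Crest.Agent.R347
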