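import Crest.Agent.R347.G10c

/-! Row 347, Chebyshev numerics, ring with 10 sites: run certificates 472..479 (generated) -/

set_option autoImplicit false
set_option Elab.async false

namespace Crest.Agent.R347

/-- run 472 -/
def rd10_472 : CRun :=
  ⟨40, 2630, 40, 425, 8, 7,
    2582249878086908589655919172003011874329705792829223516934934994568401907807739948791931732894288931247553006078177227016,
    2582249878086908589655919172003011874329705792829223514942079530414305304662446866240392543238161233086865990670288192823,
    2074757784440496479256203931845580575506223116121218449997828664845326405706454073199853524473551897144098943305651360941066809168356977843809249790940797198045135115783059180526618,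
    [1356721, 1599, 825622, 1147, 273401, 776]⟩

set_option maxRecDepth 100000 in
theorem rk10_472_0 : chkC1 52 10 43 5 5 3 rd10_472.me rd10_472.mo gs10 [rd10_472.c0, rd10_472.c1] false
    (Nat.beq (10 % 2) 1) rd10_472.v0 = true := by decide +kernel

set_option maxRecDepth 100000 in
theorem rk10_472_1 : chkC2 52 10 43 5 5 3 rd10_472.me rd10_472.mo gs10 [rd10_472.c0, rd10_472.c1]
    rd10_472.v1 = true := by decide +kernel

set_option maxRecDepth 100000 in
theorem rk10_472_2 : chkC1 52 10 43 5 5 3 rd10_472.me rd10_472.mo gs10 [rd10_472.c0, rd10_472.c1] true
    (Nat.beq (10 % 2) 0) rd10_472.v2 = true := by decide +kernel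

/-- run 473 -/
def rd10_473 : CRun :=
  ⟨40, 2632, 40, 437, 8, 7,
    2582249878086908589655919172003011874329705792829223514159163245870882652515647515230854711663318712485951493298780635003,
    2582249878086908589655919172003011874329705792829223513797267942799403970541393316338886164274498420662116284066390982678,
    2074757784440496479256203931845580575506223116121218449997828664845326405706454073199853524473551897144098943305651097584811549695217690098267822274825357641763093035213608134770862,
    [772870, 910, 466358, 776, 150794, 662]⟩

set_option maxRecDepth 100000 in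
theorem rk10_473_0 : chkC1 52 10 43 5 5 3 rd10_473.me rd10_473.mo gs10 [rd10_473.c0, rd10_473.c1] false
    (Nat.beq (10 % 2) 1) rd10_473.v0 = true := by decide +kernel

set_option maxRecDepth 100000 in
theorem rk10_473_1 : chkC2 52 10 43 5 5 3 rd10_473.me rd10_473.mo gs10 [rd10_473.c0, rd10_473.c1]
    rd10_473.v1 = true := by decide +kernel

set_option maxRecDepth 100000 in
theorem rk10_473_2 : chkC1 52 10 43 5 5 3 rd10_473.me rd10_473.mo gs10 [rd10_473.c0, rd10_473.c1] true
    (Nat.beq (10 % 2) 0) rd10_473.v2 = true := by decide +kernel

/-- run 474 -/
def rd10_474 : CRun :=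
  ⟨40, 2638, 40, 443, 8, 7,
    2582249878086908589655919172003011874329705792829223514411516796341314485386757242212110886763405470629601279607535691610,
    2582249878086908589655919172003011874329705792829223513902337586823278049707704507746613081040412663410604193402404453621,
    2074757784440496479256203931845580575506223116121218449997828664845326405706454073199853524473551897144098943305651122959970206588933131181391222434124014069870567859295249089603911,
    [224396, 992, 131614, 817, 38074, 674]⟩

set_option maxRecDepth 100000 in
theorem rk10_474_0 : chkC1 52 10 43 5 5 3 rd10_474.me rd10_474.mo gs10 [rd10_474.c0, rd10_474.c1] false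
    (Nat.beq (10 % 2) 1) rd10_474.v0 = true := by decide +kernel

set_option maxRecDepth 100000 in
theorem rk10_474_1 : chkC2 52 10 43 5 5 3 rd10_474.me rd10_474.mo gs10 [rd10_474.c0, rd10_474.c1]
    rd10_474.v1 = true := by decide +kernel

set_option maxRecDepth 100000 in
theorem rk10_474_2 : chkC1 52 10 43 5 5 3 rd10_474.me rd10_474.mo gs10 [rd10_474.c0, rd10_474.c1] true
    (Nat.beq (10 % 2) 0) rd10_474.v2 = true := by decide +kernel

/-- run 475 -/
def rd10_475 : CRun :=
  ⟨40, 2648, 40, 461, 8, 7,
    2582249878086908589655919172003011874329705792829223513575971683910365642725683090716307638793358279779306534227515933452,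
    2582249878086908589655919172003011874329705792829223513570315261994573996955775384151266746432480125241191103378526348258,
    2074757784440496479256203931845580575506223116121218449997828664845326405706454073199853524473551897144098943305651049482728132846602782025174550134464013742138677141092857012060367,
    [326302, 682, 194278, 679, 59393, 639]⟩

set_option maxRecDepth 100000 in
theorem rk10_475_0 : chkC1 52 10 43 5 5 3 rd10_475.me rd10_475.mo gs10 [rd10_475.c0, rd10_475.c1] false
    (Nat.beq (10 % 2) 1) rd10_475.v0 = true := by decide +kernel

set_option maxRecDepth 100000 in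
theorem rk10_475_1 : chkC2 52 10 43 5 5 3 rd10_475.me rd10_475.mo gs10 [rd10_475.c0, rd10_475.c1]
    rd10_475.v1 = true := by decide +kernel

set_option maxRecDepth 100000 in
theorem rk10_475_2 : chkC1 52 10 43 5 5 3 rd10_475.me rd10_475.mo gs10 [rd10_475.c0, rd10_475.c1] true
    (Nat.beq (10 % 2) 0) rd10_475.v2 = true := by decide +kernel

/-- run 476 -/
def rd10_476 : CRun :=
  ⟨40, 2650, 40, 503, 8, 7,
    2582249878086908589655919172003011874329705792829223513636569317559372166016370481218492880534470554674855651998943295770,
    2582249878086908589655919172003011874329705792829223513599386378153263390030605020363810719074709299601715608544366130079,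
    2074757784440496479256203931845580575506223116121218449997828664845326405706454073199853524473551897144098943305651076034165438137899104805014201887493695216498743414178872829308856,
    [242250, 709, 141938, 692, 40744, 652]⟩

set_option maxRecDepth 100000 in
theorem rk10_476_0 : chkC1 52 10 43 5 5 3 rd10_476.me rd10_476.mo gs10 [rd10_476.c0, rd10_476.c1] false
    (Nat.beq (10 % 2) 1) rd10_476.v0 = true := by decide +kernel

set_option maxRecDepth 100000 in
theorem rk10_476_1 : chkC2 52 10 43 5 5 3 rd10_476.me rd10_476.mo gs10 [rd10_476.c0, rd10_476.c1]
    rd10_476.v1 = true := by decide +kernel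

set_option maxRecDepth 100000 in
theorem rk10_476_2 : chkC1 52 10 43 5 5 3 rd10_476.me rd10_476.mo gs10 [rd10_476.c0, rd10_476.c1] true
    (Nat.beq (10 % 2) 0) rd10_476.v2 = true := by decide +kernel

/-- run 477 -/
def rd10_477 : CRun :=
  ⟨20, 2656, 40, 509, 8, 7,
    2582249878086908589655919172003011874329705792829223513981476071626944802797595056870230656889426116448419174944924830940,
    2582249878086908589655919172003011874329705792829223513768150225437431066748572963225664297916796102414772077675574795230,
    2074757784440496479256203931845580575506223116121218449997828664845326405706454073199853524473551897144098943305651174500901038151787228914283372184573327367009390448592647272020770,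
    [83189, 847, 48311, 764, 13254, 697]⟩

set_option maxRecDepth 100000 in
theorem rk10_477_0 : chkC1 52 10 43 5 5 3 rd10_477.me rd10_477.mo gs10 [rd10_477.c0, rd10_477.c1] false
    (Nat.beq (10 % 2) 1) rd10_477.v0 = true := by decide +kernel

set_option maxRecDepth 100000 in
theorem rk10_477_1 : chkC2 52 10 43 5 5 3 rd10_477.me rd10_477.mo gs10 [rd10_477.c0, rd10_477.c1]
    rd10_477.v1 = true := by decide +kernel

set_option maxRecDepth 100000 in
theorem rk10_477_2 : chkC1 52 10 43 5 5 3 rd10_477.me rd10_477.mo gs10 [rd10_477.c0, rd10_477.c1] true
    (Nat.beq (10 % 2) 0) rd10_477.v2 = true := by decide +kernel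

/-- run 478 -/
def rd10_478 : CRun :=
  ⟨40, 2690, 40, 521, 8, 7,
    2582249878086908589655919172003011874329705792829223514359648050148722797272813789795522840279193802396280292591241645443,
    2582249878086908589655919172003011874329705792829223513901199874687942684592620798585235537917826943691005976120002020343,
    2074757784440496479256203931845580575506223116121218449997828664845326405706454073199853524473551897144098943305651172336355492534927327759260433801027301769601957823170704338266327,
    [414630, 976, 249626, 817, 79956, 696]⟩

set_option maxRecDepth 100000 in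
theorem rk10_478_0 : chkC1 52 10 43 5 5 3 rd10_478.me rd10_478.mo gs10 [rd10_478.c0, rd10_478.c1] false
    (Nat.beq (10 % 2) 1) rd10_478.v0 = true := by decide +kernel

set_option maxRecDepth 100000 in
theorem rk10_478_1 : chkC2 52 10 43 5 5 3 rd10_478.me rd10_478.mo gs10 [rd10_478.c0, rd10_478.c1]
    rd10_478.v1 = true := by decide +kernel

set_option maxRecDepth 100000 in
theorem rk10_478_2 : chkC1 52 10 43 5 5 3 rd10_478.me rd10_478.mo gs10 [rd10_478.c0, rd10_478.c1] true
    (Nat.beq (10 % 2) 0) rd10_478.v2 = true := by decide +kernel

/-- run 479 -/
def rd10_479 : CRun :=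
  ⟨40, 2696, 40, 527, 8, 7,
    2582249878086908589655919172003011874329705792829223516957557468355479972906819691127910620012596504994027162521381503698,
    2582249878086908589655919172003011874329705792829223514852616468676274539052199210673482997667942625813996564732854569442,
    2074757784440496479256203931845580575506223116121218449997828664845326405706454073199853524473551897144098943305651268265735920663869806787771460291411184537554077674554610976439963,
    [865173, 1603, 513762, 1122, 155064, 738]⟩

set_option maxRecDepth 100000 in
theorem rk10_479_0 : chkC1 52 10 43 5 5 3 rd10_479.me rd10_479.mo gs10 [rd10_479.c0, rd10_479.c1] false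
    (Nat.beq (10 % 2) 1) rd10_479.v0 = true := by decide +kernel

set_option maxRecDepth 100000 in
theorem rk10_479_1 : chkC2 52 10 43 5 5 3 rd10_479.me rd10_479.mo gs10 [rd10_479.c0, rd10_479.c1]
    rd10_479.v1 = true := by decide +kernel

set_option maxRecDepth 100000 in
theorem rk10_479_2 : chkC1 52 10 43 5 5 3 rd10_479.me rd10_479.mo gs10 [rd10_479.c0, rd10_479.c1] true
    (Nat.beq (10 % 2) 0) rd10_479.v2 = true := by decide +kernel

/-- runs of this file -/
def rds10_59 : List CRun :=
  [rd10_472, rd10_473, rd10_474, rd10_475, rd10_476, rd10_477, rd10_478, rd10_479]

theorem ac10_59 : allC 52 10 43 5 5 3 gs10 rds10_59 :=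
  allC_cons rk10_472_0 rk10_472_1 rk10_472_2
    (allC_cons rk10_473_0 rk10_473_1 rk10_473_2
    (allC_cons rk10_474_0 rk10_474_1 rk10_474_2
    (allC_cons rk10_475_0 rk10_475_1 rk10_475_2
    (allC_cons rk10_476_0 rk10_476_1 rk10_476_2
    (allC_cons rk10_477_0 rk10_477_1 rk10_477_2
    (allC_cons rk10_478_0 rk10_478_1 rk10_478_2
    (allC_cons rk10_479_0 rk10_479_1 rk10_479_2
    (allC_nil))))))))

end Crest.Agent.R347
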