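import Crest.Agent.R347.G10c

/-! Row 347, Chebyshev numerics, ring with 10 sites: run certificates 480..487 (generated) -/

set_option autoImplicit false
set_option Elab.async false

namespace Crest.Agent.R347

/-- run 480 -/
def rd10_480 : CRun :=
  ⟨40, 2698, 40, 533, 8, 7,
    2582249878086908589655919172003011874329705792829223516929068063768812334311736245192794148232480368117252027725467021401,
    2582249878086908589655919172003011874329705792829223514903712277669577652843606979323654944940341114407308028298877210228,
    2074757784440496479256203931845580575506223116121218449997828664845326405706454073199853524473551897144098943305651353738770494799562562864735151917850012693531316981305500841464229,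
    [360093, 1598, 214233, 1136, 65036, 773]⟩

set_option maxRecDepth 100000 in
theorem rk10_480_0 : chkC1 52 10 43 5 5 3 rd10_480.me rd10_480.mo gs10 [rd10_480.c0, rd10_480.c1] false
    (Nat.beq (10 % 2) 1) rd10_480.v0 = true := by decide +kernel

set_option maxRecDepth 100000 in
theorem rk10_480_1 : chkC2 52 10 43 5 5 3 rd10_480.me rd10_480.mo gs10 [rd10_480.c0, rd10_480.c1]
    rd10_480.v1 = true := by decide +kernel

set_option maxRecDepth 100000 in
theorem rk10_480_2 : chkC1 52 10 43 5 5 3 rd10_480.me rd10_480.mo gs10 [rd10_480.c0, rd10_480.c1] true
    (Nat.beq (10 % 2) 0) rd10_480.v2 = true := by decide +kernel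

/-- run 481 -/
def rd10_481 : CRun :=
  ⟨40, 2708, 40, 545, 8, 7,
    2582249878086908589655919172003011874329705792829223519237673998115446454678820543192633059983400776932307572806332573923,
    2582249878086908589655919172003011874329705792829223515748087514653729647068784212516872881411247810708439220738093836389,
    2074757784440496479256203931845580575506223116121218449997828664845326405706454073199853524473551897144098943305651410159972166776970127418566176108410149850600631688944777900477501,
    [1080577, 1997, 647297, 1348, 202539, 795]⟩

set_option maxRecDepth 100000 in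
theorem rk10_481_0 : chkC1 52 10 43 5 5 3 rd10_481.me rd10_481.mo gs10 [rd10_481.c0, rd10_481.c1] false
    (Nat.beq (10 % 2) 1) rd10_481.v0 = true := by decide +kernel

set_option maxRecDepth 100000 in
theorem rk10_481_1 : chkC2 52 10 43 5 5 3 rd10_481.me rd10_481.mo gs10 [rd10_481.c0, rd10_481.c1]
    rd10_481.v1 = true := by decide +kernel

set_option maxRecDepth 100000 in
theorem rk10_481_2 : chkC1 52 10 43 5 5 3 rd10_481.me rd10_481.mo gs10 [rd10_481.c0, rd10_481.c1] true
    (Nat.beq (10 % 2) 0) rd10_481.v2 = true := by decide +kernel

/-- run 482 -/
def rd10_482 : CRun :=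
  ⟨40, 2714, 40, 575, 8, 7,
    2582249878086908589655919172003011874329705792829223513823324443187063497859306231666198115874395942206304275718425697970,
    2582249878086908589655919172003011874329705792829223513665900757681231515515837915289996121518308325920372971735262851544,
    2074757784440496479256203931845580575506223116121218449997828664845326405706454073199853524473551897144098943305651092161395650321125510144145760623401574129327989018287978214100753,
    [2458681, 786, 1473855, 721, 460392, 659]⟩

set_option maxRecDepth 100000 in
theorem rk10_482_0 : chkC1 52 10 43 5 5 3 rd10_482.me rd10_482.mo gs10 [rd10_482.c0, rd10_482.c1] false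
    (Nat.beq (10 % 2) 1) rd10_482.v0 = true := by decide +kernel

set_option maxRecDepth 100000 in
theorem rk10_482_1 : chkC2 52 10 43 5 5 3 rd10_482.me rd10_482.mo gs10 [rd10_482.c0, rd10_482.c1]
    rd10_482.v1 = true := by decide +kernel

set_option maxRecDepth 100000 in
theorem rk10_482_2 : chkC1 52 10 43 5 5 3 rd10_482.me rd10_482.mo gs10 [rd10_482.c0, rd10_482.c1] true
    (Nat.beq (10 % 2) 0) rd10_482.v2 = true := by decide +kernel

/-- run 483 -/
def rd10_483 : CRun :=
  ⟨40, 2716, 40, 581, 8, 7,
    2582249878086908589655919172003011874329705792829223515945474142382238458574705584167507248529460093246754797364696108597,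
    2582249878086908589655919172003011874329705792829223514451595438103177961849049318757191823232911735497537916370506132691,
    2074757784440496479256203931845580575506223116121218449997828664845326405706454073199853524473551897144098943305651199275064866492640306944712949808277170451812945597909865996568181,
    [1383541, 1393, 841471, 1005, 277595, 708]⟩

set_option maxRecDepth 100000 in
theorem rk10_483_0 : chkC1 52 10 43 5 5 3 rd10_483.me rd10_483.mo gs10 [rd10_483.c0, rd10_483.c1] false
    (Nat.beq (10 % 2) 1) rd10_483.v0 = true := by decide +kernel

set_option maxRecDepth 100000 in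
theorem rk10_483_1 : chkC2 52 10 43 5 5 3 rd10_483.me rd10_483.mo gs10 [rd10_483.c0, rd10_483.c1]
    rd10_483.v1 = true := by decide +kernel

set_option maxRecDepth 100000 in
theorem rk10_483_2 : chkC1 52 10 43 5 5 3 rd10_483.me rd10_483.mo gs10 [rd10_483.c0, rd10_483.c1] true
    (Nat.beq (10 % 2) 0) rd10_483.v2 = true := by decide +kernel

/-- run 484 -/
def rd10_484 : CRun :=
  ⟨40, 2720, 20, 755, 8, 7,
    2582249878086908589655919172003011874329705792829223513458562362644626777233485172401492934402676040241560565437779524234,
    2582249878086908589655919172003011874329705792829223513486322217359200834243472567546686518361247096959158307242560754086,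
    2074757784440496479256203931845580575506223116121218449997828664845326405706454073199853524473551897144098943305651005272648659193262321314713465644398493151289912188896653877523289,
    [2652395, 626, 1615595, 639, 534046, 617]⟩

set_option maxRecDepth 100000 in
theorem rk10_484_0 : chkC1 52 10 43 5 5 3 rd10_484.me rd10_484.mo gs10 [rd10_484.c0, rd10_484.c1] false
    (Nat.beq (10 % 2) 1) rd10_484.v0 = true := by decide +kernel

set_option maxRecDepth 100000 in
theorem rk10_484_1 : chkC2 52 10 43 5 5 3 rd10_484.me rd10_484.mo gs10 [rd10_484.c0, rd10_484.c1]
    rd10_484.v1 = true := by decide +kernel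

set_option maxRecDepth 100000 in
theorem rk10_484_2 : chkC1 52 10 43 5 5 3 rd10_484.me rd10_484.mo gs10 [rd10_484.c0, rd10_484.c1] true
    (Nat.beq (10 % 2) 0) rd10_484.v2 = true := by decide +kernel

/-- run 485 -/
def rd10_485 : CRun :=
  ⟨40, 2722, 40, 773, 8, 7,
    2582249878086908589655919172003011874329705792829223513542772343915974903632986153888539219425249565927754035452201083468,
    2582249878086908589655919172003011874329705792829223513549400963348543238519596747519446515160653653277108055077934967537,
    2074757784440496479256203931845580575506223116121218449997828664845326405706454073199853524473551897144098943305651068145706578870515842169522290584726479435004246934448897790033400,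
    [1143890, 666, 699000, 669, 234767, 648]⟩

set_option maxRecDepth 100000 in
theorem rk10_485_0 : chkC1 52 10 43 5 5 3 rd10_485.me rd10_485.mo gs10 [rd10_485.c0, rd10_485.c1] false
    (Nat.beq (10 % 2) 1) rd10_485.v0 = true := by decide +kernel

set_option maxRecDepth 100000 in
theorem rk10_485_1 : chkC2 52 10 43 5 5 3 rd10_485.me rd10_485.mo gs10 [rd10_485.c0, rd10_485.c1]
    rd10_485.v1 = true := by decide +kernel

set_option maxRecDepth 100000 in
theorem rk10_485_2 : chkC1 52 10 43 5 5 3 rd10_485.me rd10_485.mo gs10 [rd10_485.c0, rd10_485.c1] true
    (Nat.beq (10 % 2) 0) rd10_485.v2 = true := by decide +kernel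

/-- run 486 -/
def rd10_486 : CRun :=
  ⟨40, 2732, 40, 779, 8, 7,
    2582249878086908589655919172003011874329705792829223513607496594462638513951265303043856566729638858111337374389710079868,
    2582249878086908589655919172003011874329705792829223513578563674975755394040132275571253934071226593208278182858463425437,
    2074757784440496479256203931845580575506223116121218449997828664845326405706454073199853524473551897144098943305651106329768386552642769597625528795432240567591785201172630740450095,
    [3228890, 696, 1973343, 683, 660027, 666]⟩

set_option maxRecDepth 100000 in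
theorem rk10_486_0 : chkC1 52 10 43 5 5 3 rd10_486.me rd10_486.mo gs10 [rd10_486.c0, rd10_486.c1] false
    (Nat.beq (10 % 2) 1) rd10_486.v0 = true := by decide +kernel

set_option maxRecDepth 100000 in
theorem rk10_486_1 : chkC2 52 10 43 5 5 3 rd10_486.me rd10_486.mo gs10 [rd10_486.c0, rd10_486.c1]
    rd10_486.v1 = true := by decide +kernel

set_option maxRecDepth 100000 in
theorem rk10_486_2 : chkC1 52 10 43 5 5 3 rd10_486.me rd10_486.mo gs10 [rd10_486.c0, rd10_486.c1] true
    (Nat.beq (10 % 2) 0) rd10_486.v2 = true := by decide +kernel

/-- run 487 -/
def rd10_487 : CRun :=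
  ⟨40, 2734, 40, 781, 8, 7,
    2582249878086908589655919172003011874329705792829223513453870103555390525628902643091856739603311207499714810822230063006,
    2582249878086908589655919172003011874329705792829223513477366751638545481437877212806069219177390859674806803032070154512,
    2074757784440496479256203931845580575506223116121218449997828664845326405706454073199853524473551897144098943305651026736520116360595431728701133045307375040355300145660619734725248,
    [2738381, 623, 1694341, 635, 591559, 628]⟩

set_option maxRecDepth 100000 in
theorem rk10_487_0 : chkC1 52 10 43 5 5 3 rd10_487.me rd10_487.mo gs10 [rd10_487.c0, rd10_487.c1] false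
    (Nat.beq (10 % 2) 1) rd10_487.v0 = true := by decide +kernel

set_option maxRecDepth 100000 in
theorem rk10_487_1 : chkC2 52 10 43 5 5 3 rd10_487.me rd10_487.mo gs10 [rd10_487.c0, rd10_487.c1]
    rd10_487.v1 = true := by decide +kernel

set_option maxRecDepth 100000 in
theorem rk10_487_2 : chkC1 52 10 43 5 5 3 rd10_487.me rd10_487.mo gs10 [rd10_487.c0, rd10_487.c1] true
    (Nat.beq (10 % 2) 0) rd10_487.v2 = true := by decide +kernel

/-- runs of this file -/
def rds10_60 : List CRun :=
  [rd10_480, rd10_481, rd10_482, rd10_483, rd10_484, rd10_485, rd10_486, rd10_487]

theorem ac10_60 : allC 52 10 43 5 5 3 gs10 rds10_60 :=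
  allC_cons rk10_480_0 rk10_480_1 rk10_480_2
    (allC_cons rk10_481_0 rk10_481_1 rk10_481_2
    (allC_cons rk10_482_0 rk10_482_1 rk10_482_2
    (allC_cons rk10_483_0 rk10_483_1 rk10_483_2
    (allC_cons rk10_484_0 rk10_484_1 rk10_484_2
    (allC_cons rk10_485_0 rk10_485_1 rk10_485_2
    (allC_cons rk10_486_0 rk10_486_1 rk10_486_2
    (allC_cons rk10_487_0 rk10_487_1 rk10_487_2
    (allC_nil))))))))

end Crest.Agent.R347
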