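import Crest.Agent.R347.G10c

/-! Row 347, Chebyshev numerics, ring with 10 sites: run certificates 488..495 (generated) -/

set_option autoImplicit false
set_option Elab.async false

namespace Crest.Agent.R347

/-- run 488 -/
def rd10_488 : CRun :=
  ⟨40, 2738, 40, 791, 8, 7,
    2582249878086908589655919172003011874329705792829223513920539374050599632558768312366561429839181656721181894683250531420,
    2582249878086908589655919172003011874329705792829223513760618506823989179327107786898861268798774536982912130207986961478,
    2074757784440496479256203931845580575506223116121218449997828664845326405706454073199853524473551897144098943305651155233713887486493825166157885014033723125795494992906835463519935,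
    [2617769, 824, 1598063, 761, 532570, 689]⟩

set_option maxRecDepth 100000 in
theorem rk10_488_0 : chkC1 52 10 43 5 5 3 rd10_488.me rd10_488.mo gs10 [rd10_488.c0, rd10_488.c1] false
    (Nat.beq (10 % 2) 1) rd10_488.v0 = true := by decide +kernel

set_option maxRecDepth 100000 in
theorem rk10_488_1 : chkC2 52 10 43 5 5 3 rd10_488.me rd10_488.mo gs10 [rd10_488.c0, rd10_488.c1]
    rd10_488.v1 = true := by decide +kernel

set_option maxRecDepth 100000 in
theorem rk10_488_2 : chkC1 52 10 43 5 5 3 rd10_488.me rd10_488.mo gs10 [rd10_488.c0, rd10_488.c1] true
    (Nat.beq (10 % 2) 0) rd10_488.v2 = true := by decide +kernel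

/-- run 489 -/
def rd10_489 : CRun :=
  ⟨40, 2740, 40, 797, 8, 7,
    2582249878086908589655919172003011874329705792829223513996375601173314160632420129390417916540011982606773232671151326761,
    2582249878086908589655919172003011874329705792829223513759471153060388260270370825964929678700573684045351214525983138757,
    2074757784440496479256203931845580575506223116121218449997828664845326405706454073199853524473551897144098943305651125942447216733619082587272865819321804351079324320158857871866387,
    [1601323, 852, 977858, 761, 328501, 675]⟩

set_option maxRecDepth 100000 in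
theorem rk10_489_0 : chkC1 52 10 43 5 5 3 rd10_489.me rd10_489.mo gs10 [rd10_489.c0, rd10_489.c1] false
    (Nat.beq (10 % 2) 1) rd10_489.v0 = true := by decide +kernel

set_option maxRecDepth 100000 in
theorem rk10_489_1 : chkC2 52 10 43 5 5 3 rd10_489.me rd10_489.mo gs10 [rd10_489.c0, rd10_489.c1]
    rd10_489.v1 = true := by decide +kernel

set_option maxRecDepth 100000 in
theorem rk10_489_2 : chkC1 52 10 43 5 5 3 rd10_489.me rd10_489.mo gs10 [rd10_489.c0, rd10_489.c1] true
    (Nat.beq (10 % 2) 0) rd10_489.v2 = true := by decide +kernel

/-- run 490 -/
def rd10_490 : CRun :=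
  ⟨40, 2746, 40, 799, 8, 7,
    2582249878086908589655919172003011874329705792829223513590103097071579203208799105356355822719938532906632414469380985324,
    2582249878086908589655919172003011874329705792829223513592998799427333903685325721046754597729683542701429007058666377370,
    2074757784440496479256203931845580575506223116121218449997828664845326405706454073199853524473551897144098943305651106975757480344756860365494289916579606781517388701854920101411137,
    [393316, 688, 234030, 689, 72140, 666]⟩

set_option maxRecDepth 100000 in
theorem rk10_490_0 : chkC1 52 10 43 5 5 3 rd10_490.me rd10_490.mo gs10 [rd10_490.c0, rd10_490.c1] false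
    (Nat.beq (10 % 2) 1) rd10_490.v0 = true := by decide +kernel

set_option maxRecDepth 100000 in
theorem rk10_490_1 : chkC2 52 10 43 5 5 3 rd10_490.me rd10_490.mo gs10 [rd10_490.c0, rd10_490.c1]
    rd10_490.v1 = true := by decide +kernel

set_option maxRecDepth 100000 in
theorem rk10_490_2 : chkC1 52 10 43 5 5 3 rd10_490.me rd10_490.mo gs10 [rd10_490.c0, rd10_490.c1] true
    (Nat.beq (10 % 2) 0) rd10_490.v2 = true := by decide +kernel

/-- run 491 -/
def rd10_491 : CRun :=
  ⟨40, 2762, 40, 803, 8, 7,
    2582249878086908589655919172003011874329705792829223513850811118434113526522451493255693702190538224414958941493217237726,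
    2582249878086908589655919172003011874329705792829223513713556112321776131127310343100465639658706777903995474017516376353,
    2074757784440496479256203931845580575506223116121218449997828664845326405706454073199853524473551897144098943305651144868963502016006547920502389413534936857586185093892775998031145,
    [609979, 797, 361670, 742, 108900, 684]⟩

set_option maxRecDepth 100000 in
theorem rk10_491_0 : chkC1 52 10 43 5 5 3 rd10_491.me rd10_491.mo gs10 [rd10_491.c0, rd10_491.c1] false
    (Nat.beq (10 % 2) 1) rd10_491.v0 = true := by decide +kernel

set_option maxRecDepth 100000 in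
theorem rk10_491_1 : chkC2 52 10 43 5 5 3 rd10_491.me rd10_491.mo gs10 [rd10_491.c0, rd10_491.c1]
    rd10_491.v1 = true := by decide +kernel

set_option maxRecDepth 100000 in
theorem rk10_491_2 : chkC1 52 10 43 5 5 3 rd10_491.me rd10_491.mo gs10 [rd10_491.c0, rd10_491.c1] true
    (Nat.beq (10 % 2) 0) rd10_491.v2 = true := by decide +kernel

/-- run 492 -/
def rd10_492 : CRun :=
  ⟨40, 2768, 40, 805, 8, 7,
    2582249878086908589655919172003011874329705792829223513511600959733439010268023173221305347261523872254355422132650265301,
    2582249878086908589655919172003011874329705792829223513548022210506569024863181744044217797647689603108442419556706585953,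
    2074757784440496479256203931845580575506223116121218449997828664845326405706454073199853524473551897144098943305651057239418072484748842066225569865255896116812528130633987115608406,
    [1846107, 651, 1104564, 669, 342975, 643]⟩

set_option maxRecDepth 100000 in
theorem rk10_492_0 : chkC1 52 10 43 5 5 3 rd10_492.me rd10_492.mo gs10 [rd10_492.c0, rd10_492.c1] false
    (Nat.beq (10 % 2) 1) rd10_492.v0 = true := by decide +kernel

set_option maxRecDepth 100000 in
theorem rk10_492_1 : chkC2 52 10 43 5 5 3 rd10_492.me rd10_492.mo gs10 [rd10_492.c0, rd10_492.c1]
    rd10_492.v1 = true := by decide +kernel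

set_option maxRecDepth 100000 in
theorem rk10_492_2 : chkC1 52 10 43 5 5 3 rd10_492.me rd10_492.mo gs10 [rd10_492.c0, rd10_492.c1] true
    (Nat.beq (10 % 2) 0) rd10_492.v2 = true := by decide +kernel

/-- run 493 -/
def rd10_493 : CRun :=
  ⟨40, 2770, 40, 827, 8, 7,
    2582249878086908589655919172003011874329705792829223513807264704372739149045539862515340536824789045486439039169709337721,
    2582249878086908589655919172003011874329705792829223513669002148106651366747633902128214565341176177698373760133942598253,
    2074757784440496479256203931845580575506223116121218449997828664845326405706454073199853524473551897144098943305651093406772634621842973689166382187802591084035309199952255070318429,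
    [1045179, 780, 631504, 723, 203613, 660]⟩

set_option maxRecDepth 100000 in
theorem rk10_493_0 : chkC1 52 10 43 5 5 3 rd10_493.me rd10_493.mo gs10 [rd10_493.c0, rd10_493.c1] false
    (Nat.beq (10 % 2) 1) rd10_493.v0 = true := by decide +kernel

set_option maxRecDepth 100000 in
theorem rk10_493_1 : chkC2 52 10 43 5 5 3 rd10_493.me rd10_493.mo gs10 [rd10_493.c0, rd10_493.c1]
    rd10_493.v1 = true := by decide +kernel

set_option maxRecDepth 100000 in
theorem rk10_493_2 : chkC1 52 10 43 5 5 3 rd10_493.me rd10_493.mo gs10 [rd10_493.c0, rd10_493.c1] true
    (Nat.beq (10 % 2) 0) rd10_493.v2 = true := by decide +kernel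

/-- run 494 -/
def rd10_494 : CRun :=
  ⟨40, 2774, 40, 833, 8, 7,
    2582249878086908589655919172003011874329705792829223514557250007575162313475657784366530923186144060135762771122090200010,
    2582249878086908589655919172003011874329705792829223513965438829945240079847686275188665854116254530570466905911594770934,
    2074757784440496479256203931845580575506223116121218449997828664845326405706454073199853524473551897144098943305651173646009998606004402325959539059074822825197397756147240749251713,
    [3054739, 1037, 1862767, 841, 618089, 697]⟩

set_option maxRecDepth 100000 in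
theorem rk10_494_0 : chkC1 52 10 43 5 5 3 rd10_494.me rd10_494.mo gs10 [rd10_494.c0, rd10_494.c1] false
    (Nat.beq (10 % 2) 1) rd10_494.v0 = true := by decide +kernel

set_option maxRecDepth 100000 in
theorem rk10_494_1 : chkC2 52 10 43 5 5 3 rd10_494.me rd10_494.mo gs10 [rd10_494.c0, rd10_494.c1]
    rd10_494.v1 = true := by decide +kernel

set_option maxRecDepth 100000 in
theorem rk10_494_2 : chkC1 52 10 43 5 5 3 rd10_494.me rd10_494.mo gs10 [rd10_494.c0, rd10_494.c1] true
    (Nat.beq (10 % 2) 0) rd10_494.v2 = true := by decide +kernel

/-- run 495 -/
def rd10_495 : CRun :=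
  ⟨40, 2776, 40, 835, 8, 7,
    2582249878086908589655919172003011874329705792829223513643434156884446572473485743276974327172445405864295744604798316723,
    2582249878086908589655919172003011874329705792829223513609423313177705043291640115592573620690062979500882933190169070513,
    2074757784440496479256203931845580575506223116121218449997828664845326405706454073199853524473551897144098943305651075280511495380432665575833980579488434633585539330049098081900113,
    [1293110, 712, 785276, 697, 258204, 651]⟩

set_option maxRecDepth 100000 in
theorem rk10_495_0 : chkC1 52 10 43 5 5 3 rd10_495.me rd10_495.mo gs10 [rd10_495.c0, rd10_495.c1] false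
    (Nat.beq (10 % 2) 1) rd10_495.v0 = true := by decide +kernel

set_option maxRecDepth 100000 in
theorem rk10_495_1 : chkC2 52 10 43 5 5 3 rd10_495.me rd10_495.mo gs10 [rd10_495.c0, rd10_495.c1]
    rd10_495.v1 = true := by decide +kernel

set_option maxRecDepth 100000 in
theorem rk10_495_2 : chkC1 52 10 43 5 5 3 rd10_495.me rd10_495.mo gs10 [rd10_495.c0, rd10_495.c1] true
    (Nat.beq (10 % 2) 0) rd10_495.v2 = true := by decide +kernel

/-- runs of this file -/
def rds10_61 : List CRun :=
  [rd10_488, rd10_489, rd10_490, rd10_491, rd10_492, rd10_493, rd10_494, rd10_495]

theorem ac10_61 : allC 52 10 43 5 5 3 gs10 rds10_61 :=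
  allC_cons rk10_488_0 rk10_488_1 rk10_488_2
    (allC_cons rk10_489_0 rk10_489_1 rk10_489_2
    (allC_cons rk10_490_0 rk10_490_1 rk10_490_2
    (allC_cons rk10_491_0 rk10_491_1 rk10_491_2
    (allC_cons rk10_492_0 rk10_492_1 rk10_492_2
    (allC_cons rk10_493_0 rk10_493_1 rk10_493_2
    (allC_cons rk10_494_0 rk10_494_1 rk10_494_2
    (allC_cons rk10_495_0 rk10_495_1 rk10_495_2
    (allC_nil))))))))

end Crest.Agent.R347
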