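import Crest.Agent.R347.G10c

/-! Row 347, Chebyshev numerics, ring with 10 sites: run certificates 496..503 (generated) -/

set_option autoImplicit false
set_option Elab.async false

namespace Crest.Agent.R347

/-- run 496 -/
def rd10_496 : CRun :=
  ⟨40, 2786, 40, 845, 8, 7,
    2582249878086908589655919172003011874329705792829223515139607568690708907312615930555152932665395469488634454109739917693,
    2582249878086908589655919172003011874329705792829223514173567838499620241345605663426600893232327740122220448833205085579,
    2074757784440496479256203931845580575506223116121218449997828664845326405706454073199853524473551897144098943305651162231929070234396475151402797159796857109989532916969462363520111,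
    [1794488, 1199, 1075226, 915, 335847, 692]⟩

set_option maxRecDepth 100000 in
theorem rk10_496_0 : chkC1 52 10 43 5 5 3 rd10_496.me rd10_496.mo gs10 [rd10_496.c0, rd10_496.c1] false
    (Nat.beq (10 % 2) 1) rd10_496.v0 = true := by decide +kernel

set_option maxRecDepth 100000 in
theorem rk10_496_1 : chkC2 52 10 43 5 5 3 rd10_496.me rd10_496.mo gs10 [rd10_496.c0, rd10_496.c1]
    rd10_496.v1 = true := by decide +kernel

set_option maxRecDepth 100000 in
theorem rk10_496_2 : chkC1 52 10 43 5 5 3 rd10_496.me rd10_496.mo gs10 [rd10_496.c0, rd10_496.c1] true
    (Nat.beq (10 % 2) 0) rd10_496.v2 = true := by decide +kernel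

/-- run 497 -/
def rd10_497 : CRun :=
  ⟨40, 2788, 40, 851, 8, 7,
    2582249878086908589655919172003011874329705792829223519825501576333650651413723528343584386961637765276015889820407756677,
    2582249878086908589655919172003011874329705792829223515866653831311334985559372343538173222875746036401708807709099851506,
    2074757784440496479256203931845580575506223116121218449997828664845326405706454073199853524473551897144098943305651372594581506134554456074118343449051990689061246028596712685687866,
    [1507139, 2087, 911111, 1375, 294360, 781]⟩

set_option maxRecDepth 100000 in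
theorem rk10_497_0 : chkC1 52 10 43 5 5 3 rd10_497.me rd10_497.mo gs10 [rd10_497.c0, rd10_497.c1] false
    (Nat.beq (10 % 2) 1) rd10_497.v0 = true := by decide +kernel

set_option maxRecDepth 100000 in
theorem rk10_497_1 : chkC2 52 10 43 5 5 3 rd10_497.me rd10_497.mo gs10 [rd10_497.c0, rd10_497.c1]
    rd10_497.v1 = true := by decide +kernel

set_option maxRecDepth 100000 in
theorem rk10_497_2 : chkC1 52 10 43 5 5 3 rd10_497.me rd10_497.mo gs10 [rd10_497.c0, rd10_497.c1] true
    (Nat.beq (10 % 2) 0) rd10_497.v2 = true := by decide +kernel

/-- run 498 -/
def rd10_498 : CRun :=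
  ⟨40, 2792, 40, 853, 8, 7,
    2582249878086908589655919172003011874329705792829223515039429444073559194545054471756512514861558812653221367593874535227,
    2582249878086908589655919172003011874329705792829223514139147225591592669643496835408653190286302151995393026887278393068,
    2074757784440496479256203931845580575506223116121218449997828664845326405706454073199853524473551897144098943305651172014967883683129272650868015332794781265161359066612300895769099,
    [2202237, 1173, 1319977, 903, 412324, 696]⟩

set_option maxRecDepth 100000 in
theorem rk10_498_0 : chkC1 52 10 43 5 5 3 rd10_498.me rd10_498.mo gs10 [rd10_498.c0, rd10_498.c1] false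
    (Nat.beq (10 % 2) 1) rd10_498.v0 = true := by decide +kernel

set_option maxRecDepth 100000 in
theorem rk10_498_1 : chkC2 52 10 43 5 5 3 rd10_498.me rd10_498.mo gs10 [rd10_498.c0, rd10_498.c1]
    rd10_498.v1 = true := by decide +kernel

set_option maxRecDepth 100000 in
theorem rk10_498_2 : chkC1 52 10 43 5 5 3 rd10_498.me rd10_498.mo gs10 [rd10_498.c0, rd10_498.c1] true
    (Nat.beq (10 % 2) 0) rd10_498.v2 = true := by decide +kernel

/-- run 499 -/
def rd10_499 : CRun :=
  ⟨40, 2794, 40, 857, 8, 7,
    2582249878086908589655919172003011874329705792829223520748819251680069801915175191285154277444050205849720562312035020681,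
    2582249878086908589655919172003011874329705792829223516314869025306273848164914120144432001784251506442574299123058408951,
    2074757784440496479256203931845580575506223116121218449997828664845326405706454073199853524473551897144098943305651512020560916265845713472459285430025198528004001592617040941624621,
    [1367464, 2220, 810953, 1473, 244908, 834]⟩

set_option maxRecDepth 100000 in
theorem rk10_499_0 : chkC1 52 10 43 5 5 3 rd10_499.me rd10_499.mo gs10 [rd10_499.c0, rd10_499.c1] false
    (Nat.beq (10 % 2) 1) rd10_499.v0 = true := by decide +kernel

set_option maxRecDepth 100000 in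
theorem rk10_499_1 : chkC2 52 10 43 5 5 3 rd10_499.me rd10_499.mo gs10 [rd10_499.c0, rd10_499.c1]
    rd10_499.v1 = true := by decide +kernel

set_option maxRecDepth 100000 in
theorem rk10_499_2 : chkC1 52 10 43 5 5 3 rd10_499.me rd10_499.mo gs10 [rd10_499.c0, rd10_499.c1] true
    (Nat.beq (10 % 2) 0) rd10_499.v2 = true := by decide +kernel

/-- run 500 -/
def rd10_500 : CRun :=
  ⟨20, 2800, 40, 859, 8, 7,
    2582249878086908589655919172003011874329705792829223514651386045145898222807181465697968569604497233714552549105126923414,
    2582249878086908589655919172003011874329705792829223513984225542620671935159047354010226386102341605770781533556503103270,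
    2074757784440496479256203931845580575506223116121218449997828664845326405706454073199853524473551897144098943305651125842817057989561685503671216094169722994702738705625599995375402,
    [479243, 1065, 278026, 848, 76320, 675]⟩

set_option maxRecDepth 100000 in
theorem rk10_500_0 : chkC1 52 10 43 5 5 3 rd10_500.me rd10_500.mo gs10 [rd10_500.c0, rd10_500.c1] false
    (Nat.beq (10 % 2) 1) rd10_500.v0 = true := by decide +kernel

set_option maxRecDepth 100000 in
theorem rk10_500_1 : chkC2 52 10 43 5 5 3 rd10_500.me rd10_500.mo gs10 [rd10_500.c0, rd10_500.c1]
    rd10_500.v1 = true := by decide +kernel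

set_option maxRecDepth 100000 in
theorem rk10_500_2 : chkC1 52 10 43 5 5 3 rd10_500.me rd10_500.mo gs10 [rd10_500.c0, rd10_500.c1] true
    (Nat.beq (10 % 2) 0) rd10_500.v2 = true := by decide +kernel

/-- run 501 -/
def rd10_501 : CRun :=
  ⟨40, 2810, 40, 869, 8, 7,
    2582249878086908589655919172003011874329705792829223518901243842231339991601079817577994916356749835950948281341881548777,
    2582249878086908589655919172003011874329705792829223515607915915991062184323534401164045608755838565763759984261087255668,
    2074757784440496479256203931845580575506223116121218449997828664845326405706454073199853524473551897144098943305651359682834320513567592094452931487810479423160190983856209356081899,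
    [703368, 1944, 415319, 1315, 122330, 775]⟩

set_option maxRecDepth 100000 in
theorem rk10_501_0 : chkC1 52 10 43 5 5 3 rd10_501.me rd10_501.mo gs10 [rd10_501.c0, rd10_501.c1] false
    (Nat.beq (10 % 2) 1) rd10_501.v0 = true := by decide +kernel

set_option maxRecDepth 100000 in
theorem rk10_501_1 : chkC2 52 10 43 5 5 3 rd10_501.me rd10_501.mo gs10 [rd10_501.c0, rd10_501.c1]
    rd10_501.v1 = true := by decide +kernel

set_option maxRecDepth 100000 in
theorem rk10_501_2 : chkC1 52 10 43 5 5 3 rd10_501.me rd10_501.mo gs10 [rd10_501.c0, rd10_501.c1] true
    (Nat.beq (10 % 2) 0) rd10_501.v2 = true := by decide +kernel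

/-- run 502 -/
def rd10_502 : CRun :=
  ⟨40, 2812, 40, 871, 8, 7,
    2582249878086908589655919172003011874329705792829223516696344868447048326646647127131577615484804841745652838350583455857,
    2582249878086908589655919172003011874329705792829223514797312088945057129729147043303469545539538487579967966363641539064,
    2074757784440496479256203931845580575506223116121218449997828664845326405706454073199853524473551897144098943305651267637423145358604609050864282186016606951372707105482597619340830,
    [578334, 1552, 338334, 1107, 96388, 738]⟩

set_option maxRecDepth 100000 in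
theorem rk10_502_0 : chkC1 52 10 43 5 5 3 rd10_502.me rd10_502.mo gs10 [rd10_502.c0, rd10_502.c1] false
    (Nat.beq (10 % 2) 1) rd10_502.v0 = true := by decide +kernel

set_option maxRecDepth 100000 in
theorem rk10_502_1 : chkC2 52 10 43 5 5 3 rd10_502.me rd10_502.mo gs10 [rd10_502.c0, rd10_502.c1]
    rd10_502.v1 = true := by decide +kernel

set_option maxRecDepth 100000 in
theorem rk10_502_2 : chkC1 52 10 43 5 5 3 rd10_502.me rd10_502.mo gs10 [rd10_502.c0, rd10_502.c1] true
    (Nat.beq (10 % 2) 0) rd10_502.v2 = true := by decide +kernel

/-- run 503 -/
def rd10_503 : CRun :=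
  ⟨40, 2840, 40, 875, 8, 7,
    2582249878086908589655919172003011874329705792829223517306839914717569840208345029557093382134220025519661229930851892049,
    2582249878086908589655919172003011874329705792829223515000925601595069528552793518061925917742524306719191863710856807004,
    2074757784440496479256203931845580575506223116121218449997828664845326405706454073199853524473551897144098943305651269292569330945364592859085237297414087549241790701759216644284372,
    [519347, 1669, 305750, 1163, 89192, 738]⟩

set_option maxRecDepth 100000 in
theorem rk10_503_0 : chkC1 52 10 43 5 5 3 rd10_503.me rd10_503.mo gs10 [rd10_503.c0, rd10_503.c1] false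
    (Nat.beq (10 % 2) 1) rd10_503.v0 = true := by decide +kernel

set_option maxRecDepth 100000 in
theorem rk10_503_1 : chkC2 52 10 43 5 5 3 rd10_503.me rd10_503.mo gs10 [rd10_503.c0, rd10_503.c1]
    rd10_503.v1 = true := by decide +kernel

set_option maxRecDepth 100000 in
theorem rk10_503_2 : chkC1 52 10 43 5 5 3 rd10_503.me rd10_503.mo gs10 [rd10_503.c0, rd10_503.c1] true
    (Nat.beq (10 % 2) 0) rd10_503.v2 = true := by decide +kernel

/-- runs of this file -/
def rds10_62 : List CRun :=
  [rd10_496, rd10_497, rd10_498, rd10_499, rd10_500, rd10_501, rd10_502, rd10_503]

theorem ac10_62 : allC 52 10 43 5 5 3 gs10 rds10_62 :=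
  allC_cons rk10_496_0 rk10_496_1 rk10_496_2
    (allC_cons rk10_497_0 rk10_497_1 rk10_497_2
    (allC_cons rk10_498_0 rk10_498_1 rk10_498_2
    (allC_cons rk10_499_0 rk10_499_1 rk10_499_2
    (allC_cons rk10_500_0 rk10_500_1 rk10_500_2
    (allC_cons rk10_501_0 rk10_501_1 rk10_501_2
    (allC_cons rk10_502_0 rk10_502_1 rk10_502_2
    (allC_cons rk10_503_0 rk10_503_1 rk10_503_2
    (allC_nil))))))))

end Crest.Agent.R347
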