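import Crest.Agent.R347.G10c

/-! Row 347, Chebyshev numerics, ring with 10 sites: run certificates 504..511 (generated) -/

set_option autoImplicit false
set_option Elab.async false

namespace Crest.Agent.R347

/-- run 504 -/
def rd10_504 : CRun :=
  ⟨40, 2842, 40, 877, 8, 7,
    2582249878086908589655919172003011874329705792829223514728167151838637037162851956432121659915610614960488173566749406452,
    2582249878086908589655919172003011874329705792829223514021365094699585718407373181888415336171834761363089441568922011971,
    2074757784440496479256203931845580575506223116121218449997828664845326405706454073199853524473551897144098943305651151492762120451564463704470134043807184454106925466564838554910248,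
    [477243, 1087, 283252, 861, 85462, 687]⟩

set_option maxRecDepth 100000 in
theorem rk10_504_0 : chkC1 52 10 43 5 5 3 rd10_504.me rd10_504.mo gs10 [rd10_504.c0, rd10_504.c1] false
    (Nat.beq (10 % 2) 1) rd10_504.v0 = true := by decide +kernel

set_option maxRecDepth 100000 in
theorem rk10_504_1 : chkC2 52 10 43 5 5 3 rd10_504.me rd10_504.mo gs10 [rd10_504.c0, rd10_504.c1]
    rd10_504.v1 = true := by decide +kernel

set_option maxRecDepth 100000 in
theorem rk10_504_2 : chkC1 52 10 43 5 5 3 rd10_504.me rd10_504.mo gs10 [rd10_504.c0, rd10_504.c1] true
    (Nat.beq (10 % 2) 0) rd10_504.v2 = true := by decide +kernel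

/-- run 505 -/
def rd10_505 : CRun :=
  ⟨40, 2846, 40, 883, 8, 7,
    2582249878086908589655919172003011874329705792829223513573265600243833503101670426552805120970710889937776311699225804379,
    2582249878086908589655919172003011874329705792829223513579531051678399306186008536750843313957944959410535420502135628158,
    2074757784440496479256203931845580575506223116121218449997828664845326405706454073199853524473551897144098943305651114701915597141982105171248029892889399708269382809522889682226943,
    [844293, 680, 500899, 683, 150519, 670]⟩

set_option maxRecDepth 100000 in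
theorem rk10_505_0 : chkC1 52 10 43 5 5 3 rd10_505.me rd10_505.mo gs10 [rd10_505.c0, rd10_505.c1] false
    (Nat.beq (10 % 2) 1) rd10_505.v0 = true := by decide +kernel

set_option maxRecDepth 100000 in
theorem rk10_505_1 : chkC2 52 10 43 5 5 3 rd10_505.me rd10_505.mo gs10 [rd10_505.c0, rd10_505.c1]
    rd10_505.v1 = true := by decide +kernel

set_option maxRecDepth 100000 in
theorem rk10_505_2 : chkC1 52 10 43 5 5 3 rd10_505.me rd10_505.mo gs10 [rd10_505.c0, rd10_505.c1] true
    (Nat.beq (10 % 2) 0) rd10_505.v2 = true := by decide +kernel

/-- run 506 -/
def rd10_506 : CRun :=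
  ⟨40, 2848, 40, 899, 8, 7,
    2582249878086908589655919172003011874329705792829223515522131135436340247454002296826504984382793281143659371749330800052,
    2582249878086908589655919172003011874329705792829223514346545077335834990566044630894573000418227759184975399772102413936,
    2074757784440496479256203931845580575506223116121218449997828664845326405706454073199853524473551897144098943305651220163652503815254898714678188151049840637929661780433866361216456,
    [616816, 1295, 363078, 972, 106494, 717]⟩

set_option maxRecDepth 100000 in
theorem rk10_506_0 : chkC1 52 10 43 5 5 3 rd10_506.me rd10_506.mo gs10 [rd10_506.c0, rd10_506.c1] false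
    (Nat.beq (10 % 2) 1) rd10_506.v0 = true := by decide +kernel

set_option maxRecDepth 100000 in
theorem rk10_506_1 : chkC2 52 10 43 5 5 3 rd10_506.me rd10_506.mo gs10 [rd10_506.c0, rd10_506.c1]
    rd10_506.v1 = true := by decide +kernel

set_option maxRecDepth 100000 in
theorem rk10_506_2 : chkC1 52 10 43 5 5 3 rd10_506.me rd10_506.mo gs10 [rd10_506.c0, rd10_506.c1] true
    (Nat.beq (10 % 2) 0) rd10_506.v2 = true := by decide +kernel

/-- run 507 -/
def rd10_507 : CRun :=
  ⟨40, 2864, 40, 905, 8, 7,
    2582249878086908589655919172003011874329705792829223528319097950431995954032256440456001933275738420748482476468826316115,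
    2582249878086908589655919172003011874329705792829223519032450333545086547599081022417650842852687710393313315882608421792,
    2074757784440496479256203931845580575506223116121218449997828664845326405706454073199853524473551897144098943305651754783905138560024620147756499594141886762254678346696198726650052,
    [305463, 3105, 181921, 1965, 55814, 921]⟩

set_option maxRecDepth 100000 in
theorem rk10_507_0 : chkC1 52 10 43 5 5 3 rd10_507.me rd10_507.mo gs10 [rd10_507.c0, rd10_507.c1] false
    (Nat.beq (10 % 2) 1) rd10_507.v0 = true := by decide +kernel

set_option maxRecDepth 100000 in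
theorem rk10_507_1 : chkC2 52 10 43 5 5 3 rd10_507.me rd10_507.mo gs10 [rd10_507.c0, rd10_507.c1]
    rd10_507.v1 = true := by decide +kernel

set_option maxRecDepth 100000 in
theorem rk10_507_2 : chkC1 52 10 43 5 5 3 rd10_507.me rd10_507.mo gs10 [rd10_507.c0, rd10_507.c1] true
    (Nat.beq (10 % 2) 0) rd10_507.v2 = true := by decide +kernel

/-- run 508 -/
def rd10_508 : CRun :=
  ⟨40, 2866, 40, 907, 8, 7,
    2582249878086908589655919172003011874329705792829223517411086806462783316353578736373541623647642900335332349343648072389,
    2582249878086908589655919172003011874329705792829223515041682371211610298911364302609974824830294941250504838326577576043,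
    2074757784440496479256203931845580575506223116121218449997828664845326405706454073199853524473551897144098943305651298672217594132483800592778171570889949462679126032560619050782728,
    [279306, 1689, 165696, 1173, 50463, 751]⟩

set_option maxRecDepth 100000 in
theorem rk10_508_0 : chkC1 52 10 43 5 5 3 rd10_508.me rd10_508.mo gs10 [rd10_508.c0, rd10_508.c1] false
    (Nat.beq (10 % 2) 1) rd10_508.v0 = true := by decide +kernel

set_option maxRecDepth 100000 in
theorem rk10_508_1 : chkC2 52 10 43 5 5 3 rd10_508.me rd10_508.mo gs10 [rd10_508.c0, rd10_508.c1]
    rd10_508.v1 = true := by decide +kernel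

set_option maxRecDepth 100000 in
theorem rk10_508_2 : chkC1 52 10 43 5 5 3 rd10_508.me rd10_508.mo gs10 [rd10_508.c0, rd10_508.c1] true
    (Nat.beq (10 % 2) 0) rd10_508.v2 = true := by decide +kernel

/-- run 509 -/
def rd10_509 : CRun :=
  ⟨40, 2960, 40, 911, 8, 7,
    2582249878086908589655919172003011874329705792829223551485439918589516311869175846587755534406951770468426246908574781132,
    2582249878086908589655919172003011874329705792829223528041859357408169397754103888512750514112992827043112359691301357371,
    2074757784440496479256203931845580575506223116121218449997828664845326405706454073199853524473551897144098943305652953954992914654481782234800060817369368546149976780718369883669038,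
    [229203, 4905, 137797, 3077, 44289, 1263]⟩

set_option maxRecDepth 100000 in
theorem rk10_509_0 : chkC1 52 10 43 5 5 3 rd10_509.me rd10_509.mo gs10 [rd10_509.c0, rd10_509.c1] false
    (Nat.beq (10 % 2) 1) rd10_509.v0 = true := by decide +kernel

set_option maxRecDepth 100000 in
theorem rk10_509_1 : chkC2 52 10 43 5 5 3 rd10_509.me rd10_509.mo gs10 [rd10_509.c0, rd10_509.c1]
    rd10_509.v1 = true := by decide +kernel

set_option maxRecDepth 100000 in
theorem rk10_509_2 : chkC1 52 10 43 5 5 3 rd10_509.me rd10_509.mo gs10 [rd10_509.c0, rd10_509.c1] true
    (Nat.beq (10 % 2) 0) rd10_509.v2 = true := by decide +kernel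

/-- run 510 -/
def rd10_510 : CRun :=
  ⟨40, 2966, 40, 913, 8, 7,
    2582249878086908589655919172003011874329705792829223519613372898987109863119980196457812194127886792472736971046906568969,
    2582249878086908589655919172003011874329705792829223515933786881986342822300688893869909972921316110872972543194027399921,
    2074757784440496479256203931845580575506223116121218449997828664845326405706454073199853524473551897144098943305651453568189556345074440633588176520235531782870102743527599811192601,
    [316905, 2055, 186182, 1390, 54191, 812]⟩

set_option maxRecDepth 100000 in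
theorem rk10_510_0 : chkC1 52 10 43 5 5 3 rd10_510.me rd10_510.mo gs10 [rd10_510.c0, rd10_510.c1] false
    (Nat.beq (10 % 2) 1) rd10_510.v0 = true := by decide +kernel

set_option maxRecDepth 100000 in
theorem rk10_510_1 : chkC2 52 10 43 5 5 3 rd10_510.me rd10_510.mo gs10 [rd10_510.c0, rd10_510.c1]
    rd10_510.v1 = true := by decide +kernel

set_option maxRecDepth 100000 in
theorem rk10_510_2 : chkC1 52 10 43 5 5 3 rd10_510.me rd10_510.mo gs10 [rd10_510.c0, rd10_510.c1] true
    (Nat.beq (10 % 2) 0) rd10_510.v2 = true := by decide +kernel

/-- run 511 -/
def rd10_511 : CRun :=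
  ⟨20, 2968, 40, 923, 8, 7,
    2582249878086908589655919172003011874329705792829223520788104066048069337181349538556618679587910502438728496899514967034,
    2582249878086908589655919172003011874329705792829223516242678940605982969026467015108097613028544059149876113136678754398,
    2074757784440496479256203931845580575506223116121218449997828664845326405706454073199853524473551897144098943305651417603309187784613083728934587832675324733444898890841150326637050,
    [113246, 2226, 65903, 1458, 18227, 798]⟩

set_option maxRecDepth 100000 in
theorem rk10_511_0 : chkC1 52 10 43 5 5 3 rd10_511.me rd10_511.mo gs10 [rd10_511.c0, rd10_511.c1] false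
    (Nat.beq (10 % 2) 1) rd10_511.v0 = true := by decide +kernel

set_option maxRecDepth 100000 in
theorem rk10_511_1 : chkC2 52 10 43 5 5 3 rd10_511.me rd10_511.mo gs10 [rd10_511.c0, rd10_511.c1]
    rd10_511.v1 = true := by decide +kernel

set_option maxRecDepth 100000 in
theorem rk10_511_2 : chkC1 52 10 43 5 5 3 rd10_511.me rd10_511.mo gs10 [rd10_511.c0, rd10_511.c1] true
    (Nat.beq (10 % 2) 0) rd10_511.v2 = true := by decide +kernel

/-- runs of this file -/
def rds10_63 : List CRun :=
  [rd10_504, rd10_505, rd10_506, rd10_507, rd10_508, rd10_509, rd10_510, rd10_511]

theorem ac10_63 : allC 52 10 43 5 5 3 gs10 rds10_63 :=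
  allC_cons rk10_504_0 rk10_504_1 rk10_504_2
    (allC_cons rk10_505_0 rk10_505_1 rk10_505_2
    (allC_cons rk10_506_0 rk10_506_1 rk10_506_2
    (allC_cons rk10_507_0 rk10_507_1 rk10_507_2
    (allC_cons rk10_508_0 rk10_508_1 rk10_508_2
    (allC_cons rk10_509_0 rk10_509_1 rk10_509_2
    (allC_cons rk10_510_0 rk10_510_1 rk10_510_2
    (allC_cons rk10_511_0 rk10_511_1 rk10_511_2
    (allC_nil))))))))

end Crest.Agent.R347
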