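import Crest.Agent.R347.G10c

/-! Row 347, Chebyshev numerics, ring with 10 sites: run certificates 512..519 (generated) -/

set_option autoImplicit false
set_option Elab.async false

namespace Crest.Agent.R347

/-- run 512 -/
def rd10_512 : CRun :=
  ⟨40, 2978, 40, 925, 8, 7,
    2582249878086908589655919172003011874329705792829223517679439032101857656407984237946146413618440711485083621933022882514,
    2582249878086908589655919172003011874329705792829223515145611089224060494982040700932139516148418419873406965044383579484,
    2074757784440496479256203931845580575506223116121218449997828664845326405706454073199853524473551897144098943305651314036152235292689825049477736444745592177461949589842926649420585,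
    [586002, 1738, 349492, 1201, 108760, 757]⟩

set_option maxRecDepth 100000 in
theorem rk10_512_0 : chkC1 52 10 43 5 5 3 rd10_512.me rd10_512.mo gs10 [rd10_512.c0, rd10_512.c1] false
    (Nat.beq (10 % 2) 1) rd10_512.v0 = true := by decide +kernel

set_option maxRecDepth 100000 in
theorem rk10_512_1 : chkC2 52 10 43 5 5 3 rd10_512.me rd10_512.mo gs10 [rd10_512.c0, rd10_512.c1]
    rd10_512.v1 = true := by decide +kernel

set_option maxRecDepth 100000 in
theorem rk10_512_2 : chkC1 52 10 43 5 5 3 rd10_512.me rd10_512.mo gs10 [rd10_512.c0, rd10_512.c1] true
    (Nat.beq (10 % 2) 0) rd10_512.v2 = true := by decide +kernel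

/-- run 513 -/
def rd10_513 : CRun :=
  ⟨20, 2984, 40, 929, 8, 7,
    2582249878086908589655919172003011874329705792829223524457400858751446063266345657867260436650531518269301702644437382738,
    2582249878086908589655919172003011874329705792829223517604194158179430436755731862972271474755338556301204347244019025888,
    2074757784440496479256203931845580575506223116121218449997828664845326405706454073199853524473551897144098943305651604829267662443829077398479928593871307197837907517817196712610323,
    [703611, 2690, 409122, 1724, 113665, 868]⟩

set_option maxRecDepth 100000 in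
theorem rk10_513_0 : chkC1 52 10 43 5 5 3 rd10_513.me rd10_513.mo gs10 [rd10_513.c0, rd10_513.c1] false
    (Nat.beq (10 % 2) 1) rd10_513.v0 = true := by decide +kernel

set_option maxRecDepth 100000 in
theorem rk10_513_1 : chkC2 52 10 43 5 5 3 rd10_513.me rd10_513.mo gs10 [rd10_513.c0, rd10_513.c1]
    rd10_513.v1 = true := by decide +kernel

set_option maxRecDepth 100000 in
theorem rk10_513_2 : chkC1 52 10 43 5 5 3 rd10_513.me rd10_513.mo gs10 [rd10_513.c0, rd10_513.c1] true
    (Nat.beq (10 % 2) 0) rd10_513.v2 = true := by decide +kernel

/-- run 514 -/
def rd10_514 : CRun :=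
  ⟨40, 3014, 40, 931, 8, 7,
    2582249878086908589655919172003011874329705792829223517098124373777035147259852825155453818668226211875176965260535167161,
    2582249878086908589655919172003011874329705792829223514881334058465226954266409615225711914537616915515888855306448942099,
    2074757784440496479256203931845580575506223116121218449997828664845326405706454073199853524473551897144098943305651252477569635819290349587993903039488614756909663758614987491104026,
    [468710, 1630, 279060, 1130, 85997, 731]⟩

set_option maxRecDepth 100000 in
theorem rk10_514_0 : chkC1 52 10 43 5 5 3 rd10_514.me rd10_514.mo gs10 [rd10_514.c0, rd10_514.c1] false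
    (Nat.beq (10 % 2) 1) rd10_514.v0 = true := by decide +kernel

set_option maxRecDepth 100000 in
theorem rk10_514_1 : chkC2 52 10 43 5 5 3 rd10_514.me rd10_514.mo gs10 [rd10_514.c0, rd10_514.c1]
    rd10_514.v1 = true := by decide +kernel

set_option maxRecDepth 100000 in
theorem rk10_514_2 : chkC1 52 10 43 5 5 3 rd10_514.me rd10_514.mo gs10 [rd10_514.c0, rd10_514.c1] true
    (Nat.beq (10 % 2) 0) rd10_514.v2 = true := by decide +kernel

/-- run 515 -/
def rd10_515 : CRun :=
  ⟨40, 3020, 20, 937, 8, 7,
    2582249878086908589655919172003011874329705792829223513935696013684050428837680098821523275506171075358541190726630743283,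
    2582249878086908589655919172003011874329705792829223513732312293174367065623436124642271689555345931247428232160450025577,
    2074757784440496479256203931845580575506223116121218449997828664845326405706454073199853524473551897144098943305651143684650163397130714846076327358098098798722578675974469180722894,
    [934627, 830, 547815, 750, 157032, 683]⟩

set_option maxRecDepth 100000 in
theorem rk10_515_0 : chkC1 52 10 43 5 5 3 rd10_515.me rd10_515.mo gs10 [rd10_515.c0, rd10_515.c1] false
    (Nat.beq (10 % 2) 1) rd10_515.v0 = true := by decide +kernel

set_option maxRecDepth 100000 in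
theorem rk10_515_1 : chkC2 52 10 43 5 5 3 rd10_515.me rd10_515.mo gs10 [rd10_515.c0, rd10_515.c1]
    rd10_515.v1 = true := by decide +kernel

set_option maxRecDepth 100000 in
theorem rk10_515_2 : chkC1 52 10 43 5 5 3 rd10_515.me rd10_515.mo gs10 [rd10_515.c0, rd10_515.c1] true
    (Nat.beq (10 % 2) 0) rd10_515.v2 = true := by decide +kernel

/-- run 516 -/
def rd10_516 : CRun :=
  ⟨40, 3022, 40, 947, 8, 7,
    2582249878086908589655919172003011874329705792829223514506019215786141444501104490900602318255133706490973543549052745643,
    2582249878086908589655919172003011874329705792829223513939064155824817272455216051367070352321057612833509923684262907887,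
    2074757784440496479256203931845580575506223116121218449997828664845326405706454073199853524473551897144098943305651160150944302919004068324561887577991286843736655968252631843654895,
    [375010, 1022, 219927, 831, 63156, 691]⟩

set_option maxRecDepth 100000 in
theorem rk10_516_0 : chkC1 52 10 43 5 5 3 rd10_516.me rd10_516.mo gs10 [rd10_516.c0, rd10_516.c1] false
    (Nat.beq (10 % 2) 1) rd10_516.v0 = true := by decide +kernel

set_option maxRecDepth 100000 in
theorem rk10_516_1 : chkC2 52 10 43 5 5 3 rd10_516.me rd10_516.mo gs10 [rd10_516.c0, rd10_516.c1]
    rd10_516.v1 = true := by decide +kernel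

set_option maxRecDepth 100000 in
theorem rk10_516_2 : chkC1 52 10 43 5 5 3 rd10_516.me rd10_516.mo gs10 [rd10_516.c0, rd10_516.c1] true
    (Nat.beq (10 % 2) 0) rd10_516.v2 = true := by decide +kernel

/-- run 517 -/
def rd10_517 : CRun :=
  ⟨40, 3032, 40, 949, 8, 7,
    2582249878086908589655919172003011874329705792829223514105221549601196866946254931715146565421853402390650704020536387344,
    2582249878086908589655919172003011874329705792829223513779379508490712890794060194326944342183221256935326234430677975019,
    2074757784440496479256203931845580575506223116121218449997828664845326405706454073199853524473551897144098943305651133101356203907420760126713987199201198587493661622500868995331843,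
    [1102034, 891, 651423, 769, 194341, 678]⟩

set_option maxRecDepth 100000 in
theorem rk10_517_0 : chkC1 52 10 43 5 5 3 rd10_517.me rd10_517.mo gs10 [rd10_517.c0, rd10_517.c1] false
    (Nat.beq (10 % 2) 1) rd10_517.v0 = true := by decide +kernel

set_option maxRecDepth 100000 in
theorem rk10_517_1 : chkC2 52 10 43 5 5 3 rd10_517.me rd10_517.mo gs10 [rd10_517.c0, rd10_517.c1]
    rd10_517.v1 = true := by decide +kernel

set_option maxRecDepth 100000 in
theorem rk10_517_2 : chkC1 52 10 43 5 5 3 rd10_517.me rd10_517.mo gs10 [rd10_517.c0, rd10_517.c1] true
    (Nat.beq (10 % 2) 0) rd10_517.v2 = true := by decide +kernel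

/-- run 518 -/
def rd10_518 : CRun :=
  ⟨40, 3038, 40, 989, 8, 7,
    2582249878086908589655919172003011874329705792829223513783821085245044739915658177550175315616592626010141878967568353408,
    2582249878086908589655919172003011874329705792829223513634898101993342816129806840642458071427847463561321549350282064669,
    2074757784440496479256203931845580575506223116121218449997828664845326405706454073199853524473551897144098943305651076442327701379682634792672573342148996257138303835008430185761065,
    [2358913, 771, 1399549, 708, 422907, 652]⟩

set_option maxRecDepth 100000 in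
theorem rk10_518_0 : chkC1 52 10 43 5 5 3 rd10_518.me rd10_518.mo gs10 [rd10_518.c0, rd10_518.c1] false
    (Nat.beq (10 % 2) 1) rd10_518.v0 = true := by decide +kernel

set_option maxRecDepth 100000 in
theorem rk10_518_1 : chkC2 52 10 43 5 5 3 rd10_518.me rd10_518.mo gs10 [rd10_518.c0, rd10_518.c1]
    rd10_518.v1 = true := by decide +kernel

set_option maxRecDepth 100000 in
theorem rk10_518_2 : chkC1 52 10 43 5 5 3 rd10_518.me rd10_518.mo gs10 [rd10_518.c0, rd10_518.c1] true
    (Nat.beq (10 % 2) 0) rd10_518.v2 = true := by decide +kernel

/-- run 519 -/
def rd10_519 : CRun :=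
  ⟨40, 3040, 40, 995, 8, 7,
    2582249878086908589655919172003011874329705792829223514862238813685297372822144479682421879331845577340767929564532545791,
    2582249878086908589655919172003011874329705792829223514058519109220897832568178887425435356704750616782341395213840827848,
    2074757784440496479256203931845580575506223116121218449997828664845326405706454073199853524473551897144098943305651152861873334160224178466221836718477721803023876169504386700548060,
    [1264059, 1125, 761674, 875, 244485, 687]⟩

set_option maxRecDepth 100000 in
theorem rk10_519_0 : chkC1 52 10 43 5 5 3 rd10_519.me rd10_519.mo gs10 [rd10_519.c0, rd10_519.c1] false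
    (Nat.beq (10 % 2) 1) rd10_519.v0 = true := by decide +kernel

set_option maxRecDepth 100000 in
theorem rk10_519_1 : chkC2 52 10 43 5 5 3 rd10_519.me rd10_519.mo gs10 [rd10_519.c0, rd10_519.c1]
    rd10_519.v1 = true := by decide +kernel

set_option maxRecDepth 100000 in
theorem rk10_519_2 : chkC1 52 10 43 5 5 3 rd10_519.me rd10_519.mo gs10 [rd10_519.c0, rd10_519.c1] true
    (Nat.beq (10 % 2) 0) rd10_519.v2 = true := by decide +kernel

/-- runs of this file -/
def rds10_64 : List CRun :=
  [rd10_512, rd10_513, rd10_514, rd10_515, rd10_516, rd10_517, rd10_518, rd10_519]

theorem ac10_64 : allC 52 10 43 5 5 3 gs10 rds10_64 :=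
  allC_cons rk10_512_0 rk10_512_1 rk10_512_2
    (allC_cons rk10_513_0 rk10_513_1 rk10_513_2
    (allC_cons rk10_514_0 rk10_514_1 rk10_514_2
    (allC_cons rk10_515_0 rk10_515_1 rk10_515_2
    (allC_cons rk10_516_0 rk10_516_1 rk10_516_2
    (allC_cons rk10_517_0 rk10_517_1 rk10_517_2
    (allC_cons rk10_518_0 rk10_518_1 rk10_518_2
    (allC_cons rk10_519_0 rk10_519_1 rk10_519_2
    (allC_nil))))))))

end Crest.Agent.R347
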