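import Crest.Agent.R347.G10c

/-! Row 347, Chebyshev numerics, ring with 10 sites: run certificates 520..527 (generated) -/

set_option autoImplicit false
set_option Elab.async false

namespace Crest.Agent.R347

/-- run 520 -/
def rd10_520 : CRun :=
  ⟨40, 3044, 40, 997, 8, 7,
    2582249878086908589655919172003011874329705792829223513710732722178013085213183115704222216966075267243919114766725429707,
    2582249878086908589655919172003011874329705792829223513595349749786084806458443611587849718617173525681333235863553168017,
    2074757784440496479256203931845580575506223116121218449997828664845326405706454073199853524473551897144098943305651038147387168643685378352173950759903015550518758997272524878609461,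
    [2809206, 741, 1715113, 690, 575856, 633]⟩

set_option maxRecDepth 100000 in
theorem rk10_520_0 : chkC1 52 10 43 5 5 3 rd10_520.me rd10_520.mo gs10 [rd10_520.c0, rd10_520.c1] false
    (Nat.beq (10 % 2) 1) rd10_520.v0 = true := by decide +kernel

set_option maxRecDepth 100000 in
theorem rk10_520_1 : chkC2 52 10 43 5 5 3 rd10_520.me rd10_520.mo gs10 [rd10_520.c0, rd10_520.c1]
    rd10_520.v1 = true := by decide +kernel

set_option maxRecDepth 100000 in
theorem rk10_520_2 : chkC1 52 10 43 5 5 3 rd10_520.me rd10_520.mo gs10 [rd10_520.c0, rd10_520.c1] true
    (Nat.beq (10 % 2) 0) rd10_520.v2 = true := by decide +kernel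

/-- run 521 -/
def rd10_521 : CRun :=
  ⟨40, 3046, 40, 1007, 8, 7,
    2582249878086908589655919172003011874329705792829223516219349414079430948206148809451488614365126716086137528112986288550,
    2582249878086908589655919172003011874329705792829223514568083983869556425913361692793095041452348752719846351596220396540,
    2074757784440496479256203931845580575506223116121218449997828664845326405706454073199853524473551897144098943305651186078889647037812164194120247502649878539481960653615083908567913,
    [1167715, 1453, 714112, 1040, 241797, 702]⟩

set_option maxRecDepth 100000 in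
theorem rk10_521_0 : chkC1 52 10 43 5 5 3 rd10_521.me rd10_521.mo gs10 [rd10_521.c0, rd10_521.c1] false
    (Nat.beq (10 % 2) 1) rd10_521.v0 = true := by decide +kernel

set_option maxRecDepth 100000 in
theorem rk10_521_1 : chkC2 52 10 43 5 5 3 rd10_521.me rd10_521.mo gs10 [rd10_521.c0, rd10_521.c1]
    rd10_521.v1 = true := by decide +kernel

set_option maxRecDepth 100000 in
theorem rk10_521_2 : chkC1 52 10 43 5 5 3 rd10_521.me rd10_521.mo gs10 [rd10_521.c0, rd10_521.c1] true
    (Nat.beq (10 % 2) 0) rd10_521.v2 = true := by decide +kernel

/-- run 522 -/
def rd10_522 : CRun :=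
  ⟨40, 3056, 40, 1013, 8, 7,
    2582249878086908589655919172003011874329705792829223528396521832342438364498143716027091488627860683191931222459989376719,
    2582249878086908589655919172003011874329705792829223518919381351936891214841121943714249618651417941141774665217770590036,
    2074757784440496479256203931845580575506223116121218449997828664845326405706454073199853524473551897144098943305651659990629907722188265927412672388959963977500075099747012188408156,
    [2118211, 3113, 1280066, 1947, 413528, 888]⟩

set_option maxRecDepth 100000 in
theorem rk10_522_0 : chkC1 52 10 43 5 5 3 rd10_522.me rd10_522.mo gs10 [rd10_522.c0, rd10_522.c1] false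
    (Nat.beq (10 % 2) 1) rd10_522.v0 = true := by decide +kernel

set_option maxRecDepth 100000 in
theorem rk10_522_1 : chkC2 52 10 43 5 5 3 rd10_522.me rd10_522.mo gs10 [rd10_522.c0, rd10_522.c1]
    rd10_522.v1 = true := by decide +kernel

set_option maxRecDepth 100000 in
theorem rk10_522_2 : chkC1 52 10 43 5 5 3 rd10_522.me rd10_522.mo gs10 [rd10_522.c0, rd10_522.c1] true
    (Nat.beq (10 % 2) 0) rd10_522.v2 = true := by decide +kernel

/-- run 523 -/
def rd10_523 : CRun :=
  ⟨40, 3058, 40, 1015, 8, 7,
    2582249878086908589655919172003011874329705792829223517889035175090646276027473437574388934190616692370160859739660307061,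
    2582249878086908589655919172003011874329705792829223515197176124126287233933906722513275082900753391740903005362237599769,
    2074757784440496479256203931845580575506223116121218449997828664845326405706454073199853524473551897144098943305651265153096928934205643062990887426579223452046878717284997196765218,
    [1748144, 1775, 1071454, 1214, 363654, 737]⟩

set_option maxRecDepth 100000 in
theorem rk10_523_0 : chkC1 52 10 43 5 5 3 rd10_523.me rd10_523.mo gs10 [rd10_523.c0, rd10_523.c1] false
    (Nat.beq (10 % 2) 1) rd10_523.v0 = true := by decide +kernel

set_option maxRecDepth 100000 in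
theorem rk10_523_1 : chkC2 52 10 43 5 5 3 rd10_523.me rd10_523.mo gs10 [rd10_523.c0, rd10_523.c1]
    rd10_523.v1 = true := by decide +kernel

set_option maxRecDepth 100000 in
theorem rk10_523_2 : chkC1 52 10 43 5 5 3 rd10_523.me rd10_523.mo gs10 [rd10_523.c0, rd10_523.c1] true
    (Nat.beq (10 % 2) 0) rd10_523.v2 = true := by decide +kernel

/-- run 524 -/
def rd10_524 : CRun :=
  ⟨40, 3062, 40, 1019, 8, 7,
    2582249878086908589655919172003011874329705792829223532468168593381513852744162929904390561597798451214821445365531807464,
    2582249878086908589655919172003011874329705792829223520672300075888545202974418040372052796637147943691771532563308356718,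
    2074757784440496479256203931845580575506223116121218449997828664845326405706454073199853524473551897144098943305651965692916509508239294754739157279392305198875409344473185261090583,
    [1910083, 3496, 1163019, 2210, 386238, 989]⟩

set_option maxRecDepth 100000 in
theorem rk10_524_0 : chkC1 52 10 43 5 5 3 rd10_524.me rd10_524.mo gs10 [rd10_524.c0, rd10_524.c1] false
    (Nat.beq (10 % 2) 1) rd10_524.v0 = true := by decide +kernel

set_option maxRecDepth 100000 in
theorem rk10_524_1 : chkC2 52 10 43 5 5 3 rd10_524.me rd10_524.mo gs10 [rd10_524.c0, rd10_524.c1]
    rd10_524.v1 = true := by decide +kernel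

set_option maxRecDepth 100000 in
theorem rk10_524_2 : chkC1 52 10 43 5 5 3 rd10_524.me rd10_524.mo gs10 [rd10_524.c0, rd10_524.c1] true
    (Nat.beq (10 % 2) 0) rd10_524.v2 = true := by decide +kernel

/-- run 525 -/
def rd10_525 : CRun :=
  ⟨40, 3064, 40, 1021, 8, 7,
    2582249878086908589655919172003011874329705792829223516905193785245256515788009314386881495446807998238621075718926179176,
    2582249878086908589655919172003011874329705792829223514816746397652325358121551532848243566054442010586777063271086857034,
    2074757784440496479256203931845580575506223116121218449997828664845326405706454073199853524473551897144098943305651229965974573795095579520646951432141716023367923855470202243578284,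
    [1130132, 1593, 686863, 1112, 227783, 722]⟩

set_option maxRecDepth 100000 in
theorem rk10_525_0 : chkC1 52 10 43 5 5 3 rd10_525.me rd10_525.mo gs10 [rd10_525.c0, rd10_525.c1] false
    (Nat.beq (10 % 2) 1) rd10_525.v0 = true := by decide +kernel

set_option maxRecDepth 100000 in
theorem rk10_525_1 : chkC2 52 10 43 5 5 3 rd10_525.me rd10_525.mo gs10 [rd10_525.c0, rd10_525.c1]
    rd10_525.v1 = true := by decide +kernel

set_option maxRecDepth 100000 in
theorem rk10_525_2 : chkC1 52 10 43 5 5 3 rd10_525.me rd10_525.mo gs10 [rd10_525.c0, rd10_525.c1] true
    (Nat.beq (10 % 2) 0) rd10_525.v2 = true := by decide +kernel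

/-- run 526 -/
def rd10_526 : CRun :=
  ⟨40, 3086, 40, 1031, 8, 7,
    2582249878086908589655919172003011874329705792829223540788069427337860637489089617493559501042671662886312171558279759934,
    2582249878086908589655919172003011874329705792829223523689956173698148969492464317882783318612772768092527934770125275552,
    2074757784440496479256203931845580575506223116121218449997828664845326405706454073199853524473551897144098943305652273233540233926575198802070275808114663705650968476714281022183852,
    [1172667, 4172, 699755, 2600, 215540, 1082]⟩

set_option maxRecDepth 100000 in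
theorem rk10_526_0 : chkC1 52 10 43 5 5 3 rd10_526.me rd10_526.mo gs10 [rd10_526.c0, rd10_526.c1] false
    (Nat.beq (10 % 2) 1) rd10_526.v0 = true := by decide +kernel

set_option maxRecDepth 100000 in
theorem rk10_526_1 : chkC2 52 10 43 5 5 3 rd10_526.me rd10_526.mo gs10 [rd10_526.c0, rd10_526.c1]
    rd10_526.v1 = true := by decide +kernel

set_option maxRecDepth 100000 in
theorem rk10_526_2 : chkC1 52 10 43 5 5 3 rd10_526.me rd10_526.mo gs10 [rd10_526.c0, rd10_526.c1] true
    (Nat.beq (10 % 2) 0) rd10_526.v2 = true := by decide +kernel

/-- run 527 -/
def rd10_527 : CRun :=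
  ⟨40, 3092, 40, 1033, 8, 7,
    2582249878086908589655919172003011874329705792829223531330456458046148737660453768526847439012078731616604126837474870312,
    2582249878086908589655919172003011874329705792829223520357415745301863281511143942491524961185114700451051931327784840167,
    2074757784440496479256203931845580575506223116121218449997828664845326405706454073199853524473551897144098943305651976404765512538668471517458464825582213611880565900570552756600945,
    [3537476, 3394, 2138434, 2165, 690331, 993]⟩

set_option maxRecDepth 100000 in
theorem rk10_527_0 : chkC1 52 10 43 5 5 3 rd10_527.me rd10_527.mo gs10 [rd10_527.c0, rd10_527.c1] false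
    (Nat.beq (10 % 2) 1) rd10_527.v0 = true := by decide +kernel

set_option maxRecDepth 100000 in
theorem rk10_527_1 : chkC2 52 10 43 5 5 3 rd10_527.me rd10_527.mo gs10 [rd10_527.c0, rd10_527.c1]
    rd10_527.v1 = true := by decide +kernel

set_option maxRecDepth 100000 in
theorem rk10_527_2 : chkC1 52 10 43 5 5 3 rd10_527.me rd10_527.mo gs10 [rd10_527.c0, rd10_527.c1] true
    (Nat.beq (10 % 2) 0) rd10_527.v2 = true := by decide +kernel

/-- runs of this file -/
def rds10_65 : List CRun :=
  [rd10_520, rd10_521, rd10_522, rd10_523, rd10_524, rd10_525, rd10_526, rd10_527]

theorem ac10_65 : allC 52 10 43 5 5 3 gs10 rds10_65 :=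
  allC_cons rk10_520_0 rk10_520_1 rk10_520_2
    (allC_cons rk10_521_0 rk10_521_1 rk10_521_2
    (allC_cons rk10_522_0 rk10_522_1 rk10_522_2
    (allC_cons rk10_523_0 rk10_523_1 rk10_523_2
    (allC_cons rk10_524_0 rk10_524_1 rk10_524_2
    (allC_cons rk10_525_0 rk10_525_1 rk10_525_2
    (allC_cons rk10_526_0 rk10_526_1 rk10_526_2
    (allC_cons rk10_527_0 rk10_527_1 rk10_527_2
    (allC_nil))))))))

end Crest.Agent.R347
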