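import Crest.Agent.R347.G10c

/-! Row 347, Chebyshev numerics, ring with 10 sites: run certificates 528..535 (generated) -/

set_option autoImplicit false
set_option Elab.async false

namespace Crest.Agent.R347

/-- run 528 -/
def rd10_528 : CRun :=
  ⟨40, 3094, 40, 1037, 8, 7,
    2582249878086908589655919172003011874329705792829223533407128203650750014587740051852809328853162015730007823777893601592,
    2582249878086908589655919172003011874329705792829223520936074135039525679733804491943577614353359998512235628123227607865,
    2074757784440496479256203931845580575506223116121218449997828664845326405706454073199853524473551897144098943305651986962348463320234581828149411507020512182754235053519155809060221,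
    [1925829, 3579, 1173165, 2246, 389459, 996]⟩

set_option maxRecDepth 100000 in
theorem rk10_528_0 : chkC1 52 10 43 5 5 3 rd10_528.me rd10_528.mo gs10 [rd10_528.c0, rd10_528.c1] false
    (Nat.beq (10 % 2) 1) rd10_528.v0 = true := by decide +kernel

set_option maxRecDepth 100000 in
theorem rk10_528_1 : chkC2 52 10 43 5 5 3 rd10_528.me rd10_528.mo gs10 [rd10_528.c0, rd10_528.c1]
    rd10_528.v1 = true := by decide +kernel

set_option maxRecDepth 100000 in
theorem rk10_528_2 : chkC1 52 10 43 5 5 3 rd10_528.me rd10_528.mo gs10 [rd10_528.c0, rd10_528.c1] true
    (Nat.beq (10 % 2) 0) rd10_528.v2 = true := by decide +kernel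

/-- run 529 -/
def rd10_529 : CRun :=
  ⟨40, 3098, 40, 1039, 8, 7,
    2582249878086908589655919172003011874329705792829223520729847741129548162722126786822974511758673077305120948572927144815,
    2582249878086908589655919172003011874329705792829223516236657743754144532464011283148095276756893364532172003781496861339,
    2074757784440496479256203931845580575506223116121218449997828664845326405706454073199853524473551897144098943305651399785580153040928908519658907953864387967258103827236055642819050,
    [6351726, 2218, 3924671, 1456, 1365090, 791]⟩

set_option maxRecDepth 100000 in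
theorem rk10_529_0 : chkC1 52 10 43 5 5 3 rd10_529.me rd10_529.mo gs10 [rd10_529.c0, rd10_529.c1] false
    (Nat.beq (10 % 2) 1) rd10_529.v0 = true := by decide +kernel

set_option maxRecDepth 100000 in
theorem rk10_529_1 : chkC2 52 10 43 5 5 3 rd10_529.me rd10_529.mo gs10 [rd10_529.c0, rd10_529.c1]
    rd10_529.v1 = true := by decide +kernel

set_option maxRecDepth 100000 in
theorem rk10_529_2 : chkC1 52 10 43 5 5 3 rd10_529.me rd10_529.mo gs10 [rd10_529.c0, rd10_529.c1] true
    (Nat.beq (10 % 2) 0) rd10_529.v2 = true := by decide +kernel

/-- run 530 -/
def rd10_530 : CRun :=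
  ⟨40, 3100, 40, 1061, 8, 7,
    2582249878086908589655919172003011874329705792829223515976931561536652452208715034087177847636434739053046754731447332179,
    2582249878086908589655919172003011874329705792829223514448280324917871664910606250960692004783908430721364016593204232268,
    2074757784440496479256203931845580575506223116121218449997828664845326405706454073199853524473551897144098943305651177255192846011696561193206398457326028090065321792299868803738858,
    [2595588, 1400, 1596872, 1004, 549547, 698]⟩

set_option maxRecDepth 100000 in
theorem rk10_530_0 : chkC1 52 10 43 5 5 3 rd10_530.me rd10_530.mo gs10 [rd10_530.c0, rd10_530.c1] false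
    (Nat.beq (10 % 2) 1) rd10_530.v0 = true := by decide +kernel

set_option maxRecDepth 100000 in
theorem rk10_530_1 : chkC2 52 10 43 5 5 3 rd10_530.me rd10_530.mo gs10 [rd10_530.c0, rd10_530.c1]
    rd10_530.v1 = true := by decide +kernel

set_option maxRecDepth 100000 in
theorem rk10_530_2 : chkC1 52 10 43 5 5 3 rd10_530.me rd10_530.mo gs10 [rd10_530.c0, rd10_530.c1] true
    (Nat.beq (10 % 2) 0) rd10_530.v2 = true := by decide +kernel

/-- run 531 -/
def rd10_531 : CRun :=
  ⟨40, 3110, 40, 1067, 8, 7,
    2582249878086908589655919172003011874329705792829223538678882897345722951326487273191166527102154123396707439704770340417,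
    2582249878086908589655919172003011874329705792829223522690972606661706743886568285899145104665397355150572897146623664435,
    2074757784440496479256203931845580575506223116121218449997828664845326405706454073199853524473551897144098943305652050034666700485602896850161535897652661179221741028137993055101462,
    [2344453, 4011, 1412490, 2478, 450939, 1015]⟩

set_option maxRecDepth 100000 in
theorem rk10_531_0 : chkC1 52 10 43 5 5 3 rd10_531.me rd10_531.mo gs10 [rd10_531.c0, rd10_531.c1] false
    (Nat.beq (10 % 2) 1) rd10_531.v0 = true := by decide +kernel

set_option maxRecDepth 100000 in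
theorem rk10_531_1 : chkC2 52 10 43 5 5 3 rd10_531.me rd10_531.mo gs10 [rd10_531.c0, rd10_531.c1]
    rd10_531.v1 = true := by decide +kernel

set_option maxRecDepth 100000 in
theorem rk10_531_2 : chkC1 52 10 43 5 5 3 rd10_531.me rd10_531.mo gs10 [rd10_531.c0, rd10_531.c1] true
    (Nat.beq (10 % 2) 0) rd10_531.v2 = true := by decide +kernel

/-- run 532 -/
def rd10_532 : CRun :=
  ⟨40, 3112, 40, 1069, 8, 7,
    2582249878086908589655919172003011874329705792829223521478579632657449314737321978242138791290060773619294057078060750647,
    2582249878086908589655919172003011874329705792829223516488360484316651474273526515481953281002958630463339745443025726052,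
    2074757784440496479256203931845580575506223116121218449997828664845326405706454073199853524473551897144098943305651405032232867546532158164165139447760285202250878528052940046231694,
    [1883543, 2320, 1143300, 1509, 374986, 793]⟩

set_option maxRecDepth 100000 in
theorem rk10_532_0 : chkC1 52 10 43 5 5 3 rd10_532.me rd10_532.mo gs10 [rd10_532.c0, rd10_532.c1] false
    (Nat.beq (10 % 2) 1) rd10_532.v0 = true := by decide +kernel

set_option maxRecDepth 100000 in
theorem rk10_532_1 : chkC2 52 10 43 5 5 3 rd10_532.me rd10_532.mo gs10 [rd10_532.c0, rd10_532.c1]
    rd10_532.v1 = true := by decide +kernel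

set_option maxRecDepth 100000 in
theorem rk10_532_2 : chkC1 52 10 43 5 5 3 rd10_532.me rd10_532.mo gs10 [rd10_532.c0, rd10_532.c1] true
    (Nat.beq (10 % 2) 0) rd10_532.v2 = true := by decide +kernel

/-- run 533 -/
def rd10_533 : CRun :=
  ⟨40, 3116, 40, 1073, 8, 7,
    2582249878086908589655919172003011874329705792829223585223546065769188369198444014865858194076297230761452101802877396526,
    2582249878086908589655919172003011874329705792829223540351841991153093842339090878096165795148981827179066316744314975121,
    2074757784440496479256203931845580575506223116121218449997828664845326405706454073199853524473551897144098943305654255928335134173582831843326517474133184085459599475129772475530764,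
    [3124859, 6712, 1896384, 4139, 621830, 1551]⟩

set_option maxRecDepth 100000 in
theorem rk10_533_0 : chkC1 52 10 43 5 5 3 rd10_533.me rd10_533.mo gs10 [rd10_533.c0, rd10_533.c1] false
    (Nat.beq (10 % 2) 1) rd10_533.v0 = true := by decide +kernel

set_option maxRecDepth 100000 in
theorem rk10_533_1 : chkC2 52 10 43 5 5 3 rd10_533.me rd10_533.mo gs10 [rd10_533.c0, rd10_533.c1]
    rd10_533.v1 = true := by decide +kernel

set_option maxRecDepth 100000 in
theorem rk10_533_2 : chkC1 52 10 43 5 5 3 rd10_533.me rd10_533.mo gs10 [rd10_533.c0, rd10_533.c1] true
    (Nat.beq (10 % 2) 0) rd10_533.v2 = true := by decide +kernel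

/-- run 534 -/
def rd10_534 : CRun :=
  ⟨40, 3118, 40, 1075, 8, 7,
    2582249878086908589655919172003011874329705792829223526570800780295630821931419026775771938934862274008604924281680319863,
    2582249878086908589655919172003011874329705792829223518445271958296762982935496989952005345565869692059093249447172844367,
    2074757784440496479256203931845580575506223116121218449997828664845326405706454073199853524473551897144098943305651657292580931411343593292458319348147954342721248538437790682585290,
    [1828478, 2925, 1096565, 1870, 346368, 887]⟩

set_option maxRecDepth 100000 in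
theorem rk10_534_0 : chkC1 52 10 43 5 5 3 rd10_534.me rd10_534.mo gs10 [rd10_534.c0, rd10_534.c1] false
    (Nat.beq (10 % 2) 1) rd10_534.v0 = true := by decide +kernel

set_option maxRecDepth 100000 in
theorem rk10_534_1 : chkC2 52 10 43 5 5 3 rd10_534.me rd10_534.mo gs10 [rd10_534.c0, rd10_534.c1]
    rd10_534.v1 = true := by decide +kernel

set_option maxRecDepth 100000 in
theorem rk10_534_2 : chkC1 52 10 43 5 5 3 rd10_534.me rd10_534.mo gs10 [rd10_534.c0, rd10_534.c1] true
    (Nat.beq (10 % 2) 0) rd10_534.v2 = true := by decide +kernel

/-- run 535 -/
def rd10_535 : CRun :=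
  ⟨40, 3134, 40, 1085, 8, 7,
    2582249878086908589655919172003011874329705792829223543673312223362479346312202676633285883407864438396372661540741645216,
    2582249878086908589655919172003011874329705792829223524577456806976079485742361187748161035847567826137807937918308976893,
    2074757784440496479256203931845580575506223116121218449997828664845326405706454073199853524473551897144098943305652235568519414540102130374020793423604423187734997201832991058121263,
    [842322, 4382, 500738, 2704, 152060, 1071]⟩

set_option maxRecDepth 100000 in
theorem rk10_535_0 : chkC1 52 10 43 5 5 3 rd10_535.me rd10_535.mo gs10 [rd10_535.c0, rd10_535.c1] false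
    (Nat.beq (10 % 2) 1) rd10_535.v0 = true := by decide +kernel

set_option maxRecDepth 100000 in
theorem rk10_535_1 : chkC2 52 10 43 5 5 3 rd10_535.me rd10_535.mo gs10 [rd10_535.c0, rd10_535.c1]
    rd10_535.v1 = true := by decide +kernel

set_option maxRecDepth 100000 in
theorem rk10_535_2 : chkC1 52 10 43 5 5 3 rd10_535.me rd10_535.mo gs10 [rd10_535.c0, rd10_535.c1] true
    (Nat.beq (10 % 2) 0) rd10_535.v2 = true := by decide +kernel

/-- runs of this file -/
def rds10_66 : List CRun :=
  [rd10_528, rd10_529, rd10_530, rd10_531, rd10_532, rd10_533, rd10_534, rd10_535]

theorem ac10_66 : allC 52 10 43 5 5 3 gs10 rds10_66 :=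
  allC_cons rk10_528_0 rk10_528_1 rk10_528_2
    (allC_cons rk10_529_0 rk10_529_1 rk10_529_2
    (allC_cons rk10_530_0 rk10_530_1 rk10_530_2
    (allC_cons rk10_531_0 rk10_531_1 rk10_531_2
    (allC_cons rk10_532_0 rk10_532_1 rk10_532_2
    (allC_cons rk10_533_0 rk10_533_1 rk10_533_2
    (allC_cons rk10_534_0 rk10_534_1 rk10_534_2
    (allC_cons rk10_535_0 rk10_535_1 rk10_535_2
    (allC_nil))))))))

end Crest.Agent.R347
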