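import Crest.Agent.R347.G10c

/-! Row 347, Chebyshev numerics, ring with 10 sites: run certificates 536..543 (generated) -/

set_option autoImplicit false
set_option Elab.async false

namespace Crest.Agent.R347

/-- run 536 -/
def rd10_536 : CRun :=
  ⟨20, 3136, 40, 1087, 8, 7,
    2582249878086908589655919172003011874329705792829223534097081515395745820304161353858318562709492570937593969479176979501,
    2582249878086908589655919172003011874329705792829223521164410389500462643946664053492702773196149910710807792036935057399,
    2074757784440496479256203931845580575506223116121218449997828664845326405706454073199853524473551897144098943305651947708065918161620130889099419797100457770379502927455635938247437,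
    [661768, 3638, 388214, 2278, 112025, 984]⟩

set_option maxRecDepth 100000 in
theorem rk10_536_0 : chkC1 52 10 43 5 5 3 rd10_536.me rd10_536.mo gs10 [rd10_536.c0, rd10_536.c1] false
    (Nat.beq (10 % 2) 1) rd10_536.v0 = true := by decide +kernel

set_option maxRecDepth 100000 in
theorem rk10_536_1 : chkC2 52 10 43 5 5 3 rd10_536.me rd10_536.mo gs10 [rd10_536.c0, rd10_536.c1]
    rd10_536.v1 = true := by decide +kernel

set_option maxRecDepth 100000 in
theorem rk10_536_2 : chkC1 52 10 43 5 5 3 rd10_536.me rd10_536.mo gs10 [rd10_536.c0, rd10_536.c1] true
    (Nat.beq (10 % 2) 0) rd10_536.v2 = true := by decide +kernel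

/-- run 537 -/
def rd10_537 : CRun :=
  ⟨40, 3176, 40, 1091, 8, 7,
    2582249878086908589655919172003011874329705792829223567167474373362966497330508975488913678941414765456987518241708906932,
    2582249878086908589655919172003011874329705792829223533215537801447883381005698537469249535242247319390266778746961567678,
    2074757784440496479256203931845580575506223116121218449997828664845326405706454073199853524473551897144098943305653220963818348728305966287221324224947403635399423729575886249167308,
    [387252, 5815, 228827, 3562, 68194, 1327]⟩

set_option maxRecDepth 100000 in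
theorem rk10_537_0 : chkC1 52 10 43 5 5 3 rd10_537.me rd10_537.mo gs10 [rd10_537.c0, rd10_537.c1] false
    (Nat.beq (10 % 2) 1) rd10_537.v0 = true := by decide +kernel

set_option maxRecDepth 100000 in
theorem rk10_537_1 : chkC2 52 10 43 5 5 3 rd10_537.me rd10_537.mo gs10 [rd10_537.c0, rd10_537.c1]
    rd10_537.v1 = true := by decide +kernel

set_option maxRecDepth 100000 in
theorem rk10_537_2 : chkC1 52 10 43 5 5 3 rd10_537.me rd10_537.mo gs10 [rd10_537.c0, rd10_537.c1] true
    (Nat.beq (10 % 2) 0) rd10_537.v2 = true := by decide +kernel

/-- run 538 -/
def rd10_538 : CRun :=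
  ⟨20, 3182, 20, 1093, 8, 7,
    2582249878086908589655919172003011874329705792829223535275664512948794094056004779092466814927762001479682850155310214955,
    2582249878086908589655919172003011874329705792829223521479497194280721198184656438596865595136100951528744028495195017169,
    2074757784440496479256203931845580575506223116121218449997828664845326405706454073199853524473551897144098943305651913165325718770365167839082282831469153953103948572540856455636659,
    [864662, 3738, 505877, 2320, 143893, 973]⟩

set_option maxRecDepth 100000 in
theorem rk10_538_0 : chkC1 52 10 43 5 5 3 rd10_538.me rd10_538.mo gs10 [rd10_538.c0, rd10_538.c1] false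
    (Nat.beq (10 % 2) 1) rd10_538.v0 = true := by decide +kernel

set_option maxRecDepth 100000 in
theorem rk10_538_1 : chkC2 52 10 43 5 5 3 rd10_538.me rd10_538.mo gs10 [rd10_538.c0, rd10_538.c1]
    rd10_538.v1 = true := by decide +kernel

set_option maxRecDepth 100000 in
theorem rk10_538_2 : chkC1 52 10 43 5 5 3 rd10_538.me rd10_538.mo gs10 [rd10_538.c0, rd10_538.c1] true
    (Nat.beq (10 % 2) 0) rd10_538.v2 = true := by decide +kernel

/-- run 539 -/
def rd10_539 : CRun :=
  ⟨40, 3194, 40, 1109, 8, 7,
    2582249878086908589655919172003011874329705792829223523430080546242540803141542666347278161370279577734980895428014882711,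
    2582249878086908589655919172003011874329705792829223517244874776792898916193171429314325811018361355876402955578021891112,
    2074757784440496479256203931845580575506223116121218449997828664845326405706454073199853524473551897144098943305651548774447864557471295668216261457096243415830875392654747614764058,
    [1124865, 2569, 662532, 1658, 194010, 848]⟩

set_option maxRecDepth 100000 in
theorem rk10_539_0 : chkC1 52 10 43 5 5 3 rd10_539.me rd10_539.mo gs10 [rd10_539.c0, rd10_539.c1] false
    (Nat.beq (10 % 2) 1) rd10_539.v0 = true := by decide +kernel

set_option maxRecDepth 100000 in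
theorem rk10_539_1 : chkC2 52 10 43 5 5 3 rd10_539.me rd10_539.mo gs10 [rd10_539.c0, rd10_539.c1]
    rd10_539.v1 = true := by decide +kernel

set_option maxRecDepth 100000 in
theorem rk10_539_2 : chkC1 52 10 43 5 5 3 rd10_539.me rd10_539.mo gs10 [rd10_539.c0, rd10_539.c1] true
    (Nat.beq (10 % 2) 0) rd10_539.v2 = true := by decide +kernel

/-- run 540 -/
def rd10_540 : CRun :=
  ⟨40, 3200, 40, 1139, 8, 7,
    2582249878086908589655919172003011874329705792829223521404053060040805863738236860323540352110286043173635695663198687519,
    2582249878086908589655919172003011874329705792829223516492302303339218777419430948494466152866945594407088937885942133272,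
    2074757784440496479256203931845580575506223116121218449997828664845326405706454073199853524473551897144098943305651428533701764834264937965360739937263347089469662601398289823672468,
    [2872017, 2310, 1710280, 1510, 523555, 803]⟩

set_option maxRecDepth 100000 in
theorem rk10_540_0 : chkC1 52 10 43 5 5 3 rd10_540.me rd10_540.mo gs10 [rd10_540.c0, rd10_540.c1] false
    (Nat.beq (10 % 2) 1) rd10_540.v0 = true := by decide +kernel

set_option maxRecDepth 100000 in
theorem rk10_540_1 : chkC2 52 10 43 5 5 3 rd10_540.me rd10_540.mo gs10 [rd10_540.c0, rd10_540.c1]
    rd10_540.v1 = true := by decide +kernel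

set_option maxRecDepth 100000 in
theorem rk10_540_2 : chkC1 52 10 43 5 5 3 rd10_540.me rd10_540.mo gs10 [rd10_540.c0, rd10_540.c1] true
    (Nat.beq (10 % 2) 0) rd10_540.v2 = true := by decide +kernel

/-- run 541 -/
def rd10_541 : CRun :=
  ⟨40, 3202, 40, 1141, 8, 7,
    2582249878086908589655919172003011874329705792829223519960580788334061373975780861825782515329654148933397456165202486114,
    2582249878086908589655919172003011874329705792829223516002780766916602569781083036304577789260606896411036754598551887015,
    2074757784440496479256203931845580575506223116121218449997828664845326405706454073199853524473551897144098943305651407159818838145435282981722949707459570941647642296470625481216902,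
    [1697300, 2107, 1027387, 1405, 334829, 794]⟩

set_option maxRecDepth 100000 in
theorem rk10_541_0 : chkC1 52 10 43 5 5 3 rd10_541.me rd10_541.mo gs10 [rd10_541.c0, rd10_541.c1] false
    (Nat.beq (10 % 2) 1) rd10_541.v0 = true := by decide +kernel

set_option maxRecDepth 100000 in
theorem rk10_541_1 : chkC2 52 10 43 5 5 3 rd10_541.me rd10_541.mo gs10 [rd10_541.c0, rd10_541.c1]
    rd10_541.v1 = true := by decide +kernel

set_option maxRecDepth 100000 in
theorem rk10_541_2 : chkC1 52 10 43 5 5 3 rd10_541.me rd10_541.mo gs10 [rd10_541.c0, rd10_541.c1] true
    (Nat.beq (10 % 2) 0) rd10_541.v2 = true := by decide +kernel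

/-- run 542 -/
def rd10_542 : CRun :=
  ⟨40, 3206, 40, 1145, 8, 7,
    2582249878086908589655919172003011874329705792829223537627399057465295254428359797688650189767775816444874782829578613601,
    2582249878086908589655919172003011874329705792829223522624233255807542359762759516280031939457445220412785947737054314922,
    2074757784440496479256203931845580575506223116121218449997828664845326405706454073199853524473551897144098943305652212041339508544225506164153799456642759660160965227963573703697751,
    [3531625, 3929, 2149720, 2469, 712331, 1064]⟩

set_option maxRecDepth 100000 in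
theorem rk10_542_0 : chkC1 52 10 43 5 5 3 rd10_542.me rd10_542.mo gs10 [rd10_542.c0, rd10_542.c1] false
    (Nat.beq (10 % 2) 1) rd10_542.v0 = true := by decide +kernel

set_option maxRecDepth 100000 in
theorem rk10_542_1 : chkC2 52 10 43 5 5 3 rd10_542.me rd10_542.mo gs10 [rd10_542.c0, rd10_542.c1]
    rd10_542.v1 = true := by decide +kernel

set_option maxRecDepth 100000 in
theorem rk10_542_2 : chkC1 52 10 43 5 5 3 rd10_542.me rd10_542.mo gs10 [rd10_542.c0, rd10_542.c1] true
    (Nat.beq (10 % 2) 0) rd10_542.v2 = true := by decide +kernel

/-- run 543 -/
def rd10_543 : CRun :=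
  ⟨40, 3208, 40, 1163, 8, 7,
    2582249878086908589655919172003011874329705792829223517564872384236412944713220050572683225871620249043339408822336005103,
    2582249878086908589655919172003011874329705792829223515108118010775409733873095641393635510306370379622466843386906918196,
    2074757784440496479256203931845580575506223116121218449997828664845326405706454073199853524473551897144098943305651278096982875440372312553495541234643986768391993637681252428800758,
    [1557409, 1717, 947587, 1191, 314839, 742]⟩

set_option maxRecDepth 100000 in
theorem rk10_543_0 : chkC1 52 10 43 5 5 3 rd10_543.me rd10_543.mo gs10 [rd10_543.c0, rd10_543.c1] false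
    (Nat.beq (10 % 2) 1) rd10_543.v0 = true := by decide +kernel

set_option maxRecDepth 100000 in
theorem rk10_543_1 : chkC2 52 10 43 5 5 3 rd10_543.me rd10_543.mo gs10 [rd10_543.c0, rd10_543.c1]
    rd10_543.v1 = true := by decide +kernel

set_option maxRecDepth 100000 in
theorem rk10_543_2 : chkC1 52 10 43 5 5 3 rd10_543.me rd10_543.mo gs10 [rd10_543.c0, rd10_543.c1] true
    (Nat.beq (10 % 2) 0) rd10_543.v2 = true := by decide +kernel

/-- runs of this file -/
def rds10_67 : List CRun :=
  [rd10_536, rd10_537, rd10_538, rd10_539, rd10_540, rd10_541, rd10_542, rd10_543]

theorem ac10_67 : allC 52 10 43 5 5 3 gs10 rds10_67 :=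
  allC_cons rk10_536_0 rk10_536_1 rk10_536_2
    (allC_cons rk10_537_0 rk10_537_1 rk10_537_2
    (allC_cons rk10_538_0 rk10_538_1 rk10_538_2
    (allC_cons rk10_539_0 rk10_539_1 rk10_539_2
    (allC_cons rk10_540_0 rk10_540_1 rk10_540_2
    (allC_cons rk10_541_0 rk10_541_1 rk10_541_2
    (allC_cons rk10_542_0 rk10_542_1 rk10_542_2
    (allC_cons rk10_543_0 rk10_543_1 rk10_543_2
    (allC_nil))))))))

end Crest.Agent.R347
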