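import Crest.Agent.R347.G10c

/-! Row 347, Chebyshev numerics, ring with 10 sites: run certificates 544..551 (generated) -/

set_option autoImplicit false
set_option Elab.async false

namespace Crest.Agent.R347

/-- run 544 -/
def rd10_544 : CRun :=
  ⟨40, 3218, 40, 1223, 8, 7,
    2582249878086908589655919172003011874329705792829223514129781990669651274317638280334488894638802752947626923396805303809,
    2582249878086908589655919172003011874329705792829223513785413560846905399278720261983685407755692129176980626564836574962,
    2074757784440496479256203931845580575506223116121218449997828664845326405706454073199853524473551897144098943305651111741935719616922017622953855800467885862371468261619039297471361,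
    [3859534, 900, 2337083, 771, 758220, 669]⟩

set_option maxRecDepth 100000 in
theorem rk10_544_0 : chkC1 52 10 43 5 5 3 rd10_544.me rd10_544.mo gs10 [rd10_544.c0, rd10_544.c1] false
    (Nat.beq (10 % 2) 1) rd10_544.v0 = true := by decide +kernel

set_option maxRecDepth 100000 in
theorem rk10_544_1 : chkC2 52 10 43 5 5 3 rd10_544.me rd10_544.mo gs10 [rd10_544.c0, rd10_544.c1]
    rd10_544.v1 = true := by decide +kernel

set_option maxRecDepth 100000 in
theorem rk10_544_2 : chkC1 52 10 43 5 5 3 rd10_544.me rd10_544.mo gs10 [rd10_544.c0, rd10_544.c1] true
    (Nat.beq (10 % 2) 0) rd10_544.v2 = true := by decide +kernel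

/-- run 545 -/
def rd10_545 : CRun :=
  ⟨40, 3220, 40, 1229, 8, 7,
    2582249878086908589655919172003011874329705792829223522598300489649290774696063332033830257377941908499119243859517886097,
    2582249878086908589655919172003011874329705792829223516937917471578546593759145830435316930684570140004013872072335556785,
    2074757784440496479256203931845580575506223116121218449997828664845326405706454073199853524473551897144098943305651500979289614162323530223637748953896956597947231311047909122305546,
    [3394091, 2466, 2081474, 1599, 706765, 830]⟩

set_option maxRecDepth 100000 in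
theorem rk10_545_0 : chkC1 52 10 43 5 5 3 rd10_545.me rd10_545.mo gs10 [rd10_545.c0, rd10_545.c1] false
    (Nat.beq (10 % 2) 1) rd10_545.v0 = true := by decide +kernel

set_option maxRecDepth 100000 in
theorem rk10_545_1 : chkC2 52 10 43 5 5 3 rd10_545.me rd10_545.mo gs10 [rd10_545.c0, rd10_545.c1]
    rd10_545.v1 = true := by decide +kernel

set_option maxRecDepth 100000 in
theorem rk10_545_2 : chkC1 52 10 43 5 5 3 rd10_545.me rd10_545.mo gs10 [rd10_545.c0, rd10_545.c1] true
    (Nat.beq (10 % 2) 0) rd10_545.v2 = true := by decide +kernel

/-- run 546 -/
def rd10_546 : CRun :=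
  ⟨40, 3224, 40, 1231, 8, 7,
    2582249878086908589655919172003011874329705792829223516785750080415485768606975272063162879201332649710746095156090994985,
    2582249878086908589655919172003011874329705792829223514780039111907317243257346492772894388725027327599796730531732851166,
    2074757784440496479256203931845580575506223116121218449997828664845326405706454073199853524473551897144098943305651205119498533462587939090829079653085555825065233985927805783194246,
    [3487451, 1569, 2114052, 1102, 689097, 711]⟩

set_option maxRecDepth 100000 in
theorem rk10_546_0 : chkC1 52 10 43 5 5 3 rd10_546.me rd10_546.mo gs10 [rd10_546.c0, rd10_546.c1] false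
    (Nat.beq (10 % 2) 1) rd10_546.v0 = true := by decide +kernel

set_option maxRecDepth 100000 in
theorem rk10_546_1 : chkC2 52 10 43 5 5 3 rd10_546.me rd10_546.mo gs10 [rd10_546.c0, rd10_546.c1]
    rd10_546.v1 = true := by decide +kernel

set_option maxRecDepth 100000 in
theorem rk10_546_2 : chkC1 52 10 43 5 5 3 rd10_546.me rd10_546.mo gs10 [rd10_546.c0, rd10_546.c1] true
    (Nat.beq (10 % 2) 0) rd10_546.v2 = true := by decide +kernel

/-- run 547 -/
def rd10_547 : CRun :=
  ⟨40, 3226, 40, 1235, 8, 7,
    2582249878086908589655919172003011874329705792829223545205481047360143063323472814779906531197311849081445933167394759498,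
    2582249878086908589655919172003011874329705792829223525586641216717477781617397595093980949995754183684296147489615873388,
    2074757784440496479256203931845580575506223116121218449997828664845326405706454073199853524473551897144098943305652618710757307211153527844042470327003742556594804833128874231789934,
    [2206473, 4489, 1332134, 2818, 430568, 1177]⟩

set_option maxRecDepth 100000 in
theorem rk10_547_0 : chkC1 52 10 43 5 5 3 rd10_547.me rd10_547.mo gs10 [rd10_547.c0, rd10_547.c1] false
    (Nat.beq (10 % 2) 1) rd10_547.v0 = true := by decide +kernel

set_option maxRecDepth 100000 in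
theorem rk10_547_1 : chkC2 52 10 43 5 5 3 rd10_547.me rd10_547.mo gs10 [rd10_547.c0, rd10_547.c1]
    rd10_547.v1 = true := by decide +kernel

set_option maxRecDepth 100000 in
theorem rk10_547_2 : chkC1 52 10 43 5 5 3 rd10_547.me rd10_547.mo gs10 [rd10_547.c0, rd10_547.c1] true
    (Nat.beq (10 % 2) 0) rd10_547.v2 = true := by decide +kernel

/-- run 548 -/
def rd10_548 : CRun :=
  ⟨20, 3248, 40, 1247, 8, 7,
    2582249878086908589655919172003011874329705792829223532219408156378045122129165030161609226076951338965269980624536226089,
    2582249878086908589655919172003011874329705792829223520535809972285275086950434864172779127504117065805848673705276523647,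
    2074757784440496479256203931845580575506223116121218449997828664845326405706454073199853524473551897144098943305651908402361355586717991132706641132263200077294275000342900469607526,
    [991672, 3474, 582588, 2190, 168975, 971]⟩

set_option maxRecDepth 100000 in
theorem rk10_548_0 : chkC1 52 10 43 5 5 3 rd10_548.me rd10_548.mo gs10 [rd10_548.c0, rd10_548.c1] false
    (Nat.beq (10 % 2) 1) rd10_548.v0 = true := by decide +kernel

set_option maxRecDepth 100000 in
theorem rk10_548_1 : chkC2 52 10 43 5 5 3 rd10_548.me rd10_548.mo gs10 [rd10_548.c0, rd10_548.c1]
    rd10_548.v1 = true := by decide +kernel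

set_option maxRecDepth 100000 in
theorem rk10_548_2 : chkC1 52 10 43 5 5 3 rd10_548.me rd10_548.mo gs10 [rd10_548.c0, rd10_548.c1] true
    (Nat.beq (10 % 2) 0) rd10_548.v2 = true := by decide +kernel

/-- run 549 -/
def rd10_549 : CRun :=
  ⟨40, 3254, 20, 1249, 8, 7,
    2582249878086908589655919172003011874329705792829223527616848348772330354727388044519898123184907968232470408360412341544,
    2582249878086908589655919172003011874329705792829223518901364362584659415871745464734920503551939001175481994515807611372,
    2074757784440496479256203931845580575506223116121218449997828664845326405706454073199853524473551897144098943305651768804439574719714774251375755270785593768475799101564094790660822,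
    [3425316, 3034, 2050855, 1944, 641229, 925]⟩

set_option maxRecDepth 100000 in
theorem rk10_549_0 : chkC1 52 10 43 5 5 3 rd10_549.me rd10_549.mo gs10 [rd10_549.c0, rd10_549.c1] false
    (Nat.beq (10 % 2) 1) rd10_549.v0 = true := by decide +kernel

set_option maxRecDepth 100000 in
theorem rk10_549_1 : chkC2 52 10 43 5 5 3 rd10_549.me rd10_549.mo gs10 [rd10_549.c0, rd10_549.c1]
    rd10_549.v1 = true := by decide +kernel

set_option maxRecDepth 100000 in
theorem rk10_549_2 : chkC1 52 10 43 5 5 3 rd10_549.me rd10_549.mo gs10 [rd10_549.c0, rd10_549.c1] true
    (Nat.beq (10 % 2) 0) rd10_549.v2 = true := by decide +kernel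

/-- run 550 -/
def rd10_550 : CRun :=
  ⟨40, 3256, 40, 1253, 8, 7,
    2582249878086908589655919172003011874329705792829223557861779719837455279161334680770042788190668383016510918231249835494,
    2582249878086908589655919172003011874329705792829223530242477448242555112614492791945170957811818672472970443901958134656,
    2074757784440496479256203931845580575506223116121218449997828664845326405706454073199853524473551897144098943305653034232796791700858977484600307904829502747844937187700199282036040,
    [2035274, 5294, 1229572, 3292, 397755, 1282]⟩

set_option maxRecDepth 100000 in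
theorem rk10_550_0 : chkC1 52 10 43 5 5 3 rd10_550.me rd10_550.mo gs10 [rd10_550.c0, rd10_550.c1] false
    (Nat.beq (10 % 2) 1) rd10_550.v0 = true := by decide +kernel

set_option maxRecDepth 100000 in
theorem rk10_550_1 : chkC2 52 10 43 5 5 3 rd10_550.me rd10_550.mo gs10 [rd10_550.c0, rd10_550.c1]
    rd10_550.v1 = true := by decide +kernel

set_option maxRecDepth 100000 in
theorem rk10_550_2 : chkC1 52 10 43 5 5 3 rd10_550.me rd10_550.mo gs10 [rd10_550.c0, rd10_550.c1] true
    (Nat.beq (10 % 2) 0) rd10_550.v2 = true := by decide +kernel

/-- run 551 -/
def rd10_551 : CRun :=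
  ⟨40, 3260, 40, 1271, 8, 7,
    2582249878086908589655919172003011874329705792829223534753880481411590138655600893974644929750585033977453576014300313751,
    2582249878086908589655919172003011874329705792829223521695218985094225088734511597721112627549091570226121284488815590016,
    2074757784440496479256203931845580575506223116121218449997828664845326405706454073199853524473551897144098943305652157828070709378670580204978690142840038368598563977882859632691175,
    [6307047, 3694, 3855819, 2349, 1295341, 1048]⟩

set_option maxRecDepth 100000 in
theorem rk10_551_0 : chkC1 52 10 43 5 5 3 rd10_551.me rd10_551.mo gs10 [rd10_551.c0, rd10_551.c1] false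
    (Nat.beq (10 % 2) 1) rd10_551.v0 = true := by decide +kernel

set_option maxRecDepth 100000 in
theorem rk10_551_1 : chkC2 52 10 43 5 5 3 rd10_551.me rd10_551.mo gs10 [rd10_551.c0, rd10_551.c1]
    rd10_551.v1 = true := by decide +kernel

set_option maxRecDepth 100000 in
theorem rk10_551_2 : chkC1 52 10 43 5 5 3 rd10_551.me rd10_551.mo gs10 [rd10_551.c0, rd10_551.c1] true
    (Nat.beq (10 % 2) 0) rd10_551.v2 = true := by decide +kernel

/-- runs of this file -/
def rds10_68 : List CRun :=
  [rd10_544, rd10_545, rd10_546, rd10_547, rd10_548, rd10_549, rd10_550, rd10_551]

theorem ac10_68 : allC 52 10 43 5 5 3 gs10 rds10_68 :=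
  allC_cons rk10_544_0 rk10_544_1 rk10_544_2
    (allC_cons rk10_545_0 rk10_545_1 rk10_545_2
    (allC_cons rk10_546_0 rk10_546_1 rk10_546_2
    (allC_cons rk10_547_0 rk10_547_1 rk10_547_2
    (allC_cons rk10_548_0 rk10_548_1 rk10_548_2
    (allC_cons rk10_549_0 rk10_549_1 rk10_549_2
    (allC_cons rk10_550_0 rk10_550_1 rk10_550_2
    (allC_cons rk10_551_0 rk10_551_1 rk10_551_2
    (allC_nil))))))))

end Crest.Agent.R347
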