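import Crest.Agent.R347.G10c

/-! Row 347, Chebyshev numerics, ring with 10 sites: run certificates 552..559 (generated) -/

set_option autoImplicit false
set_option Elab.async false

namespace Crest.Agent.R347

/-- run 552 -/
def rd10_552 : CRun :=
  ⟨40, 3262, 40, 1301, 8, 7,
    2582249878086908589655919172003011874329705792829223517359300014110448836743687924023662976456159864454694292175841357959,
    2582249878086908589655919172003011874329705792829223515000437092429614795509028761585854204311357557009081897398549833875,
    2074757784440496479256203931845580575506223116121218449997828664845326405706454073199853524473551897144098943305651232633491727265019436920304024718471636210224893534906560038262696,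
    [2759251, 1679, 1674249, 1163, 550527, 723]⟩

set_option maxRecDepth 100000 in
theorem rk10_552_0 : chkC1 52 10 43 5 5 3 rd10_552.me rd10_552.mo gs10 [rd10_552.c0, rd10_552.c1] false
    (Nat.beq (10 % 2) 1) rd10_552.v0 = true := by decide +kernel

set_option maxRecDepth 100000 in
theorem rk10_552_1 : chkC2 52 10 43 5 5 3 rd10_552.me rd10_552.mo gs10 [rd10_552.c0, rd10_552.c1]
    rd10_552.v1 = true := by decide +kernel

set_option maxRecDepth 100000 in
theorem rk10_552_2 : chkC1 52 10 43 5 5 3 rd10_552.me rd10_552.mo gs10 [rd10_552.c0, rd10_552.c1] true
    (Nat.beq (10 % 2) 0) rd10_552.v2 = true := by decide +kernel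

/-- run 553 -/
def rd10_553 : CRun :=
  ⟨40, 3272, 40, 1307, 8, 7,
    2582249878086908589655919172003011874329705792829223527224257315179416440509731285740028687762708554821396291638151091613,
    2582249878086908589655919172003011874329705792829223518729931391208977556306102322837688253627062819189752306777818939133,
    2074757784440496479256203931845580575506223116121218449997828664845326405706454073199853524473551897144098943305651735029815760484257162910416498444230013956813275774824311323659982,
    [3550071, 2993, 2125200, 1917, 663380, 914]⟩

set_option maxRecDepth 100000 in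
theorem rk10_553_0 : chkC1 52 10 43 5 5 3 rd10_553.me rd10_553.mo gs10 [rd10_553.c0, rd10_553.c1] false
    (Nat.beq (10 % 2) 1) rd10_553.v0 = true := by decide +kernel

set_option maxRecDepth 100000 in
theorem rk10_553_1 : chkC2 52 10 43 5 5 3 rd10_553.me rd10_553.mo gs10 [rd10_553.c0, rd10_553.c1]
    rd10_553.v1 = true := by decide +kernel

set_option maxRecDepth 100000 in
theorem rk10_553_2 : chkC1 52 10 43 5 5 3 rd10_553.me rd10_553.mo gs10 [rd10_553.c0, rd10_553.c1] true
    (Nat.beq (10 % 2) 0) rd10_553.v2 = true := by decide +kernel

/-- run 554 -/
def rd10_554 : CRun :=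
  ⟨40, 3274, 40, 1325, 8, 7,
    2582249878086908589655919172003011874329705792829223518182550443564772144806590523550963989354309680199556891731580971409,
    2582249878086908589655919172003011874329705792829223515321733105812890088171715288214823278547454390194994846005101901198,
    2074757784440496479256203931845580575506223116121218449997828664845326405706454073199853524473551897144098943305651302361747343751125473237123135586199284853657199757853333771196176,
    [3117043, 1825, 1881754, 1246, 606148, 752]⟩

set_option maxRecDepth 100000 in
theorem rk10_554_0 : chkC1 52 10 43 5 5 3 rd10_554.me rd10_554.mo gs10 [rd10_554.c0, rd10_554.c1] false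
    (Nat.beq (10 % 2) 1) rd10_554.v0 = true := by decide +kernel

set_option maxRecDepth 100000 in
theorem rk10_554_1 : chkC2 52 10 43 5 5 3 rd10_554.me rd10_554.mo gs10 [rd10_554.c0, rd10_554.c1]
    rd10_554.v1 = true := by decide +kernel

set_option maxRecDepth 100000 in
theorem rk10_554_2 : chkC1 52 10 43 5 5 3 rd10_554.me rd10_554.mo gs10 [rd10_554.c0, rd10_554.c1] true
    (Nat.beq (10 % 2) 0) rd10_554.v2 = true := by decide +kernel

/-- run 555 -/
def rd10_555 : CRun :=
  ⟨40, 3278, 40, 1379, 8, 7,
    2582249878086908589655919172003011874329705792829223513695907111781679640931032973440282650795205422423279085144522041343,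
    2582249878086908589655919172003011874329705792829223513627594568582185705327468622932767487399384050954578763006498349375,
    2074757784440496479256203931845580575506223116121218449997828664845326405706454073199853524473551897144098943305651082968103099115442143768580630339610325099804661586930874823613989,
    [4996792, 734, 3008555, 705, 958817, 655]⟩

set_option maxRecDepth 100000 in
theorem rk10_555_0 : chkC1 52 10 43 5 5 3 rd10_555.me rd10_555.mo gs10 [rd10_555.c0, rd10_555.c1] false
    (Nat.beq (10 % 2) 1) rd10_555.v0 = true := by decide +kernel

set_option maxRecDepth 100000 in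
theorem rk10_555_1 : chkC2 52 10 43 5 5 3 rd10_555.me rd10_555.mo gs10 [rd10_555.c0, rd10_555.c1]
    rd10_555.v1 = true := by decide +kernel

set_option maxRecDepth 100000 in
theorem rk10_555_2 : chkC1 52 10 43 5 5 3 rd10_555.me rd10_555.mo gs10 [rd10_555.c0, rd10_555.c1] true
    (Nat.beq (10 % 2) 0) rd10_555.v2 = true := by decide +kernel

/-- run 556 -/
def rd10_556 : CRun :=
  ⟨20, 3280, 20, 1481, 8, 7,
    2582249878086908589655919172003011874329705792829223514498653011791258233078020136669310428885171927967473231975020408459,
    2582249878086908589655919172003011874329705792829223513962004803344658617628853102197332789634664582772753078029880736342,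
    2074757784440496479256203931845580575506223116121218449997828664845326405706454073199853524473551897144098943305651191039507389665315144792157226559818832525522602461096874943230096,
    [3305091, 1019, 1969067, 840, 605744, 705]⟩

set_option maxRecDepth 100000 in
theorem rk10_556_0 : chkC1 52 10 43 5 5 3 rd10_556.me rd10_556.mo gs10 [rd10_556.c0, rd10_556.c1] false
    (Nat.beq (10 % 2) 1) rd10_556.v0 = true := by decide +kernel

set_option maxRecDepth 100000 in
theorem rk10_556_1 : chkC2 52 10 43 5 5 3 rd10_556.me rd10_556.mo gs10 [rd10_556.c0, rd10_556.c1]
    rd10_556.v1 = true := by decide +kernel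

set_option maxRecDepth 100000 in
theorem rk10_556_2 : chkC1 52 10 43 5 5 3 rd10_556.me rd10_556.mo gs10 [rd10_556.c0, rd10_556.c1] true
    (Nat.beq (10 % 2) 0) rd10_556.v2 = true := by decide +kernel

/-- run 557 -/
def rd10_557 : CRun :=
  ⟨40, 3296, 40, 1493, 8, 7,
    2582249878086908589655919172003011874329705792829223515607220111817898041534224731578061885348946451867452038925720702370,
    2582249878086908589655919172003011874329705792829223514353268506113014605878912200288928424747180656510962606363562057912,
    2074757784440496479256203931845580575506223116121218449997828664845326405706454073199853524473551897144098943305651220853028924802361726922179925765408597119954746113252135238625503,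
    [2033423, 1315, 1224902, 974, 392268, 718]⟩

set_option maxRecDepth 100000 in
theorem rk10_557_0 : chkC1 52 10 43 5 5 3 rd10_557.me rd10_557.mo gs10 [rd10_557.c0, rd10_557.c1] false
    (Nat.beq (10 % 2) 1) rd10_557.v0 = true := by decide +kernel

set_option maxRecDepth 100000 in
theorem rk10_557_1 : chkC2 52 10 43 5 5 3 rd10_557.me rd10_557.mo gs10 [rd10_557.c0, rd10_557.c1]
    rd10_557.v1 = true := by decide +kernel

set_option maxRecDepth 100000 in
theorem rk10_557_2 : chkC1 52 10 43 5 5 3 rd10_557.me rd10_557.mo gs10 [rd10_557.c0, rd10_557.c1] true
    (Nat.beq (10 % 2) 0) rd10_557.v2 = true := by decide +kernel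

/-- run 558 -/
def rd10_558 : CRun :=
  ⟨40, 3326, 40, 1499, 8, 7,
    2582249878086908589655919172003011874329705792829223527643110537229655032800570330995029743597928331759862582292210147709,
    2582249878086908589655919172003011874329705792829223518782796438989009818390881791751527820924838253279218621809664305595,
    2074757784440496479256203931845580575506223116121218449997828664845326405706454073199853524473551897144098943305651722539086342459125751122745154676373104551729405101175248956063600,
    [1535335, 3037, 923349, 1925, 294113, 910]⟩

set_option maxRecDepth 100000 in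
theorem rk10_558_0 : chkC1 52 10 43 5 5 3 rd10_558.me rd10_558.mo gs10 [rd10_558.c0, rd10_558.c1] false
    (Nat.beq (10 % 2) 1) rd10_558.v0 = true := by decide +kernel

set_option maxRecDepth 100000 in
theorem rk10_558_1 : chkC2 52 10 43 5 5 3 rd10_558.me rd10_558.mo gs10 [rd10_558.c0, rd10_558.c1]
    rd10_558.v1 = true := by decide +kernel

set_option maxRecDepth 100000 in
theorem rk10_558_2 : chkC1 52 10 43 5 5 3 rd10_558.me rd10_558.mo gs10 [rd10_558.c0, rd10_558.c1] true
    (Nat.beq (10 % 2) 0) rd10_558.v2 = true := by decide +kernel

/-- run 559 -/
def rd10_559 : CRun :=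
  ⟨40, 3328, 40, 1505, 8, 7,
    2582249878086908589655919172003011874329705792829223534751664513848556991065628528249306466521706916049027067113876521688,
    2582249878086908589655919172003011874329705792829223521627746870491878605045055693387891892194389310923169364857590651122,
    2074757784440496479256203931845580575506223116121218449997828664845326405706454073199853524473551897144098943305652117347694436450446549027411621976612918231782947595546952843399229,
    [1482664, 3694, 897075, 2340, 291881, 1036]⟩

set_option maxRecDepth 100000 in
theorem rk10_559_0 : chkC1 52 10 43 5 5 3 rd10_559.me rd10_559.mo gs10 [rd10_559.c0, rd10_559.c1] false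
    (Nat.beq (10 % 2) 1) rd10_559.v0 = true := by decide +kernel

set_option maxRecDepth 100000 in
theorem rk10_559_1 : chkC2 52 10 43 5 5 3 rd10_559.me rd10_559.mo gs10 [rd10_559.c0, rd10_559.c1]
    rd10_559.v1 = true := by decide +kernel

set_option maxRecDepth 100000 in
theorem rk10_559_2 : chkC1 52 10 43 5 5 3 rd10_559.me rd10_559.mo gs10 [rd10_559.c0, rd10_559.c1] true
    (Nat.beq (10 % 2) 0) rd10_559.v2 = true := by decide +kernel

/-- runs of this file -/
def rds10_69 : List CRun :=
  [rd10_552, rd10_553, rd10_554, rd10_555, rd10_556, rd10_557, rd10_558, rd10_559]

theorem ac10_69 : allC 52 10 43 5 5 3 gs10 rds10_69 :=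
  allC_cons rk10_552_0 rk10_552_1 rk10_552_2
    (allC_cons rk10_553_0 rk10_553_1 rk10_553_2
    (allC_cons rk10_554_0 rk10_554_1 rk10_554_2
    (allC_cons rk10_555_0 rk10_555_1 rk10_555_2
    (allC_cons rk10_556_0 rk10_556_1 rk10_556_2
    (allC_cons rk10_557_0 rk10_557_1 rk10_557_2
    (allC_cons rk10_558_0 rk10_558_1 rk10_558_2
    (allC_cons rk10_559_0 rk10_559_1 rk10_559_2
    (allC_nil))))))))

end Crest.Agent.R347
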