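import Crest.Agent.R347.G10c

/-! Row 347, Chebyshev numerics, ring with 10 sites: run certificates 560..567 (generated) -/

set_option autoImplicit false
set_option Elab.async false

namespace Crest.Agent.R347

/-- run 560 -/
def rd10_560 : CRun :=
  ⟨40, 3332, 40, 1517, 8, 7,
    2582249878086908589655919172003011874329705792829223543704755180074495009033732248894125412051416384375720576182215630495,
    2582249878086908589655919172003011874329705792829223524880764755891919641260630990715463135911031119011316305473208197388,
    2074757784440496479256203931845580575506223116121218449997828664845326405706454073199853524473551897144098943305652470904595996269227983494369216786867562564363436691844018229259471,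
    [2818269, 4384, 1713283, 2739, 566045, 1137]⟩

set_option maxRecDepth 100000 in
theorem rk10_560_0 : chkC1 52 10 43 5 5 3 rd10_560.me rd10_560.mo gs10 [rd10_560.c0, rd10_560.c1] false
    (Nat.beq (10 % 2) 1) rd10_560.v0 = true := by decide +kernel

set_option maxRecDepth 100000 in
theorem rk10_560_1 : chkC2 52 10 43 5 5 3 rd10_560.me rd10_560.mo gs10 [rd10_560.c0, rd10_560.c1]
    rd10_560.v1 = true := by decide +kernel

set_option maxRecDepth 100000 in
theorem rk10_560_2 : chkC1 52 10 43 5 5 3 rd10_560.me rd10_560.mo gs10 [rd10_560.c0, rd10_560.c1] true
    (Nat.beq (10 % 2) 0) rd10_560.v2 = true := by decide +kernel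

/-- run 561 -/
def rd10_561 : CRun :=
  ⟨40, 3350, 40, 1523, 8, 7,
    2582249878086908589655919172003011874329705792829223538969918660417557198110443111659259168370155352006696611518392917142,
    2582249878086908589655919172003011874329705792829223523085933873869902668760649438765217754926317017977476632669939533521,
    2074757784440496479256203931845580575506223116121218449997828664845326405706454073199853524473551897144098943305652211298934132096571998863767312795025637294903182100312832508447493,
    [1150208, 4034, 702776, 2527, 236916, 1064]⟩

set_option maxRecDepth 100000 in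
theorem rk10_561_0 : chkC1 52 10 43 5 5 3 rd10_561.me rd10_561.mo gs10 [rd10_561.c0, rd10_561.c1] false
    (Nat.beq (10 % 2) 1) rd10_561.v0 = true := by decide +kernel

set_option maxRecDepth 100000 in
theorem rk10_561_1 : chkC2 52 10 43 5 5 3 rd10_561.me rd10_561.mo gs10 [rd10_561.c0, rd10_561.c1]
    rd10_561.v1 = true := by decide +kernel

set_option maxRecDepth 100000 in
theorem rk10_561_2 : chkC1 52 10 43 5 5 3 rd10_561.me rd10_561.mo gs10 [rd10_561.c0, rd10_561.c1] true
    (Nat.beq (10 % 2) 0) rd10_561.v2 = true := by decide +kernel

/-- run 562 -/
def rd10_562 : CRun :=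
  ⟨20, 3416, 40, 1547, 8, 7,
    2582249878086908589655919172003011874329705792829223516784477385484432648308746038086028678420135064939670113968988309760,
    2582249878086908589655919172003011874329705792829223514753272344904095242237644030200767643254814992332356746868722614200,
    2074757784440496479256203931845580575506223116121218449997828664845326405706454073199853524473551897144098943305651256827550921628377025480085287007015779784513167928635299319203821,
    [1703165, 1569, 1031417, 1094, 337732, 733]⟩

set_option maxRecDepth 100000 in
theorem rk10_562_0 : chkC1 52 10 43 5 5 3 rd10_562.me rd10_562.mo gs10 [rd10_562.c0, rd10_562.c1] false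
    (Nat.beq (10 % 2) 1) rd10_562.v0 = true := by decide +kernel

set_option maxRecDepth 100000 in
theorem rk10_562_1 : chkC2 52 10 43 5 5 3 rd10_562.me rd10_562.mo gs10 [rd10_562.c0, rd10_562.c1]
    rd10_562.v1 = true := by decide +kernel

set_option maxRecDepth 100000 in
theorem rk10_562_2 : chkC1 52 10 43 5 5 3 rd10_562.me rd10_562.mo gs10 [rd10_562.c0, rd10_562.c1] true
    (Nat.beq (10 % 2) 0) rd10_562.v2 = true := by decide +kernel

/-- run 563 -/
def rd10_563 : CRun :=
  ⟨40, 3418, 40, 1553, 8, 7,
    2582249878086908589655919172003011874329705792829223553246836847662680732696231335244750686283588916013621130656238215127,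
    2582249878086908589655919172003011874329705792829223528252143269879900865211525047916515052279048310809528630534713691819,
    2074757784440496479256203931845580575506223116121218449997828664845326405706454073199853524473551897144098943305652770309292402604296122472746261792283664501225238301804820009487961,
    [1081506, 5016, 659441, 3098, 220986, 1216]⟩

set_option maxRecDepth 100000 in
theorem rk10_563_0 : chkC1 52 10 43 5 5 3 rd10_563.me rd10_563.mo gs10 [rd10_563.c0, rd10_563.c1] false
    (Nat.beq (10 % 2) 1) rd10_563.v0 = true := by decide +kernel

set_option maxRecDepth 100000 in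
theorem rk10_563_1 : chkC2 52 10 43 5 5 3 rd10_563.me rd10_563.mo gs10 [rd10_563.c0, rd10_563.c1]
    rd10_563.v1 = true := by decide +kernel

set_option maxRecDepth 100000 in
theorem rk10_563_2 : chkC1 52 10 43 5 5 3 rd10_563.me rd10_563.mo gs10 [rd10_563.c0, rd10_563.c1] true
    (Nat.beq (10 % 2) 0) rd10_563.v2 = true := by decide +kernel

/-- run 564 -/
def rd10_564 : CRun :=
  ⟨40, 3422, 40, 1559, 8, 7,
    2582249878086908589655919172003011874329705792829223636951924613256809423583030500725811783795048510372518504978419214033,
    2582249878086908589655919172003011874329705792829223560501702533211363755549385181006690264167014082886708906691976375121,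
    2074757784440496479256203931845580575506223116121218449997828664845326405706454073199853524473551897144098943305656845534704466244555712123909718735125750255939328346308706506160678,
    [3469709, 8789, 2137891, 5447, 739710, 2004]⟩

set_option maxRecDepth 100000 in
theorem rk10_564_0 : chkC1 52 10 43 5 5 3 rd10_564.me rd10_564.mo gs10 [rd10_564.c0, rd10_564.c1] false
    (Nat.beq (10 % 2) 1) rd10_564.v0 = true := by decide +kernel

set_option maxRecDepth 100000 in
theorem rk10_564_1 : chkC2 52 10 43 5 5 3 rd10_564.me rd10_564.mo gs10 [rd10_564.c0, rd10_564.c1]
    rd10_564.v1 = true := by decide +kernel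

set_option maxRecDepth 100000 in
theorem rk10_564_2 : chkC1 52 10 43 5 5 3 rd10_564.me rd10_564.mo gs10 [rd10_564.c0, rd10_564.c1] true
    (Nat.beq (10 % 2) 0) rd10_564.v2 = true := by decide +kernel

/-- run 565 -/
def rd10_565 : CRun :=
  ⟨20, 3424, 40, 1571, 8, 7,
    2582249878086908589655919172003011874329705792829223573954203653982031955132227340585841085132866711775284518955945681644,
    2582249878086908589655919172003011874329705792829223535921208484902648444517548416714035679100788954751087736549893629698,
    2074757784440496479256203931845580575506223116121218449997828664845326405706454073199853524473551897144098943305653542415704722296720685701318276151114412176886300039454764383080021,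
    [1610917, 6168, 983082, 3791, 330299, 1400]⟩

set_option maxRecDepth 100000 in
theorem rk10_565_0 : chkC1 52 10 43 5 5 3 rd10_565.me rd10_565.mo gs10 [rd10_565.c0, rd10_565.c1] false
    (Nat.beq (10 % 2) 1) rd10_565.v0 = true := by decide +kernel

set_option maxRecDepth 100000 in
theorem rk10_565_1 : chkC2 52 10 43 5 5 3 rd10_565.me rd10_565.mo gs10 [rd10_565.c0, rd10_565.c1]
    rd10_565.v1 = true := by decide +kernel

set_option maxRecDepth 100000 in
theorem rk10_565_2 : chkC1 52 10 43 5 5 3 rd10_565.me rd10_565.mo gs10 [rd10_565.c0, rd10_565.c1] true
    (Nat.beq (10 % 2) 0) rd10_565.v2 = true := by decide +kernel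

/-- run 566 -/
def rd10_566 : CRun :=
  ⟨40, 3434, 20, 1577, 8, 7,
    2582249878086908589655919172003011874329705792829223634524821460588473101307206376074643200571538330592926027912985382429,
    2582249878086908589655919172003011874329705792829223558335202950932684922219303216718857384844939651420847078911882034786,
    2074757784440496479256203931845580575506223116121218449997828664845326405706454073199853524473551897144098943305656123781695763407591433002719867886625152613509076792471992645184955,
    [2341856, 8703, 1424487, 5322, 472496, 1889]⟩

set_option maxRecDepth 100000 in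
theorem rk10_566_0 : chkC1 52 10 43 5 5 3 rd10_566.me rd10_566.mo gs10 [rd10_566.c0, rd10_566.c1] false
    (Nat.beq (10 % 2) 1) rd10_566.v0 = true := by decide +kernel

set_option maxRecDepth 100000 in
theorem rk10_566_1 : chkC2 52 10 43 5 5 3 rd10_566.me rd10_566.mo gs10 [rd10_566.c0, rd10_566.c1]
    rd10_566.v1 = true := by decide +kernel

set_option maxRecDepth 100000 in
theorem rk10_566_2 : chkC1 52 10 43 5 5 3 rd10_566.me rd10_566.mo gs10 [rd10_566.c0, rd10_566.c1] true
    (Nat.beq (10 % 2) 0) rd10_566.v2 = true := by decide +kernel

/-- run 567 -/
def rd10_567 : CRun :=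
  ⟨40, 3436, 40, 1625, 8, 7,
    2582249878086908589655919172003011874329705792829223550019689057837165180926606085641779819304952053922383377474116019072,
    2582249878086908589655919172003011874329705792829223527286518129704231018735604607007787032797431309815510589165474849369,
    2074757784440496479256203931845580575506223116121218449997828664845326405706454073199853524473551897144098943305652752027158273069763757631843537226876735606121778034970880578430000,
    [2148730, 4811, 1313992, 3000, 443427, 1212]⟩

set_option maxRecDepth 100000 in
theorem rk10_567_0 : chkC1 52 10 43 5 5 3 rd10_567.me rd10_567.mo gs10 [rd10_567.c0, rd10_567.c1] false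
    (Nat.beq (10 % 2) 1) rd10_567.v0 = true := by decide +kernel

set_option maxRecDepth 100000 in
theorem rk10_567_1 : chkC2 52 10 43 5 5 3 rd10_567.me rd10_567.mo gs10 [rd10_567.c0, rd10_567.c1]
    rd10_567.v1 = true := by decide +kernel

set_option maxRecDepth 100000 in
theorem rk10_567_2 : chkC1 52 10 43 5 5 3 rd10_567.me rd10_567.mo gs10 [rd10_567.c0, rd10_567.c1] true
    (Nat.beq (10 % 2) 0) rd10_567.v2 = true := by decide +kernel

/-- runs of this file -/
def rds10_70 : List CRun :=
  [rd10_560, rd10_561, rd10_562, rd10_563, rd10_564, rd10_565, rd10_566, rd10_567]

theorem ac10_70 : allC 52 10 43 5 5 3 gs10 rds10_70 :=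
  allC_cons rk10_560_0 rk10_560_1 rk10_560_2
    (allC_cons rk10_561_0 rk10_561_1 rk10_561_2
    (allC_cons rk10_562_0 rk10_562_1 rk10_562_2
    (allC_cons rk10_563_0 rk10_563_1 rk10_563_2
    (allC_cons rk10_564_0 rk10_564_1 rk10_564_2
    (allC_cons rk10_565_0 rk10_565_1 rk10_565_2
    (allC_cons rk10_566_0 rk10_566_1 rk10_566_2
    (allC_cons rk10_567_0 rk10_567_1 rk10_567_2
    (allC_nil))))))))

end Crest.Agent.R347
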