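import Crest.Agent.R347.G10c

/-! Row 347, Chebyshev numerics, ring with 10 sites: run certificates 568..575 (generated) -/

set_option autoImplicit false
set_option Elab.async false

namespace Crest.Agent.R347

/-- run 568 -/
def rd10_568 : CRun :=
  ⟨40, 3440, 40, 1715, 8, 7,
    2582249878086908589655919172003011874329705792829223523546446964717555583944913851264163451231924907529761852219296094923,
    2582249878086908589655919172003011874329705792829223517249465798785346851410394815012144512573767289829640399853306490567,
    2074757784440496479256203931845580575506223116121218449997828664845326405706454073199853524473551897144098943305651505168577095545511178561532923687307861373330436102788973320494915,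
    [3858530, 2583, 2363002, 1659, 801302, 832]⟩

set_option maxRecDepth 100000 in
theorem rk10_568_0 : chkC1 52 10 43 5 5 3 rd10_568.me rd10_568.mo gs10 [rd10_568.c0, rd10_568.c1] false
    (Nat.beq (10 % 2) 1) rd10_568.v0 = true := by decide +kernel

set_option maxRecDepth 100000 in
theorem rk10_568_1 : chkC2 52 10 43 5 5 3 rd10_568.me rd10_568.mo gs10 [rd10_568.c0, rd10_568.c1]
    rd10_568.v1 = true := by decide +kernel

set_option maxRecDepth 100000 in
theorem rk10_568_2 : chkC1 52 10 43 5 5 3 rd10_568.me rd10_568.mo gs10 [rd10_568.c0, rd10_568.c1] true
    (Nat.beq (10 % 2) 0) rd10_568.v2 = true := by decide +kernel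

/-- run 569 -/
def rd10_569 : CRun :=
  ⟨40, 3458, 20, 1733, 8, 7,
    2582249878086908589655919172003011874329705792829223537244234322440004577167032188542454014171971645795330522577769846275,
    2582249878086908589655919172003011874329705792829223522305550123684232185288104220013209595613049489294763819087278090544,
    2074757784440496479256203931845580575506223116121218449997828664845326405706454073199853524473551897144098943305652045249205204682329856286198424905670430868101225542981055255748925,
    [2653519, 3898, 1640117, 2429, 573650, 1014]⟩

set_option maxRecDepth 100000 in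
theorem rk10_569_0 : chkC1 52 10 43 5 5 3 rd10_569.me rd10_569.mo gs10 [rd10_569.c0, rd10_569.c1] false
    (Nat.beq (10 % 2) 1) rd10_569.v0 = true := by decide +kernel

set_option maxRecDepth 100000 in
theorem rk10_569_1 : chkC2 52 10 43 5 5 3 rd10_569.me rd10_569.mo gs10 [rd10_569.c0, rd10_569.c1]
    rd10_569.v1 = true := by decide +kernel

set_option maxRecDepth 100000 in
theorem rk10_569_2 : chkC1 52 10 43 5 5 3 rd10_569.me rd10_569.mo gs10 [rd10_569.c0, rd10_569.c1] true
    (Nat.beq (10 % 2) 0) rd10_569.v2 = true := by decide +kernel

/-- run 570 -/
def rd10_570 : CRun :=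
  ⟨40, 3488, 40, 2285, 8, 7,
    2582249878086908589655919172003011874329705792829223513770779176077838774839359613208734439934522426512600727696662821352,
    2582249878086908589655919172003011874329705792829223513641680987478160014082869462634230118773093682398078716301518095124,
    2074757784440496479256203931845580575506223116121218449997828664845326405706454073199853524473551897144098943305651119317041660253802176527763159096708394152036380953703929857154908,
    [972044, 765, 593436, 711, 199613, 672]⟩

set_option maxRecDepth 100000 in
theorem rk10_570_0 : chkC1 52 10 43 5 5 3 rd10_570.me rd10_570.mo gs10 [rd10_570.c0, rd10_570.c1] false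
    (Nat.beq (10 % 2) 1) rd10_570.v0 = true := by decide +kernel

set_option maxRecDepth 100000 in
theorem rk10_570_1 : chkC2 52 10 43 5 5 3 rd10_570.me rd10_570.mo gs10 [rd10_570.c0, rd10_570.c1]
    rd10_570.v1 = true := by decide +kernel

set_option maxRecDepth 100000 in
theorem rk10_570_2 : chkC1 52 10 43 5 5 3 rd10_570.me rd10_570.mo gs10 [rd10_570.c0, rd10_570.c1] true
    (Nat.beq (10 % 2) 0) rd10_570.v2 = true := by decide +kernel

/-- run 571 -/
def rd10_571 : CRun :=
  ⟨40, 3490, 40, 2291, 8, 7,
    2582249878086908589655919172003011874329705792829223514607513422661539270304334816652870148230436047578294739796260149429,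
    2582249878086908589655919172003011874329705792829223513972697369091157938922309317959770885591847321493383778019254634620,
    2074757784440496479256203931845580575506223116121218449997828664845326405706454073199853524473551897144098943305651184354645125547915598537594922420582406033158148324678352142566226,
    [954047, 1052, 583526, 844, 197429, 702]⟩

set_option maxRecDepth 100000 in
theorem rk10_571_0 : chkC1 52 10 43 5 5 3 rd10_571.me rd10_571.mo gs10 [rd10_571.c0, rd10_571.c1] false
    (Nat.beq (10 % 2) 1) rd10_571.v0 = true := by decide +kernel

set_option maxRecDepth 100000 in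
theorem rk10_571_1 : chkC2 52 10 43 5 5 3 rd10_571.me rd10_571.mo gs10 [rd10_571.c0, rd10_571.c1]
    rd10_571.v1 = true := by decide +kernel

set_option maxRecDepth 100000 in
theorem rk10_571_2 : chkC1 52 10 43 5 5 3 rd10_571.me rd10_571.mo gs10 [rd10_571.c0, rd10_571.c1] true
    (Nat.beq (10 % 2) 0) rd10_571.v2 = true := by decide +kernel

/-- run 572 -/
def rd10_572 : CRun :=
  ⟨40, 3494, 40, 2293, 8, 7,
    2582249878086908589655919172003011874329705792829223513692661096932276480574438210013753502338110572375837822374333147801,
    2582249878086908589655919172003011874329705792829223513629924628746361241227004467966662173173041245295563804973799524525,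
    2074757784440496479256203931845580575506223116121218449997828664845326405706454073199853524473551897144098943305651098389887509868971818144790830537747821505386792920392962095121170,
    [1930038, 733, 1186387, 706, 407693, 662]⟩

set_option maxRecDepth 100000 in
theorem rk10_572_0 : chkC1 52 10 43 5 5 3 rd10_572.me rd10_572.mo gs10 [rd10_572.c0, rd10_572.c1] false
    (Nat.beq (10 % 2) 1) rd10_572.v0 = true := by decide +kernel

set_option maxRecDepth 100000 in
theorem rk10_572_1 : chkC2 52 10 43 5 5 3 rd10_572.me rd10_572.mo gs10 [rd10_572.c0, rd10_572.c1]
    rd10_572.v1 = true := by decide +kernel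

set_option maxRecDepth 100000 in
theorem rk10_572_2 : chkC1 52 10 43 5 5 3 rd10_572.me rd10_572.mo gs10 [rd10_572.c0, rd10_572.c1] true
    (Nat.beq (10 % 2) 0) rd10_572.v2 = true := by decide +kernel

/-- run 573 -/
def rd10_573 : CRun :=
  ⟨20, 3512, 40, 2303, 8, 7,
    2582249878086908589655919172003011874329705792829223515300714356193982495367626424047000871706463975036315913448468273219,
    2582249878086908589655919172003011874329705792829223514227241176115914775538982739272888065319171842317559511652768341465,
    2074757784440496479256203931845580575506223116121218449997828664845326405706454073199853524473551897144098943305651159091972131752329476742408868725165131781604883065392208290604326,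
    [1126990, 1240, 695537, 933, 242692, 690]⟩

set_option maxRecDepth 100000 in
theorem rk10_573_0 : chkC1 52 10 43 5 5 3 rd10_573.me rd10_573.mo gs10 [rd10_573.c0, rd10_573.c1] false
    (Nat.beq (10 % 2) 1) rd10_573.v0 = true := by decide +kernel

set_option maxRecDepth 100000 in
theorem rk10_573_1 : chkC2 52 10 43 5 5 3 rd10_573.me rd10_573.mo gs10 [rd10_573.c0, rd10_573.c1]
    rd10_573.v1 = true := by decide +kernel

set_option maxRecDepth 100000 in
theorem rk10_573_2 : chkC1 52 10 43 5 5 3 rd10_573.me rd10_573.mo gs10 [rd10_573.c0, rd10_573.c1] true
    (Nat.beq (10 % 2) 0) rd10_573.v2 = true := by decide +kernel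

/-- run 574 -/
def rd10_574 : CRun :=
  ⟨40, 3692, 40, 2309, 8, 7,
    2582249878086908589655919172003011874329705792829223522052894468861479662245192604158593281943688556988282868788851600926,
    2582249878086908589655919172003011874329705792829223516653478189178395502056289746356284761899922554683503057962754146064,
    2074757784440496479256203931845580575506223116121218449997828664845326405706454073199853524473551897144098943305651428033944033069718962271810529219161777705064531534949632983195631,
    [2073722, 2396, 1273240, 1543, 434796, 802]⟩

set_option maxRecDepth 100000 in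
theorem rk10_574_0 : chkC1 52 10 43 5 5 3 rd10_574.me rd10_574.mo gs10 [rd10_574.c0, rd10_574.c1] false
    (Nat.beq (10 % 2) 1) rd10_574.v0 = true := by decide +kernel

set_option maxRecDepth 100000 in
theorem rk10_574_1 : chkC2 52 10 43 5 5 3 rd10_574.me rd10_574.mo gs10 [rd10_574.c0, rd10_574.c1]
    rd10_574.v1 = true := by decide +kernel

set_option maxRecDepth 100000 in
theorem rk10_574_2 : chkC1 52 10 43 5 5 3 rd10_574.me rd10_574.mo gs10 [rd10_574.c0, rd10_574.c1] true
    (Nat.beq (10 % 2) 0) rd10_574.v2 = true := by decide +kernel

/-- run 575 -/
def rd10_575 : CRun :=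
  ⟨40, 3704, 40, 2311, 8, 7,
    2582249878086908589655919172003011874329705792829223515930605144658710021555115808927074470968322148945282618499180193686,
    2582249878086908589655919172003011874329705792829223514451376894529158739171575611912633425118968715890383457746857873973,
    2074757784440496479256203931845580575506223116121218449997828664845326405706454073199853524473551897144098943305651218477974495387574099671159953285170270592138721302284380110444506,
    [2270180, 1389, 1382037, 1005, 457517, 717]⟩

set_option maxRecDepth 100000 in
theorem rk10_575_0 : chkC1 52 10 43 5 5 3 rd10_575.me rd10_575.mo gs10 [rd10_575.c0, rd10_575.c1] false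
    (Nat.beq (10 % 2) 1) rd10_575.v0 = true := by decide +kernel

set_option maxRecDepth 100000 in
theorem rk10_575_1 : chkC2 52 10 43 5 5 3 rd10_575.me rd10_575.mo gs10 [rd10_575.c0, rd10_575.c1]
    rd10_575.v1 = true := by decide +kernel

set_option maxRecDepth 100000 in
theorem rk10_575_2 : chkC1 52 10 43 5 5 3 rd10_575.me rd10_575.mo gs10 [rd10_575.c0, rd10_575.c1] true
    (Nat.beq (10 % 2) 0) rd10_575.v2 = true := by decide +kernel

/-- runs of this file -/
def rds10_71 : List CRun :=
  [rd10_568, rd10_569, rd10_570, rd10_571, rd10_572, rd10_573, rd10_574, rd10_575]

theorem ac10_71 : allC 52 10 43 5 5 3 gs10 rds10_71 :=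
  allC_cons rk10_568_0 rk10_568_1 rk10_568_2
    (allC_cons rk10_569_0 rk10_569_1 rk10_569_2
    (allC_cons rk10_570_0 rk10_570_1 rk10_570_2
    (allC_cons rk10_571_0 rk10_571_1 rk10_571_2
    (allC_cons rk10_572_0 rk10_572_1 rk10_572_2
    (allC_cons rk10_573_0 rk10_573_1 rk10_573_2
    (allC_cons rk10_574_0 rk10_574_1 rk10_574_2
    (allC_cons rk10_575_0 rk10_575_1 rk10_575_2
    (allC_nil))))))))

end Crest.Agent.R347
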