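import Crest.Agent.R347.G10c

/-! Row 347, Chebyshev numerics, ring with 10 sites: run certificates 576..583 (generated) -/

set_option autoImplicit false
set_option Elab.async false

namespace Crest.Agent.R347

/-- run 576 -/
def rd10_576 : CRun :=
  ⟨40, 3706, 40, 2315, 8, 7,
    2582249878086908589655919172003011874329705792829223525364520598611734591790334342918031408099520152665675827648736003198,
    2582249878086908589655919172003011874329705792829223518071424250052085931291761677017203230739489254367501627943354076508,
    2074757784440496479256203931845580575506223116121218449997828664845326405706454073199853524473551897144098943305651706010121619211151776898123072855174575008349411051368254681937368,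
    [2094295, 2793, 1288472, 1806, 442875, 904]⟩

set_option maxRecDepth 100000 in
theorem rk10_576_0 : chkC1 52 10 43 5 5 3 rd10_576.me rd10_576.mo gs10 [rd10_576.c0, rd10_576.c1] false
    (Nat.beq (10 % 2) 1) rd10_576.v0 = true := by decide +kernel

set_option maxRecDepth 100000 in
theorem rk10_576_1 : chkC2 52 10 43 5 5 3 rd10_576.me rd10_576.mo gs10 [rd10_576.c0, rd10_576.c1]
    rd10_576.v1 = true := by decide +kernel

set_option maxRecDepth 100000 in
theorem rk10_576_2 : chkC1 52 10 43 5 5 3 rd10_576.me rd10_576.mo gs10 [rd10_576.c0, rd10_576.c1] true
    (Nat.beq (10 % 2) 0) rd10_576.v2 = true := by decide +kernel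

/-- run 577 -/
def rd10_577 : CRun :=
  ⟨40, 3710, 20, 2317, 8, 7,
    2582249878086908589655919172003011874329705792829223515563064668237749506742882697204711419356841358004288458208098233737,
    2582249878086908589655919172003011874329705792829223514337096281635592127745857893791606964315397205581532579606625268687,
    2074757784440496479256203931845580575506223116121218449997828664845326405706454073199853524473551897144098943305651178974616553368816156023105837262370012788822525139888103893668192,
    [2223870, 1304, 1355700, 969, 450909, 699]⟩

set_option maxRecDepth 100000 in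
theorem rk10_577_0 : chkC1 52 10 43 5 5 3 rd10_577.me rd10_577.mo gs10 [rd10_577.c0, rd10_577.c1] false
    (Nat.beq (10 % 2) 1) rd10_577.v0 = true := by decide +kernel

set_option maxRecDepth 100000 in
theorem rk10_577_1 : chkC2 52 10 43 5 5 3 rd10_577.me rd10_577.mo gs10 [rd10_577.c0, rd10_577.c1]
    rd10_577.v1 = true := by decide +kernel

set_option maxRecDepth 100000 in
theorem rk10_577_2 : chkC1 52 10 43 5 5 3 rd10_577.me rd10_577.mo gs10 [rd10_577.c0, rd10_577.c1] true
    (Nat.beq (10 % 2) 0) rd10_577.v2 = true := by decide +kernel

/-- run 578 -/
def rd10_578 : CRun :=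
  ⟨40, 3740, 40, 2327, 8, 7,
    2582249878086908589655919172003011874329705792829223522116177295982442958286310613317080606393615433086443034873852541462,
    2582249878086908589655919172003011874329705792829223516773609663491109097075255748455525395739277406092717085236872254495,
    2074757784440496479256203931845580575506223116121218449997828664845326405706454073199853524473551897144098943305651472433642195945620275496223140605484485393533249753515711792147846,
    [2395479, 2404, 1453891, 1567, 477996, 819]⟩

set_option maxRecDepth 100000 in
theorem rk10_578_0 : chkC1 52 10 43 5 5 3 rd10_578.me rd10_578.mo gs10 [rd10_578.c0, rd10_578.c1] false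
    (Nat.beq (10 % 2) 1) rd10_578.v0 = true := by decide +kernel

set_option maxRecDepth 100000 in
theorem rk10_578_1 : chkC2 52 10 43 5 5 3 rd10_578.me rd10_578.mo gs10 [rd10_578.c0, rd10_578.c1]
    rd10_578.v1 = true := by decide +kernel

set_option maxRecDepth 100000 in
theorem rk10_578_2 : chkC1 52 10 43 5 5 3 rd10_578.me rd10_578.mo gs10 [rd10_578.c0, rd10_578.c1] true
    (Nat.beq (10 % 2) 0) rd10_578.v2 = true := by decide +kernel

/-- run 579 -/
def rd10_579 : CRun :=
  ⟨40, 3742, 20, 2329, 8, 7,
    2582249878086908589655919172003011874329705792829223519138344336785665488776745240378748776033695843277611800416569165024,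
    2582249878086908589655919172003011874329705792829223515724868866852231496577478402244635422967404499651271647503230656194,
    2074757784440496479256203931845580575506223116121218449997828664845326405706454073199853524473551897144098943305651385107808056779311731719377156509685176529455958615204532344804744,
    [1518673, 1982, 928116, 1343, 312754, 786]⟩

set_option maxRecDepth 100000 in
theorem rk10_579_0 : chkC1 52 10 43 5 5 3 rd10_579.me rd10_579.mo gs10 [rd10_579.c0, rd10_579.c1] false
    (Nat.beq (10 % 2) 1) rd10_579.v0 = true := by decide +kernel

set_option maxRecDepth 100000 in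
theorem rk10_579_1 : chkC2 52 10 43 5 5 3 rd10_579.me rd10_579.mo gs10 [rd10_579.c0, rd10_579.c1]
    rd10_579.v1 = true := by decide +kernel

set_option maxRecDepth 100000 in
theorem rk10_579_2 : chkC1 52 10 43 5 5 3 rd10_579.me rd10_579.mo gs10 [rd10_579.c0, rd10_579.c1] true
    (Nat.beq (10 % 2) 0) rd10_579.v2 = true := by decide +kernel

/-- run 580 -/
def rd10_580 : CRun :=
  ⟨40, 3746, 40, 2333, 8, 7,
    2582249878086908589655919172003011874329705792829223520348648291332386230567786997315711578025753560916973030843903136924,
    2582249878086908589655919172003011874329705792829223516138991263300171621497121911099784096100798910976041413745602424666,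
    2074757784440496479256203931845580575506223116121218449997828664845326405706454073199853524473551897144098943305651420780225701284636858475393644391153789919840217599423588068571879,
    [4668878, 2163, 2882896, 1435, 1001341, 800]⟩

set_option maxRecDepth 100000 in
theorem rk10_580_0 : chkC1 52 10 43 5 5 3 rd10_580.me rd10_580.mo gs10 [rd10_580.c0, rd10_580.c1] false
    (Nat.beq (10 % 2) 1) rd10_580.v0 = true := by decide +kernel

set_option maxRecDepth 100000 in
theorem rk10_580_1 : chkC2 52 10 43 5 5 3 rd10_580.me rd10_580.mo gs10 [rd10_580.c0, rd10_580.c1]
    rd10_580.v1 = true := by decide +kernel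

set_option maxRecDepth 100000 in
theorem rk10_580_2 : chkC1 52 10 43 5 5 3 rd10_580.me rd10_580.mo gs10 [rd10_580.c0, rd10_580.c1] true
    (Nat.beq (10 % 2) 0) rd10_580.v2 = true := by decide +kernel

/-- run 581 -/
def rd10_581 : CRun :=
  ⟨40, 3758, 40, 2357, 8, 7,
    2582249878086908589655919172003011874329705792829223516092547539944998284553408122706939814562702200049731135259775224030,
    2582249878086908589655919172003011874329705792829223514541842685606807114713761451825163856153161177831373347163356314863,
    2074757784440496479256203931845580575506223116121218449997828664845326405706454073199853524473551897144098943305651206843743054952484504747354404735153028331389046314864375208684797,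
    [2889835, 1425, 1754299, 1032, 576196, 711]⟩

set_option maxRecDepth 100000 in
theorem rk10_581_0 : chkC1 52 10 43 5 5 3 rd10_581.me rd10_581.mo gs10 [rd10_581.c0, rd10_581.c1] false
    (Nat.beq (10 % 2) 1) rd10_581.v0 = true := by decide +kernel

set_option maxRecDepth 100000 in
theorem rk10_581_1 : chkC2 52 10 43 5 5 3 rd10_581.me rd10_581.mo gs10 [rd10_581.c0, rd10_581.c1]
    rd10_581.v1 = true := by decide +kernel

set_option maxRecDepth 100000 in
theorem rk10_581_2 : chkC1 52 10 43 5 5 3 rd10_581.me rd10_581.mo gs10 [rd10_581.c0, rd10_581.c1] true
    (Nat.beq (10 % 2) 0) rd10_581.v2 = true := by decide +kernel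

/-- run 582 -/
def rd10_582 : CRun :=
  ⟨20, 3760, 40, 2363, 8, 7,
    2582249878086908589655919172003011874329705792829223536890450842615945278103713814292623655600683434684110852098558059368,
    2582249878086908589655919172003011874329705792829223522095576350255042702953862659293266901829280790706147627663252918753,
    2074757784440496479256203931845580575506223116121218449997828664845326405706454073199853524473551897144098943305652081551542562537179171054664052984874784447189058090053968784205070,
    [2679907, 3870, 1635935, 2402, 548005, 1025]⟩

set_option maxRecDepth 100000 in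
theorem rk10_582_0 : chkC1 52 10 43 5 5 3 rd10_582.me rd10_582.mo gs10 [rd10_582.c0, rd10_582.c1] false
    (Nat.beq (10 % 2) 1) rd10_582.v0 = true := by decide +kernel

set_option maxRecDepth 100000 in
theorem rk10_582_1 : chkC2 52 10 43 5 5 3 rd10_582.me rd10_582.mo gs10 [rd10_582.c0, rd10_582.c1]
    rd10_582.v1 = true := by decide +kernel

set_option maxRecDepth 100000 in
theorem rk10_582_2 : chkC1 52 10 43 5 5 3 rd10_582.me rd10_582.mo gs10 [rd10_582.c0, rd10_582.c1] true
    (Nat.beq (10 % 2) 0) rd10_582.v2 = true := by decide +kernel

/-- run 583 -/
def rd10_583 : CRun :=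
  ⟨40, 3764, 20, 2369, 8, 7,
    2582249878086908589655919172003011874329705792829223582631704445617553140844884562394150644330018366668229067650516555762,
    2582249878086908589655919172003011874329705792829223539741441754227183609203649951434098157093115453381691113440605416257,
    2074757784440496479256203931845580575506223116121218449997828664845326405706454073199853524473551897144098943305654327686153500558793586169643750968749199714434286845744245598633292,
    [4384041, 6591, 2675873, 4093, 894099, 1565]⟩

set_option maxRecDepth 100000 in
theorem rk10_583_0 : chkC1 52 10 43 5 5 3 rd10_583.me rd10_583.mo gs10 [rd10_583.c0, rd10_583.c1] false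
    (Nat.beq (10 % 2) 1) rd10_583.v0 = true := by decide +kernel

set_option maxRecDepth 100000 in
theorem rk10_583_1 : chkC2 52 10 43 5 5 3 rd10_583.me rd10_583.mo gs10 [rd10_583.c0, rd10_583.c1]
    rd10_583.v1 = true := by decide +kernel

set_option maxRecDepth 100000 in
theorem rk10_583_2 : chkC1 52 10 43 5 5 3 rd10_583.me rd10_583.mo gs10 [rd10_583.c0, rd10_583.c1] true
    (Nat.beq (10 % 2) 0) rd10_583.v2 = true := by decide +kernel

/-- runs of this file -/
def rds10_72 : List CRun :=
  [rd10_576, rd10_577, rd10_578, rd10_579, rd10_580, rd10_581, rd10_582, rd10_583]

theorem ac10_72 : allC 52 10 43 5 5 3 gs10 rds10_72 :=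
  allC_cons rk10_576_0 rk10_576_1 rk10_576_2
    (allC_cons rk10_577_0 rk10_577_1 rk10_577_2
    (allC_cons rk10_578_0 rk10_578_1 rk10_578_2
    (allC_cons rk10_579_0 rk10_579_1 rk10_579_2
    (allC_cons rk10_580_0 rk10_580_1 rk10_580_2
    (allC_cons rk10_581_0 rk10_581_1 rk10_581_2
    (allC_cons rk10_582_0 rk10_582_1 rk10_582_2
    (allC_cons rk10_583_0 rk10_583_1 rk10_583_2
    (allC_nil))))))))

end Crest.Agent.R347
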