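import Crest.Agent.R347.G10c

/-! Row 347, Chebyshev numerics, ring with 10 sites: run certificates 584..591 (generated) -/

set_option autoImplicit false
set_option Elab.async false

namespace Crest.Agent.R347

/-- run 584 -/
def rd10_584 : CRun :=
  ⟨40, 3782, 20, 2381, 8, 7,
    2582249878086908589655919172003011874329705792829223526790975396429776374534800962857896332919441917201754285149813799295,
    2582249878086908589655919172003011874329705792829223518438755824527292777368174333667561931212642158919304024748171615965,
    2074757784440496479256203931845580575506223116121218449997828664845326405706454073199853524473551897144098943305651623193355632235569946292022719868677528821573720467573869335400772,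
    [1970443, 2948, 1204409, 1869, 404622, 875]⟩

set_option maxRecDepth 100000 in
theorem rk10_584_0 : chkC1 52 10 43 5 5 3 rd10_584.me rd10_584.mo gs10 [rd10_584.c0, rd10_584.c1] false
    (Nat.beq (10 % 2) 1) rd10_584.v0 = true := by decide +kernel

set_option maxRecDepth 100000 in
theorem rk10_584_1 : chkC2 52 10 43 5 5 3 rd10_584.me rd10_584.mo gs10 [rd10_584.c0, rd10_584.c1]
    rd10_584.v1 = true := by decide +kernel

set_option maxRecDepth 100000 in
theorem rk10_584_2 : chkC1 52 10 43 5 5 3 rd10_584.me rd10_584.mo gs10 [rd10_584.c0, rd10_584.c1] true
    (Nat.beq (10 % 2) 0) rd10_584.v2 = true := by decide +kernel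

/-- run 585 -/
def rd10_585 : CRun :=
  ⟨40, 3818, 40, 2447, 8, 7,
    2582249878086908589655919172003011874329705792829223513970654950836904762282095484140405267924041601488285864610780464426,
    2582249878086908589655919172003011874329705792829223513736221973436049188963829718412937738167282451131301773188576194710,
    2074757784440496479256203931845580575506223116121218449997828664845326405706454073199853524473551897144098943305651085267631440450057228069128384479814009309077145690107277502957958,
    [4077462, 843, 2521892, 751, 880166, 656]⟩

set_option maxRecDepth 100000 in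
theorem rk10_585_0 : chkC1 52 10 43 5 5 3 rd10_585.me rd10_585.mo gs10 [rd10_585.c0, rd10_585.c1] false
    (Nat.beq (10 % 2) 1) rd10_585.v0 = true := by decide +kernel

set_option maxRecDepth 100000 in
theorem rk10_585_1 : chkC2 52 10 43 5 5 3 rd10_585.me rd10_585.mo gs10 [rd10_585.c0, rd10_585.c1]
    rd10_585.v1 = true := by decide +kernel

set_option maxRecDepth 100000 in
theorem rk10_585_2 : chkC1 52 10 43 5 5 3 rd10_585.me rd10_585.mo gs10 [rd10_585.c0, rd10_585.c1] true
    (Nat.beq (10 % 2) 0) rd10_585.v2 = true := by decide +kernel

/-- run 586 -/
def rd10_586 : CRun :=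
  ⟨20, 3836, 20, 2453, 8, 7,
    2582249878086908589655919172003011874329705792829223515940147142765519905811283979831396294502098990322364840052365440447,
    2582249878086908589655919172003011874329705792829223514464618064013852819042041379553524604963751668559153669889283721608,
    2074757784440496479256203931845580575506223116121218449997828664845326405706454073199853524473551897144098943305651214341715969464933130426149527599017731699988215305375545487299614,
    [1688455, 1392, 1043824, 1009, 364368, 715]⟩

set_option maxRecDepth 100000 in
theorem rk10_586_0 : chkC1 52 10 43 5 5 3 rd10_586.me rd10_586.mo gs10 [rd10_586.c0, rd10_586.c1] false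
    (Nat.beq (10 % 2) 1) rd10_586.v0 = true := by decide +kernel

set_option maxRecDepth 100000 in
theorem rk10_586_1 : chkC2 52 10 43 5 5 3 rd10_586.me rd10_586.mo gs10 [rd10_586.c0, rd10_586.c1]
    rd10_586.v1 = true := by decide +kernel

set_option maxRecDepth 100000 in
theorem rk10_586_2 : chkC1 52 10 43 5 5 3 rd10_586.me rd10_586.mo gs10 [rd10_586.c0, rd10_586.c1] true
    (Nat.beq (10 % 2) 0) rd10_586.v2 = true := by decide +kernel

/-- run 587 -/
def rd10_587 : CRun :=
  ⟨10, 3904, 40, 2465, 8, 7,
    2582249878086908589655919172003011874329705792829223518386049863613642155320673519000864139012516422926222201600209374267,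
    2582249878086908589655919172003011874329705792829223515349952544808122216400507684518426435010346796968814467634848582656,
    2074757784440496479256203931845580575506223116121218449997828664845326405706454073199853524473551897144098943305651314032938359204171844498393812260063266972417543602277350988141895,
    [712522, 1860, 435909, 1253, 147777, 757]⟩

set_option maxRecDepth 100000 in
theorem rk10_587_0 : chkC1 52 10 43 5 5 3 rd10_587.me rd10_587.mo gs10 [rd10_587.c0, rd10_587.c1] false
    (Nat.beq (10 % 2) 1) rd10_587.v0 = true := by decide +kernel

set_option maxRecDepth 100000 in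
theorem rk10_587_1 : chkC2 52 10 43 5 5 3 rd10_587.me rd10_587.mo gs10 [rd10_587.c0, rd10_587.c1]
    rd10_587.v1 = true := by decide +kernel

set_option maxRecDepth 100000 in
theorem rk10_587_2 : chkC1 52 10 43 5 5 3 rd10_587.me rd10_587.mo gs10 [rd10_587.c0, rd10_587.c1] true
    (Nat.beq (10 % 2) 0) rd10_587.v2 = true := by decide +kernel

/-- run 588 -/
def rd10_588 : CRun :=
  ⟨20, 3908, 40, 2471, 8, 7,
    2582249878086908589655919172003011874329705792829223546480165367712055991513827740984425671696819107463720956464788775957,
    2582249878086908589655919172003011874329705792829223525539225295845527755556980919635270265083131539946747279461461775513,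
    2074757784440496479256203931845580575506223116121218449997828664845326405706454073199853524473551897144098943305652372588912572415684945286044483169857215050939871073012684232365921,
    [2253247, 4577, 1392001, 2813, 485612, 1110]⟩

set_option maxRecDepth 100000 in
theorem rk10_588_0 : chkC1 52 10 43 5 5 3 rd10_588.me rd10_588.mo gs10 [rd10_588.c0, rd10_588.c1] false
    (Nat.beq (10 % 2) 1) rd10_588.v0 = true := by decide +kernel

set_option maxRecDepth 100000 in
theorem rk10_588_1 : chkC2 52 10 43 5 5 3 rd10_588.me rd10_588.mo gs10 [rd10_588.c0, rd10_588.c1]
    rd10_588.v1 = true := by decide +kernel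

set_option maxRecDepth 100000 in
theorem rk10_588_2 : chkC1 52 10 43 5 5 3 rd10_588.me rd10_588.mo gs10 [rd10_588.c0, rd10_588.c1] true
    (Nat.beq (10 % 2) 0) rd10_588.v2 = true := by decide +kernel

/-- run 589 -/
def rd10_589 : CRun :=
  ⟨40, 3920, 40, 2473, 8, 7,
    2582249878086908589655919172003011874329705792829223524580259306925267164782906369637204023426366548158965130937893380091,
    2582249878086908589655919172003011874329705792829223517701156799770017909981933855624137226191528284946058067713218818337,
    2074757784440496479256203931845580575506223116121218449997828664845326405706454073199853524473551897144098943305651588935043466678156262012932873247432005650728096012213356794343658,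
    [1601736, 2705, 976983, 1741, 327059, 863]⟩

set_option maxRecDepth 100000 in
theorem rk10_589_0 : chkC1 52 10 43 5 5 3 rd10_589.me rd10_589.mo gs10 [rd10_589.c0, rd10_589.c1] false
    (Nat.beq (10 % 2) 1) rd10_589.v0 = true := by decide +kernel

set_option maxRecDepth 100000 in
theorem rk10_589_1 : chkC2 52 10 43 5 5 3 rd10_589.me rd10_589.mo gs10 [rd10_589.c0, rd10_589.c1]
    rd10_589.v1 = true := by decide +kernel

set_option maxRecDepth 100000 in
theorem rk10_589_2 : chkC1 52 10 43 5 5 3 rd10_589.me rd10_589.mo gs10 [rd10_589.c0, rd10_589.c1] true
    (Nat.beq (10 % 2) 0) rd10_589.v2 = true := by decide +kernel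

/-- run 590 -/
def rd10_590 : CRun :=
  ⟨40, 3926, 40, 2477, 8, 7,
    2582249878086908589655919172003011874329705792829223563740544011184951979554129288755627771404205016163704049605465452981,
    2582249878086908589655919172003011874329705792829223532483563059845514979583854926749018899329961155895260599847499871756,
    2074757784440496479256203931845580575506223116121218449997828664845326405706454073199853524473551897144098943305653322965817646111972696588807097672584761334756657086134211298802958,
    [2718837, 5629, 1663790, 3498, 562237, 1350]⟩

set_option maxRecDepth 100000 in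
theorem rk10_590_0 : chkC1 52 10 43 5 5 3 rd10_590.me rd10_590.mo gs10 [rd10_590.c0, rd10_590.c1] false
    (Nat.beq (10 % 2) 1) rd10_590.v0 = true := by decide +kernel

set_option maxRecDepth 100000 in
theorem rk10_590_1 : chkC2 52 10 43 5 5 3 rd10_590.me rd10_590.mo gs10 [rd10_590.c0, rd10_590.c1]
    rd10_590.v1 = true := by decide +kernel

set_option maxRecDepth 100000 in
theorem rk10_590_2 : chkC1 52 10 43 5 5 3 rd10_590.me rd10_590.mo gs10 [rd10_590.c0, rd10_590.c1] true
    (Nat.beq (10 % 2) 0) rd10_590.v2 = true := by decide +kernel

/-- run 591 -/
def rd10_591 : CRun :=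
  ⟨40, 3944, 40, 2479, 8, 7,
    2582249878086908589655919172003011874329705792829223523157964871703811907861817889554410368584374767173790324590307197847,
    2582249878086908589655919172003011874329705792829223517200484720258288568821600268475493535286288020376147087204608417947,
    2074757784440496479256203931845580575506223116121218449997828664845326405706454073199853524473551897144098943305651519042880169677633217590833628960905771550031084423421828820845662,
    [1889942, 2536, 1160991, 1650, 396979, 837]⟩

set_option maxRecDepth 100000 in
theorem rk10_591_0 : chkC1 52 10 43 5 5 3 rd10_591.me rd10_591.mo gs10 [rd10_591.c0, rd10_591.c1] false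
    (Nat.beq (10 % 2) 1) rd10_591.v0 = true := by decide +kernel

set_option maxRecDepth 100000 in
theorem rk10_591_1 : chkC2 52 10 43 5 5 3 rd10_591.me rd10_591.mo gs10 [rd10_591.c0, rd10_591.c1]
    rd10_591.v1 = true := by decide +kernel

set_option maxRecDepth 100000 in
theorem rk10_591_2 : chkC1 52 10 43 5 5 3 rd10_591.me rd10_591.mo gs10 [rd10_591.c0, rd10_591.c1] true
    (Nat.beq (10 % 2) 0) rd10_591.v2 = true := by decide +kernel

/-- runs of this file -/
def rds10_73 : List CRun :=
  [rd10_584, rd10_585, rd10_586, rd10_587, rd10_588, rd10_589, rd10_590, rd10_591]

theorem ac10_73 : allC 52 10 43 5 5 3 gs10 rds10_73 :=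
  allC_cons rk10_584_0 rk10_584_1 rk10_584_2
    (allC_cons rk10_585_0 rk10_585_1 rk10_585_2
    (allC_cons rk10_586_0 rk10_586_1 rk10_586_2
    (allC_cons rk10_587_0 rk10_587_1 rk10_587_2
    (allC_cons rk10_588_0 rk10_588_1 rk10_588_2
    (allC_cons rk10_589_0 rk10_589_1 rk10_589_2
    (allC_cons rk10_590_0 rk10_590_1 rk10_590_2
    (allC_cons rk10_591_0 rk10_591_1 rk10_591_2
    (allC_nil))))))))

end Crest.Agent.R347
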