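import Crest.Agent.R347.G10c

/-! Row 347, Chebyshev numerics, ring with 10 sites: run certificates 592..599 (generated) -/

set_option autoImplicit false
set_option Elab.async false

namespace Crest.Agent.R347

/-- run 592 -/
def rd10_592 : CRun :=
  ⟨40, 3980, 40, 2489, 8, 7,
    2582249878086908589655919172003011874329705792829223579828915247581907482050105120174541656262842348972157444889145677962,
    2582249878086908589655919172003011874329705792829223538178898587316936458004085645818044853790793361708135490121141665915,
    2074757784440496479256203931845580575506223116121218449997828664845326405706454073199853524473551897144098943305653901101952519390199079698218869714360083760338745290426388225749445,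
    [1983532, 6458, 1217101, 3972, 415313, 1478]⟩

set_option maxRecDepth 100000 in
theorem rk10_592_0 : chkC1 52 10 43 5 5 3 rd10_592.me rd10_592.mo gs10 [rd10_592.c0, rd10_592.c1] false
    (Nat.beq (10 % 2) 1) rd10_592.v0 = true := by decide +kernel

set_option maxRecDepth 100000 in
theorem rk10_592_1 : chkC2 52 10 43 5 5 3 rd10_592.me rd10_592.mo gs10 [rd10_592.c0, rd10_592.c1]
    rd10_592.v1 = true := by decide +kernel

set_option maxRecDepth 100000 in
theorem rk10_592_2 : chkC1 52 10 43 5 5 3 rd10_592.me rd10_592.mo gs10 [rd10_592.c0, rd10_592.c1] true
    (Nat.beq (10 % 2) 0) rd10_592.v2 = true := by decide +kernel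

/-- run 593 -/
def rd10_593 : CRun :=
  ⟨20, 4544, 40, 2491, 8, 7,
    2582249878086908589655919172003011874329705792829223561375484736405455271816980320489751476264077093974065204095555208227,
    2582249878086908589655919172003011874329705792829223531636703496644938586392689820161041525475555133765741207659158106933,
    2074757784440496479256203931845580575506223116121218449997828664845326405706454073199853524473551897144098943305653326645705767465060427579900289133847121110601512848729524974539480,
    [1010950, 5497, 607741, 3421, 192212, 1351]⟩

set_option maxRecDepth 100000 in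
theorem rk10_593_0 : chkC1 52 10 43 5 5 3 rd10_593.me rd10_593.mo gs10 [rd10_593.c0, rd10_593.c1] false
    (Nat.beq (10 % 2) 1) rd10_593.v0 = true := by decide +kernel

set_option maxRecDepth 100000 in
theorem rk10_593_1 : chkC2 52 10 43 5 5 3 rd10_593.me rd10_593.mo gs10 [rd10_593.c0, rd10_593.c1]
    rd10_593.v1 = true := by decide +kernel

set_option maxRecDepth 100000 in
theorem rk10_593_2 : chkC1 52 10 43 5 5 3 rd10_593.me rd10_593.mo gs10 [rd10_593.c0, rd10_593.c1] true
    (Nat.beq (10 % 2) 0) rd10_593.v2 = true := by decide +kernel

/-- run 594 -/
def rd10_594 : CRun :=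
  ⟨40, 4550, 40, 2495, 8, 7,
    2582249878086908589655919172003011874329705792829223569890554623589233461487580472042123978435681948052451263724403481587,
    2582249878086908589655919172003011874329705792829223534423698100643562629769167316975029226322540418235921748154044259138,
    2074757784440496479256203931845580575506223116121218449997828664845326405706454073199853524473551897144098943305653484321680546245704244308304713833404005794203668803928541596003189,
    [3341581, 5959, 2041191, 3666, 684197, 1387]⟩

set_option maxRecDepth 100000 in
theorem rk10_594_0 : chkC1 52 10 43 5 5 3 rd10_594.me rd10_594.mo gs10 [rd10_594.c0, rd10_594.c1] false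
    (Nat.beq (10 % 2) 1) rd10_594.v0 = true := by decide +kernel

set_option maxRecDepth 100000 in
theorem rk10_594_1 : chkC2 52 10 43 5 5 3 rd10_594.me rd10_594.mo gs10 [rd10_594.c0, rd10_594.c1]
    rd10_594.v1 = true := by decide +kernel

set_option maxRecDepth 100000 in
theorem rk10_594_2 : chkC1 52 10 43 5 5 3 rd10_594.me rd10_594.mo gs10 [rd10_594.c0, rd10_594.c1] true
    (Nat.beq (10 % 2) 0) rd10_594.v2 = true := by decide +kernel

/-- run 595 -/
def rd10_595 : CRun :=
  ⟨20, 4556, 40, 2497, 8, 7,
    2582249878086908589655919172003011874329705792829223535717026116184968363136360087374890535336510275752064770010732982919,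
    2582249878086908589655919172003011874329705792829223521729821182001253926337756667455494881869202167291246163415483750321,
    2074757784440496479256203931845580575506223116121218449997828664845326405706454073199853524473551897144098943305652012779415082385172348685312387060138884304467533167870686873918107,
    [6360754, 3774, 3958720, 2354, 1410954, 1004]⟩

set_option maxRecDepth 100000 in
theorem rk10_595_0 : chkC1 52 10 43 5 5 3 rd10_595.me rd10_595.mo gs10 [rd10_595.c0, rd10_595.c1] false
    (Nat.beq (10 % 2) 1) rd10_595.v0 = true := by decide +kernel

set_option maxRecDepth 100000 in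
theorem rk10_595_1 : chkC2 52 10 43 5 5 3 rd10_595.me rd10_595.mo gs10 [rd10_595.c0, rd10_595.c1]
    rd10_595.v1 = true := by decide +kernel

set_option maxRecDepth 100000 in
theorem rk10_595_2 : chkC1 52 10 43 5 5 3 rd10_595.me rd10_595.mo gs10 [rd10_595.c0, rd10_595.c1] true
    (Nat.beq (10 % 2) 0) rd10_595.v2 = true := by decide +kernel

/-- run 596 -/
def rd10_596 : CRun :=
  ⟨20, 4568, 40, 2503, 8, 7,
    2582249878086908589655919172003011874329705792829223515583779706566292150384894130537081346465955076797142441294577454225,
    2582249878086908589655919172003011874329705792829223514337981704497978831387681514904486944909386939431106898688117502137,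
    2074757784440496479256203931845580575506223116121218449997828664845326405706454073199853524473551897144098943305651211550464586587067021809761373202418291118921615104664482480111302,
    [2364785, 1309, 1437763, 969, 474000, 714]⟩

set_option maxRecDepth 100000 in
theorem rk10_596_0 : chkC1 52 10 43 5 5 3 rd10_596.me rd10_596.mo gs10 [rd10_596.c0, rd10_596.c1] false
    (Nat.beq (10 % 2) 1) rd10_596.v0 = true := by decide +kernel

set_option maxRecDepth 100000 in
theorem rk10_596_1 : chkC2 52 10 43 5 5 3 rd10_596.me rd10_596.mo gs10 [rd10_596.c0, rd10_596.c1]
    rd10_596.v1 = true := by decide +kernel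

set_option maxRecDepth 100000 in
theorem rk10_596_2 : chkC1 52 10 43 5 5 3 rd10_596.me rd10_596.mo gs10 [rd10_596.c0, rd10_596.c1] true
    (Nat.beq (10 % 2) 0) rd10_596.v2 = true := by decide +kernel

/-- run 597 -/
def rd10_597 : CRun :=
  ⟨40, 4652, 40, 2519, 8, 7,
    2582249878086908589655919172003011874329705792829223519232443414781383441331931456582062575712191006187544582264700314276,
    2582249878086908589655919172003011874329705792829223515630154331585562350746759614559954958012143332994720054599462682498,
    2074757784440496479256203931845580575506223116121218449997828664845326405706454073199853524473551897144098943305651284302977602368592756696553141856213957709139955626827126368871272,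
    [1142331, 1996, 680536, 1320, 207677, 745]⟩

set_option maxRecDepth 100000 in
theorem rk10_597_0 : chkC1 52 10 43 5 5 3 rd10_597.me rd10_597.mo gs10 [rd10_597.c0, rd10_597.c1] false
    (Nat.beq (10 % 2) 1) rd10_597.v0 = true := by decide +kernel

set_option maxRecDepth 100000 in
theorem rk10_597_1 : chkC2 52 10 43 5 5 3 rd10_597.me rd10_597.mo gs10 [rd10_597.c0, rd10_597.c1]
    rd10_597.v1 = true := by decide +kernel

set_option maxRecDepth 100000 in
theorem rk10_597_2 : chkC1 52 10 43 5 5 3 rd10_597.me rd10_597.mo gs10 [rd10_597.c0, rd10_597.c1] true
    (Nat.beq (10 % 2) 0) rd10_597.v2 = true := by decide +kernel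

/-- run 598 -/
def rd10_598 : CRun :=
  ⟨40, 4658, 40, 2525, 8, 7,
    2582249878086908589655919172003011874329705792829223585348376226923315251783094714123104387365427003724487015473430119142,
    2582249878086908589655919172003011874329705792829223539759535876605539839706252444593859647997515459091685357421718948706,
    2074757784440496479256203931845580575506223116121218449997828664845326405706454073199853524473551897144098943305653900079939923241481264453530978985380668556217641244570377188669182,
    [3225432, 6718, 1953437, 4094, 636160, 1477]⟩

set_option maxRecDepth 100000 in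
theorem rk10_598_0 : chkC1 52 10 43 5 5 3 rd10_598.me rd10_598.mo gs10 [rd10_598.c0, rd10_598.c1] false
    (Nat.beq (10 % 2) 1) rd10_598.v0 = true := by decide +kernel

set_option maxRecDepth 100000 in
theorem rk10_598_1 : chkC2 52 10 43 5 5 3 rd10_598.me rd10_598.mo gs10 [rd10_598.c0, rd10_598.c1]
    rd10_598.v1 = true := by decide +kernel

set_option maxRecDepth 100000 in
theorem rk10_598_2 : chkC1 52 10 43 5 5 3 rd10_598.me rd10_598.mo gs10 [rd10_598.c0, rd10_598.c1] true
    (Nat.beq (10 % 2) 0) rd10_598.v2 = true := by decide +kernel

/-- run 599 -/
def rd10_599 : CRun :=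
  ⟨40, 4664, 40, 2527, 8, 7,
    2582249878086908589655919172003011874329705792829223538650486695165622334167385261057405842752984274293571720522417785871,
    2582249878086908589655919172003011874329705792829223522869109723558037110881772493645624684967996168026364401955980754135,
    2074757784440496479256203931845580575506223116121218449997828664845326405706454073199853524473551897144098943305652180072914056055872964532359934421553945083454606913083248789413415,
    [4301944, 4009, 2654647, 2500, 920862, 1055]⟩

set_option maxRecDepth 100000 in
theorem rk10_599_0 : chkC1 52 10 43 5 5 3 rd10_599.me rd10_599.mo gs10 [rd10_599.c0, rd10_599.c1] false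
    (Nat.beq (10 % 2) 1) rd10_599.v0 = true := by decide +kernel

set_option maxRecDepth 100000 in
theorem rk10_599_1 : chkC2 52 10 43 5 5 3 rd10_599.me rd10_599.mo gs10 [rd10_599.c0, rd10_599.c1]
    rd10_599.v1 = true := by decide +kernel

set_option maxRecDepth 100000 in
theorem rk10_599_2 : chkC1 52 10 43 5 5 3 rd10_599.me rd10_599.mo gs10 [rd10_599.c0, rd10_599.c1] true
    (Nat.beq (10 % 2) 0) rd10_599.v2 = true := by decide +kernel

/-- runs of this file -/
def rds10_74 : List CRun :=
  [rd10_592, rd10_593, rd10_594, rd10_595, rd10_596, rd10_597, rd10_598, rd10_599]

theorem ac10_74 : allC 52 10 43 5 5 3 gs10 rds10_74 :=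
  allC_cons rk10_592_0 rk10_592_1 rk10_592_2
    (allC_cons rk10_593_0 rk10_593_1 rk10_593_2
    (allC_cons rk10_594_0 rk10_594_1 rk10_594_2
    (allC_cons rk10_595_0 rk10_595_1 rk10_595_2
    (allC_cons rk10_596_0 rk10_596_1 rk10_596_2
    (allC_cons rk10_597_0 rk10_597_1 rk10_597_2
    (allC_cons rk10_598_0 rk10_598_1 rk10_598_2
    (allC_cons rk10_599_0 rk10_599_1 rk10_599_2
    (allC_nil))))))))

end Crest.Agent.R347
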