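import Crest.Agent.R347.G10c

/-! Row 347, Chebyshev numerics, ring with 10 sites: run certificates 600..607 (generated) -/

set_option autoImplicit false
set_option Elab.async false

namespace Crest.Agent.R347

/-- run 600 -/
def rd10_600 : CRun :=
  ⟨40, 4676, 40, 2531, 8, 7,
    2582249878086908589655919172003011874329705792829223747623820671450563797613408931360800319256422334055440883319697093476,
    2582249878086908589655919172003011874329705792829223601770882911677175379243337349288793235654313571639177874099068439027,
    2074757784440496479256203931845580575506223116121218449997828664845326405706454073199853524473551897144098943305661494290766968316775555181221591069971139607601726413620476313554723,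
    [4518502, 12088, 2768570, 7440, 935008, 2629]⟩

set_option maxRecDepth 100000 in
theorem rk10_600_0 : chkC1 52 10 43 5 5 3 rd10_600.me rd10_600.mo gs10 [rd10_600.c0, rd10_600.c1] false
    (Nat.beq (10 % 2) 1) rd10_600.v0 = true := by decide +kernel

set_option maxRecDepth 100000 in
theorem rk10_600_1 : chkC2 52 10 43 5 5 3 rd10_600.me rd10_600.mo gs10 [rd10_600.c0, rd10_600.c1]
    rd10_600.v1 = true := by decide +kernel

set_option maxRecDepth 100000 in
theorem rk10_600_2 : chkC1 52 10 43 5 5 3 rd10_600.me rd10_600.mo gs10 [rd10_600.c0, rd10_600.c1] true
    (Nat.beq (10 % 2) 0) rd10_600.v2 = true := by decide +kernel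

/-- run 601 -/
def rd10_601 : CRun :=
  ⟨40, 4682, 40, 2533, 8, 7,
    2582249878086908589655919172003011874329705792829223559452220938134082760534582990271231015435378440865129617128095370735,
    2582249878086908589655919172003011874329705792829223530661206936063385762654115106119061744126644239780915475367620988087,
    2074757784440496479256203931845580575506223116121218449997828664845326405706454073199853524473551897144098943305653066792575444476519940515836222921466155052721997214649283237464860,
    [4357180, 5387, 2669461, 3332, 901825, 1290]⟩

set_option maxRecDepth 100000 in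
theorem rk10_601_0 : chkC1 52 10 43 5 5 3 rd10_601.me rd10_601.mo gs10 [rd10_601.c0, rd10_601.c1] false
    (Nat.beq (10 % 2) 1) rd10_601.v0 = true := by decide +kernel

set_option maxRecDepth 100000 in
theorem rk10_601_1 : chkC2 52 10 43 5 5 3 rd10_601.me rd10_601.mo gs10 [rd10_601.c0, rd10_601.c1]
    rd10_601.v1 = true := by decide +kernel

set_option maxRecDepth 100000 in
theorem rk10_601_2 : chkC1 52 10 43 5 5 3 rd10_601.me rd10_601.mo gs10 [rd10_601.c0, rd10_601.c1] true
    (Nat.beq (10 % 2) 0) rd10_601.v2 = true := by decide +kernel

/-- run 602 -/
def rd10_602 : CRun :=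
  ⟨40, 4712, 40, 2543, 8, 7,
    2582249878086908589655919172003011874329705792829223611848754682796326417547864062354085968307246592073118582829382489402,
    2582249878086908589655919172003011874329705792829223549491607436104510242636353251084072917888490572887519301832391642221,
    2074757784440496479256203931845580575506223116121218449997828664845326405706454073199853524473551897144098943305654934816271506401981510882677555122121359448124991872967692575634995,
    [4429853, 7850, 2696120, 4777, 893586, 1681]⟩

set_option maxRecDepth 100000 in
theorem rk10_602_0 : chkC1 52 10 43 5 5 3 rd10_602.me rd10_602.mo gs10 [rd10_602.c0, rd10_602.c1] false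
    (Nat.beq (10 % 2) 1) rd10_602.v0 = true := by decide +kernel

set_option maxRecDepth 100000 in
theorem rk10_602_1 : chkC2 52 10 43 5 5 3 rd10_602.me rd10_602.mo gs10 [rd10_602.c0, rd10_602.c1]
    rd10_602.v1 = true := by decide +kernel

set_option maxRecDepth 100000 in
theorem rk10_602_2 : chkC1 52 10 43 5 5 3 rd10_602.me rd10_602.mo gs10 [rd10_602.c0, rd10_602.c1] true
    (Nat.beq (10 % 2) 0) rd10_602.v2 = true := by decide +kernel

/-- run 603 -/
def rd10_603 : CRun :=
  ⟨40, 4718, 40, 2545, 8, 7,
    2582249878086908589655919172003011874329705792829223586984396635907304733331815236411457350668076827288760899645618862475,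
    2582249878086908589655919172003011874329705792829223540939017152525328889022123826637626610110594801107298843689668185620,
    2074757784440496479256203931845580575506223116121218449997828664845326405706454073199853524473551897144098943305654182234156424456288795488944962708416232417230304596253440404480955,
    [8633710, 6794, 5340646, 4183, 1865884, 1536]⟩

set_option maxRecDepth 100000 in
theorem rk10_603_0 : chkC1 52 10 43 5 5 3 rd10_603.me rd10_603.mo gs10 [rd10_603.c0, rd10_603.c1] false
    (Nat.beq (10 % 2) 1) rd10_603.v0 = true := by decide +kernel

set_option maxRecDepth 100000 in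
theorem rk10_603_1 : chkC2 52 10 43 5 5 3 rd10_603.me rd10_603.mo gs10 [rd10_603.c0, rd10_603.c1]
    rd10_603.v1 = true := by decide +kernel

set_option maxRecDepth 100000 in
theorem rk10_603_2 : chkC1 52 10 43 5 5 3 rd10_603.me rd10_603.mo gs10 [rd10_603.c0, rd10_603.c1] true
    (Nat.beq (10 % 2) 0) rd10_603.v2 = true := by decide +kernel

/-- run 604 -/
def rd10_604 : CRun :=
  ⟨40, 4730, 40, 2549, 8, 7,
    2582249878086908589655919172003011874329705792829223717049444504179726240829502478711424544457174994704014878855662846830,
    2582249878086908589655919172003011874329705792829223588608435714833299183386094889339314605606321105331390150528279454853,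
    2074757784440496479256203931845580575506223116121218449997828664845326405706454073199853524473551897144098943305659355488368820485898614340515926829370434605861061392012620803605669,
    [4873457, 11274, 2961241, 6868, 973733, 2362]⟩

set_option maxRecDepth 100000 in
theorem rk10_604_0 : chkC1 52 10 43 5 5 3 rd10_604.me rd10_604.mo gs10 [rd10_604.c0, rd10_604.c1] false
    (Nat.beq (10 % 2) 1) rd10_604.v0 = true := by decide +kernel

set_option maxRecDepth 100000 in
theorem rk10_604_1 : chkC2 52 10 43 5 5 3 rd10_604.me rd10_604.mo gs10 [rd10_604.c0, rd10_604.c1]
    rd10_604.v1 = true := by decide +kernel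

set_option maxRecDepth 100000 in
theorem rk10_604_2 : chkC1 52 10 43 5 5 3 rd10_604.me rd10_604.mo gs10 [rd10_604.c0, rd10_604.c1] true
    (Nat.beq (10 % 2) 0) rd10_604.v2 = true := by decide +kernel

/-- run 605 -/
def rd10_605 : CRun :=
  ⟨20, 4736, 40, 2551, 8, 7,
    2582249878086908589655919172003011874329705792829223604954921374589354998890998381840527733495087294016204693212410345797,
    2582249878086908589655919172003011874329705792829223546810196696303923155314360373547361305840226636123837181018301816398,
    2074757784440496479256203931845580575506223116121218449997828664845326405706454073199853524473551897144098943305654598574127373473820295380361505287893757292281760786265068455598311,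
    [7317202, 7572, 4461981, 4599, 1484647, 1618]⟩

set_option maxRecDepth 100000 in
theorem rk10_605_0 : chkC1 52 10 43 5 5 3 rd10_605.me rd10_605.mo gs10 [rd10_605.c0, rd10_605.c1] false
    (Nat.beq (10 % 2) 1) rd10_605.v0 = true := by decide +kernel

set_option maxRecDepth 100000 in
theorem rk10_605_1 : chkC2 52 10 43 5 5 3 rd10_605.me rd10_605.mo gs10 [rd10_605.c0, rd10_605.c1]
    rd10_605.v1 = true := by decide +kernel

set_option maxRecDepth 100000 in
theorem rk10_605_2 : chkC1 52 10 43 5 5 3 rd10_605.me rd10_605.mo gs10 [rd10_605.c0, rd10_605.c1] true
    (Nat.beq (10 % 2) 0) rd10_605.v2 = true := by decide +kernel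

/-- run 606 -/
def rd10_606 : CRun :=
  ⟨10, 4880, 40, 2557, 8, 7,
    2582249878086908589655919172003011874329705792829223531352024780476192905138777983730250523463131740199156813616250915652,
    2582249878086908589655919172003011874329705792829223520105401258758770095588173569511752771394160127139090330118854666538,
    2074757784440496479256203931845580575506223116121218449997828664845326405706454073199853524473551897144098943305651820983324809853388011374426855680676460266929210222632531051930848,
    [7338740, 3395, 4575090, 2128, 1640843, 943]⟩

set_option maxRecDepth 100000 in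
theorem rk10_606_0 : chkC1 52 10 43 5 5 3 rd10_606.me rd10_606.mo gs10 [rd10_606.c0, rd10_606.c1] false
    (Nat.beq (10 % 2) 1) rd10_606.v0 = true := by decide +kernel

set_option maxRecDepth 100000 in
theorem rk10_606_1 : chkC2 52 10 43 5 5 3 rd10_606.me rd10_606.mo gs10 [rd10_606.c0, rd10_606.c1]
    rd10_606.v1 = true := by decide +kernel

set_option maxRecDepth 100000 in
theorem rk10_606_2 : chkC1 52 10 43 5 5 3 rd10_606.me rd10_606.mo gs10 [rd10_606.c0, rd10_606.c1] true
    (Nat.beq (10 % 2) 0) rd10_606.v2 = true := by decide +kernel

/-- run 607 -/
def rd10_607 : CRun :=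
  ⟨40, 4892, 40, 2567, 8, 7,
    2582249878086908589655919172003011874329705792829223560316422576708302176779396951759754216096204077703552913399623134336,
    2582249878086908589655919172003011874329705792829223531092570170788180594240048326262938750822499367025980820941649413411,
    2074757784440496479256203931845580575506223116121218449997828664845326405706454073199853524473551897144098943305653149101549009466260844050676554728155818842481541763081433036075897,
    [5018812, 5437, 3094740, 3372, 1070568, 1310]⟩

set_option maxRecDepth 100000 in
theorem rk10_607_0 : chkC1 52 10 43 5 5 3 rd10_607.me rd10_607.mo gs10 [rd10_607.c0, rd10_607.c1] false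
    (Nat.beq (10 % 2) 1) rd10_607.v0 = true := by decide +kernel

set_option maxRecDepth 100000 in
theorem rk10_607_1 : chkC2 52 10 43 5 5 3 rd10_607.me rd10_607.mo gs10 [rd10_607.c0, rd10_607.c1]
    rd10_607.v1 = true := by decide +kernel

set_option maxRecDepth 100000 in
theorem rk10_607_2 : chkC1 52 10 43 5 5 3 rd10_607.me rd10_607.mo gs10 [rd10_607.c0, rd10_607.c1] true
    (Nat.beq (10 % 2) 0) rd10_607.v2 = true := by decide +kernel

/-- runs of this file -/
def rds10_75 : List CRun :=
  [rd10_600, rd10_601, rd10_602, rd10_603, rd10_604, rd10_605, rd10_606, rd10_607]

theorem ac10_75 : allC 52 10 43 5 5 3 gs10 rds10_75 :=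
  allC_cons rk10_600_0 rk10_600_1 rk10_600_2
    (allC_cons rk10_601_0 rk10_601_1 rk10_601_2
    (allC_cons rk10_602_0 rk10_602_1 rk10_602_2
    (allC_cons rk10_603_0 rk10_603_1 rk10_603_2
    (allC_cons rk10_604_0 rk10_604_1 rk10_604_2
    (allC_cons rk10_605_0 rk10_605_1 rk10_605_2
    (allC_cons rk10_606_0 rk10_606_1 rk10_606_2
    (allC_cons rk10_607_0 rk10_607_1 rk10_607_2
    (allC_nil))))))))

end Crest.Agent.R347
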