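import Crest.Agent.R347.G10c

/-! Row 347, Chebyshev numerics, ring with 10 sites: run certificates 608..615 (generated) -/

set_option autoImplicit false
set_option Elab.async false

namespace Crest.Agent.R347

/-- run 608 -/
def rd10_608 : CRun :=
  ⟨40, 5198, 40, 2569, 8, 7,
    2582249878086908589655919172003011874329705792829223551670083527627051330490049458846124482087162983266044281004811695640,
    2582249878086908589655919172003011874329705792829223527780453924934426672660866289065336570072898499435484103068898938147,
    2074757784440496479256203931845580575506223116121218449997828664845326405706454073199853524473551897144098943305652716743619635275114277556981875691969472026110643546188650647614804,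
    [2490242, 4917, 1514453, 3051, 501407, 1203]⟩

set_option maxRecDepth 100000 in
theorem rk10_608_0 : chkC1 52 10 43 5 5 3 rd10_608.me rd10_608.mo gs10 [rd10_608.c0, rd10_608.c1] false
    (Nat.beq (10 % 2) 1) rd10_608.v0 = true := by decide +kernel

set_option maxRecDepth 100000 in
theorem rk10_608_1 : chkC2 52 10 43 5 5 3 rd10_608.me rd10_608.mo gs10 [rd10_608.c0, rd10_608.c1]
    rd10_608.v1 = true := by decide +kernel

set_option maxRecDepth 100000 in
theorem rk10_608_2 : chkC1 52 10 43 5 5 3 rd10_608.me rd10_608.mo gs10 [rd10_608.c0, rd10_608.c1] true
    (Nat.beq (10 % 2) 0) rd10_608.v2 = true := by decide +kernel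

/-- run 609 -/
def rd10_609 : CRun :=
  ⟨20, 5216, 40, 2575, 8, 7,
    2582249878086908589655919172003011874329705792829223520523029994019283337289049639652389861326257985396294131432200397212,
    2582249878086908589655919172003011874329705792829223516205727400278247487640379596794712578983546001307840795367724735049,
    2074757784440496479256203931845580575506223116121218449997828664845326405706454073199853524473551897144098943305651411614251096831356326784041869677162305133194341062372623439779931,
    [3079852, 2188, 1866319, 1450, 608781, 796]⟩

set_option maxRecDepth 100000 in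
theorem rk10_609_0 : chkC1 52 10 43 5 5 3 rd10_609.me rd10_609.mo gs10 [rd10_609.c0, rd10_609.c1] false
    (Nat.beq (10 % 2) 1) rd10_609.v0 = true := by decide +kernel

set_option maxRecDepth 100000 in
theorem rk10_609_1 : chkC2 52 10 43 5 5 3 rd10_609.me rd10_609.mo gs10 [rd10_609.c0, rd10_609.c1]
    rd10_609.v1 = true := by decide +kernel

set_option maxRecDepth 100000 in
theorem rk10_609_2 : chkC1 52 10 43 5 5 3 rd10_609.me rd10_609.mo gs10 [rd10_609.c0, rd10_609.c1] true
    (Nat.beq (10 % 2) 0) rd10_609.v2 = true := by decide +kernel

/-- run 610 -/
def rd10_610 : CRun :=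
  ⟨20, 7394, 40, 2597, 8, 7,
    2582249878086908589655919172003011874329705792829223543079508442557675964742559134460917772710847377118786139138532198604,
    2582249878086908589655919172003011874329705792829223524535223261296864703320567340037250600328079287055208576634475449304,
    2074757784440496479256203931845580575506223116121218449997828664845326405706454073199853524473551897144098943305652340038775547905577923908060340707267538361196029008760797818258346,
    [878657, 4339, 514097, 2699, 145840, 1101]⟩

set_option maxRecDepth 100000 in
theorem rk10_610_0 : chkC1 52 10 43 5 5 3 rd10_610.me rd10_610.mo gs10 [rd10_610.c0, rd10_610.c1] false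
    (Nat.beq (10 % 2) 1) rd10_610.v0 = true := by decide +kernel

set_option maxRecDepth 100000 in
theorem rk10_610_1 : chkC2 52 10 43 5 5 3 rd10_610.me rd10_610.mo gs10 [rd10_610.c0, rd10_610.c1]
    rd10_610.v1 = true := by decide +kernel

set_option maxRecDepth 100000 in
theorem rk10_610_2 : chkC1 52 10 43 5 5 3 rd10_610.me rd10_610.mo gs10 [rd10_610.c0, rd10_610.c1] true
    (Nat.beq (10 % 2) 0) rd10_610.v2 = true := by decide +kernel

/-- run 611 -/
def rd10_611 : CRun :=
  ⟨40, 7412, 40, 2599, 8, 7,
    2582249878086908589655919172003011874329705792829223539763286470000840323009367384117383921511802280879174398198822865711,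
    2582249878086908589655919172003011874329705792829223523421822491633093852115532523154736926755917976549931123963986939142,
    2074757784440496479256203931845580575506223116121218449997828664845326405706454073199853524473551897144098943305652257077385136946686968503183399410065857947422068984515278400238926,
    [2472939, 4094, 1477128, 2568, 458209, 1077]⟩

set_option maxRecDepth 100000 in
theorem rk10_611_0 : chkC1 52 10 43 5 5 3 rd10_611.me rd10_611.mo gs10 [rd10_611.c0, rd10_611.c1] false
    (Nat.beq (10 % 2) 1) rd10_611.v0 = true := by decide +kernel

set_option maxRecDepth 100000 in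
theorem rk10_611_1 : chkC2 52 10 43 5 5 3 rd10_611.me rd10_611.mo gs10 [rd10_611.c0, rd10_611.c1]
    rd10_611.v1 = true := by decide +kernel

set_option maxRecDepth 100000 in
theorem rk10_611_2 : chkC1 52 10 43 5 5 3 rd10_611.me rd10_611.mo gs10 [rd10_611.c0, rd10_611.c1] true
    (Nat.beq (10 % 2) 0) rd10_611.v2 = true := by decide +kernel

/-- run 612 -/
def rd10_612 : CRun :=
  ⟨40, 7414, 40, 2603, 8, 7,
    2582249878086908589655919172003011874329705792829223616457536554509411995296539525217342052796255932797845122205480279024,
    2582249878086908589655919172003011874329705792829223552328918484144971789520600664933447102145651077499026641302755762097,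
    2074757784440496479256203931845580575506223116121218449997828664845326405706454073199853524473551897144098943305655672939158066105279726949835240650045388984237141092113981811869945,
    [1458736, 8031, 884700, 4958, 290815, 1813]⟩

set_option maxRecDepth 100000 in
theorem rk10_612_0 : chkC1 52 10 43 5 5 3 rd10_612.me rd10_612.mo gs10 [rd10_612.c0, rd10_612.c1] false
    (Nat.beq (10 % 2) 1) rd10_612.v0 = true := by decide +kernel

set_option maxRecDepth 100000 in
theorem rk10_612_1 : chkC2 52 10 43 5 5 3 rd10_612.me rd10_612.mo gs10 [rd10_612.c0, rd10_612.c1]
    rd10_612.v1 = true := by decide +kernel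

set_option maxRecDepth 100000 in
theorem rk10_612_2 : chkC1 52 10 43 5 5 3 rd10_612.me rd10_612.mo gs10 [rd10_612.c0, rd10_612.c1] true
    (Nat.beq (10 % 2) 0) rd10_612.v2 = true := by decide +kernel

/-- run 613 -/
def rd10_613 : CRun :=
  ⟨40, 7418, 40, 2605, 8, 7,
    2582249878086908589655919172003011874329705792829223574934932404835692051207966683200483691915589898707867039439001736527,
    2582249878086908589655919172003011874329705792829223536340996944894645769148752883906779291570676653831935625900769492656,
    2074757784440496479256203931845580575506223116121218449997828664845326405706454073199853524473551897144098943305653689122720410965496881580289458529895372043930820433309815203773286,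
    [3249333, 6217, 1996840, 3825, 684284, 1432]⟩

set_option maxRecDepth 100000 in
theorem rk10_613_0 : chkC1 52 10 43 5 5 3 rd10_613.me rd10_613.mo gs10 [rd10_613.c0, rd10_613.c1] false
    (Nat.beq (10 % 2) 1) rd10_613.v0 = true := by decide +kernel

set_option maxRecDepth 100000 in
theorem rk10_613_1 : chkC2 52 10 43 5 5 3 rd10_613.me rd10_613.mo gs10 [rd10_613.c0, rd10_613.c1]
    rd10_613.v1 = true := by decide +kernel

set_option maxRecDepth 100000 in
theorem rk10_613_2 : chkC1 52 10 43 5 5 3 rd10_613.me rd10_613.mo gs10 [rd10_613.c0, rd10_613.c1] true
    (Nat.beq (10 % 2) 0) rd10_613.v2 = true := by decide +kernel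

/-- run 614 -/
def rd10_614 : CRun :=
  ⟨20, 7420, 40, 2611, 8, 7,
    2582249878086908589655919172003011874329705792829223546273233528000648777771187114505284798719624939142335588848038150965,
    2582249878086908589655919172003011874329705792829223525959937745212973999596622015031110046049469505749020270498468256726,
    2074757784440496479256203931845580575506223116121218449997828664845326405706454073199853524473551897144098943305652627656581399600952391786145438390255950797698871221936491997712367,
    [1425998, 4562, 874310, 2859, 298382, 1179]⟩

set_option maxRecDepth 100000 in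
theorem rk10_614_0 : chkC1 52 10 43 5 5 3 rd10_614.me rd10_614.mo gs10 [rd10_614.c0, rd10_614.c1] false
    (Nat.beq (10 % 2) 1) rd10_614.v0 = true := by decide +kernel

set_option maxRecDepth 100000 in
theorem rk10_614_1 : chkC2 52 10 43 5 5 3 rd10_614.me rd10_614.mo gs10 [rd10_614.c0, rd10_614.c1]
    rd10_614.v1 = true := by decide +kernel

set_option maxRecDepth 100000 in
theorem rk10_614_2 : chkC1 52 10 43 5 5 3 rd10_614.me rd10_614.mo gs10 [rd10_614.c0, rd10_614.c1] true
    (Nat.beq (10 % 2) 0) rd10_614.v2 = true := by decide +kernel

/-- run 615 -/
def rd10_615 : CRun :=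
  ⟨40, 7430, 40, 2621, 8, 7,
    2582249878086908589655919172003011874329705792829223533357017447678577661835239505965242514256109637571885214022123322133,
    2582249878086908589655919172003011874329705792829223521067661470669761616427109141799118396386095635064127185761402665920,
    2074757784440496479256203931845580575506223116121218449997828664845326405706454073199853524473551897144098943305652007196912316629440131452536078266940003142334332766446612708221131,
    [2393551, 3575, 1452642, 2265, 475881, 1002]⟩

set_option maxRecDepth 100000 in
theorem rk10_615_0 : chkC1 52 10 43 5 5 3 rd10_615.me rd10_615.mo gs10 [rd10_615.c0, rd10_615.c1] false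
    (Nat.beq (10 % 2) 1) rd10_615.v0 = true := by decide +kernel

set_option maxRecDepth 100000 in
theorem rk10_615_1 : chkC2 52 10 43 5 5 3 rd10_615.me rd10_615.mo gs10 [rd10_615.c0, rd10_615.c1]
    rd10_615.v1 = true := by decide +kernel

set_option maxRecDepth 100000 in
theorem rk10_615_2 : chkC1 52 10 43 5 5 3 rd10_615.me rd10_615.mo gs10 [rd10_615.c0, rd10_615.c1] true
    (Nat.beq (10 % 2) 0) rd10_615.v2 = true := by decide +kernel

/-- runs of this file -/
def rds10_76 : List CRun :=
  [rd10_608, rd10_609, rd10_610, rd10_611, rd10_612, rd10_613, rd10_614, rd10_615]

theorem ac10_76 : allC 52 10 43 5 5 3 gs10 rds10_76 :=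
  allC_cons rk10_608_0 rk10_608_1 rk10_608_2
    (allC_cons rk10_609_0 rk10_609_1 rk10_609_2
    (allC_cons rk10_610_0 rk10_610_1 rk10_610_2
    (allC_cons rk10_611_0 rk10_611_1 rk10_611_2
    (allC_cons rk10_612_0 rk10_612_1 rk10_612_2
    (allC_cons rk10_613_0 rk10_613_1 rk10_613_2
    (allC_cons rk10_614_0 rk10_614_1 rk10_614_2
    (allC_cons rk10_615_0 rk10_615_1 rk10_615_2
    (allC_nil))))))))

end Crest.Agent.R347
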