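import Crest.Agent.R347.G10c

/-! Row 347, Chebyshev numerics, ring with 10 sites: run certificates 616..623 (generated) -/

set_option autoImplicit false
set_option Elab.async false

namespace Crest.Agent.R347

/-- run 616 -/
def rd10_616 : CRun :=
  ⟨20, 7432, 40, 2623, 8, 7,
    2582249878086908589655919172003011874329705792829223532177201928645582742542055395806268590321705677333564930423651197861,
    2582249878086908589655919172003011874329705792829223520500272537436487517006824372500654316549338546598342211549153588510,
    2074757784440496479256203931845580575506223116121218449997828664845326405706454073199853524473551897144098943305651909454905774576356621612691811615724704729337235928072381731386381,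
    [2145162, 3470, 1317565, 2185, 450214, 971]⟩

set_option maxRecDepth 100000 in
theorem rk10_616_0 : chkC1 52 10 43 5 5 3 rd10_616.me rd10_616.mo gs10 [rd10_616.c0, rd10_616.c1] false
    (Nat.beq (10 % 2) 1) rd10_616.v0 = true := by decide +kernel

set_option maxRecDepth 100000 in
theorem rk10_616_1 : chkC2 52 10 43 5 5 3 rd10_616.me rd10_616.mo gs10 [rd10_616.c0, rd10_616.c1]
    rd10_616.v1 = true := by decide +kernel

set_option maxRecDepth 100000 in
theorem rk10_616_2 : chkC1 52 10 43 5 5 3 rd10_616.me rd10_616.mo gs10 [rd10_616.c0, rd10_616.c1] true
    (Nat.beq (10 % 2) 0) rd10_616.v2 = true := by decide +kernel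

/-- run 617 -/
def rd10_617 : CRun :=
  ⟨40, 7436, 40, 2687, 8, 7,
    2582249878086908589655919172003011874329705792829223569555694446174368031909044243391703150671695199396017755671604312006,
    2582249878086908589655919172003011874329705792829223534464967483496222018025635987430534964280515635522251431561096039290,
    2074757784440496479256203931845580575506223116121218449997828664845326405706454073199853524473551897144098943305653525983156281704286128009213919870385638784838485616615342742753499,
    [2303216, 5942, 1406165, 3670, 470371, 1396]⟩

set_option maxRecDepth 100000 in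
theorem rk10_617_0 : chkC1 52 10 43 5 5 3 rd10_617.me rd10_617.mo gs10 [rd10_617.c0, rd10_617.c1] false
    (Nat.beq (10 % 2) 1) rd10_617.v0 = true := by decide +kernel

set_option maxRecDepth 100000 in
theorem rk10_617_1 : chkC2 52 10 43 5 5 3 rd10_617.me rd10_617.mo gs10 [rd10_617.c0, rd10_617.c1]
    rd10_617.v1 = true := by decide +kernel

set_option maxRecDepth 100000 in
theorem rk10_617_2 : chkC1 52 10 43 5 5 3 rd10_617.me rd10_617.mo gs10 [rd10_617.c0, rd10_617.c1] true
    (Nat.beq (10 % 2) 0) rd10_617.v2 = true := by decide +kernel

/-- run 618 -/
def rd10_618 : CRun :=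
  ⟨40, 7466, 40, 2689, 8, 7,
    2582249878086908589655919172003011874329705792829223535703754414877433362450659022454244873402279401226412658806391622584,
    2582249878086908589655919172003011874329705792829223521980381389614292726061361564741698319504874146893834343429155589045,
    2074757784440496479256203931845580575506223116121218449997828664845326405706454073199853524473551897144098943305652130977742927855202066174334089214354112825108740861196301483281538,
    [3909169, 3773, 2373521, 2387, 777694, 1040]⟩

set_option maxRecDepth 100000 in
theorem rk10_618_0 : chkC1 52 10 43 5 5 3 rd10_618.me rd10_618.mo gs10 [rd10_618.c0, rd10_618.c1] false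
    (Nat.beq (10 % 2) 1) rd10_618.v0 = true := by decide +kernel

set_option maxRecDepth 100000 in
theorem rk10_618_1 : chkC2 52 10 43 5 5 3 rd10_618.me rd10_618.mo gs10 [rd10_618.c0, rd10_618.c1]
    rd10_618.v1 = true := by decide +kernel

set_option maxRecDepth 100000 in
theorem rk10_618_2 : chkC1 52 10 43 5 5 3 rd10_618.me rd10_618.mo gs10 [rd10_618.c0, rd10_618.c1] true
    (Nat.beq (10 % 2) 0) rd10_618.v2 = true := by decide +kernel

/-- run 619 -/
def rd10_619 : CRun :=
  ⟨20, 7472, 40, 2693, 8, 7,
    2582249878086908589655919172003011874329705792829223729312019251742921954305450502646590846393553962117388911360273664554,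
    2582249878086908589655919172003011874329705792829223596013280141928762286636131141103639571508348522020213557191033557795,
    2074757784440496479256203931845580575506223116121218449997828664845326405706454073199853524473551897144098943305661332460857345126641876176845157668508927404104831529904230514047542,
    [7550267, 11607, 4678947, 7195, 1641078, 2609]⟩

set_option maxRecDepth 100000 in
theorem rk10_619_0 : chkC1 52 10 43 5 5 3 rd10_619.me rd10_619.mo gs10 [rd10_619.c0, rd10_619.c1] false
    (Nat.beq (10 % 2) 1) rd10_619.v0 = true := by decide +kernel

set_option maxRecDepth 100000 in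
theorem rk10_619_1 : chkC2 52 10 43 5 5 3 rd10_619.me rd10_619.mo gs10 [rd10_619.c0, rd10_619.c1]
    rd10_619.v1 = true := by decide +kernel

set_option maxRecDepth 100000 in
theorem rk10_619_2 : chkC1 52 10 43 5 5 3 rd10_619.me rd10_619.mo gs10 [rd10_619.c0, rd10_619.c1] true
    (Nat.beq (10 % 2) 0) rd10_619.v2 = true := by decide +kernel

/-- run 620 -/
def rd10_620 : CRun :=
  ⟨20, 7484, 40, 2695, 8, 7,
    2582249878086908589655919172003011874329705792829223560716566219109233345292100932373627115750257845185406139691375958594,
    2582249878086908589655919172003011874329705792829223531412689905523058306021038136640314094033549947620444757634549181717,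
    2074757784440496479256203931845580575506223116121218449997828664845326405706454073199853524473551897144098943305653214312701783540345215819040224024875391796001232462596620969372502,
    [2749878, 5459, 1660450, 3401, 533557, 1325]⟩

set_option maxRecDepth 100000 in
theorem rk10_620_0 : chkC1 52 10 43 5 5 3 rd10_620.me rd10_620.mo gs10 [rd10_620.c0, rd10_620.c1] false
    (Nat.beq (10 % 2) 1) rd10_620.v0 = true := by decide +kernel

set_option maxRecDepth 100000 in
theorem rk10_620_1 : chkC2 52 10 43 5 5 3 rd10_620.me rd10_620.mo gs10 [rd10_620.c0, rd10_620.c1]
    rd10_620.v1 = true := by decide +kernel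

set_option maxRecDepth 100000 in
theorem rk10_620_2 : chkC1 52 10 43 5 5 3 rd10_620.me rd10_620.mo gs10 [rd10_620.c0, rd10_620.c1] true
    (Nat.beq (10 % 2) 0) rd10_620.v2 = true := by decide +kernel

/-- run 621 -/
def rd10_621 : CRun :=
  ⟨40, 7574, 40, 2705, 8, 7,
    2582249878086908589655919172003011874329705792829223642820372362360163406406845712078566503100392600299626102845132059610,
    2582249878086908589655919172003011874329705792829223561946674078113401883238921830136602405655799192520146486201290981150,
    2074757784440496479256203931845580575506223116121218449997828664845326405706454073199853524473551897144098943305656740397569044511598954239955903129880155035764054119521741367473952,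
    [3432746, 8995, 2057720, 5529, 645984, 1988]⟩

set_option maxRecDepth 100000 in
theorem rk10_621_0 : chkC1 52 10 43 5 5 3 rd10_621.me rd10_621.mo gs10 [rd10_621.c0, rd10_621.c1] false
    (Nat.beq (10 % 2) 1) rd10_621.v0 = true := by decide +kernel

set_option maxRecDepth 100000 in
theorem rk10_621_1 : chkC2 52 10 43 5 5 3 rd10_621.me rd10_621.mo gs10 [rd10_621.c0, rd10_621.c1]
    rd10_621.v1 = true := by decide +kernel

set_option maxRecDepth 100000 in
theorem rk10_621_2 : chkC1 52 10 43 5 5 3 rd10_621.me rd10_621.mo gs10 [rd10_621.c0, rd10_621.c1] true
    (Nat.beq (10 % 2) 0) rd10_621.v2 = true := by decide +kernel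

/-- run 622 -/
def rd10_622 : CRun :=
  ⟨40, 7576, 40, 2707, 8, 7,
    2582249878086908589655919172003011874329705792829223617438769883908969414318799043928979784636171091470475434478298112738,
    2582249878086908589655919172003011874329705792829223552889736647715270877704194351236328168100694877923233776278651068657,
    2074757784440496479256203931845580575506223116121218449997828664845326405706454073199853524473551897144098943305655869405010295253689804985662612372926335951297363970148934602608653,
    [2220472, 8069, 1350585, 4993, 447865, 1846]⟩

set_option maxRecDepth 100000 in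
theorem rk10_622_0 : chkC1 52 10 43 5 5 3 rd10_622.me rd10_622.mo gs10 [rd10_622.c0, rd10_622.c1] false
    (Nat.beq (10 % 2) 1) rd10_622.v0 = true := by decide +kernel

set_option maxRecDepth 100000 in
theorem rk10_622_1 : chkC2 52 10 43 5 5 3 rd10_622.me rd10_622.mo gs10 [rd10_622.c0, rd10_622.c1]
    rd10_622.v1 = true := by decide +kernel

set_option maxRecDepth 100000 in
theorem rk10_622_2 : chkC1 52 10 43 5 5 3 rd10_622.me rd10_622.mo gs10 [rd10_622.c0, rd10_622.c1] true
    (Nat.beq (10 % 2) 0) rd10_622.v2 = true := by decide +kernel

/-- run 623 -/
def rd10_623 : CRun :=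
  ⟨40, 7580, 40, 2711, 8, 7,
    2582249878086908589655919172003011874329705792829223857077963010324412750935333068798732422900445507019825015560339522346,
    2582249878086908589655919172003011874329705792829223642898130487383811686850045715764863020273839480965781661519717368589,
    2074757784440496479256203931845580575506223116121218449997828664845326405706454073199853524473551897144098943305666336289163982753870983537184877891325295266785141830684359869877888,
    [4605858, 14637, 2819740, 8997, 951783, 3150]⟩

set_option maxRecDepth 100000 in
theorem rk10_623_0 : chkC1 52 10 43 5 5 3 rd10_623.me rd10_623.mo gs10 [rd10_623.c0, rd10_623.c1] false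
    (Nat.beq (10 % 2) 1) rd10_623.v0 = true := by decide +kernel

set_option maxRecDepth 100000 in
theorem rk10_623_1 : chkC2 52 10 43 5 5 3 rd10_623.me rd10_623.mo gs10 [rd10_623.c0, rd10_623.c1]
    rd10_623.v1 = true := by decide +kernel

set_option maxRecDepth 100000 in
theorem rk10_623_2 : chkC1 52 10 43 5 5 3 rd10_623.me rd10_623.mo gs10 [rd10_623.c0, rd10_623.c1] true
    (Nat.beq (10 % 2) 0) rd10_623.v2 = true := by decide +kernel

/-- runs of this file -/
def rds10_77 : List CRun :=
  [rd10_616, rd10_617, rd10_618, rd10_619, rd10_620, rd10_621, rd10_622, rd10_623]

theorem ac10_77 : allC 52 10 43 5 5 3 gs10 rds10_77 :=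
  allC_cons rk10_616_0 rk10_616_1 rk10_616_2
    (allC_cons rk10_617_0 rk10_617_1 rk10_617_2
    (allC_cons rk10_618_0 rk10_618_1 rk10_618_2
    (allC_cons rk10_619_0 rk10_619_1 rk10_619_2
    (allC_cons rk10_620_0 rk10_620_1 rk10_620_2
    (allC_cons rk10_621_0 rk10_621_1 rk10_621_2
    (allC_cons rk10_622_0 rk10_622_1 rk10_622_2
    (allC_cons rk10_623_0 rk10_623_1 rk10_623_2
    (allC_nil))))))))

end Crest.Agent.R347
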