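import Crest.Agent.R347.G10c

/-! Row 347, Chebyshev numerics, ring with 10 sites: run certificates 624..631 (generated) -/

set_option autoImplicit false
set_option Elab.async false

namespace Crest.Agent.R347

/-- run 624 -/
def rd10_624 : CRun :=
  ⟨40, 7582, 40, 2713, 8, 7,
    2582249878086908589655919172003011874329705792829223687277476779929172888234719377251684903601364498268088626318668738856,
    2582249878086908589655919172003011874329705792829223577931658134618822469387078904458470570993363029114602556990354672044,
    2074757784440496479256203931845580575506223116121218449997828664845326405706454073199853524473551897144098943305658305563258842989422283488743653883960824674091013528657063206674071,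
    [2152198, 10420, 1311313, 6365, 437514, 2219]⟩

set_option maxRecDepth 100000 in
theorem rk10_624_0 : chkC1 52 10 43 5 5 3 rd10_624.me rd10_624.mo gs10 [rd10_624.c0, rd10_624.c1] false
    (Nat.beq (10 % 2) 1) rd10_624.v0 = true := by decide +kernel

set_option maxRecDepth 100000 in
theorem rk10_624_1 : chkC2 52 10 43 5 5 3 rd10_624.me rd10_624.mo gs10 [rd10_624.c0, rd10_624.c1]
    rd10_624.v1 = true := by decide +kernel

set_option maxRecDepth 100000 in
theorem rk10_624_2 : chkC1 52 10 43 5 5 3 rd10_624.me rd10_624.mo gs10 [rd10_624.c0, rd10_624.c1] true
    (Nat.beq (10 % 2) 0) rd10_624.v2 = true := by decide +kernel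

/-- run 625 -/
def rd10_625 : CRun :=
  ⟨40, 7592, 40, 2719, 8, 7,
    2582249878086908589655919172003011874329705792829223553042182039159988508174033669050457240714168709334426006228535162957,
    2582249878086908589655919172003011874329705792829223528288368474211631282993067499364161880827706332898374137791174164116,
    2074757784440496479256203931845580575506223116121218449997828664845326405706454073199853524473551897144098943305652797194972821101462422565314028752275167300203527281712644473924870,
    [4885431, 5003, 2967343, 3102, 972560, 1223]⟩

set_option maxRecDepth 100000 in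
theorem rk10_625_0 : chkC1 52 10 43 5 5 3 rd10_625.me rd10_625.mo gs10 [rd10_625.c0, rd10_625.c1] false
    (Nat.beq (10 % 2) 1) rd10_625.v0 = true := by decide +kernel

set_option maxRecDepth 100000 in
theorem rk10_625_1 : chkC2 52 10 43 5 5 3 rd10_625.me rd10_625.mo gs10 [rd10_625.c0, rd10_625.c1]
    rd10_625.v1 = true := by decide +kernel

set_option maxRecDepth 100000 in
theorem rk10_625_2 : chkC1 52 10 43 5 5 3 rd10_625.me rd10_625.mo gs10 [rd10_625.c0, rd10_625.c1] true
    (Nat.beq (10 % 2) 0) rd10_625.v2 = true := by decide +kernel

/-- run 626 -/
def rd10_626 : CRun :=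
  ⟨40, 7594, 40, 2729, 8, 7,
    2582249878086908589655919172003011874329705792829223702985022983093278803310556696330851345613469987985945533489169399012,
    2582249878086908589655919172003011874329705792829223586085629760001074436260093670316675742426998604054069669250273654701,
    2074757784440496479256203931845580575506223116121218449997828664845326405706454073199853524473551897144098943305660140565985033436892681743805950566065709840744688944366261571331239,
    [4638266, 10879, 2846225, 6752, 968638, 2463]⟩

set_option maxRecDepth 100000 in
theorem rk10_626_0 : chkC1 52 10 43 5 5 3 rd10_626.me rd10_626.mo gs10 [rd10_626.c0, rd10_626.c1] false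
    (Nat.beq (10 % 2) 1) rd10_626.v0 = true := by decide +kernel

set_option maxRecDepth 100000 in
theorem rk10_626_1 : chkC2 52 10 43 5 5 3 rd10_626.me rd10_626.mo gs10 [rd10_626.c0, rd10_626.c1]
    rd10_626.v1 = true := by decide +kernel

set_option maxRecDepth 100000 in
theorem rk10_626_2 : chkC1 52 10 43 5 5 3 rd10_626.me rd10_626.mo gs10 [rd10_626.c0, rd10_626.c1] true
    (Nat.beq (10 % 2) 0) rd10_626.v2 = true := by decide +kernel

/-- run 627 -/
def rd10_627 : CRun :=
  ⟨40, 7598, 40, 2731, 8, 7,
    2582249878086908589655919172003011874329705792829223686931572117336115418492383243140603265270242648435386006600207207890,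
    2582249878086908589655919172003011874329705792829223579200168599004692356938801612304214964773979983594764096507507413143,
    2074757784440496479256203931845580575506223116121218449997828664845326405706454073199853524473551897144098943305659019835970949800786829962099964884349507575666329023593499951990162,
    [4718259, 10409, 2867252, 6427, 941568, 2317]⟩

set_option maxRecDepth 100000 in
theorem rk10_627_0 : chkC1 52 10 43 5 5 3 rd10_627.me rd10_627.mo gs10 [rd10_627.c0, rd10_627.c1] false
    (Nat.beq (10 % 2) 1) rd10_627.v0 = true := by decide +kernel

set_option maxRecDepth 100000 in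
theorem rk10_627_1 : chkC2 52 10 43 5 5 3 rd10_627.me rd10_627.mo gs10 [rd10_627.c0, rd10_627.c1]
    rd10_627.v1 = true := by decide +kernel

set_option maxRecDepth 100000 in
theorem rk10_627_2 : chkC1 52 10 43 5 5 3 rd10_627.me rd10_627.mo gs10 [rd10_627.c0, rd10_627.c1] true
    (Nat.beq (10 % 2) 0) rd10_627.v2 = true := by decide +kernel

/-- run 628 -/
def rd10_628 : CRun :=
  ⟨40, 7600, 40, 2759, 8, 7,
    2582249878086908589655919172003011874329705792829223541834155562327622386051671642327901873195177889982028443165459301313,
    2582249878086908589655919172003011874329705792829223524097793835454992183444463212994785704807702843508613194018568359657,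
    2074757784440496479256203931845580575506223116121218449997828664845326405706454073199853524473551897144098943305652305549064303974869639950927952788894600427153173448678534046678527,
    [3203904, 4249, 1929840, 2648, 617715, 1091]⟩

set_option maxRecDepth 100000 in
theorem rk10_628_0 : chkC1 52 10 43 5 5 3 rd10_628.me rd10_628.mo gs10 [rd10_628.c0, rd10_628.c1] false
    (Nat.beq (10 % 2) 1) rd10_628.v0 = true := by decide +kernel

set_option maxRecDepth 100000 in
theorem rk10_628_1 : chkC2 52 10 43 5 5 3 rd10_628.me rd10_628.mo gs10 [rd10_628.c0, rd10_628.c1]
    rd10_628.v1 = true := by decide +kernel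

set_option maxRecDepth 100000 in
theorem rk10_628_2 : chkC1 52 10 43 5 5 3 rd10_628.me rd10_628.mo gs10 [rd10_628.c0, rd10_628.c1] true
    (Nat.beq (10 % 2) 0) rd10_628.v2 = true := by decide +kernel

/-- run 629 -/
def rd10_629 : CRun :=
  ⟨40, 7628, 40, 2761, 8, 7,
    2582249878086908589655919172003011874329705792829223539457507050372929840447314043452061113365659839801228111172028733167,
    2582249878086908589655919172003011874329705792829223523289095836929478291316868622175726260437994098075447571787301929582,
    2074757784440496479256203931845580575506223116121218449997828664845326405706454073199853524473551897144098943305652228432107559985926316692167141336501305386631501812450708590068536,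
    [4397684, 4071, 2651373, 2552, 849840, 1069]⟩

set_option maxRecDepth 100000 in
theorem rk10_629_0 : chkC1 52 10 43 5 5 3 rd10_629.me rd10_629.mo gs10 [rd10_629.c0, rd10_629.c1] false
    (Nat.beq (10 % 2) 1) rd10_629.v0 = true := by decide +kernel

set_option maxRecDepth 100000 in
theorem rk10_629_1 : chkC2 52 10 43 5 5 3 rd10_629.me rd10_629.mo gs10 [rd10_629.c0, rd10_629.c1]
    rd10_629.v1 = true := by decide +kernel

set_option maxRecDepth 100000 in
theorem rk10_629_2 : chkC1 52 10 43 5 5 3 rd10_629.me rd10_629.mo gs10 [rd10_629.c0, rd10_629.c1] true
    (Nat.beq (10 % 2) 0) rd10_629.v2 = true := by decide +kernel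

/-- run 630 -/
def rd10_630 : CRun :=
  ⟨40, 7630, 40, 2765, 8, 7,
    2582249878086908589655919172003011874329705792829223625965393655630969744070545902925285245919910585074159767546082949053,
    2582249878086908589655919172003011874329705792829223555746345414729238638807425187852627374051544518287078682522649602199,
    2074757784440496479256203931845580575506223116121218449997828664845326405706454073199853524473551897144098943305656000865397819993166266522497462618756523087679879352865321435218960,
    [2833330, 8391, 1718200, 5168, 563099, 1868]⟩

set_option maxRecDepth 100000 in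
theorem rk10_630_0 : chkC1 52 10 43 5 5 3 rd10_630.me rd10_630.mo gs10 [rd10_630.c0, rd10_630.c1] false
    (Nat.beq (10 % 2) 1) rd10_630.v0 = true := by decide +kernel

set_option maxRecDepth 100000 in
theorem rk10_630_1 : chkC2 52 10 43 5 5 3 rd10_630.me rd10_630.mo gs10 [rd10_630.c0, rd10_630.c1]
    rd10_630.v1 = true := by decide +kernel

set_option maxRecDepth 100000 in
theorem rk10_630_2 : chkC1 52 10 43 5 5 3 rd10_630.me rd10_630.mo gs10 [rd10_630.c0, rd10_630.c1] true
    (Nat.beq (10 % 2) 0) rd10_630.v2 = true := by decide +kernel

/-- run 631 -/
def rd10_631 : CRun :=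
  ⟨40, 7634, 40, 2767, 8, 7,
    2582249878086908589655919172003011874329705792829223585011708244208658458144573778118799751673602776700047935850476123943,
    2582249878086908589655919172003011874329705792829223539862813784710065144715334348268626168461617445502105477368518031148,
    2074757784440496479256203931845580575506223116121218449997828664845326405706454073199853524473551897144098943305653970915375852222031600618761971476169350337447810183864215758636789,
    [8655150, 6703, 5313934, 4102, 1808411, 1492]⟩

set_option maxRecDepth 100000 in
theorem rk10_631_0 : chkC1 52 10 43 5 5 3 rd10_631.me rd10_631.mo gs10 [rd10_631.c0, rd10_631.c1] false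
    (Nat.beq (10 % 2) 1) rd10_631.v0 = true := by decide +kernel

set_option maxRecDepth 100000 in
theorem rk10_631_1 : chkC2 52 10 43 5 5 3 rd10_631.me rd10_631.mo gs10 [rd10_631.c0, rd10_631.c1]
    rd10_631.v1 = true := by decide +kernel

set_option maxRecDepth 100000 in
theorem rk10_631_2 : chkC1 52 10 43 5 5 3 rd10_631.me rd10_631.mo gs10 [rd10_631.c0, rd10_631.c1] true
    (Nat.beq (10 % 2) 0) rd10_631.v2 = true := by decide +kernel

/-- runs of this file -/
def rds10_78 : List CRun :=
  [rd10_624, rd10_625, rd10_626, rd10_627, rd10_628, rd10_629, rd10_630, rd10_631]

theorem ac10_78 : allC 52 10 43 5 5 3 gs10 rds10_78 :=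
  allC_cons rk10_624_0 rk10_624_1 rk10_624_2
    (allC_cons rk10_625_0 rk10_625_1 rk10_625_2
    (allC_cons rk10_626_0 rk10_626_1 rk10_626_2
    (allC_cons rk10_627_0 rk10_627_1 rk10_627_2
    (allC_cons rk10_628_0 rk10_628_1 rk10_628_2
    (allC_cons rk10_629_0 rk10_629_1 rk10_629_2
    (allC_cons rk10_630_0 rk10_630_1 rk10_630_2
    (allC_cons rk10_631_0 rk10_631_1 rk10_631_2
    (allC_nil))))))))

end Crest.Agent.R347
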