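import Crest.Agent.R347.G10c

/-! Row 347, Chebyshev numerics, ring with 10 sites: run certificates 632..639 (generated) -/

set_option autoImplicit false
set_option Elab.async false

namespace Crest.Agent.R347

/-- run 632 -/
def rd10_632 : CRun :=
  ⟨40, 7636, 40, 2783, 8, 7,
    2582249878086908589655919172003011874329705792829223557142936875932771346271219984268424133066193662386697731747249889554,
    2582249878086908589655919172003011874329705792829223529912772328073672523839895177686980579676723151020592145587978960372,
    2074757784440496479256203931845580575506223116121218449997828664845326405706454073199853524473551897144098943305653065646828618919859874054417251082217219454391262647517822630023212,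
    [4027847, 5252, 2444108, 3261, 802653, 1290]⟩

set_option maxRecDepth 100000 in
theorem rk10_632_0 : chkC1 52 10 43 5 5 3 rd10_632.me rd10_632.mo gs10 [rd10_632.c0, rd10_632.c1] false
    (Nat.beq (10 % 2) 1) rd10_632.v0 = true := by decide +kernel

set_option maxRecDepth 100000 in
theorem rk10_632_1 : chkC2 52 10 43 5 5 3 rd10_632.me rd10_632.mo gs10 [rd10_632.c0, rd10_632.c1]
    rd10_632.v1 = true := by decide +kernel

set_option maxRecDepth 100000 in
theorem rk10_632_2 : chkC1 52 10 43 5 5 3 rd10_632.me rd10_632.mo gs10 [rd10_632.c0, rd10_632.c1] true
    (Nat.beq (10 % 2) 0) rd10_632.v2 = true := by decide +kernel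

/-- run 633 -/
def rd10_633 : CRun :=
  ⟨40, 7646, 40, 2785, 8, 7,
    2582249878086908589655919172003011874329705792829223559327670384199656942257876592418052184439087531223012914858963960232,
    2582249878086908589655919172003011874329705792829223530334082558393583112262037882981171273131199376336552339379230002279,
    2074757784440496479256203931845580575506223116121218449997828664845326405706454073199853524473551897144098943305652984329335827237915970528967530250024881420830965263069413196259497,
    [4877953, 5380, 2935972, 3301, 934028, 1270]⟩

set_option maxRecDepth 100000 in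
theorem rk10_633_0 : chkC1 52 10 43 5 5 3 rd10_633.me rd10_633.mo gs10 [rd10_633.c0, rd10_633.c1] false
    (Nat.beq (10 % 2) 1) rd10_633.v0 = true := by decide +kernel

set_option maxRecDepth 100000 in
theorem rk10_633_1 : chkC2 52 10 43 5 5 3 rd10_633.me rd10_633.mo gs10 [rd10_633.c0, rd10_633.c1]
    rd10_633.v1 = true := by decide +kernel

set_option maxRecDepth 100000 in
theorem rk10_633_2 : chkC1 52 10 43 5 5 3 rd10_633.me rd10_633.mo gs10 [rd10_633.c0, rd10_633.c1] true
    (Nat.beq (10 % 2) 0) rd10_633.v2 = true := by decide +kernel

/-- run 634 -/
def rd10_634 : CRun :=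
  ⟨40, 7648, 40, 2839, 8, 7,
    2582249878086908589655919172003011874329705792829223516404711324422749735480189678765134061728665353621976484493222477139,
    2582249878086908589655919172003011874329705792829223514609380684668968217004514576604170579174566847457070351990643066918,
    2074757784440496479256203931845580575506223116121218449997828664845326405706454073199853524473551897144098943305651205956713254521521872648191329762831271739132993746763221436327085,
    [4625900, 1492, 2798208, 1053, 907368, 711]⟩

set_option maxRecDepth 100000 in
theorem rk10_634_0 : chkC1 52 10 43 5 5 3 rd10_634.me rd10_634.mo gs10 [rd10_634.c0, rd10_634.c1] false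
    (Nat.beq (10 % 2) 1) rd10_634.v0 = true := by decide +kernel

set_option maxRecDepth 100000 in
theorem rk10_634_1 : chkC2 52 10 43 5 5 3 rd10_634.me rd10_634.mo gs10 [rd10_634.c0, rd10_634.c1]
    rd10_634.v1 = true := by decide +kernel

set_option maxRecDepth 100000 in
theorem rk10_634_2 : chkC1 52 10 43 5 5 3 rd10_634.me rd10_634.mo gs10 [rd10_634.c0, rd10_634.c1] true
    (Nat.beq (10 % 2) 0) rd10_634.v2 = true := by decide +kernel

/-- run 635 -/
def rd10_635 : CRun :=
  ⟨40, 7652, 40, 2957, 8, 7,
    2582249878086908589655919172003011874329705792829223538138797448422453355677935981803671141044851785998285947411397783043,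
    2582249878086908589655919172003011874329705792829223522570010345380111250895147089398164089760538524793573184210786633764,
    2074757784440496479256203931845580575506223116121218449997828664845326405706454073199853524473551897144098943305652037232191301874227371607349546215610206884830489560629330791537621,
    [7346873, 3969, 4442590, 2462, 1435245, 1012]⟩

set_option maxRecDepth 100000 in
theorem rk10_635_0 : chkC1 52 10 43 5 5 3 rd10_635.me rd10_635.mo gs10 [rd10_635.c0, rd10_635.c1] false
    (Nat.beq (10 % 2) 1) rd10_635.v0 = true := by decide +kernel

set_option maxRecDepth 100000 in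
theorem rk10_635_1 : chkC2 52 10 43 5 5 3 rd10_635.me rd10_635.mo gs10 [rd10_635.c0, rd10_635.c1]
    rd10_635.v1 = true := by decide +kernel

set_option maxRecDepth 100000 in
theorem rk10_635_2 : chkC1 52 10 43 5 5 3 rd10_635.me rd10_635.mo gs10 [rd10_635.c0, rd10_635.c1] true
    (Nat.beq (10 % 2) 0) rd10_635.v2 = true := by decide +kernel

/-- run 636 -/
def rd10_636 : CRun :=
  ⟨20, 7654, 40, 2959, 8, 7,
    2582249878086908589655919172003011874329705792829223522649224356271858176527988110740121700251870521372095965412775573695,
    2582249878086908589655919172003011874329705792829223516948682349537037569615001434491910378958866377859364806955468266941,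
    2074757784440496479256203931845580575506223116121218449997828664845326405706454073199853524473551897144098943305651467927787919843411542876561433680864547921276055186565326980626952,
    [5303057, 2472, 3164172, 1601, 976654, 818]⟩

set_option maxRecDepth 100000 in
theorem rk10_636_0 : chkC1 52 10 43 5 5 3 rd10_636.me rd10_636.mo gs10 [rd10_636.c0, rd10_636.c1] false
    (Nat.beq (10 % 2) 1) rd10_636.v0 = true := by decide +kernel

set_option maxRecDepth 100000 in
theorem rk10_636_1 : chkC2 52 10 43 5 5 3 rd10_636.me rd10_636.mo gs10 [rd10_636.c0, rd10_636.c1]
    rd10_636.v1 = true := by decide +kernel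

set_option maxRecDepth 100000 in
theorem rk10_636_2 : chkC1 52 10 43 5 5 3 rd10_636.me rd10_636.mo gs10 [rd10_636.c0, rd10_636.c1] true
    (Nat.beq (10 % 2) 0) rd10_636.v2 = true := by decide +kernel

/-- run 637 -/
def rd10_637 : CRun :=
  ⟨40, 7706, 40, 2963, 8, 7,
    2582249878086908589655919172003011874329705792829223557969197100343991743120212678794680143518867564338915505888007785050,
    2582249878086908589655919172003011874329705792829223530252282984188623471275849844632636732012409155141033052488400801108,
    2074757784440496479256203931845580575506223116121218449997828664845326405706454073199853524473551897144098943305653055012112642013862230517712123968403115962451849792995131671019723,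
    [4683006, 5300, 2866580, 3293, 968151, 1287]⟩

set_option maxRecDepth 100000 in
theorem rk10_637_0 : chkC1 52 10 43 5 5 3 rd10_637.me rd10_637.mo gs10 [rd10_637.c0, rd10_637.c1] false
    (Nat.beq (10 % 2) 1) rd10_637.v0 = true := by decide +kernel

set_option maxRecDepth 100000 in
theorem rk10_637_1 : chkC2 52 10 43 5 5 3 rd10_637.me rd10_637.mo gs10 [rd10_637.c0, rd10_637.c1]
    rd10_637.v1 = true := by decide +kernel

set_option maxRecDepth 100000 in
theorem rk10_637_2 : chkC1 52 10 43 5 5 3 rd10_637.me rd10_637.mo gs10 [rd10_637.c0, rd10_637.c1] true
    (Nat.beq (10 % 2) 0) rd10_637.v2 = true := by decide +kernel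

/-- run 638 -/
def rd10_638 : CRun :=
  ⟨20, 7808, 40, 2975, 8, 7,
    2582249878086908589655919172003011874329705792829223570771286833824745110696894597574560718788653487087918144072954896682,
    2582249878086908589655919172003011874329705792829223534602637079623978232911866963805587046763797810405610861658217851504,
    2074757784440496479256203931845580575506223116121218449997828664845326405706454073199853524473551897144098943305653430514967072277673858061246013881915422940758624980893251598860229,
    [3398514, 6005, 2070865, 3681, 689464, 1375]⟩

set_option maxRecDepth 100000 in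
theorem rk10_638_0 : chkC1 52 10 43 5 5 3 rd10_638.me rd10_638.mo gs10 [rd10_638.c0, rd10_638.c1] false
    (Nat.beq (10 % 2) 1) rd10_638.v0 = true := by decide +kernel

set_option maxRecDepth 100000 in
theorem rk10_638_1 : chkC2 52 10 43 5 5 3 rd10_638.me rd10_638.mo gs10 [rd10_638.c0, rd10_638.c1]
    rd10_638.v1 = true := by decide +kernel

set_option maxRecDepth 100000 in
theorem rk10_638_2 : chkC1 52 10 43 5 5 3 rd10_638.me rd10_638.mo gs10 [rd10_638.c0, rd10_638.c1] true
    (Nat.beq (10 % 2) 0) rd10_638.v2 = true := by decide +kernel

/-- run 639 -/
def rd10_639 : CRun :=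
  ⟨20, 7810, 40, 3011, 8, 7,
    2582249878086908589655919172003011874329705792829223600951482705776896611880633290934741648351806954267418851830034124602,
    2582249878086908589655919172003011874329705792829223545558870827363358909769283408317113304930982120459188818851763423201,
    2074757784440496479256203931845580575506223116121218449997828664845326405706454073199853524473551897144098943305654495558150170162730701211797651572982797401414438352763039239240705,
    [3349002, 7406, 2043915, 4513, 683831, 1598]⟩

set_option maxRecDepth 100000 in
theorem rk10_639_0 : chkC1 52 10 43 5 5 3 rd10_639.me rd10_639.mo gs10 [rd10_639.c0, rd10_639.c1] false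
    (Nat.beq (10 % 2) 1) rd10_639.v0 = true := by decide +kernel

set_option maxRecDepth 100000 in
theorem rk10_639_1 : chkC2 52 10 43 5 5 3 rd10_639.me rd10_639.mo gs10 [rd10_639.c0, rd10_639.c1]
    rd10_639.v1 = true := by decide +kernel

set_option maxRecDepth 100000 in
theorem rk10_639_2 : chkC1 52 10 43 5 5 3 rd10_639.me rd10_639.mo gs10 [rd10_639.c0, rd10_639.c1] true
    (Nat.beq (10 % 2) 0) rd10_639.v2 = true := by decide +kernel

/-- runs of this file -/
def rds10_79 : List CRun :=
  [rd10_632, rd10_633, rd10_634, rd10_635, rd10_636, rd10_637, rd10_638, rd10_639]

theorem ac10_79 : allC 52 10 43 5 5 3 gs10 rds10_79 :=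
  allC_cons rk10_632_0 rk10_632_1 rk10_632_2
    (allC_cons rk10_633_0 rk10_633_1 rk10_633_2
    (allC_cons rk10_634_0 rk10_634_1 rk10_634_2
    (allC_cons rk10_635_0 rk10_635_1 rk10_635_2
    (allC_cons rk10_636_0 rk10_636_1 rk10_636_2
    (allC_cons rk10_637_0 rk10_637_1 rk10_637_2
    (allC_cons rk10_638_0 rk10_638_1 rk10_638_2
    (allC_cons rk10_639_0 rk10_639_1 rk10_639_2
    (allC_nil))))))))

end Crest.Agent.R347
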