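import Crest.Agent.R347.G10c

/-! Row 347, Chebyshev numerics, ring with 10 sites: run certificates 640..647 (generated) -/

set_option autoImplicit false
set_option Elab.async false

namespace Crest.Agent.R347

/-- run 640 -/
def rd10_640 : CRun :=
  ⟨40, 7814, 40, 3013, 8, 7,
    2582249878086908589655919172003011874329705792829223547305437325226057109343362128823891867148941854574762337271246961241,
    2582249878086908589655919172003011874329705792829223526124783877545238258022818654311835870466607177663234303080687789619,
    2074757784440496479256203931845580575506223116121218449997828664845326405706454073199853524473551897144098943305652529215556808295208112085547661570634920287543472088048808618056726,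
    [5919757, 4632, 3623546, 2877, 1223199, 1153]⟩

set_option maxRecDepth 100000 in
theorem rk10_640_0 : chkC1 52 10 43 5 5 3 rd10_640.me rd10_640.mo gs10 [rd10_640.c0, rd10_640.c1] false
    (Nat.beq (10 % 2) 1) rd10_640.v0 = true := by decide +kernel

set_option maxRecDepth 100000 in
theorem rk10_640_1 : chkC2 52 10 43 5 5 3 rd10_640.me rd10_640.mo gs10 [rd10_640.c0, rd10_640.c1]
    rd10_640.v1 = true := by decide +kernel

set_option maxRecDepth 100000 in
theorem rk10_640_2 : chkC1 52 10 43 5 5 3 rd10_640.me rd10_640.mo gs10 [rd10_640.c0, rd10_640.c1] true
    (Nat.beq (10 % 2) 0) rd10_640.v2 = true := by decide +kernel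

/-- run 641 -/
def rd10_641 : CRun :=
  ⟨20, 7868, 40, 3017, 8, 7,
    2582249878086908589655919172003011874329705792829223829247767796739006959616639616937098753729184397775224583890473294681,
    2582249878086908589655919172003011874329705792829223632541991682892508338491019595017220524392546656910449856507030774890,
    2074757784440496479256203931845580575506223116121218449997828664845326405706454073199853524473551897144098943305665096640913809819707770823658172686553018551118633001892999779569803,
    [3186688, 14033, 1956461, 8632, 668219, 3025]⟩

set_option maxRecDepth 100000 in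
theorem rk10_641_0 : chkC1 52 10 43 5 5 3 rd10_641.me rd10_641.mo gs10 [rd10_641.c0, rd10_641.c1] false
    (Nat.beq (10 % 2) 1) rd10_641.v0 = true := by decide +kernel

set_option maxRecDepth 100000 in
theorem rk10_641_1 : chkC2 52 10 43 5 5 3 rd10_641.me rd10_641.mo gs10 [rd10_641.c0, rd10_641.c1]
    rd10_641.v1 = true := by decide +kernel

set_option maxRecDepth 100000 in
theorem rk10_641_2 : chkC1 52 10 43 5 5 3 rd10_641.me rd10_641.mo gs10 [rd10_641.c0, rd10_641.c1] true
    (Nat.beq (10 % 2) 0) rd10_641.v2 = true := by decide +kernel

/-- run 642 -/
def rd10_642 : CRun :=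
  ⟨20, 8120, 40, 3019, 8, 7,
    2582249878086908589655919172003011874329705792829223580836706442038933233356246646386301782434641956523036059535512319388,
    2582249878086908589655919172003011874329705792829223538487205720488466332269566492854620310710703228095302157398280773520,
    2074757784440496479256203931845580575506223116121218449997828664845326405706454073199853524473551897144098943305653894788292943496626287093849808905932218450603182717837546442368652,
    [9587571, 6506, 5947904, 3996, 2092989, 1476]⟩

set_option maxRecDepth 100000 in
theorem rk10_642_0 : chkC1 52 10 43 5 5 3 rd10_642.me rd10_642.mo gs10 [rd10_642.c0, rd10_642.c1] false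
    (Nat.beq (10 % 2) 1) rd10_642.v0 = true := by decide +kernel

set_option maxRecDepth 100000 in
theorem rk10_642_1 : chkC2 52 10 43 5 5 3 rd10_642.me rd10_642.mo gs10 [rd10_642.c0, rd10_642.c1]
    rd10_642.v1 = true := by decide +kernel

set_option maxRecDepth 100000 in
theorem rk10_642_2 : chkC1 52 10 43 5 5 3 rd10_642.me rd10_642.mo gs10 [rd10_642.c0, rd10_642.c1] true
    (Nat.beq (10 % 2) 0) rd10_642.v2 = true := by decide +kernel

/-- run 643 -/
def rd10_643 : CRun :=
  ⟨40, 8132, 40, 3029, 8, 7,
    2582249878086908589655919172003011874329705792829223666810797153878933229269398454101453839357862266915211981325477212353,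
    2582249878086908589655919172003011874329705792829223569764000217913616682337273247459795717674045851277087416118232127417,
    2074757784440496479256203931845580575506223116121218449997828664845326405706454073199853524473551897144098943305657070014307620959943263682762246241494346992564341839771987575920844,
    [5970062, 9789, 3647486, 5953, 1222150, 2039]⟩

set_option maxRecDepth 100000 in
theorem rk10_643_0 : chkC1 52 10 43 5 5 3 rd10_643.me rd10_643.mo gs10 [rd10_643.c0, rd10_643.c1] false
    (Nat.beq (10 % 2) 1) rd10_643.v0 = true := by decide +kernel

set_option maxRecDepth 100000 in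
theorem rk10_643_1 : chkC2 52 10 43 5 5 3 rd10_643.me rd10_643.mo gs10 [rd10_643.c0, rd10_643.c1]
    rd10_643.v1 = true := by decide +kernel

set_option maxRecDepth 100000 in
theorem rk10_643_2 : chkC1 52 10 43 5 5 3 rd10_643.me rd10_643.mo gs10 [rd10_643.c0, rd10_643.c1] true
    (Nat.beq (10 % 2) 0) rd10_643.v2 = true := by decide +kernel

/-- run 644 -/
def rd10_644 : CRun :=
  ⟨20, 8138, 40, 3031, 8, 7,
    2582249878086908589655919172003011874329705792829223637836844504035660001450406979470889593890192910409783422050910339564,
    2582249878086908589655919172003011874329705792829223559648974432273153529871940828857482964488196975423894787087015413891,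
    2074757784440496479256203931845580575506223116121218449997828664845326405706454073199853524473551897144098943305656285254865140772229270836780716788349267057076907056413730587666797,
    [9540323, 8820, 5847190, 5398, 1976345, 1915]⟩

set_option maxRecDepth 100000 in
theorem rk10_644_0 : chkC1 52 10 43 5 5 3 rd10_644.me rd10_644.mo gs10 [rd10_644.c0, rd10_644.c1] false
    (Nat.beq (10 % 2) 1) rd10_644.v0 = true := by decide +kernel

set_option maxRecDepth 100000 in
theorem rk10_644_1 : chkC2 52 10 43 5 5 3 rd10_644.me rd10_644.mo gs10 [rd10_644.c0, rd10_644.c1]
    rd10_644.v1 = true := by decide +kernel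

set_option maxRecDepth 100000 in
theorem rk10_644_2 : chkC1 52 10 43 5 5 3 rd10_644.me rd10_644.mo gs10 [rd10_644.c0, rd10_644.c1] true
    (Nat.beq (10 % 2) 0) rd10_644.v2 = true := by decide +kernel

/-- run 645 -/
def rd10_645 : CRun :=
  ⟨40, 9086, 40, 3035, 8, 7,
    2582249878086908589655919172003011874329705792829223878254719633247903550837687285236861100271663841671429755931637981621,
    2582249878086908589655919172003011874329705792829223648333908561132388278993912091792667367687477892613878506026811604444,
    2074757784440496479256203931845580575506223116121218449997828664845326405706454073199853524473551897144098943305665962089536306384100469458182244866495858933984994600630712043495297,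
    [4683345, 15080, 2834415, 9183, 922236, 3113]⟩

set_option maxRecDepth 100000 in
theorem rk10_645_0 : chkC1 52 10 43 5 5 3 rd10_645.me rd10_645.mo gs10 [rd10_645.c0, rd10_645.c1] false
    (Nat.beq (10 % 2) 1) rd10_645.v0 = true := by decide +kernel

set_option maxRecDepth 100000 in
theorem rk10_645_1 : chkC2 52 10 43 5 5 3 rd10_645.me rd10_645.mo gs10 [rd10_645.c0, rd10_645.c1]
    rd10_645.v1 = true := by decide +kernel

set_option maxRecDepth 100000 in
theorem rk10_645_2 : chkC1 52 10 43 5 5 3 rd10_645.me rd10_645.mo gs10 [rd10_645.c0, rd10_645.c1] true
    (Nat.beq (10 % 2) 0) rd10_645.v2 = true := by decide +kernel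

/-- run 646 -/
def rd10_646 : CRun :=
  ⟨20, 9088, 40, 3037, 8, 7,
    2582249878086908589655919172003011874329705792829223696801740718482614927722009187922431366896770843110925585737761756672,
    2582249878086908589655919172003011874329705792829223580374301985113187486617669344504670537745865434047068418885950477829,
    2074757784440496479256203931845580575506223116121218449997828664845326405706454073199853524473551897144098943305658120871441664126633954348872532744778266387212126097145527059083655,
    [3124398, 10700, 1895810, 6484, 622735, 2193]⟩

set_option maxRecDepth 100000 in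
theorem rk10_646_0 : chkC1 52 10 43 5 5 3 rd10_646.me rd10_646.mo gs10 [rd10_646.c0, rd10_646.c1] false
    (Nat.beq (10 % 2) 1) rd10_646.v0 = true := by decide +kernel

set_option maxRecDepth 100000 in
theorem rk10_646_1 : chkC2 52 10 43 5 5 3 rd10_646.me rd10_646.mo gs10 [rd10_646.c0, rd10_646.c1]
    rd10_646.v1 = true := by decide +kernel

set_option maxRecDepth 100000 in
theorem rk10_646_2 : chkC1 52 10 43 5 5 3 rd10_646.me rd10_646.mo gs10 [rd10_646.c0, rd10_646.c1] true
    (Nat.beq (10 % 2) 0) rd10_646.v2 = true := by decide +kernel

/-- run 647 -/
def rd10_647 : CRun :=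
  ⟨20, 9092, 40, 3053, 8, 7,
    2582249878086908589655919172003011874329705792829223610222226456839774791556769910145192252497695421593119795335500767826,
    2582249878086908589655919172003011874329705792829223549811235447797844703393027221061191865343169359365885739286192793397,
    2074757784440496479256203931845580575506223116121218449997828664845326405706454073199853524473551897144098943305655278418191882036318188367179987878873681155657934484866282775261469,
    [9740958, 7786, 5984751, 4798, 2042845, 1744]⟩

set_option maxRecDepth 100000 in
theorem rk10_647_0 : chkC1 52 10 43 5 5 3 rd10_647.me rd10_647.mo gs10 [rd10_647.c0, rd10_647.c1] false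
    (Nat.beq (10 % 2) 1) rd10_647.v0 = true := by decide +kernel

set_option maxRecDepth 100000 in
theorem rk10_647_1 : chkC2 52 10 43 5 5 3 rd10_647.me rd10_647.mo gs10 [rd10_647.c0, rd10_647.c1]
    rd10_647.v1 = true := by decide +kernel

set_option maxRecDepth 100000 in
theorem rk10_647_2 : chkC1 52 10 43 5 5 3 rd10_647.me rd10_647.mo gs10 [rd10_647.c0, rd10_647.c1] true
    (Nat.beq (10 % 2) 0) rd10_647.v2 = true := by decide +kernel

/-- runs of this file -/
def rds10_80 : List CRun :=
  [rd10_640, rd10_641, rd10_642, rd10_643, rd10_644, rd10_645, rd10_646, rd10_647]

theorem ac10_80 : allC 52 10 43 5 5 3 gs10 rds10_80 :=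
  allC_cons rk10_640_0 rk10_640_1 rk10_640_2
    (allC_cons rk10_641_0 rk10_641_1 rk10_641_2
    (allC_cons rk10_642_0 rk10_642_1 rk10_642_2
    (allC_cons rk10_643_0 rk10_643_1 rk10_643_2
    (allC_cons rk10_644_0 rk10_644_1 rk10_644_2
    (allC_cons rk10_645_0 rk10_645_1 rk10_645_2
    (allC_cons rk10_646_0 rk10_646_1 rk10_646_2
    (allC_cons rk10_647_0 rk10_647_1 rk10_647_2
    (allC_nil))))))))

end Crest.Agent.R347
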