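import Crest.Agent.R347.G10c

/-! Row 347, Chebyshev numerics, ring with 10 sites: run certificates 648..655 (generated) -/

set_option autoImplicit false
set_option Elab.async false

namespace Crest.Agent.R347

/-- run 648 -/
def rd10_648 : CRun :=
  ⟨40, 9104, 40, 3055, 8, 7,
    2582249878086908589655919172003011874329705792829223600925143384293447502274224990279177652133865524996325113597279903648,
    2582249878086908589655919172003011874329705792829223546004047301516604021763775334606754945358118104638811056060131508957,
    2074757784440496479256203931845580575506223116121218449997828664845326405706454073199853524473551897144098943305654697762378155359995053207971655046155397975261552029151763700219500,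
    [5508764, 7405, 3324316, 4544, 1067916, 1637]⟩

set_option maxRecDepth 100000 in
theorem rk10_648_0 : chkC1 52 10 43 5 5 3 rd10_648.me rd10_648.mo gs10 [rd10_648.c0, rd10_648.c1] false
    (Nat.beq (10 % 2) 1) rd10_648.v0 = true := by decide +kernel

set_option maxRecDepth 100000 in
theorem rk10_648_1 : chkC2 52 10 43 5 5 3 rd10_648.me rd10_648.mo gs10 [rd10_648.c0, rd10_648.c1]
    rd10_648.v1 = true := by decide +kernel

set_option maxRecDepth 100000 in
theorem rk10_648_2 : chkC1 52 10 43 5 5 3 rd10_648.me rd10_648.mo gs10 [rd10_648.c0, rd10_648.c1] true
    (Nat.beq (10 % 2) 0) rd10_648.v2 = true := by decide +kernel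

/-- run 649 -/
def rd10_649 : CRun :=
  ⟨40, 9106, 40, 3083, 8, 7,
    2582249878086908589655919172003011874329705792829223619715847693827242145479750045677085086125605877547512607121195935190,
    2582249878086908589655919172003011874329705792829223553393744730606881882676553051688672112568771235908237843861277974612,
    2074757784440496479256203931845580575506223116121218449997828664845326405706454073199853524473551897144098943305655718269273356607136409713043903501901243533061392710918092327014298,
    [5381368, 8156, 3252477, 5025, 1050749, 1821]⟩

set_option maxRecDepth 100000 in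
theorem rk10_649_0 : chkC1 52 10 43 5 5 3 rd10_649.me rd10_649.mo gs10 [rd10_649.c0, rd10_649.c1] false
    (Nat.beq (10 % 2) 1) rd10_649.v0 = true := by decide +kernel

set_option maxRecDepth 100000 in
theorem rk10_649_1 : chkC2 52 10 43 5 5 3 rd10_649.me rd10_649.mo gs10 [rd10_649.c0, rd10_649.c1]
    rd10_649.v1 = true := by decide +kernel

set_option maxRecDepth 100000 in
theorem rk10_649_2 : chkC1 52 10 43 5 5 3 rd10_649.me rd10_649.mo gs10 [rd10_649.c0, rd10_649.c1] true
    (Nat.beq (10 % 2) 0) rd10_649.v2 = true := by decide +kernel

/-- run 650 -/
def rd10_650 : CRun :=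
  ⟨40, 9110, 40, 3085, 8, 7,
    2582249878086908589655919172003011874329705792829223614264252528909024312053724136774366675215341421831611783236857319209,
    2582249878086908589655919172003011874329705792829223551536493947193668691913419524223526611451684681783899387143876228398,
    2074757784440496479256203931845580575506223116121218449997828664845326405706454073199853524473551897144098943305655609489209388539048697175462024559240028395051931578541870346257632,
    [8909365, 7945, 5396062, 4908, 1753563, 1802]⟩

set_option maxRecDepth 100000 in
theorem rk10_650_0 : chkC1 52 10 43 5 5 3 rd10_650.me rd10_650.mo gs10 [rd10_650.c0, rd10_650.c1] false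
    (Nat.beq (10 % 2) 1) rd10_650.v0 = true := by decide +kernel

set_option maxRecDepth 100000 in
theorem rk10_650_1 : chkC2 52 10 43 5 5 3 rd10_650.me rd10_650.mo gs10 [rd10_650.c0, rd10_650.c1]
    rd10_650.v1 = true := by decide +kernel

set_option maxRecDepth 100000 in
theorem rk10_650_2 : chkC1 52 10 43 5 5 3 rd10_650.me rd10_650.mo gs10 [rd10_650.c0, rd10_650.c1] true
    (Nat.beq (10 % 2) 0) rd10_650.v2 = true := by decide +kernel

/-- run 651 -/
def rd10_651 : CRun :=
  ⟨20, 9112, 40, 3089, 8, 7,
    2582249878086908589655919172003011874329705792829223931292653056647857622391889274705137058964654184629857808274079150455,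
    2582249878086908589655919172003011874329705792829223671757349367805037267985616638964360597084026065918112658865761194131,
    2074757784440496479256203931845580575506223116121218449997828664845326405706454073199853524473551897144098943305670119437517121880058090681318430904452746585883081914762647426157535,
    [6764608, 16138, 4036578, 9945, 1244855, 3504]⟩

set_option maxRecDepth 100000 in
theorem rk10_651_0 : chkC1 52 10 43 5 5 3 rd10_651.me rd10_651.mo gs10 [rd10_651.c0, rd10_651.c1] false
    (Nat.beq (10 % 2) 1) rd10_651.v0 = true := by decide +kernel

set_option maxRecDepth 100000 in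
theorem rk10_651_1 : chkC2 52 10 43 5 5 3 rd10_651.me rd10_651.mo gs10 [rd10_651.c0, rd10_651.c1]
    rd10_651.v1 = true := by decide +kernel

set_option maxRecDepth 100000 in
theorem rk10_651_2 : chkC1 52 10 43 5 5 3 rd10_651.me rd10_651.mo gs10 [rd10_651.c0, rd10_651.c1] true
    (Nat.beq (10 % 2) 0) rd10_651.v2 = true := by decide +kernel

/-- run 652 -/
def rd10_652 : CRun :=
  ⟨10, 9272, 40, 3091, 8, 7,
    2582249878086908589655919172003011874329705792829223787802131158571159872755700133257105058021524320478461030143838484500,
    2582249878086908589655919172003011874329705792829223615920295385924480812435697506733290524545417894698419167524577413811,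
    2074757784440496479256203931845580575506223116121218449997828664845326405706454073199853524473551897144098943305662756148507850954443366160206374521951745782635812314395481276286565,
    [10916623, 13082, 6700894, 8010, 2280743, 2774]⟩

set_option maxRecDepth 100000 in
theorem rk10_652_0 : chkC1 52 10 43 5 5 3 rd10_652.me rd10_652.mo gs10 [rd10_652.c0, rd10_652.c1] false
    (Nat.beq (10 % 2) 1) rd10_652.v0 = true := by decide +kernel

set_option maxRecDepth 100000 in
theorem rk10_652_1 : chkC2 52 10 43 5 5 3 rd10_652.me rd10_652.mo gs10 [rd10_652.c0, rd10_652.c1]
    rd10_652.v1 = true := by decide +kernel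

set_option maxRecDepth 100000 in
theorem rk10_652_2 : chkC1 52 10 43 5 5 3 rd10_652.me rd10_652.mo gs10 [rd10_652.c0, rd10_652.c1] true
    (Nat.beq (10 % 2) 0) rd10_652.v2 = true := by decide +kernel

/-- run 653 -/
def rd10_653 : CRun :=
  ⟨20, 9596, 40, 3107, 8, 7,
    2582249878086908589655919172003011874329705792829223597807701254749493216615849492720337956029419461290638678176258075884,
    2582249878086908589655919172003011874329705792829223545268368567722218647756807501263677929647018263243135557010676178056,
    2074757784440496479256203931845580575506223116121218449997828664845326405706454073199853524473551897144098943305654881769639727368453524966966924848002687587681964109195901020465140,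
    [9202660, 7272, 5576942, 4493, 1814683, 1672]⟩

set_option maxRecDepth 100000 in
theorem rk10_653_0 : chkC1 52 10 43 5 5 3 rd10_653.me rd10_653.mo gs10 [rd10_653.c0, rd10_653.c1] false
    (Nat.beq (10 % 2) 1) rd10_653.v0 = true := by decide +kernel

set_option maxRecDepth 100000 in
theorem rk10_653_1 : chkC2 52 10 43 5 5 3 rd10_653.me rd10_653.mo gs10 [rd10_653.c0, rd10_653.c1]
    rd10_653.v1 = true := by decide +kernel

set_option maxRecDepth 100000 in
theorem rk10_653_2 : chkC1 52 10 43 5 5 3 rd10_653.me rd10_653.mo gs10 [rd10_653.c0, rd10_653.c1] true
    (Nat.beq (10 % 2) 0) rd10_653.v2 = true := by decide +kernel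

/-- run 654 -/
def rd10_654 : CRun :=
  ⟨20, 9598, 40, 3173, 8, 7,
    2582249878086908589655919172003011874329705792829223563806833419386723846400786308988885411083450934063231869134461229468,
    2582249878086908589655919172003011874329705792829223532039999951488705893826007130400087786155757463521396311015781080599,
    2074757784440496479256203931845580575506223116121218449997828664845326405706454073199853524473551897144098943305653108664560063733029550312742463055140088973765406212883306441947762,
    [7541831, 5633, 4501635, 3458, 1388181, 1300]⟩

set_option maxRecDepth 100000 in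
theorem rk10_654_0 : chkC1 52 10 43 5 5 3 rd10_654.me rd10_654.mo gs10 [rd10_654.c0, rd10_654.c1] false
    (Nat.beq (10 % 2) 1) rd10_654.v0 = true := by decide +kernel

set_option maxRecDepth 100000 in
theorem rk10_654_1 : chkC2 52 10 43 5 5 3 rd10_654.me rd10_654.mo gs10 [rd10_654.c0, rd10_654.c1]
    rd10_654.v1 = true := by decide +kernel

set_option maxRecDepth 100000 in
theorem rk10_654_2 : chkC1 52 10 43 5 5 3 rd10_654.me rd10_654.mo gs10 [rd10_654.c0, rd10_654.c1] true
    (Nat.beq (10 % 2) 0) rd10_654.v2 = true := by decide +kernel

/-- run 655 -/
def rd10_655 : CRun :=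
  ⟨10, 9760, 20, 3175, 8, 7,
    2582249878086908589655919172003011874329705792829223535249108254829370020762398313554436761758480074804428476796062649684,
    2582249878086908589655919172003011874329705792829223521688151671575574049502678048438996194423198921459464568747616998094,
    2074757784440496479256203931845580575506223116121218449997828664845326405706454073199853524473551897144098943305651975416498615319389452059151778035767213060725724724154577120283881,
    [7860317, 3736, 4692099, 2348, 1447284, 992]⟩

set_option maxRecDepth 100000 in
theorem rk10_655_0 : chkC1 52 10 43 5 5 3 rd10_655.me rd10_655.mo gs10 [rd10_655.c0, rd10_655.c1] false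
    (Nat.beq (10 % 2) 1) rd10_655.v0 = true := by decide +kernel

set_option maxRecDepth 100000 in
theorem rk10_655_1 : chkC2 52 10 43 5 5 3 rd10_655.me rd10_655.mo gs10 [rd10_655.c0, rd10_655.c1]
    rd10_655.v1 = true := by decide +kernel

set_option maxRecDepth 100000 in
theorem rk10_655_2 : chkC1 52 10 43 5 5 3 rd10_655.me rd10_655.mo gs10 [rd10_655.c0, rd10_655.c1] true
    (Nat.beq (10 % 2) 0) rd10_655.v2 = true := by decide +kernel

/-- runs of this file -/
def rds10_81 : List CRun :=
  [rd10_648, rd10_649, rd10_650, rd10_651, rd10_652, rd10_653, rd10_654, rd10_655]

theorem ac10_81 : allC 52 10 43 5 5 3 gs10 rds10_81 :=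
  allC_cons rk10_648_0 rk10_648_1 rk10_648_2
    (allC_cons rk10_649_0 rk10_649_1 rk10_649_2
    (allC_cons rk10_650_0 rk10_650_1 rk10_650_2
    (allC_cons rk10_651_0 rk10_651_1 rk10_651_2
    (allC_cons rk10_652_0 rk10_652_1 rk10_652_2
    (allC_cons rk10_653_0 rk10_653_1 rk10_653_2
    (allC_cons rk10_654_0 rk10_654_1 rk10_654_2
    (allC_cons rk10_655_0 rk10_655_1 rk10_655_2
    (allC_nil))))))))

end Crest.Agent.R347
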