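import Crest.Agent.R347.G10c

/-! Row 347, Chebyshev numerics, ring with 10 sites: run certificates 656..663 (generated) -/

set_option autoImplicit false
set_option Elab.async false

namespace Crest.Agent.R347

/-- run 656 -/
def rd10_656 : CRun :=
  ⟨20, 53328, 20, 3179, 8, 7,
    2582249878086908589655919172003011874329705792829223723529219693460527894177746328853527752640040769555910332923955122223,
    2582249878086908589655919172003011874329705792829223592338831505855491237727747491324952047142041323391572696676039024484,
    2074757784440496479256203931845580575506223116121218449997828664845326405706454073199853524473551897144098943305660211325894874337270474958564724716819749303431317175865072058691894,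
    [1167613, 11451, 685710, 7035, 197700, 2472]⟩

set_option maxRecDepth 100000 in
theorem rk10_656_0 : chkC1 52 10 43 5 5 3 rd10_656.me rd10_656.mo gs10 [rd10_656.c0, rd10_656.c1] false
    (Nat.beq (10 % 2) 1) rd10_656.v0 = true := by decide +kernel

set_option maxRecDepth 100000 in
theorem rk10_656_1 : chkC2 52 10 43 5 5 3 rd10_656.me rd10_656.mo gs10 [rd10_656.c0, rd10_656.c1]
    rd10_656.v1 = true := by decide +kernel

set_option maxRecDepth 100000 in
theorem rk10_656_2 : chkC1 52 10 43 5 5 3 rd10_656.me rd10_656.mo gs10 [rd10_656.c0, rd10_656.c1] true
    (Nat.beq (10 % 2) 0) rd10_656.v2 = true := by decide +kernel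

/-- run 657 -/
def rd10_657 : CRun :=
  ⟨40, 53490, 40, 3191, 8, 7,
    2582249878086908589655919172003011874329705792829223655686416623064380327959822180171533008787959679998190112666221057297,
    2582249878086908589655919172003011874329705792829223565846110109763374160625935592463976106001240032308316146271514054282,
    2074757784440496479256203931845580575506223116121218449997828664845326405706454073199853524473551897144098943305656736825345772123863571710174171855475689628906798940372879997856350,
    [993520, 9429, 584151, 5744, 169708, 1987]⟩

set_option maxRecDepth 100000 in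
theorem rk10_657_0 : chkC1 52 10 43 5 5 3 rd10_657.me rd10_657.mo gs10 [rd10_657.c0, rd10_657.c1] false
    (Nat.beq (10 % 2) 1) rd10_657.v0 = true := by decide +kernel

set_option maxRecDepth 100000 in
theorem rk10_657_1 : chkC2 52 10 43 5 5 3 rd10_657.me rd10_657.mo gs10 [rd10_657.c0, rd10_657.c1]
    rd10_657.v1 = true := by decide +kernel

set_option maxRecDepth 100000 in
theorem rk10_657_2 : chkC1 52 10 43 5 5 3 rd10_657.me rd10_657.mo gs10 [rd10_657.c0, rd10_657.c1] true
    (Nat.beq (10 % 2) 0) rd10_657.v2 = true := by decide +kernel

/-- run 658 -/
def rd10_658 : CRun :=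
  ⟨40, 54948, 40, 3193, 8, 7,
    2582249878086908589655919172003011874329705792829223637357748781644196122719775317336110693249018265437393909687186020345,
    2582249878086908589655919172003011874329705792829223559433228537388985754467952540301850814636168523681610769677131690927,
    2074757784440496479256203931845580575506223116121218449997828664845326405706454073199853524473551897144098943305656255532939074157945134412649856846205770806410334049873547688047765,
    [395548, 8804, 233397, 5386, 69070, 1910]⟩

set_option maxRecDepth 100000 in
theorem rk10_658_0 : chkC1 52 10 43 5 5 3 rd10_658.me rd10_658.mo gs10 [rd10_658.c0, rd10_658.c1] false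
    (Nat.beq (10 % 2) 1) rd10_658.v0 = true := by decide +kernel

set_option maxRecDepth 100000 in
theorem rk10_658_1 : chkC2 52 10 43 5 5 3 rd10_658.me rd10_658.mo gs10 [rd10_658.c0, rd10_658.c1]
    rd10_658.v1 = true := by decide +kernel

set_option maxRecDepth 100000 in
theorem rk10_658_2 : chkC1 52 10 43 5 5 3 rd10_658.me rd10_658.mo gs10 [rd10_658.c0, rd10_658.c1] true
    (Nat.beq (10 % 2) 0) rd10_658.v2 = true := by decide +kernel

/-- run 659 -/
def rd10_659 : CRun :=
  ⟨20, 56952, 40, 3197, 8, 7,
    2582249878086908589655919172003011874329705792829223942965123194784134149912491353204504606515022202057333228406896284605,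
    2582249878086908589655919172003011874329705792829223672811359314291040097596896078876037242029569275976171856760710511516,
    2074757784440496479256203931845580575506223116121218449997828664845326405706454073199853524473551897144098943305668873056196543500725623446970558790209165302186029136068217213043512,
    [44047, 16361, 26711, 9978, 8958, 3392]⟩

set_option maxRecDepth 100000 in
theorem rk10_659_0 : chkC1 52 10 43 5 5 3 rd10_659.me rd10_659.mo gs10 [rd10_659.c0, rd10_659.c1] false
    (Nat.beq (10 % 2) 1) rd10_659.v0 = true := by decide +kernel

set_option maxRecDepth 100000 in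
theorem rk10_659_1 : chkC2 52 10 43 5 5 3 rd10_659.me rd10_659.mo gs10 [rd10_659.c0, rd10_659.c1]
    rd10_659.v1 = true := by decide +kernel

set_option maxRecDepth 100000 in
theorem rk10_659_2 : chkC1 52 10 43 5 5 3 rd10_659.me rd10_659.mo gs10 [rd10_659.c0, rd10_659.c1] true
    (Nat.beq (10 % 2) 0) rd10_659.v2 = true := by decide +kernel

/-- run 660 -/
def rd10_660 : CRun :=
  ⟨40, 57114, 40, 3199, 8, 7,
    2582249878086908589655919172003011874329705792829223759437743137870782203128867765000591046056409792213640450914508288425,
    2582249878086908589655919172003011874329705792829223603095250542481487768772898659464316441498602302183229278404962346573,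
    2074757784440496479256203931845580575506223116121218449997828664845326405706454073199853524473551897144098943305660518577269750788988129408342666624132839356210337427203521127725054,
    [25098, 12389, 15152, 7495, 5025, 2511]⟩

set_option maxRecDepth 100000 in
theorem rk10_660_0 : chkC1 52 10 43 5 5 3 rd10_660.me rd10_660.mo gs10 [rd10_660.c0, rd10_660.c1] false
    (Nat.beq (10 % 2) 1) rd10_660.v0 = true := by decide +kernel

set_option maxRecDepth 100000 in
theorem rk10_660_1 : chkC2 52 10 43 5 5 3 rd10_660.me rd10_660.mo gs10 [rd10_660.c0, rd10_660.c1]
    rd10_660.v1 = true := by decide +kernel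

set_option maxRecDepth 100000 in
theorem rk10_660_2 : chkC1 52 10 43 5 5 3 rd10_660.me rd10_660.mo gs10 [rd10_660.c0, rd10_660.c1] true
    (Nat.beq (10 % 2) 0) rd10_660.v2 = true := by decide +kernel

/-- run 661 -/
def rd10_661 : CRun :=
  ⟨20, 26, 40, 3215, 6, 7,
    2582249878086908589655919172003011874329705792829223778780456376616248149827465470511165292616167228377117809436541597706,
    2582249878086908589655919172003011874329705792829223613472962490216968061581075621301639045318755701430095073108149256584,
    2074757784440496479256203931845580575506223116121218449997828664845326405706454073199853524473551897144098943305662944304883453239614729368547766748680875107384354341603364930135692,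
    [526, 12865, 615, 7914, 581, 2795]⟩

set_option maxRecDepth 100000 in
theorem rk10_661_0 : chkC1 52 10 43 5 5 3 rd10_661.me rd10_661.mo gs10 [rd10_661.c0, rd10_661.c1] false
    (Nat.beq (10 % 2) 1) rd10_661.v0 = true := by decide +kernel

set_option maxRecDepth 100000 in
theorem rk10_661_1 : chkC2 52 10 43 5 5 3 rd10_661.me rd10_661.mo gs10 [rd10_661.c0, rd10_661.c1]
    rd10_661.v1 = true := by decide +kernel

set_option maxRecDepth 100000 in
theorem rk10_661_2 : chkC1 52 10 43 5 5 3 rd10_661.me rd10_661.mo gs10 [rd10_661.c0, rd10_661.c1] true
    (Nat.beq (10 % 2) 0) rd10_661.v2 = true := by decide +kernel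

/-- run 662 -/
def rd10_662 : CRun :=
  ⟨40, 44, 40, 3245, 6, 7,
    2582249878086908589655919172003011874329705792829223584410723057284061649033533207355758985305913990243246037293160798088,
    2582249878086908589655919172003011874329705792829223539596743411093838570852198432867145829386401162603525742632764832123,
    2074757784440496479256203931845580575506223116121218449997828664845326405706454073199853524473551897144098943305653942967509386469672728392957261478669367271293342313527953848616488,
    [578, 6675, 626, 4082, 588, 1486]⟩

set_option maxRecDepth 100000 in
theorem rk10_662_0 : chkC1 52 10 43 5 5 3 rd10_662.me rd10_662.mo gs10 [rd10_662.c0, rd10_662.c1] false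
    (Nat.beq (10 % 2) 1) rd10_662.v0 = true := by decide +kernel

set_option maxRecDepth 100000 in
theorem rk10_662_1 : chkC2 52 10 43 5 5 3 rd10_662.me rd10_662.mo gs10 [rd10_662.c0, rd10_662.c1]
    rd10_662.v1 = true := by decide +kernel

set_option maxRecDepth 100000 in
theorem rk10_662_2 : chkC1 52 10 43 5 5 3 rd10_662.me rd10_662.mo gs10 [rd10_662.c0, rd10_662.c1] true
    (Nat.beq (10 % 2) 0) rd10_662.v2 = true := by decide +kernel

/-- run 663 -/
def rd10_663 : CRun :=
  ⟨40, 50, 40, 3251, 6, 7,
    2582249878086908589655919172003011874329705792829223846220461142962348695597490317202739536194827871107255611635725069805,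
    2582249878086908589655919172003011874329705792829223637168615387711001485269037462991740537257360017475146758401426875645,
    2074757784440496479256203931845580575506223116121218449997828664845326405706454073199853524473551897144098943305665053618361550873761123738707074436606661224177880455179973740045235,
    [597, 14404, 648, 8797, 608, 3021]⟩

set_option maxRecDepth 100000 in
theorem rk10_663_0 : chkC1 52 10 43 5 5 3 rd10_663.me rd10_663.mo gs10 [rd10_663.c0, rd10_663.c1] false
    (Nat.beq (10 % 2) 1) rd10_663.v0 = true := by decide +kernel

set_option maxRecDepth 100000 in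
theorem rk10_663_1 : chkC2 52 10 43 5 5 3 rd10_663.me rd10_663.mo gs10 [rd10_663.c0, rd10_663.c1]
    rd10_663.v1 = true := by decide +kernel

set_option maxRecDepth 100000 in
theorem rk10_663_2 : chkC1 52 10 43 5 5 3 rd10_663.me rd10_663.mo gs10 [rd10_663.c0, rd10_663.c1] true
    (Nat.beq (10 % 2) 0) rd10_663.v2 = true := by decide +kernel

/-- runs of this file -/
def rds10_82 : List CRun :=
  [rd10_656, rd10_657, rd10_658, rd10_659, rd10_660, rd10_661, rd10_662, rd10_663]

theorem ac10_82 : allC 52 10 43 5 5 3 gs10 rds10_82 :=
  allC_cons rk10_656_0 rk10_656_1 rk10_656_2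
    (allC_cons rk10_657_0 rk10_657_1 rk10_657_2
    (allC_cons rk10_658_0 rk10_658_1 rk10_658_2
    (allC_cons rk10_659_0 rk10_659_1 rk10_659_2
    (allC_cons rk10_660_0 rk10_660_1 rk10_660_2
    (allC_cons rk10_661_0 rk10_661_1 rk10_661_2
    (allC_cons rk10_662_0 rk10_662_1 rk10_662_2
    (allC_cons rk10_663_0 rk10_663_1 rk10_663_2
    (allC_nil))))))))

end Crest.Agent.R347
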