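import Crest.Agent.R347.G10c

/-! Row 347, Chebyshev numerics, ring with 10 sites: run certificates 664..671 (generated) -/

set_option autoImplicit false
set_option Elab.async false

namespace Crest.Agent.R347

/-- run 664 -/
def rd10_664 : CRun :=
  ⟨20, 52, 20, 3269, 6, 7,
    2582249878086908589655919172003011874329705792829223660334078360758312175425235415858983522444993722157491341201038991093,
    2582249878086908589655919172003011874329705792829223567950909698894684803336308380254277706036871957624893857464731422549,
    2074757784440496479256203931845580575506223116121218449997828664845326405706454073199853524473551897144098943305657179390545603448116368446412061442726887666311113665564828714207649,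
    [594, 9581, 618, 5857, 575, 2055]⟩

set_option maxRecDepth 100000 in
theorem rk10_664_0 : chkC1 52 10 43 5 5 3 rd10_664.me rd10_664.mo gs10 [rd10_664.c0, rd10_664.c1] false
    (Nat.beq (10 % 2) 1) rd10_664.v0 = true := by decide +kernel

set_option maxRecDepth 100000 in
theorem rk10_664_1 : chkC2 52 10 43 5 5 3 rd10_664.me rd10_664.mo gs10 [rd10_664.c0, rd10_664.c1]
    rd10_664.v1 = true := by decide +kernel

set_option maxRecDepth 100000 in
theorem rk10_664_2 : chkC1 52 10 43 5 5 3 rd10_664.me rd10_664.mo gs10 [rd10_664.c0, rd10_664.c1] true
    (Nat.beq (10 % 2) 0) rd10_664.v2 = true := by decide +kernel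

/-- run 665 -/
def rd10_665 : CRun :=
  ⟨40, 62, 40, 3701, 6, 7,
    2582249878086908589655919172003011874329705792829223597885390281437238360477201192036663803210957887228061495902800839000,
    2582249878086908589655919172003011874329705792829223545766874494750286870025710523511845733364058598177427302068422860644,
    2074757784440496479256203931845580575506223116121218449997828664845326405706454073199853524473551897144098943305655113498140399736146209495610450905355784301964682556833422582882880,
    [628, 7276, 647, 4528, 635, 1714]⟩

set_option maxRecDepth 100000 in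
theorem rk10_665_0 : chkC1 52 10 43 5 5 3 rd10_665.me rd10_665.mo gs10 [rd10_665.c0, rd10_665.c1] false
    (Nat.beq (10 % 2) 1) rd10_665.v0 = true := by decide +kernel

set_option maxRecDepth 100000 in
theorem rk10_665_1 : chkC2 52 10 43 5 5 3 rd10_665.me rd10_665.mo gs10 [rd10_665.c0, rd10_665.c1]
    rd10_665.v1 = true := by decide +kernel

set_option maxRecDepth 100000 in
theorem rk10_665_2 : chkC1 52 10 43 5 5 3 rd10_665.me rd10_665.mo gs10 [rd10_665.c0, rd10_665.c1] true
    (Nat.beq (10 % 2) 0) rd10_665.v2 = true := by decide +kernel

/-- run 666 -/
def rd10_666 : CRun :=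
  ⟨20, 68, 40, 3737, 6, 7,
    2582249878086908589655919172003011874329705792829223658091676666897104195420204414101508168755385554483293079179733880796,
    2582249878086908589655919172003011874329705792829223568076617248220977094611404990813942174106978853422534175384687507569,
    2074757784440496479256203931845580575506223116121218449997828664845326405706454073199853524473551897144098943305657631891443362425706038858601567975386457098496538949764906899333087,
    [618, 9508, 652, 5864, 621, 2123]⟩

set_option maxRecDepth 100000 in
theorem rk10_666_0 : chkC1 52 10 43 5 5 3 rd10_666.me rd10_666.mo gs10 [rd10_666.c0, rd10_666.c1] false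
    (Nat.beq (10 % 2) 1) rd10_666.v0 = true := by decide +kernel

set_option maxRecDepth 100000 in
theorem rk10_666_1 : chkC2 52 10 43 5 5 3 rd10_666.me rd10_666.mo gs10 [rd10_666.c0, rd10_666.c1]
    rd10_666.v1 = true := by decide +kernel

set_option maxRecDepth 100000 in
theorem rk10_666_2 : chkC1 52 10 43 5 5 3 rd10_666.me rd10_666.mo gs10 [rd10_666.c0, rd10_666.c1] true
    (Nat.beq (10 % 2) 0) rd10_666.v2 = true := by decide +kernel

/-- run 667 -/
def rd10_667 : CRun :=
  ⟨40, 98, 20, 4547, 6, 7,
    2582249878086908589655919172003011874329705792829223885005995039796482906190123340690465435963668423337896973941820733652,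
    2582249878086908589655919172003011874329705792829223656520947757589401747757029353587068983155815360759407914836203807462,
    2074757784440496479256203931845580575506223116121218449997828664845326405706454073199853524473551897144098943305669122326032906999556155791672284843693231148836627716675621917933886,
    [613, 15219, 635, 9457, 615, 3414]⟩

set_option maxRecDepth 100000 in
theorem rk10_667_0 : chkC1 52 10 43 5 5 3 rd10_667.me rd10_667.mo gs10 [rd10_667.c0, rd10_667.c1] false
    (Nat.beq (10 % 2) 1) rd10_667.v0 = true := by decide +kernel

set_option maxRecDepth 100000 in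
theorem rk10_667_1 : chkC2 52 10 43 5 5 3 rd10_667.me rd10_667.mo gs10 [rd10_667.c0, rd10_667.c1]
    rd10_667.v1 = true := by decide +kernel

set_option maxRecDepth 100000 in
theorem rk10_667_2 : chkC1 52 10 43 5 5 3 rd10_667.me rd10_667.mo gs10 [rd10_667.c0, rd10_667.c1] true
    (Nat.beq (10 % 2) 0) rd10_667.v2 = true := by decide +kernel

/-- run 668 -/
def rd10_668 : CRun :=
  ⟨40, 104, 40, 4649, 6, 7,
    2582249878086908589655919172003011874329705792829223669537835292508210086475129803288100422342141635484362698903693714714,
    2582249878086908589655919172003011874329705792829223572349802964894926625235346006388485178360046276519674710946459586433,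
    2074757784440496479256203931845580575506223116121218449997828664845326405706454073199853524473551897144098943305658132089476151098645067907309899378434394594711225694821922499868775,
    [648, 9876, 656, 6086, 639, 2195]⟩

set_option maxRecDepth 100000 in
theorem rk10_668_0 : chkC1 52 10 43 5 5 3 rd10_668.me rd10_668.mo gs10 [rd10_668.c0, rd10_668.c1] false
    (Nat.beq (10 % 2) 1) rd10_668.v0 = true := by decide +kernel

set_option maxRecDepth 100000 in
theorem rk10_668_1 : chkC2 52 10 43 5 5 3 rd10_668.me rd10_668.mo gs10 [rd10_668.c0, rd10_668.c1]
    rd10_668.v1 = true := by decide +kernel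

set_option maxRecDepth 100000 in
theorem rk10_668_2 : chkC1 52 10 43 5 5 3 rd10_668.me rd10_668.mo gs10 [rd10_668.c0, rd10_668.c1] true
    (Nat.beq (10 % 2) 0) rd10_668.v2 = true := by decide +kernel

/-- run 669 -/
def rd10_669 : CRun :=
  ⟨40, 106, 40, 4655, 6, 7,
    2582249878086908589655919172003011874329705792829224044705440666350445608793446309724845340206651288891332342730446971299,
    2582249878086908589655919172003011874329705792829223714784924915077337518671911910714965428706451225023390232498693083265,
    2074757784440496479256203931845580575506223116121218449997828664845326405706454073199853524473551897144098943305675348977948394169320290941195603459309427319718101940407453631227248,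
    [608, 18194, 631, 11211, 609, 3941]⟩

set_option maxRecDepth 100000 in
theorem rk10_669_0 : chkC1 52 10 43 5 5 3 rd10_669.me rd10_669.mo gs10 [rd10_669.c0, rd10_669.c1] false
    (Nat.beq (10 % 2) 1) rd10_669.v0 = true := by decide +kernel

set_option maxRecDepth 100000 in
theorem rk10_669_1 : chkC2 52 10 43 5 5 3 rd10_669.me rd10_669.mo gs10 [rd10_669.c0, rd10_669.c1]
    rd10_669.v1 = true := by decide +kernel

set_option maxRecDepth 100000 in
theorem rk10_669_2 : chkC1 52 10 43 5 5 3 rd10_669.me rd10_669.mo gs10 [rd10_669.c0, rd10_669.c1] true
    (Nat.beq (10 % 2) 0) rd10_669.v2 = true := by decide +kernel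

/-- run 670 -/
def rd10_670 : CRun :=
  ⟨40, 116, 40, 7385, 6, 7,
    2582249878086908589655919172003011874329705792829223605786375222759620452310542697849230381479112956044328394548429834512,
    2582249878086908589655919172003011874329705792829223547747518836706059406067160236123684428403620075788358873561816256319,
    2074757784440496479256203931845580575506223116121218449997828664845326405706454073199853524473551897144098943305654936312330825607101457412244263091743742396295979084747023747237515,
    [616, 7606, 644, 4662, 616, 1682]⟩

set_option maxRecDepth 100000 in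
theorem rk10_670_0 : chkC1 52 10 43 5 5 3 rd10_670.me rd10_670.mo gs10 [rd10_670.c0, rd10_670.c1] false
    (Nat.beq (10 % 2) 1) rd10_670.v0 = true := by decide +kernel

set_option maxRecDepth 100000 in
theorem rk10_670_1 : chkC2 52 10 43 5 5 3 rd10_670.me rd10_670.mo gs10 [rd10_670.c0, rd10_670.c1]
    rd10_670.v1 = true := by decide +kernel

set_option maxRecDepth 100000 in
theorem rk10_670_2 : chkC1 52 10 43 5 5 3 rd10_670.me rd10_670.mo gs10 [rd10_670.c0, rd10_670.c1] true
    (Nat.beq (10 % 2) 0) rd10_670.v2 = true := by decide +kernel

/-- run 671 -/
def rd10_671 : CRun :=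
  ⟨40, 122, 20, 7387, 6, 7,
    2582249878086908589655919172003011874329705792829223554936570767714071223195217482431699350738145896848078582834029522983,
    2582249878086908589655919172003011874329705792829223529057918248102907654027908809689605921874769168997003355469197505730,
    2074757784440496479256203931845580575506223116121218449997828664845326405706454073199853524473551897144098943305652896616229619405190770346508681900005385348902752623104418698884548,
    [624, 5119, 651, 3178, 625, 1248]⟩

set_option maxRecDepth 100000 in
theorem rk10_671_0 : chkC1 52 10 43 5 5 3 rd10_671.me rd10_671.mo gs10 [rd10_671.c0, rd10_671.c1] false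
    (Nat.beq (10 % 2) 1) rd10_671.v0 = true := by decide +kernel

set_option maxRecDepth 100000 in
theorem rk10_671_1 : chkC2 52 10 43 5 5 3 rd10_671.me rd10_671.mo gs10 [rd10_671.c0, rd10_671.c1]
    rd10_671.v1 = true := by decide +kernel

set_option maxRecDepth 100000 in
theorem rk10_671_2 : chkC1 52 10 43 5 5 3 rd10_671.me rd10_671.mo gs10 [rd10_671.c0, rd10_671.c1] true
    (Nat.beq (10 % 2) 0) rd10_671.v2 = true := by decide +kernel

/-- runs of this file -/
def rds10_83 : List CRun :=
  [rd10_664, rd10_665, rd10_666, rd10_667, rd10_668, rd10_669, rd10_670, rd10_671]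

theorem ac10_83 : allC 52 10 43 5 5 3 gs10 rds10_83 :=
  allC_cons rk10_664_0 rk10_664_1 rk10_664_2
    (allC_cons rk10_665_0 rk10_665_1 rk10_665_2
    (allC_cons rk10_666_0 rk10_666_1 rk10_666_2
    (allC_cons rk10_667_0 rk10_667_1 rk10_667_2
    (allC_cons rk10_668_0 rk10_668_1 rk10_668_2
    (allC_cons rk10_669_0 rk10_669_1 rk10_669_2
    (allC_cons rk10_670_0 rk10_670_1 rk10_670_2
    (allC_cons rk10_671_0 rk10_671_1 rk10_671_2
    (allC_nil))))))))

end Crest.Agent.R347
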