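import Crest.Agent.R347.G10c

/-! Row 347, Chebyshev numerics, ring with 10 sites: run certificates 672..679 (generated) -/

set_option autoImplicit false
set_option Elab.async false

namespace Crest.Agent.R347

/-- run 672 -/
def rd10_672 : CRun :=
  ⟨40, 124, 20, 7391, 6, 7,
    2582249878086908589655919172003011874329705792829223895510489578409864754767734485727228745635016072185243774972009506216,
    2582249878086908589655919172003011874329705792829223658355333419570853765889476302440292081601613488485211030838971873845,
    2074757784440496479256203931845580575506223116121218449997828664845326405706454073199853524473551897144098943305668587475988131925750824956093394195814932863836583039473905878551345,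
    [622, 15432, 639, 9517, 617, 3365]⟩

set_option maxRecDepth 100000 in
theorem rk10_672_0 : chkC1 52 10 43 5 5 3 rd10_672.me rd10_672.mo gs10 [rd10_672.c0, rd10_672.c1] false
    (Nat.beq (10 % 2) 1) rd10_672.v0 = true := by decide +kernel

set_option maxRecDepth 100000 in
theorem rk10_672_1 : chkC2 52 10 43 5 5 3 rd10_672.me rd10_672.mo gs10 [rd10_672.c0, rd10_672.c1]
    rd10_672.v1 = true := by decide +kernel

set_option maxRecDepth 100000 in
theorem rk10_672_2 : chkC1 52 10 43 5 5 3 rd10_672.me rd10_672.mo gs10 [rd10_672.c0, rd10_672.c1] true
    (Nat.beq (10 % 2) 0) rd10_672.v2 = true := by decide +kernel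

/-- run 673 -/
def rd10_673 : CRun :=
  ⟨40, 128, 40, 7403, 6, 7,
    2582249878086908589655919172003011874329705792829223695939957521665005291841885879382881615952741121778145389124960821338,
    2582249878086908589655919172003011874329705792829223581055884756585638211988792565971174655605657833860039996384936909773,
    2074757784440496479256203931845580575506223116121218449997828664845326405706454073199853524473551897144098943305658554212817121404282569474248012293756125947171256509106242147746246,
    [659, 10675, 671, 6516, 654, 2254]⟩

set_option maxRecDepth 100000 in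
theorem rk10_673_0 : chkC1 52 10 43 5 5 3 rd10_673.me rd10_673.mo gs10 [rd10_673.c0, rd10_673.c1] false
    (Nat.beq (10 % 2) 1) rd10_673.v0 = true := by decide +kernel

set_option maxRecDepth 100000 in
theorem rk10_673_1 : chkC2 52 10 43 5 5 3 rd10_673.me rd10_673.mo gs10 [rd10_673.c0, rd10_673.c1]
    rd10_673.v1 = true := by decide +kernel

set_option maxRecDepth 100000 in
theorem rk10_673_2 : chkC1 52 10 43 5 5 3 rd10_673.me rd10_673.mo gs10 [rd10_673.c0, rd10_673.c1] true
    (Nat.beq (10 % 2) 0) rd10_673.v2 = true := by decide +kernel

/-- run 674 -/
def rd10_674 : CRun :=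
  ⟨20, 130, 40, 7405, 6, 7,
    2582249878086908589655919172003011874329705792829223683563286959083332750821907462967308086912080697400205532984221484013,
    2582249878086908589655919172003011874329705792829223576805345617769430631318064422163995655909935817554280360251067086469,
    2074757784440496479256203931845580575506223116121218449997828664845326405706454073199853524473551897144098943305658257615441478389670441867678742608351090616598085037684252066823827,
    [615, 10308, 639, 6310, 614, 2213]⟩

set_option maxRecDepth 100000 in
theorem rk10_674_0 : chkC1 52 10 43 5 5 3 rd10_674.me rd10_674.mo gs10 [rd10_674.c0, rd10_674.c1] false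
    (Nat.beq (10 % 2) 1) rd10_674.v0 = true := by decide +kernel

set_option maxRecDepth 100000 in
theorem rk10_674_1 : chkC2 52 10 43 5 5 3 rd10_674.me rd10_674.mo gs10 [rd10_674.c0, rd10_674.c1]
    rd10_674.v1 = true := by decide +kernel

set_option maxRecDepth 100000 in
theorem rk10_674_2 : chkC1 52 10 43 5 5 3 rd10_674.me rd10_674.mo gs10 [rd10_674.c0, rd10_674.c1] true
    (Nat.beq (10 % 2) 0) rd10_674.v2 = true := by decide +kernel

/-- run 675 -/
def rd10_675 : CRun :=
  ⟨40, 140, 40, 7409, 6, 7,
    2582249878086908589655919172003011874329705792829224017725966488085970564298045299359084858623657055570311363092254438948,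
    2582249878086908589655919172003011874329705792829223701681825154084034351670985194759830615894808759681988612817284411137,
    2074757784440496479256203931845580575506223116121218449997828664845326405706454073199853524473551897144098943305672544112586405341046060161538360545539277685014137901431634467868610,
    [639, 17726, 662, 10841, 618, 3713]⟩

set_option maxRecDepth 100000 in
theorem rk10_675_0 : chkC1 52 10 43 5 5 3 rd10_675.me rd10_675.mo gs10 [rd10_675.c0, rd10_675.c1] false
    (Nat.beq (10 % 2) 1) rd10_675.v0 = true := by decide +kernel

set_option maxRecDepth 100000 in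
theorem rk10_675_1 : chkC2 52 10 43 5 5 3 rd10_675.me rd10_675.mo gs10 [rd10_675.c0, rd10_675.c1]
    rd10_675.v1 = true := by decide +kernel

set_option maxRecDepth 100000 in
theorem rk10_675_2 : chkC1 52 10 43 5 5 3 rd10_675.me rd10_675.mo gs10 [rd10_675.c0, rd10_675.c1] true
    (Nat.beq (10 % 2) 0) rd10_675.v2 = true := by decide +kernel

/-- run 676 -/
def rd10_676 : CRun :=
  ⟨20, 142, 20, 7411, 6, 7,
    2582249878086908589655919172003011874329705792829223813528969813388999594631457479287359491174218442694900568013767338020,
    2582249878086908589655919172003011874329705792829223623035622606399934414712165074206785247838827564606378079404025108515,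
    2074757784440496479256203931845580575506223116121218449997828664845326405706454073199853524473551897144098943305662785484768786946569836454266332302216217427973666813056280754027489,
    [648, 13680, 670, 8282, 652, 2777]⟩

set_option maxRecDepth 100000 in
theorem rk10_676_0 : chkC1 52 10 43 5 5 3 rd10_676.me rd10_676.mo gs10 [rd10_676.c0, rd10_676.c1] false
    (Nat.beq (10 % 2) 1) rd10_676.v0 = true := by decide +kernel

set_option maxRecDepth 100000 in
theorem rk10_676_1 : chkC2 52 10 43 5 5 3 rd10_676.me rd10_676.mo gs10 [rd10_676.c0, rd10_676.c1]
    rd10_676.v1 = true := by decide +kernel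

set_option maxRecDepth 100000 in
theorem rk10_676_2 : chkC1 52 10 43 5 5 3 rd10_676.me rd10_676.mo gs10 [rd10_676.c0, rd10_676.c1] true
    (Nat.beq (10 % 2) 0) rd10_676.v2 = true := by decide +kernel

/-- run 677 -/
def rd10_677 : CRun :=
  ⟨40, 146, 20, 7463, 6, 7,
    2582249878086908589655919172003011874329705792829224158938150736817696534397258540778616086596974726497545356438069985569,
    2582249878086908589655919172003011874329705792829223758969606732941164638077432284335578874364436571658849676548211374722,
    2074757784440496479256203931845580575506223116121218449997828664845326405706454073199853524473551897144098943305681011700668257354591069047794008421368869963814155993518421691467910,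
    [641, 20052, 652, 12377, 629, 4365]⟩

set_option maxRecDepth 100000 in
theorem rk10_677_0 : chkC1 52 10 43 5 5 3 rd10_677.me rd10_677.mo gs10 [rd10_677.c0, rd10_677.c1] false
    (Nat.beq (10 % 2) 1) rd10_677.v0 = true := by decide +kernel

set_option maxRecDepth 100000 in
theorem rk10_677_1 : chkC2 52 10 43 5 5 3 rd10_677.me rd10_677.mo gs10 [rd10_677.c0, rd10_677.c1]
    rd10_677.v1 = true := by decide +kernel

set_option maxRecDepth 100000 in
theorem rk10_677_2 : chkC1 52 10 43 5 5 3 rd10_677.me rd10_677.mo gs10 [rd10_677.c0, rd10_677.c1] true
    (Nat.beq (10 % 2) 0) rd10_677.v2 = true := by decide +kernel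

/-- run 678 -/
def rd10_678 : CRun :=
  ⟨40, 170, 40, 7565, 6, 7,
    2582249878086908589655919172003011874329705792829223728892719300916379362718010791929918947354833012746650937045733996506,
    2582249878086908589655919172003011874329705792829223593469706119812534349189025603999583522854029069251244240085008678889,
    2074757784440496479256203931845580575506223116121218449997828664845326405706454073199853524473551897144098943305660061909581643047836674515845454650838641583952549264221620981338831,
    [626, 11596, 653, 7084, 631, 2453]⟩

set_option maxRecDepth 100000 in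
theorem rk10_678_0 : chkC1 52 10 43 5 5 3 rd10_678.me rd10_678.mo gs10 [rd10_678.c0, rd10_678.c1] false
    (Nat.beq (10 % 2) 1) rd10_678.v0 = true := by decide +kernel

set_option maxRecDepth 100000 in
theorem rk10_678_1 : chkC2 52 10 43 5 5 3 rd10_678.me rd10_678.mo gs10 [rd10_678.c0, rd10_678.c1]
    rd10_678.v1 = true := by decide +kernel

set_option maxRecDepth 100000 in
theorem rk10_678_2 : chkC1 52 10 43 5 5 3 rd10_678.me rd10_678.mo gs10 [rd10_678.c0, rd10_678.c1] true
    (Nat.beq (10 % 2) 0) rd10_678.v2 = true := by decide +kernel

/-- run 679 -/
def rd10_679 : CRun :=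
  ⟨40, 176, 40, 7571, 6, 7,
    2582249878086908589655919172003011874329705792829224263323049535148223282475060145641301326649661379680718775225588024742,
    2582249878086908589655919172003011874329705792829223793272506608412632525531984953133014636267465762582701285139353621046,
    2074757784440496479256203931845580575506223116121218449997828664845326405706454073199853524473551897144098943305682937685012637657572887937666049275417984732556933403391622308579813,
    [654, 21611, 669, 13211, 642, 4501]⟩

set_option maxRecDepth 100000 in
theorem rk10_679_0 : chkC1 52 10 43 5 5 3 rd10_679.me rd10_679.mo gs10 [rd10_679.c0, rd10_679.c1] false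
    (Nat.beq (10 % 2) 1) rd10_679.v0 = true := by decide +kernel

set_option maxRecDepth 100000 in
theorem rk10_679_1 : chkC2 52 10 43 5 5 3 rd10_679.me rd10_679.mo gs10 [rd10_679.c0, rd10_679.c1]
    rd10_679.v1 = true := by decide +kernel

set_option maxRecDepth 100000 in
theorem rk10_679_2 : chkC1 52 10 43 5 5 3 rd10_679.me rd10_679.mo gs10 [rd10_679.c0, rd10_679.c1] true
    (Nat.beq (10 % 2) 0) rd10_679.v2 = true := by decide +kernel

/-- runs of this file -/
def rds10_84 : List CRun :=
  [rd10_672, rd10_673, rd10_674, rd10_675, rd10_676, rd10_677, rd10_678, rd10_679]

theorem ac10_84 : allC 52 10 43 5 5 3 gs10 rds10_84 :=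
  allC_cons rk10_672_0 rk10_672_1 rk10_672_2
    (allC_cons rk10_673_0 rk10_673_1 rk10_673_2
    (allC_cons rk10_674_0 rk10_674_1 rk10_674_2
    (allC_cons rk10_675_0 rk10_675_1 rk10_675_2
    (allC_cons rk10_676_0 rk10_676_1 rk10_676_2
    (allC_cons rk10_677_0 rk10_677_1 rk10_677_2
    (allC_cons rk10_678_0 rk10_678_1 rk10_678_2
    (allC_cons rk10_679_0 rk10_679_1 rk10_679_2
    (allC_nil))))))))

end Crest.Agent.R347
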