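import Crest.Agent.R347.G10c

/-! Row 347, Chebyshev numerics, ring with 10 sites: run certificates 680..687 (generated) -/

set_option autoImplicit false
set_option Elab.async false

namespace Crest.Agent.R347

/-- run 680 -/
def rd10_680 : CRun :=
  ⟨20, 182, 40, 7573, 6, 7,
    2582249878086908589655919172003011874329705792829224027357911344985207542149401989837612627914076223026533265274984449649,
    2582249878086908589655919172003011874329705792829223701361171915918462655118515452967798006699720807693588782082742032345,
    2074757784440496479256203931845580575506223116121218449997828664845326405706454073199853524473551897144098943305671076759608422863701812876441208505685060970661207057113178710708585,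
    [714, 17894, 729, 10832, 705, 3588]⟩

set_option maxRecDepth 100000 in
theorem rk10_680_0 : chkC1 52 10 43 5 5 3 rd10_680.me rd10_680.mo gs10 [rd10_680.c0, rd10_680.c1] false
    (Nat.beq (10 % 2) 1) rd10_680.v0 = true := by decide +kernel

set_option maxRecDepth 100000 in
theorem rk10_680_1 : chkC2 52 10 43 5 5 3 rd10_680.me rd10_680.mo gs10 [rd10_680.c0, rd10_680.c1]
    rd10_680.v1 = true := by decide +kernel

set_option maxRecDepth 100000 in
theorem rk10_680_2 : chkC1 52 10 43 5 5 3 rd10_680.me rd10_680.mo gs10 [rd10_680.c0, rd10_680.c1] true
    (Nat.beq (10 % 2) 0) rd10_680.v2 = true := by decide +kernel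

/-- run 681 -/
def rd10_681 : CRun :=
  ⟨20, 194, 20, 7591, 6, 7,
    2582249878086908589655919172003011874329705792829224177630020321939341980705575217687080314720586983916122178014134314854,
    2582249878086908589655919172003011874329705792829223761809620650772069806605141278424270894119039421705899680053921743665,
    2074757784440496479256203931845580575506223116121218449997828664845326405706454073199853524473551897144098943305679530404288864841988200885091781137246751164305848095906534024159739,
    [661, 20340, 654, 12448, 634, 4259]⟩

set_option maxRecDepth 100000 in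
theorem rk10_681_0 : chkC1 52 10 43 5 5 3 rd10_681.me rd10_681.mo gs10 [rd10_681.c0, rd10_681.c1] false
    (Nat.beq (10 % 2) 1) rd10_681.v0 = true := by decide +kernel

set_option maxRecDepth 100000 in
theorem rk10_681_1 : chkC2 52 10 43 5 5 3 rd10_681.me rd10_681.mo gs10 [rd10_681.c0, rd10_681.c1]
    rd10_681.v1 = true := by decide +kernel

set_option maxRecDepth 100000 in
theorem rk10_681_2 : chkC1 52 10 43 5 5 3 rd10_681.me rd10_681.mo gs10 [rd10_681.c0, rd10_681.c1] true
    (Nat.beq (10 % 2) 0) rd10_681.v2 = true := by decide +kernel

/-- run 682 -/
def rd10_682 : CRun :=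
  ⟨40, 260, 20, 7625, 6, 7,
    2582249878086908589655919172003011874329705792829224176807589430887590757683199018826873294749723491698088804906890012556,
    2582249878086908589655919172003011874329705792829223761241874977292970211343686193541307076184522404175494926206427864445,
    2074757784440496479256203931845580575506223116121218449997828664845326405706454073199853524473551897144098943305679505175361569975840874876286931380993891565718845706059019792526437,
    [609, 20328, 634, 12434, 610, 4257]⟩

set_option maxRecDepth 100000 in
theorem rk10_682_0 : chkC1 52 10 43 5 5 3 rd10_682.me rd10_682.mo gs10 [rd10_682.c0, rd10_682.c1] false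
    (Nat.beq (10 % 2) 1) rd10_682.v0 = true := by decide +kernel

set_option maxRecDepth 100000 in
theorem rk10_682_1 : chkC2 52 10 43 5 5 3 rd10_682.me rd10_682.mo gs10 [rd10_682.c0, rd10_682.c1]
    rd10_682.v1 = true := by decide +kernel

set_option maxRecDepth 100000 in
theorem rk10_682_2 : chkC1 52 10 43 5 5 3 rd10_682.me rd10_682.mo gs10 [rd10_682.c0, rd10_682.c1] true
    (Nat.beq (10 % 2) 0) rd10_682.v2 = true := by decide +kernel

/-- run 683 -/
def rd10_683 : CRun :=
  ⟨40, 266, 20, 7627, 6, 7,
    2582249878086908589655919172003011874329705792829224108565855956313927560610605070910723229008492897918821349697650059482,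
    2582249878086908589655919172003011874329705792829223731005111672306813734480319350606532540687382347208852344726981349356,
    2074757784440496479256203931845580575506223116121218449997828664845326405706454073199853524473551897144098943305674211820206684073556852294011147773887939470158536578143588436027146,
    [649, 19255, 656, 11653, 635, 3850]⟩

set_option maxRecDepth 100000 in
theorem rk10_683_0 : chkC1 52 10 43 5 5 3 rd10_683.me rd10_683.mo gs10 [rd10_683.c0, rd10_683.c1] false
    (Nat.beq (10 % 2) 1) rd10_683.v0 = true := by decide +kernel

set_option maxRecDepth 100000 in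
theorem rk10_683_1 : chkC2 52 10 43 5 5 3 rd10_683.me rd10_683.mo gs10 [rd10_683.c0, rd10_683.c1]
    rd10_683.v1 = true := by decide +kernel

set_option maxRecDepth 100000 in
theorem rk10_683_2 : chkC1 52 10 43 5 5 3 rd10_683.me rd10_683.mo gs10 [rd10_683.c0, rd10_683.c1] true
    (Nat.beq (10 % 2) 0) rd10_683.v2 = true := by decide +kernel

/-- run 684 -/
def rd10_684 : CRun :=
  ⟨40, 268, 20, 9085, 6, 7,
    2582249878086908589655919172003011874329705792829224278615287421587725937807903987841171317527711072264394205609402397439,
    2582249878086908589655919172003011874329705792829223792783704980233844345537079839960495113507057011527863794911710426180,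
    2074757784440496479256203931845580575506223116121218449997828664845326405706454073199853524473551897144098943305680552019971316627832847514117873308394792462425754487799955379817280,
    [598, 21831, 638, 13200, 603, 4333]⟩

set_option maxRecDepth 100000 in
theorem rk10_684_0 : chkC1 52 10 43 5 5 3 rd10_684.me rd10_684.mo gs10 [rd10_684.c0, rd10_684.c1] false
    (Nat.beq (10 % 2) 1) rd10_684.v0 = true := by decide +kernel

set_option maxRecDepth 100000 in
theorem rk10_684_1 : chkC2 52 10 43 5 5 3 rd10_684.me rd10_684.mo gs10 [rd10_684.c0, rd10_684.c1]
    rd10_684.v1 = true := by decide +kernel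

set_option maxRecDepth 100000 in
theorem rk10_684_2 : chkC1 52 10 43 5 5 3 rd10_684.me rd10_684.mo gs10 [rd10_684.c0, rd10_684.c1] true
    (Nat.beq (10 % 2) 0) rd10_684.v2 = true := by decide +kernel

/-- run 685 -/
def rd10_685 : CRun :=
  ⟨40, 278, 40, 17, 6, 5,
    2582249878086908589655919172003011874329705792829223513358908099829905495295750393244955735607261621582120660721369232775,
    2582249878086908589655919172003011874329705792829223513441548102632012588196046877767784704767170954943388347862413118790,
    2074757784440496479256203931845580575506223116121218449997828664845326405706454073199853524473551897144098943305650901736023529542259877870553894010950850043228819769771197370598180,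
    [638, 574, 656, 617, 628, 562]⟩

set_option maxRecDepth 100000 in
theorem rk10_685_0 : chkC1 52 10 43 5 5 3 rd10_685.me rd10_685.mo gs10 [rd10_685.c0, rd10_685.c1] false
    (Nat.beq (10 % 2) 1) rd10_685.v0 = true := by decide +kernel

set_option maxRecDepth 100000 in
theorem rk10_685_1 : chkC2 52 10 43 5 5 3 rd10_685.me rd10_685.mo gs10 [rd10_685.c0, rd10_685.c1]
    rd10_685.v1 = true := by decide +kernel

set_option maxRecDepth 100000 in
theorem rk10_685_2 : chkC1 52 10 43 5 5 3 rd10_685.me rd10_685.mo gs10 [rd10_685.c0, rd10_685.c1] true
    (Nat.beq (10 % 2) 0) rd10_685.v2 = true := by decide +kernel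

/-- run 686 -/
def rd10_686 : CRun :=
  ⟨40, 284, 20, 23, 6, 5,
    2582249878086908589655919172003011874329705792829223513422775852398979063797165676605055243244506579570017761960422438556,
    2582249878086908589655919172003011874329705792829223513462428655579113907836439133195665771624344460644601957964319206188,
    2074757784440496479256203931845580575506223116121218449997828664845326405706454073199853524473551897144098943305650983450430018156174379454868251651410350899773256618569665280881073,
    [651, 608, 662, 628, 638, 606]⟩

set_option maxRecDepth 100000 in
theorem rk10_686_0 : chkC1 52 10 43 5 5 3 rd10_686.me rd10_686.mo gs10 [rd10_686.c0, rd10_686.c1] false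
    (Nat.beq (10 % 2) 1) rd10_686.v0 = true := by decide +kernel

set_option maxRecDepth 100000 in
theorem rk10_686_1 : chkC2 52 10 43 5 5 3 rd10_686.me rd10_686.mo gs10 [rd10_686.c0, rd10_686.c1]
    rd10_686.v1 = true := by decide +kernel

set_option maxRecDepth 100000 in
theorem rk10_686_2 : chkC1 52 10 43 5 5 3 rd10_686.me rd10_686.mo gs10 [rd10_686.c0, rd10_686.c1] true
    (Nat.beq (10 % 2) 0) rd10_686.v2 = true := by decide +kernel

/-- run 687 -/
def rd10_687 : CRun :=
  ⟨40, 286, 40, 35, 6, 5,
    2582249878086908589655919172003011874329705792829223513423672523827675580370918091452581611976713968840548560362520560615,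
    2582249878086908589655919172003011874329705792829223513431978786578450301105194493507893081469151236115411816528193404504,
    2074757784440496479256203931845580575506223116121218449997828664845326405706454073199853524473551897144098943305650967687974742019738766663762087876946382759484090603154743809682403,
    [615, 608, 640, 612, 636, 598]⟩

set_option maxRecDepth 100000 in
theorem rk10_687_0 : chkC1 52 10 43 5 5 3 rd10_687.me rd10_687.mo gs10 [rd10_687.c0, rd10_687.c1] false
    (Nat.beq (10 % 2) 1) rd10_687.v0 = true := by decide +kernel

set_option maxRecDepth 100000 in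
theorem rk10_687_1 : chkC2 52 10 43 5 5 3 rd10_687.me rd10_687.mo gs10 [rd10_687.c0, rd10_687.c1]
    rd10_687.v1 = true := by decide +kernel

set_option maxRecDepth 100000 in
theorem rk10_687_2 : chkC1 52 10 43 5 5 3 rd10_687.me rd10_687.mo gs10 [rd10_687.c0, rd10_687.c1] true
    (Nat.beq (10 % 2) 0) rd10_687.v2 = true := by decide +kernel

/-- runs of this file -/
def rds10_85 : List CRun :=
  [rd10_680, rd10_681, rd10_682, rd10_683, rd10_684, rd10_685, rd10_686, rd10_687]

theorem ac10_85 : allC 52 10 43 5 5 3 gs10 rds10_85 :=
  allC_cons rk10_680_0 rk10_680_1 rk10_680_2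
    (allC_cons rk10_681_0 rk10_681_1 rk10_681_2
    (allC_cons rk10_682_0 rk10_682_1 rk10_682_2
    (allC_cons rk10_683_0 rk10_683_1 rk10_683_2
    (allC_cons rk10_684_0 rk10_684_1 rk10_684_2
    (allC_cons rk10_685_0 rk10_685_1 rk10_685_2
    (allC_cons rk10_686_0 rk10_686_1 rk10_686_2
    (allC_cons rk10_687_0 rk10_687_1 rk10_687_2
    (allC_nil))))))))

end Crest.Agent.R347
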