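import Crest.Agent.R347.G10c

/-! Row 347, Chebyshev numerics, ring with 10 sites: run certificates 688..695 (generated) -/

set_option autoImplicit false
set_option Elab.async false

namespace Crest.Agent.R347

/-- run 688 -/
def rd10_688 : CRun :=
  ⟨40, 290, 40, 41, 6, 5,
    2582249878086908589655919172003011874329705792829223513413891091952271106563694168196500955215161319217392700374041152841,
    2582249878086908589655919172003011874329705792829223513453158230001783792936837553884949604570393871573469026097465606987,
    2074757784440496479256203931845580575506223116121218449997828664845326405706454073199853524473551897144098943305650944790714549373386330466344234107720459420613632192139633600433769,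
    [668, 603, 690, 623, 681, 586]⟩

set_option maxRecDepth 100000 in
theorem rk10_688_0 : chkC1 52 10 43 5 5 3 rd10_688.me rd10_688.mo gs10 [rd10_688.c0, rd10_688.c1] false
    (Nat.beq (10 % 2) 1) rd10_688.v0 = true := by decide +kernel

set_option maxRecDepth 100000 in
theorem rk10_688_1 : chkC2 52 10 43 5 5 3 rd10_688.me rd10_688.mo gs10 [rd10_688.c0, rd10_688.c1]
    rd10_688.v1 = true := by decide +kernel

set_option maxRecDepth 100000 in
theorem rk10_688_2 : chkC1 52 10 43 5 5 3 rd10_688.me rd10_688.mo gs10 [rd10_688.c0, rd10_688.c1] true
    (Nat.beq (10 % 2) 0) rd10_688.v2 = true := by decide +kernel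

/-- run 689 -/
def rd10_689 : CRun :=
  ⟨40, 292, 40, 43, 6, 5,
    2582249878086908589655919172003011874329705792829223513422187713074780273356317318479258377731983453274293259782702113291,
    2582249878086908589655919172003011874329705792829223513441104587731797106879997296230298543888874826917104297039869925972,
    2074757784440496479256203931845580575506223116121218449997828664845326405706454073199853524473551897144098943305650966453846324028834235047535200958933504022432191377969846298204884,
    [634, 607, 646, 617, 620, 597]⟩

set_option maxRecDepth 100000 in
theorem rk10_689_0 : chkC1 52 10 43 5 5 3 rd10_689.me rd10_689.mo gs10 [rd10_689.c0, rd10_689.c1] false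
    (Nat.beq (10 % 2) 1) rd10_689.v0 = true := by decide +kernel

set_option maxRecDepth 100000 in
theorem rk10_689_1 : chkC2 52 10 43 5 5 3 rd10_689.me rd10_689.mo gs10 [rd10_689.c0, rd10_689.c1]
    rd10_689.v1 = true := by decide +kernel

set_option maxRecDepth 100000 in
theorem rk10_689_2 : chkC1 52 10 43 5 5 3 rd10_689.me rd10_689.mo gs10 [rd10_689.c0, rd10_689.c1] true
    (Nat.beq (10 % 2) 0) rd10_689.v2 = true := by decide +kernel

/-- run 690 -/
def rd10_690 : CRun :=
  ⟨40, 302, 40, 47, 6, 5,
    2582249878086908589655919172003011874329705792829223513436884768427572998416424103775810650894651521855430683054368537845,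
    2582249878086908589655919172003011874329705792829223513493019935127672305711931465547564484088559639037244985169951547337,
    2074757784440496479256203931845580575506223116121218449997828664845326405706454073199853524473551897144098943305650996172558514554600390920582136716394675068054358396940542361917836,
    [665, 615, 696, 643, 671, 612]⟩

set_option maxRecDepth 100000 in
theorem rk10_690_0 : chkC1 52 10 43 5 5 3 rd10_690.me rd10_690.mo gs10 [rd10_690.c0, rd10_690.c1] false
    (Nat.beq (10 % 2) 1) rd10_690.v0 = true := by decide +kernel

set_option maxRecDepth 100000 in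
theorem rk10_690_1 : chkC2 52 10 43 5 5 3 rd10_690.me rd10_690.mo gs10 [rd10_690.c0, rd10_690.c1]
    rd10_690.v1 = true := by decide +kernel

set_option maxRecDepth 100000 in
theorem rk10_690_2 : chkC1 52 10 43 5 5 3 rd10_690.me rd10_690.mo gs10 [rd10_690.c0, rd10_690.c1] true
    (Nat.beq (10 % 2) 0) rd10_690.v2 = true := by decide +kernel

/-- run 691 -/
def rd10_691 : CRun :=
  ⟨40, 304, 40, 59, 6, 5,
    2582249878086908589655919172003011874329705792829223513460521220120578486379370824192056811615150605690981782868816489303,
    2582249878086908589655919172003011874329705792829223513484562620200737239891754119055572945311485284680966146477760383440,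
    2074757784440496479256203931845580575506223116121218449997828664845326405706454073199853524473551897144098943305651004613804061047076308342509007784521826117186684737951306200041552,
    [674, 627, 680, 638, 667, 617]⟩

set_option maxRecDepth 100000 in
theorem rk10_691_0 : chkC1 52 10 43 5 5 3 rd10_691.me rd10_691.mo gs10 [rd10_691.c0, rd10_691.c1] false
    (Nat.beq (10 % 2) 1) rd10_691.v0 = true := by decide +kernel

set_option maxRecDepth 100000 in
theorem rk10_691_1 : chkC2 52 10 43 5 5 3 rd10_691.me rd10_691.mo gs10 [rd10_691.c0, rd10_691.c1]
    rd10_691.v1 = true := by decide +kernel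

set_option maxRecDepth 100000 in
theorem rk10_691_2 : chkC1 52 10 43 5 5 3 rd10_691.me rd10_691.mo gs10 [rd10_691.c0, rd10_691.c1] true
    (Nat.beq (10 % 2) 0) rd10_691.v2 = true := by decide +kernel

/-- run 692 -/
def rd10_692 : CRun :=
  ⟨40, 308, 40, 89, 6, 5,
    2582249878086908589655919172003011874329705792829223513415221636652917550511842912808959437850049703296244852841670702934,
    2582249878086908589655919172003011874329705792829223513434114407239270499181389761128614486567903243894149148206309019885,
    2074757784440496479256203931845580575506223116121218449997828664845326405706454073199853524473551897144098943305651028104024392024996156214910873627636749786750047854816972635570485,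
    [676, 604, 705, 613, 678, 628]⟩

set_option maxRecDepth 100000 in
theorem rk10_692_0 : chkC1 52 10 43 5 5 3 rd10_692.me rd10_692.mo gs10 [rd10_692.c0, rd10_692.c1] false
    (Nat.beq (10 % 2) 1) rd10_692.v0 = true := by decide +kernel

set_option maxRecDepth 100000 in
theorem rk10_692_1 : chkC2 52 10 43 5 5 3 rd10_692.me rd10_692.mo gs10 [rd10_692.c0, rd10_692.c1]
    rd10_692.v1 = true := by decide +kernel

set_option maxRecDepth 100000 in
theorem rk10_692_2 : chkC1 52 10 43 5 5 3 rd10_692.me rd10_692.mo gs10 [rd10_692.c0, rd10_692.c1] true
    (Nat.beq (10 % 2) 0) rd10_692.v2 = true := by decide +kernel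

/-- run 693 -/
def rd10_693 : CRun :=
  ⟨40, 310, 40, 95, 6, 5,
    2582249878086908589655919172003011874329705792829223513411474257133705585189279057209619846660967925914743379949747846397,
    2582249878086908589655919172003011874329705792829223513483146907783745069459001650452220381058663223843443505989859843496,
    2074757784440496479256203931845580575506223116121218449997828664845326405706454073199853524473551897144098943305651023942054857394211342561229054464025609254244293957383529204956249,
    [640, 602, 659, 638, 640, 626]⟩

set_option maxRecDepth 100000 in
theorem rk10_693_0 : chkC1 52 10 43 5 5 3 rd10_693.me rd10_693.mo gs10 [rd10_693.c0, rd10_693.c1] false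
    (Nat.beq (10 % 2) 1) rd10_693.v0 = true := by decide +kernel

set_option maxRecDepth 100000 in
theorem rk10_693_1 : chkC2 52 10 43 5 5 3 rd10_693.me rd10_693.mo gs10 [rd10_693.c0, rd10_693.c1]
    rd10_693.v1 = true := by decide +kernel

set_option maxRecDepth 100000 in
theorem rk10_693_2 : chkC1 52 10 43 5 5 3 rd10_693.me rd10_693.mo gs10 [rd10_693.c0, rd10_693.c1] true
    (Nat.beq (10 % 2) 0) rd10_693.v2 = true := by decide +kernel

/-- run 694 -/
def rd10_694 : CRun :=
  ⟨20, 316, 40, 97, 6, 5,
    2582249878086908589655919172003011874329705792829223513420915018143727153058088084502124176950785868503217287857143424366,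
    2582249878086908589655919172003011874329705792829223513442370854910673191217124362359063380019662322876205137794087410850,
    2074757784440496479256203931845580575506223116121218449997828664845326405706454073199853524473551897144098943305650972017065833253458568973807964644038433954298955853998642111597572,
    [635, 607, 646, 617, 643, 600]⟩

set_option maxRecDepth 100000 in
theorem rk10_694_0 : chkC1 52 10 43 5 5 3 rd10_694.me rd10_694.mo gs10 [rd10_694.c0, rd10_694.c1] false
    (Nat.beq (10 % 2) 1) rd10_694.v0 = true := by decide +kernel

set_option maxRecDepth 100000 in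
theorem rk10_694_1 : chkC2 52 10 43 5 5 3 rd10_694.me rd10_694.mo gs10 [rd10_694.c0, rd10_694.c1]
    rd10_694.v1 = true := by decide +kernel

set_option maxRecDepth 100000 in
theorem rk10_694_2 : chkC1 52 10 43 5 5 3 rd10_694.me rd10_694.mo gs10 [rd10_694.c0, rd10_694.c1] true
    (Nat.beq (10 % 2) 0) rd10_694.v2 = true := by decide +kernel

/-- run 695 -/
def rd10_695 : CRun :=
  ⟨40, 332, 40, 101, 6, 5,
    2582249878086908589655919172003011874329705792829223513516841184695767577556565511604429878508348776217081106160459046391,
    2582249878086908589655919172003011874329705792829223513563397393714039043819567237343738041428622041352956180184810541230,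
    2074757784440496479256203931845580575506223116121218449997828664845326405706454073199853524473551897144098943305651105347929241510399711241486690374981890426525755999885772737344890,
    [621, 654, 644, 676, 625, 666]⟩

set_option maxRecDepth 100000 in
theorem rk10_695_0 : chkC1 52 10 43 5 5 3 rd10_695.me rd10_695.mo gs10 [rd10_695.c0, rd10_695.c1] false
    (Nat.beq (10 % 2) 1) rd10_695.v0 = true := by decide +kernel

set_option maxRecDepth 100000 in
theorem rk10_695_1 : chkC2 52 10 43 5 5 3 rd10_695.me rd10_695.mo gs10 [rd10_695.c0, rd10_695.c1]
    rd10_695.v1 = true := by decide +kernel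

set_option maxRecDepth 100000 in
theorem rk10_695_2 : chkC1 52 10 43 5 5 3 rd10_695.me rd10_695.mo gs10 [rd10_695.c0, rd10_695.c1] true
    (Nat.beq (10 % 2) 0) rd10_695.v2 = true := by decide +kernel

/-- runs of this file -/
def rds10_86 : List CRun :=
  [rd10_688, rd10_689, rd10_690, rd10_691, rd10_692, rd10_693, rd10_694, rd10_695]

theorem ac10_86 : allC 52 10 43 5 5 3 gs10 rds10_86 :=
  allC_cons rk10_688_0 rk10_688_1 rk10_688_2
    (allC_cons rk10_689_0 rk10_689_1 rk10_689_2
    (allC_cons rk10_690_0 rk10_690_1 rk10_690_2
    (allC_cons rk10_691_0 rk10_691_1 rk10_691_2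
    (allC_cons rk10_692_0 rk10_692_1 rk10_692_2
    (allC_cons rk10_693_0 rk10_693_1 rk10_693_2
    (allC_cons rk10_694_0 rk10_694_1 rk10_694_2
    (allC_cons rk10_695_0 rk10_695_1 rk10_695_2
    (allC_nil))))))))

end Crest.Agent.R347
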