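import Crest.Agent.R347.G10c

/-! Row 347, Chebyshev numerics, ring with 10 sites: run certificates 696..703 (generated) -/

set_option autoImplicit false
set_option Elab.async false

namespace Crest.Agent.R347

/-- run 696 -/
def rd10_696 : CRun :=
  ⟨40, 338, 40, 103, 6, 5,
    2582249878086908589655919172003011874329705792829223513444167411644154742345180275978300799809282145823254300183954336035,
    2582249878086908589655919172003011874329705792829223513480876304327207116199660858015742318301299351013228419713579011015,
    2074757784440496479256203931845580575506223116121218449997828664845326405706454073199853524473551897144098943305650976903764425845047996896914687453513908224318259947471654263080825,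
    [636, 618, 668, 637, 642, 602]⟩

set_option maxRecDepth 100000 in
theorem rk10_696_0 : chkC1 52 10 43 5 5 3 rd10_696.me rd10_696.mo gs10 [rd10_696.c0, rd10_696.c1] false
    (Nat.beq (10 % 2) 1) rd10_696.v0 = true := by decide +kernel

set_option maxRecDepth 100000 in
theorem rk10_696_1 : chkC2 52 10 43 5 5 3 rd10_696.me rd10_696.mo gs10 [rd10_696.c0, rd10_696.c1]
    rd10_696.v1 = true := by decide +kernel

set_option maxRecDepth 100000 in
theorem rk10_696_2 : chkC1 52 10 43 5 5 3 rd10_696.me rd10_696.mo gs10 [rd10_696.c0, rd10_696.c1] true
    (Nat.beq (10 % 2) 0) rd10_696.v2 = true := by decide +kernel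

/-- run 697 -/
def rd10_697 : CRun :=
  ⟨40, 340, 40, 113, 6, 5,
    2582249878086908589655919172003011874329705792829223513447055079309688147870329181858237869006014544603081978908990901990,
    2582249878086908589655919172003011874329705792829223513467014856757429066082835893007207449691942827988858048716269322785,
    2074757784440496479256203931845580575506223116121218449997828664845326405706454073199853524473551897144098943305650984176766014161237983999835117389615847239809009808392026837093258,
    [631, 620, 654, 630, 630, 606]⟩

set_option maxRecDepth 100000 in
theorem rk10_697_0 : chkC1 52 10 43 5 5 3 rd10_697.me rd10_697.mo gs10 [rd10_697.c0, rd10_697.c1] false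
    (Nat.beq (10 % 2) 1) rd10_697.v0 = true := by decide +kernel

set_option maxRecDepth 100000 in
theorem rk10_697_1 : chkC2 52 10 43 5 5 3 rd10_697.me rd10_697.mo gs10 [rd10_697.c0, rd10_697.c1]
    rd10_697.v1 = true := by decide +kernel

set_option maxRecDepth 100000 in
theorem rk10_697_2 : chkC1 52 10 43 5 5 3 rd10_697.me rd10_697.mo gs10 [rd10_697.c0, rd10_697.c1] true
    (Nat.beq (10 % 2) 0) rd10_697.v2 = true := by decide +kernel

/-- run 698 -/
def rd10_698 : CRun :=
  ⟨40, 344, 40, 115, 6, 5,
    2582249878086908589655919172003011874329705792829223513432812787423420717058200771833818144859860259469185086009714877633,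
    2582249878086908589655919172003011874329705792829223513437863393696526723494229158690046418919587543478644403891067138299,
    2074757784440496479256203931845580575506223116121218449997828664845326405706454073199853524473551897144098943305650967160899063502789956285998521589045049132201508642398693830902248,
    [685, 613, 710, 615, 690, 597]⟩

set_option maxRecDepth 100000 in
theorem rk10_698_0 : chkC1 52 10 43 5 5 3 rd10_698.me rd10_698.mo gs10 [rd10_698.c0, rd10_698.c1] false
    (Nat.beq (10 % 2) 1) rd10_698.v0 = true := by decide +kernel

set_option maxRecDepth 100000 in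
theorem rk10_698_1 : chkC2 52 10 43 5 5 3 rd10_698.me rd10_698.mo gs10 [rd10_698.c0, rd10_698.c1]
    rd10_698.v1 = true := by decide +kernel

set_option maxRecDepth 100000 in
theorem rk10_698_2 : chkC1 52 10 43 5 5 3 rd10_698.me rd10_698.mo gs10 [rd10_698.c0, rd10_698.c1] true
    (Nat.beq (10 % 2) 0) rd10_698.v2 = true := by decide +kernel

/-- run 699 -/
def rd10_699 : CRun :=
  ⟨40, 346, 40, 119, 6, 5,
    2582249878086908589655919172003011874329705792829223513466974683306322591325947343954898920626879772914013478895386767886,
    2582249878086908589655919172003011874329705792829223513486875004046425926898259002506451878296514734789019585367759041645,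
    2074757784440496479256203931845580575506223116121218449997828664845326405706454073199853524473551897144098943305651051690661005658455420619830465011221429607645590598650209189122577,
    [638, 630, 663, 640, 644, 640]⟩

set_option maxRecDepth 100000 in
theorem rk10_699_0 : chkC1 52 10 43 5 5 3 rd10_699.me rd10_699.mo gs10 [rd10_699.c0, rd10_699.c1] false
    (Nat.beq (10 % 2) 1) rd10_699.v0 = true := by decide +kernel

set_option maxRecDepth 100000 in
theorem rk10_699_1 : chkC2 52 10 43 5 5 3 rd10_699.me rd10_699.mo gs10 [rd10_699.c0, rd10_699.c1]
    rd10_699.v1 = true := by decide +kernel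

set_option maxRecDepth 100000 in
theorem rk10_699_2 : chkC1 52 10 43 5 5 3 rd10_699.me rd10_699.mo gs10 [rd10_699.c0, rd10_699.c1] true
    (Nat.beq (10 % 2) 0) rd10_699.v2 = true := by decide +kernel

/-- run 700 -/
def rd10_700 : CRun :=
  ⟨40, 356, 20, 121, 6, 5,
    2582249878086908589655919172003011874329705792829223513406908946149965793816464342905278603707202347209406465504656641563,
    2582249878086908589655919172003011874329705792829223513464058090755992523975838682757299710503301974480297709899314817762,
    2074757784440496479256203931845580575506223116121218449997828664845326405706454073199853524473551897144098943305650907729902434628293605642072498443487357451045986579588473044756230,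
    [643, 599, 674, 628, 648, 566]⟩

set_option maxRecDepth 100000 in
theorem rk10_700_0 : chkC1 52 10 43 5 5 3 rd10_700.me rd10_700.mo gs10 [rd10_700.c0, rd10_700.c1] false
    (Nat.beq (10 % 2) 1) rd10_700.v0 = true := by decide +kernel

set_option maxRecDepth 100000 in
theorem rk10_700_1 : chkC2 52 10 43 5 5 3 rd10_700.me rd10_700.mo gs10 [rd10_700.c0, rd10_700.c1]
    rd10_700.v1 = true := by decide +kernel

set_option maxRecDepth 100000 in
theorem rk10_700_2 : chkC1 52 10 43 5 5 3 rd10_700.me rd10_700.mo gs10 [rd10_700.c0, rd10_700.c1] true
    (Nat.beq (10 % 2) 0) rd10_700.v2 = true := by decide +kernel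

/-- run 701 -/
def rd10_701 : CRun :=
  ⟨40, 358, 40, 137, 6, 5,
    2582249878086908589655919172003011874329705792829223513460813682844633622609519461292862903208809646635850251164841280970,
    2582249878086908589655919172003011874329705792829223513448408121142954217682335513939989127917338239523847090476314699100,
    2074757784440496479256203931845580575506223116121218449997828664845326405706454073199853524473551897144098943305651017843724979431343246879482914029313532682483932551684719236222747,
    [629, 627, 660, 621, 631, 623]⟩

set_option maxRecDepth 100000 in
theorem rk10_701_0 : chkC1 52 10 43 5 5 3 rd10_701.me rd10_701.mo gs10 [rd10_701.c0, rd10_701.c1] false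
    (Nat.beq (10 % 2) 1) rd10_701.v0 = true := by decide +kernel

set_option maxRecDepth 100000 in
theorem rk10_701_1 : chkC2 52 10 43 5 5 3 rd10_701.me rd10_701.mo gs10 [rd10_701.c0, rd10_701.c1]
    rd10_701.v1 = true := by decide +kernel

set_option maxRecDepth 100000 in
theorem rk10_701_2 : chkC1 52 10 43 5 5 3 rd10_701.me rd10_701.mo gs10 [rd10_701.c0, rd10_701.c1] true
    (Nat.beq (10 % 2) 0) rd10_701.v2 = true := by decide +kernel

/-- run 702 -/
def rd10_702 : CRun :=
  ⟨40, 362, 40, 167, 6, 5,
    2582249878086908589655919172003011874329705792829223513462925199434789935831581599482199190868523821369680840950427324973,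
    2582249878086908589655919172003011874329705792829223513479370603379736442311478039535218648942736046808053942826901630690,
    2074757784440496479256203931845580575506223116121218449997828664845326405706454073199853524473551897144098943305651028521828283532333627855821017636339026442522826238343109813920763,
    [657, 628, 675, 636, 672, 629]⟩

set_option maxRecDepth 100000 in
theorem rk10_702_0 : chkC1 52 10 43 5 5 3 rd10_702.me rd10_702.mo gs10 [rd10_702.c0, rd10_702.c1] false
    (Nat.beq (10 % 2) 1) rd10_702.v0 = true := by decide +kernel

set_option maxRecDepth 100000 in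
theorem rk10_702_1 : chkC2 52 10 43 5 5 3 rd10_702.me rd10_702.mo gs10 [rd10_702.c0, rd10_702.c1]
    rd10_702.v1 = true := by decide +kernel

set_option maxRecDepth 100000 in
theorem rk10_702_2 : chkC1 52 10 43 5 5 3 rd10_702.me rd10_702.mo gs10 [rd10_702.c0, rd10_702.c1] true
    (Nat.beq (10 % 2) 0) rd10_702.v2 = true := by decide +kernel

/-- run 703 -/
def rd10_703 : CRun :=
  ⟨20, 364, 20, 173, 6, 5,
    2582249878086908589655919172003011874329705792829223513531544667800737338577774464749351516321426933610193660603466637263,
    2582249878086908589655919172003011874329705792829223513589074656723253449432452249617257478654324322990611426900091245440,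
    2074757784440496479256203931845580575506223116121218449997828664845326405706454073199853524473551897144098943305651140273120695435294359870490805317809893644085622875105255177428756,
    [621, 661, 657, 687, 607, 682]⟩

set_option maxRecDepth 100000 in
theorem rk10_703_0 : chkC1 52 10 43 5 5 3 rd10_703.me rd10_703.mo gs10 [rd10_703.c0, rd10_703.c1] false
    (Nat.beq (10 % 2) 1) rd10_703.v0 = true := by decide +kernel

set_option maxRecDepth 100000 in
theorem rk10_703_1 : chkC2 52 10 43 5 5 3 rd10_703.me rd10_703.mo gs10 [rd10_703.c0, rd10_703.c1]
    rd10_703.v1 = true := by decide +kernel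

set_option maxRecDepth 100000 in
theorem rk10_703_2 : chkC1 52 10 43 5 5 3 rd10_703.me rd10_703.mo gs10 [rd10_703.c0, rd10_703.c1] true
    (Nat.beq (10 % 2) 0) rd10_703.v2 = true := by decide +kernel

/-- runs of this file -/
def rds10_87 : List CRun :=
  [rd10_696, rd10_697, rd10_698, rd10_699, rd10_700, rd10_701, rd10_702, rd10_703]

theorem ac10_87 : allC 52 10 43 5 5 3 gs10 rds10_87 :=
  allC_cons rk10_696_0 rk10_696_1 rk10_696_2
    (allC_cons rk10_697_0 rk10_697_1 rk10_697_2
    (allC_cons rk10_698_0 rk10_698_1 rk10_698_2
    (allC_cons rk10_699_0 rk10_699_1 rk10_699_2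
    (allC_cons rk10_700_0 rk10_700_1 rk10_700_2
    (allC_cons rk10_701_0 rk10_701_1 rk10_701_2
    (allC_cons rk10_702_0 rk10_702_1 rk10_702_2
    (allC_cons rk10_703_0 rk10_703_1 rk10_703_2
    (allC_nil))))))))

end Crest.Agent.R347
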