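import Crest.Agent.R347.G10c

/-! Row 347, Chebyshev numerics, ring with 10 sites: run certificates 704..711 (generated) -/

set_option autoImplicit false
set_option Elab.async false

namespace Crest.Agent.R347

/-- run 704 -/
def rd10_704 : CRun :=
  ⟨40, 380, 40, 251, 6, 5,
    2582249878086908589655919172003011874329705792829223513404122515581220704678674580637159027754428847218187102728244074397,
    2582249878086908589655919172003011874329705792829223513419817479459498262699892924393055162893263203858463640350632614493,
    2074757784440496479256203931845580575506223116121218449997828664845326405706454073199853524473551897144098943305651013791027231810169771962654517144901449121487982231481188606166025,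
    [658, 598, 658, 606, 641, 621]⟩

set_option maxRecDepth 100000 in
theorem rk10_704_0 : chkC1 52 10 43 5 5 3 rd10_704.me rd10_704.mo gs10 [rd10_704.c0, rd10_704.c1] false
    (Nat.beq (10 % 2) 1) rd10_704.v0 = true := by decide +kernel

set_option maxRecDepth 100000 in
theorem rk10_704_1 : chkC2 52 10 43 5 5 3 rd10_704.me rd10_704.mo gs10 [rd10_704.c0, rd10_704.c1]
    rd10_704.v1 = true := by decide +kernel

set_option maxRecDepth 100000 in
theorem rk10_704_2 : chkC1 52 10 43 5 5 3 rd10_704.me rd10_704.mo gs10 [rd10_704.c0, rd10_704.c1] true
    (Nat.beq (10 % 2) 0) rd10_704.v2 = true := by decide +kernel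

/-- run 705 -/
def rd10_705 : CRun :=
  ⟨40, 410, 40, 257, 6, 5,
    2582249878086908589655919172003011874329705792829223513445036765126098856084248477470257368777246657642890791107852382418,
    2582249878086908589655919172003011874329705792829223513475440032923478952097502400257352165216966738285261231551754441170,
    2074757784440496479256203931845580575506223116121218449997828664845326405706454073199853524473551897144098943305651006757459412088569335915486438967632737881805478444196948492047384,
    [637, 619, 657, 634, 645, 618]⟩

set_option maxRecDepth 100000 in
theorem rk10_705_0 : chkC1 52 10 43 5 5 3 rd10_705.me rd10_705.mo gs10 [rd10_705.c0, rd10_705.c1] false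
    (Nat.beq (10 % 2) 1) rd10_705.v0 = true := by decide +kernel

set_option maxRecDepth 100000 in
theorem rk10_705_1 : chkC2 52 10 43 5 5 3 rd10_705.me rd10_705.mo gs10 [rd10_705.c0, rd10_705.c1]
    rd10_705.v1 = true := by decide +kernel

set_option maxRecDepth 100000 in
theorem rk10_705_2 : chkC1 52 10 43 5 5 3 rd10_705.me rd10_705.mo gs10 [rd10_705.c0, rd10_705.c1] true
    (Nat.beq (10 % 2) 0) rd10_705.v2 = true := by decide +kernel

/-- run 706 -/
def rd10_706 : CRun :=
  ⟨20, 412, 40, 259, 6, 5,
    2582249878086908589655919172003011874329705792829223513406245280737686830832665512561141703552360677372974172063677181700,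
    2582249878086908589655919172003011874329705792829223513442319432893256903528307019572108462816381612380404088423357776008,
    2074757784440496479256203931845580575506223116121218449997828664845326405706454073199853524473551897144098943305650961623390562986309466768397151381398720840689992066894583382291282,
    [650, 599, 653, 617, 638, 595]⟩

set_option maxRecDepth 100000 in
theorem rk10_706_0 : chkC1 52 10 43 5 5 3 rd10_706.me rd10_706.mo gs10 [rd10_706.c0, rd10_706.c1] false
    (Nat.beq (10 % 2) 1) rd10_706.v0 = true := by decide +kernel

set_option maxRecDepth 100000 in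
theorem rk10_706_1 : chkC2 52 10 43 5 5 3 rd10_706.me rd10_706.mo gs10 [rd10_706.c0, rd10_706.c1]
    rd10_706.v1 = true := by decide +kernel

set_option maxRecDepth 100000 in
theorem rk10_706_2 : chkC1 52 10 43 5 5 3 rd10_706.me rd10_706.mo gs10 [rd10_706.c0, rd10_706.c1] true
    (Nat.beq (10 % 2) 0) rd10_706.v2 = true := by decide +kernel

/-- run 707 -/
def rd10_707 : CRun :=
  ⟨40, 416, 40, 263, 6, 5,
    2582249878086908589655919172003011874329705792829223513499081305430617217031275746559875349425273388729793679744708290651,
    2582249878086908589655919172003011874329705792829223513573617519675526221972014116251027835580663252393414742617327347712,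
    2074757784440496479256203931845580575506223116121218449997828664845326405706454073199853524473551897144098943305651078577948362199880710987940194063554095009146082572339929451785714,
    [661, 645, 685, 680, 674, 653]⟩

set_option maxRecDepth 100000 in
theorem rk10_707_0 : chkC1 52 10 43 5 5 3 rd10_707.me rd10_707.mo gs10 [rd10_707.c0, rd10_707.c1] false
    (Nat.beq (10 % 2) 1) rd10_707.v0 = true := by decide +kernel

set_option maxRecDepth 100000 in
theorem rk10_707_1 : chkC2 52 10 43 5 5 3 rd10_707.me rd10_707.mo gs10 [rd10_707.c0, rd10_707.c1]
    rd10_707.v1 = true := by decide +kernel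

set_option maxRecDepth 100000 in
theorem rk10_707_2 : chkC1 52 10 43 5 5 3 rd10_707.me rd10_707.mo gs10 [rd10_707.c0, rd10_707.c1] true
    (Nat.beq (10 % 2) 0) rd10_707.v2 = true := by decide +kernel

/-- run 708 -/
def rd10_708 : CRun :=
  ⟨40, 434, 40, 265, 6, 5,
    2582249878086908589655919172003011874329705792829223513470808837479924542123390465507224934596497749257179222600415848598,
    2582249878086908589655919172003011874329705792829223513471694260342311245765214086620104915190487483106753541452666935098,
    2074757784440496479256203931845580575506223116121218449997828664845326405706454073199853524473551897144098943305651005647065223505607055515990633159889379538963209740287099298789884,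
    [636, 632, 658, 632, 639, 617]⟩

set_option maxRecDepth 100000 in
theorem rk10_708_0 : chkC1 52 10 43 5 5 3 rd10_708.me rd10_708.mo gs10 [rd10_708.c0, rd10_708.c1] false
    (Nat.beq (10 % 2) 1) rd10_708.v0 = true := by decide +kernel

set_option maxRecDepth 100000 in
theorem rk10_708_1 : chkC2 52 10 43 5 5 3 rd10_708.me rd10_708.mo gs10 [rd10_708.c0, rd10_708.c1]
    rd10_708.v1 = true := by decide +kernel

set_option maxRecDepth 100000 in
theorem rk10_708_2 : chkC1 52 10 43 5 5 3 rd10_708.me rd10_708.mo gs10 [rd10_708.c0, rd10_708.c1] true
    (Nat.beq (10 % 2) 0) rd10_708.v2 = true := by decide +kernel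

/-- run 709 -/
def rd10_709 : CRun :=
  ⟨40, 494, 40, 275, 6, 5,
    2582249878086908589655919172003011874329705792829223513480757390911931950919270752820909072268712707991688493043766662237,
    2582249878086908589655919172003011874329705792829223513493808941707403469937222568934903994926398040707192336452084454948,
    2074757784440496479256203931845580575506223116121218449997828664845326405706454073199853524473551897144098943305651040437273881712746520999469932346059724144658025137751983573546674,
    [632, 637, 645, 643, 612, 634]⟩

set_option maxRecDepth 100000 in
theorem rk10_709_0 : chkC1 52 10 43 5 5 3 rd10_709.me rd10_709.mo gs10 [rd10_709.c0, rd10_709.c1] false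
    (Nat.beq (10 % 2) 1) rd10_709.v0 = true := by decide +kernel

set_option maxRecDepth 100000 in
theorem rk10_709_1 : chkC2 52 10 43 5 5 3 rd10_709.me rd10_709.mo gs10 [rd10_709.c0, rd10_709.c1]
    rd10_709.v1 = true := by decide +kernel

set_option maxRecDepth 100000 in
theorem rk10_709_2 : chkC1 52 10 43 5 5 3 rd10_709.me rd10_709.mo gs10 [rd10_709.c0, rd10_709.c1] true
    (Nat.beq (10 % 2) 0) rd10_709.v2 = true := by decide +kernel

/-- run 710 -/
def rd10_710 : CRun :=
  ⟨40, 500, 40, 277, 6, 5,
    2582249878086908589655919172003011874329705792829223513451186517021478011868747566397646998057099128500097539288550776553,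
    2582249878086908589655919172003011874329705792829223513477551549513635265319564538446688452876680913019091821337340466920,
    2074757784440496479256203931845580575506223116121218449997828664845326405706454073199853524473551897144098943305650976204746376592387227036161177285108176127159957651956770906981929,
    [659, 622, 670, 635, 642, 602]⟩

set_option maxRecDepth 100000 in
theorem rk10_710_0 : chkC1 52 10 43 5 5 3 rd10_710.me rd10_710.mo gs10 [rd10_710.c0, rd10_710.c1] false
    (Nat.beq (10 % 2) 1) rd10_710.v0 = true := by decide +kernel

set_option maxRecDepth 100000 in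
theorem rk10_710_1 : chkC2 52 10 43 5 5 3 rd10_710.me rd10_710.mo gs10 [rd10_710.c0, rd10_710.c1]
    rd10_710.v1 = true := by decide +kernel

set_option maxRecDepth 100000 in
theorem rk10_710_2 : chkC1 52 10 43 5 5 3 rd10_710.me rd10_710.mo gs10 [rd10_710.c0, rd10_710.c1] true
    (Nat.beq (10 % 2) 0) rd10_710.v2 = true := by decide +kernel

/-- run 711 -/
def rd10_711 : CRun :=
  ⟨40, 506, 40, 281, 6, 5,
    2582249878086908589655919172003011874329705792829223513496359152383642487504507662775449419976600776858325628681707805451,
    2582249878086908589655919172003011874329705792829223513537953136721242191796635809573608072780285479149399438430648670507,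
    2074757784440496479256203931845580575506223116121218449997828664845326405706454073199853524473551897144098943305651068033220915772386522881584944120845097258450037369653344204220600,
    [695, 644, 729, 664, 720, 648]⟩

set_option maxRecDepth 100000 in
theorem rk10_711_0 : chkC1 52 10 43 5 5 3 rd10_711.me rd10_711.mo gs10 [rd10_711.c0, rd10_711.c1] false
    (Nat.beq (10 % 2) 1) rd10_711.v0 = true := by decide +kernel

set_option maxRecDepth 100000 in
theorem rk10_711_1 : chkC2 52 10 43 5 5 3 rd10_711.me rd10_711.mo gs10 [rd10_711.c0, rd10_711.c1]
    rd10_711.v1 = true := by decide +kernel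

set_option maxRecDepth 100000 in
theorem rk10_711_2 : chkC1 52 10 43 5 5 3 rd10_711.me rd10_711.mo gs10 [rd10_711.c0, rd10_711.c1] true
    (Nat.beq (10 % 2) 0) rd10_711.v2 = true := by decide +kernel

/-- runs of this file -/
def rds10_88 : List CRun :=
  [rd10_704, rd10_705, rd10_706, rd10_707, rd10_708, rd10_709, rd10_710, rd10_711]

theorem ac10_88 : allC 52 10 43 5 5 3 gs10 rds10_88 :=
  allC_cons rk10_704_0 rk10_704_1 rk10_704_2
    (allC_cons rk10_705_0 rk10_705_1 rk10_705_2
    (allC_cons rk10_706_0 rk10_706_1 rk10_706_2
    (allC_cons rk10_707_0 rk10_707_1 rk10_707_2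
    (allC_cons rk10_708_0 rk10_708_1 rk10_708_2
    (allC_cons rk10_709_0 rk10_709_1 rk10_709_2
    (allC_cons rk10_710_0 rk10_710_1 rk10_710_2
    (allC_cons rk10_711_0 rk10_711_1 rk10_711_2
    (allC_nil))))))))

end Crest.Agent.R347
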