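import Crest.Agent.R347.G10c

/-! Row 347, Chebyshev numerics, ring with 10 sites: run certificates 712..719 (generated) -/

set_option autoImplicit false
set_option Elab.async false

namespace Crest.Agent.R347

/-- run 712 -/
def rd10_712 : CRun :=
  ⟨40, 518, 40, 283, 6, 5,
    2582249878086908589655919172003011874329705792829223513432676197689658702884779705055969146038645872214713548618714256994,
    2582249878086908589655919172003011874329705792829223513494054803228175095449380489135032192804583937765241103755885626985,
    2074757784440496479256203931845580575506223116121218449997828664845326405706454073199853524473551897144098943305650965007602084195742987059769317851887161752449496973456294527037894,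
    [682, 613, 691, 643, 675, 596]⟩

set_option maxRecDepth 100000 in
theorem rk10_712_0 : chkC1 52 10 43 5 5 3 rd10_712.me rd10_712.mo gs10 [rd10_712.c0, rd10_712.c1] false
    (Nat.beq (10 % 2) 1) rd10_712.v0 = true := by decide +kernel

set_option maxRecDepth 100000 in
theorem rk10_712_1 : chkC2 52 10 43 5 5 3 rd10_712.me rd10_712.mo gs10 [rd10_712.c0, rd10_712.c1]
    rd10_712.v1 = true := by decide +kernel

set_option maxRecDepth 100000 in
theorem rk10_712_2 : chkC1 52 10 43 5 5 3 rd10_712.me rd10_712.mo gs10 [rd10_712.c0, rd10_712.c1] true
    (Nat.beq (10 % 2) 0) rd10_712.v2 = true := by decide +kernel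

/-- run 713 -/
def rd10_713 : CRun :=
  ⟨20, 524, 40, 289, 6, 5,
    2582249878086908589655919172003011874329705792829223513444080636989764756870301010025314377028745946861590029370848130229,
    2582249878086908589655919172003011874329705792829223513490323493089405720029572053156616013241527382413677458792315865623,
    2074757784440496479256203931845580575506223116121218449997828664845326405706454073199853524473551897144098943305651006792812049062267121977409604999138315137293944307418390868771942,
    [688, 618, 715, 641, 714, 618]⟩

set_option maxRecDepth 100000 in
theorem rk10_713_0 : chkC1 52 10 43 5 5 3 rd10_713.me rd10_713.mo gs10 [rd10_713.c0, rd10_713.c1] false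
    (Nat.beq (10 % 2) 1) rd10_713.v0 = true := by decide +kernel

set_option maxRecDepth 100000 in
theorem rk10_713_1 : chkC2 52 10 43 5 5 3 rd10_713.me rd10_713.mo gs10 [rd10_713.c0, rd10_713.c1]
    rd10_713.v1 = true := by decide +kernel

set_option maxRecDepth 100000 in
theorem rk10_713_2 : chkC1 52 10 43 5 5 3 rd10_713.me rd10_713.mo gs10 [rd10_713.c0, rd10_713.c1] true
    (Nat.beq (10 % 2) 0) rd10_713.v2 = true := by decide +kernel

/-- run 714 -/
def rd10_714 : CRun :=
  ⟨20, 572, 40, 299, 6, 5,
    2582249878086908589655919172003011874329705792829223513506564815902731334744474664023908143665219288071840145978706788466,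
    2582249878086908589655919172003011874329705792829223513559543956283905985138817612246303933507773798573865042965757855683,
    2074757784440496479256203931845580575506223116121218449997828664845326405706454073199853524473551897144098943305651065534432256949656644413833890530337250336424382037410485310464567,
    [653, 649, 655, 674, 635, 647]⟩

set_option maxRecDepth 100000 in
theorem rk10_714_0 : chkC1 52 10 43 5 5 3 rd10_714.me rd10_714.mo gs10 [rd10_714.c0, rd10_714.c1] false
    (Nat.beq (10 % 2) 1) rd10_714.v0 = true := by decide +kernel

set_option maxRecDepth 100000 in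
theorem rk10_714_1 : chkC2 52 10 43 5 5 3 rd10_714.me rd10_714.mo gs10 [rd10_714.c0, rd10_714.c1]
    rd10_714.v1 = true := by decide +kernel

set_option maxRecDepth 100000 in
theorem rk10_714_2 : chkC1 52 10 43 5 5 3 rd10_714.me rd10_714.mo gs10 [rd10_714.c0, rd10_714.c1] true
    (Nat.beq (10 % 2) 0) rd10_714.v2 = true := by decide +kernel

/-- run 715 -/
def rd10_715 : CRun :=
  ⟨40, 746, 40, 301, 6, 5,
    2582249878086908589655919172003011874329705792829223513467090382845509238625786365225547484334261371529565839979528419131,
    2582249878086908589655919172003011874329705792829223513533670646833291982712316480597518874444563808170968295524570377720,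
    2074757784440496479256203931845580575506223116121218449997828664845326405706454073199853524473551897144098943305651074555782437419628051306409076933624100896071989134009462692366853,
    [599, 630, 637, 662, 616, 651]⟩

set_option maxRecDepth 100000 in
theorem rk10_715_0 : chkC1 52 10 43 5 5 3 rd10_715.me rd10_715.mo gs10 [rd10_715.c0, rd10_715.c1] false
    (Nat.beq (10 % 2) 1) rd10_715.v0 = true := by decide +kernel

set_option maxRecDepth 100000 in
theorem rk10_715_1 : chkC2 52 10 43 5 5 3 rd10_715.me rd10_715.mo gs10 [rd10_715.c0, rd10_715.c1]
    rd10_715.v1 = true := by decide +kernel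

set_option maxRecDepth 100000 in
theorem rk10_715_2 : chkC1 52 10 43 5 5 3 rd10_715.me rd10_715.mo gs10 [rd10_715.c0, rd10_715.c1] true
    (Nat.beq (10 % 2) 0) rd10_715.v2 = true := by decide +kernel

/-- run 716 -/
def rd10_716 : CRun :=
  ⟨20, 752, 40, 329, 6, 5,
    2582249878086908589655919172003011874329705792829223513433161492979024917947993377607856177144607577518835952054975219923,
    2582249878086908589655919172003011874329705792829223513470448883358010528301669065998540514173532775786571877005308368341,
    2074757784440496479256203931845580575506223116121218449997828664845326405706454073199853524473551897144098943305650994555978842030056173725368271821185096930718146651450950048698757,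
    [642, 613, 657, 631, 644, 612]⟩

set_option maxRecDepth 100000 in
theorem rk10_716_0 : chkC1 52 10 43 5 5 3 rd10_716.me rd10_716.mo gs10 [rd10_716.c0, rd10_716.c1] false
    (Nat.beq (10 % 2) 1) rd10_716.v0 = true := by decide +kernel

set_option maxRecDepth 100000 in
theorem rk10_716_1 : chkC2 52 10 43 5 5 3 rd10_716.me rd10_716.mo gs10 [rd10_716.c0, rd10_716.c1]
    rd10_716.v1 = true := by decide +kernel

set_option maxRecDepth 100000 in
theorem rk10_716_2 : chkC1 52 10 43 5 5 3 rd10_716.me rd10_716.mo gs10 [rd10_716.c0, rd10_716.c1] true
    (Nat.beq (10 % 2) 0) rd10_716.v2 = true := by decide +kernel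

/-- run 717 -/
def rd10_717 : CRun :=
  ⟨40, 764, 40, 331, 6, 5,
    2582249878086908589655919172003011874329705792829223513418901524774270638242834006000420700209825548152007448434510815410,
    2582249878086908589655919172003011874329705792829223513475965501663951641917604621861547725387991498664228204808897992103,
    2074757784440496479256203931845580575506223116121218449997828664845326405706454073199853524473551897144098943305651022564908953464256676421767541327649258892716328285530069351672865,
    [647, 606, 657, 634, 637, 626]⟩

set_option maxRecDepth 100000 in
theorem rk10_717_0 : chkC1 52 10 43 5 5 3 rd10_717.me rd10_717.mo gs10 [rd10_717.c0, rd10_717.c1] false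
    (Nat.beq (10 % 2) 1) rd10_717.v0 = true := by decide +kernel

set_option maxRecDepth 100000 in
theorem rk10_717_1 : chkC2 52 10 43 5 5 3 rd10_717.me rd10_717.mo gs10 [rd10_717.c0, rd10_717.c1]
    rd10_717.v1 = true := by decide +kernel

set_option maxRecDepth 100000 in
theorem rk10_717_2 : chkC1 52 10 43 5 5 3 rd10_717.me rd10_717.mo gs10 [rd10_717.c0, rd10_717.c1] true
    (Nat.beq (10 % 2) 0) rd10_717.v2 = true := by decide +kernel

/-- run 718 -/
def rd10_718 : CRun :=
  ⟨40, 770, 40, 335, 6, 5,
    2582249878086908589655919172003011874329705792829223513511273144372410176251812612954467750090609342843623728986139817774,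
    2582249878086908589655919172003011874329705792829223513551464271797371782033392626846012567942292161921125160589862548216,
    2074757784440496479256203931845580575506223116121218449997828664845326405706454073199853524473551897144098943305651075233910292096921947585117079901594719160441652510348039189577772,
    [651, 651, 663, 670, 641, 651]⟩

set_option maxRecDepth 100000 in
theorem rk10_718_0 : chkC1 52 10 43 5 5 3 rd10_718.me rd10_718.mo gs10 [rd10_718.c0, rd10_718.c1] false
    (Nat.beq (10 % 2) 1) rd10_718.v0 = true := by decide +kernel

set_option maxRecDepth 100000 in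
theorem rk10_718_1 : chkC2 52 10 43 5 5 3 rd10_718.me rd10_718.mo gs10 [rd10_718.c0, rd10_718.c1]
    rd10_718.v1 = true := by decide +kernel

set_option maxRecDepth 100000 in
theorem rk10_718_2 : chkC1 52 10 43 5 5 3 rd10_718.me rd10_718.mo gs10 [rd10_718.c0, rd10_718.c1] true
    (Nat.beq (10 % 2) 0) rd10_718.v2 = true := by decide +kernel

/-- run 719 -/
def rd10_719 : CRun :=
  ⟨40, 772, 40, 337, 6, 5,
    2582249878086908589655919172003011874329705792829223513434077447664252542405052296000490639828045233225292143971096977588,
    2582249878086908589655919172003011874329705792829223513477125710931906632896545918492218044787012529225739381235985569347,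
    2074757784440496479256203931845580575506223116121218449997828664845326405706454073199853524473551897144098943305651000573961817779974755630016307638839043376368358368010118252339623,
    [621, 613, 645, 635, 634, 615]⟩

set_option maxRecDepth 100000 in
theorem rk10_719_0 : chkC1 52 10 43 5 5 3 rd10_719.me rd10_719.mo gs10 [rd10_719.c0, rd10_719.c1] false
    (Nat.beq (10 % 2) 1) rd10_719.v0 = true := by decide +kernel

set_option maxRecDepth 100000 in
theorem rk10_719_1 : chkC2 52 10 43 5 5 3 rd10_719.me rd10_719.mo gs10 [rd10_719.c0, rd10_719.c1]
    rd10_719.v1 = true := by decide +kernel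

set_option maxRecDepth 100000 in
theorem rk10_719_2 : chkC1 52 10 43 5 5 3 rd10_719.me rd10_719.mo gs10 [rd10_719.c0, rd10_719.c1] true
    (Nat.beq (10 % 2) 0) rd10_719.v2 = true := by decide +kernel

/-- runs of this file -/
def rds10_89 : List CRun :=
  [rd10_712, rd10_713, rd10_714, rd10_715, rd10_716, rd10_717, rd10_718, rd10_719]

theorem ac10_89 : allC 52 10 43 5 5 3 gs10 rds10_89 :=
  allC_cons rk10_712_0 rk10_712_1 rk10_712_2
    (allC_cons rk10_713_0 rk10_713_1 rk10_713_2
    (allC_cons rk10_714_0 rk10_714_1 rk10_714_2
    (allC_cons rk10_715_0 rk10_715_1 rk10_715_2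
    (allC_cons rk10_716_0 rk10_716_1 rk10_716_2
    (allC_cons rk10_717_0 rk10_717_1 rk10_717_2
    (allC_cons rk10_718_0 rk10_718_1 rk10_718_2
    (allC_cons rk10_719_0 rk10_719_1 rk10_719_2
    (allC_nil))))))))

end Crest.Agent.R347
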