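import Crest.Agent.R347.G10c

/-! Row 347, Chebyshev numerics, ring with 10 sites: run certificates 720..727 (generated) -/

set_option autoImplicit false
set_option Elab.async false

namespace Crest.Agent.R347

/-- run 720 -/
def rd10_720 : CRun :=
  ⟨40, 776, 40, 353, 6, 5,
    2582249878086908589655919172003011874329705792829223513475412714976726549262818186901782365452723860834366924073554336487,
    2582249878086908589655919172003011874329705792829223513486770553073549092530348774970449702727350791594423703833464485251,
    2074757784440496479256203931845580575506223116121218449997828664845326405706454073199853524473551897144098943305651058881708753717436903670110828237924075894503987776648147162824354,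
    [671, 634, 688, 639, 678, 643]⟩

set_option maxRecDepth 100000 in
theorem rk10_720_0 : chkC1 52 10 43 5 5 3 rd10_720.me rd10_720.mo gs10 [rd10_720.c0, rd10_720.c1] false
    (Nat.beq (10 % 2) 1) rd10_720.v0 = true := by decide +kernel

set_option maxRecDepth 100000 in
theorem rk10_720_1 : chkC2 52 10 43 5 5 3 rd10_720.me rd10_720.mo gs10 [rd10_720.c0, rd10_720.c1]
    rd10_720.v1 = true := by decide +kernel

set_option maxRecDepth 100000 in
theorem rk10_720_2 : chkC1 52 10 43 5 5 3 rd10_720.me rd10_720.mo gs10 [rd10_720.c0, rd10_720.c1] true
    (Nat.beq (10 % 2) 0) rd10_720.v2 = true := by decide +kernel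

/-- run 721 -/
def rd10_721 : CRun :=
  ⟨40, 778, 40, 407, 6, 5,
    2582249878086908589655919172003011874329705792829223513490444013442725144300237700313541600436716547638211168254963340157,
    2582249878086908589655919172003011874329705792829223513481001645494659317441153131058944928984296082846743477554732497902,
    2074757784440496479256203931845580575506223116121218449997828664845326405706454073199853524473551897144098943305651042897496027473260632854213895720379668606150808619207814419993245,
    [618, 641, 652, 637, 644, 636]⟩

set_option maxRecDepth 100000 in
theorem rk10_721_0 : chkC1 52 10 43 5 5 3 rd10_721.me rd10_721.mo gs10 [rd10_721.c0, rd10_721.c1] false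
    (Nat.beq (10 % 2) 1) rd10_721.v0 = true := by decide +kernel

set_option maxRecDepth 100000 in
theorem rk10_721_1 : chkC2 52 10 43 5 5 3 rd10_721.me rd10_721.mo gs10 [rd10_721.c0, rd10_721.c1]
    rd10_721.v1 = true := by decide +kernel

set_option maxRecDepth 100000 in
theorem rk10_721_2 : chkC1 52 10 43 5 5 3 rd10_721.me rd10_721.mo gs10 [rd10_721.c0, rd10_721.c1] true
    (Nat.beq (10 % 2) 0) rd10_721.v2 = true := by decide +kernel

/-- run 722 -/
def rd10_722 : CRun :=
  ⟨40, 788, 40, 491, 6, 5,
    2582249878086908589655919172003011874329705792829223513476854138402426863539979326898612388307186276919790089246819673178,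
    2582249878086908589655919172003011874329705792829223513483317243216436522428209098434008544294530577360784482030401826572,
    2074757784440496479256203931845580575506223116121218449997828664845326405706454073199853524473551897144098943305651020941901528762676498124385828063075030345291304564909305697324306,
    [673, 635, 687, 638, 668, 625]⟩

set_option maxRecDepth 100000 in
theorem rk10_722_0 : chkC1 52 10 43 5 5 3 rd10_722.me rd10_722.mo gs10 [rd10_722.c0, rd10_722.c1] false
    (Nat.beq (10 % 2) 1) rd10_722.v0 = true := by decide +kernel

set_option maxRecDepth 100000 in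
theorem rk10_722_1 : chkC2 52 10 43 5 5 3 rd10_722.me rd10_722.mo gs10 [rd10_722.c0, rd10_722.c1]
    rd10_722.v1 = true := by decide +kernel

set_option maxRecDepth 100000 in
theorem rk10_722_2 : chkC1 52 10 43 5 5 3 rd10_722.me rd10_722.mo gs10 [rd10_722.c0, rd10_722.c1] true
    (Nat.beq (10 % 2) 0) rd10_722.v2 = true := by decide +kernel

/-- run 723 -/
def rd10_723 : CRun :=
  ⟨40, 790, 40, 497, 6, 5,
    2582249878086908589655919172003011874329705792829223513501543134514421990133406032485342010532337403716268918368390012151,
    2582249878086908589655919172003011874329705792829223513547276591254032853375330273633371498200119300919327202461067197997,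
    2074757784440496479256203931845580575506223116121218449997828664845326405706454073199853524473551897144098943305651113990042043535249413106158822985754366790933456563745640988211577,
    [671, 647, 689, 668, 677, 670]⟩

set_option maxRecDepth 100000 in
theorem rk10_723_0 : chkC1 52 10 43 5 5 3 rd10_723.me rd10_723.mo gs10 [rd10_723.c0, rd10_723.c1] false
    (Nat.beq (10 % 2) 1) rd10_723.v0 = true := by decide +kernel

set_option maxRecDepth 100000 in
theorem rk10_723_1 : chkC2 52 10 43 5 5 3 rd10_723.me rd10_723.mo gs10 [rd10_723.c0, rd10_723.c1]
    rd10_723.v1 = true := by decide +kernel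

set_option maxRecDepth 100000 in
theorem rk10_723_2 : chkC1 52 10 43 5 5 3 rd10_723.me rd10_723.mo gs10 [rd10_723.c0, rd10_723.c1] true
    (Nat.beq (10 % 2) 0) rd10_723.v2 = true := by decide +kernel

/-- run 724 -/
def rd10_724 : CRun :=
  ⟨40, 794, 40, 743, 6, 5,
    2582249878086908589655919172003011874329705792829223513383680656720202089383505280860487098287743902934276195070375292681,
    2582249878086908589655919172003011874329705792829223513466421896619097498671160908995133560691612135084152198160043172205,
    2074757784440496479256203931845580575506223116121218449997828664845326405706454073199853524473551897144098943305651016236786935172352971337520821688150930160280938768891883934902892,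
    [675, 587, 696, 629, 674, 622]⟩

set_option maxRecDepth 100000 in
theorem rk10_724_0 : chkC1 52 10 43 5 5 3 rd10_724.me rd10_724.mo gs10 [rd10_724.c0, rd10_724.c1] false
    (Nat.beq (10 % 2) 1) rd10_724.v0 = true := by decide +kernel

set_option maxRecDepth 100000 in
theorem rk10_724_1 : chkC2 52 10 43 5 5 3 rd10_724.me rd10_724.mo gs10 [rd10_724.c0, rd10_724.c1]
    rd10_724.v1 = true := by decide +kernel

set_option maxRecDepth 100000 in
theorem rk10_724_2 : chkC1 52 10 43 5 5 3 rd10_724.me rd10_724.mo gs10 [rd10_724.c0, rd10_724.c1] true
    (Nat.beq (10 % 2) 0) rd10_724.v2 = true := by decide +kernel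

/-- run 725 -/
def rd10_725 : CRun :=
  ⟨40, 796, 20, 745, 6, 5,
    2582249878086908589655919172003011874329705792829223513402955878561088677738631116158119343704997727844700795129815253185,
    2582249878086908589655919172003011874329705792829223513440318795028154460635257276767143715376241469653144511343407566014,
    2074757784440496479256203931845580575506223116121218449997828664845326405706454073199853524473551897144098943305650969315802980854095915787769687418544099114475723305123885969971267,
    [641, 597, 656, 616, 633, 599]⟩

set_option maxRecDepth 100000 in
theorem rk10_725_0 : chkC1 52 10 43 5 5 3 rd10_725.me rd10_725.mo gs10 [rd10_725.c0, rd10_725.c1] false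
    (Nat.beq (10 % 2) 1) rd10_725.v0 = true := by decide +kernel

set_option maxRecDepth 100000 in
theorem rk10_725_1 : chkC2 52 10 43 5 5 3 rd10_725.me rd10_725.mo gs10 [rd10_725.c0, rd10_725.c1]
    rd10_725.v1 = true := by decide +kernel

set_option maxRecDepth 100000 in
theorem rk10_725_2 : chkC1 52 10 43 5 5 3 rd10_725.me rd10_725.mo gs10 [rd10_725.c0, rd10_725.c1] true
    (Nat.beq (10 % 2) 0) rd10_725.v2 = true := by decide +kernel

/-- run 726 -/
def rd10_726 : CRun :=
  ⟨40, 802, 20, 749, 6, 5,
    2582249878086908589655919172003011874329705792829223513480844165566321936394150018773895495049248906953352763856872940049,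
    2582249878086908589655919172003011874329705792829223513559908731219952775931365637641265377418546338653453736939371265728,
    2074757784440496479256203931845580575506223116121218449997828664845326405706454073199853524473551897144098943305651092792922301714908688432136862913478476920553765574925350527704444,
    [634, 637, 653, 674, 634, 660]⟩

set_option maxRecDepth 100000 in
theorem rk10_726_0 : chkC1 52 10 43 5 5 3 rd10_726.me rd10_726.mo gs10 [rd10_726.c0, rd10_726.c1] false
    (Nat.beq (10 % 2) 1) rd10_726.v0 = true := by decide +kernel

set_option maxRecDepth 100000 in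
theorem rk10_726_1 : chkC2 52 10 43 5 5 3 rd10_726.me rd10_726.mo gs10 [rd10_726.c0, rd10_726.c1]
    rd10_726.v1 = true := by decide +kernel

set_option maxRecDepth 100000 in
theorem rk10_726_2 : chkC1 52 10 43 5 5 3 rd10_726.me rd10_726.mo gs10 [rd10_726.c0, rd10_726.c1] true
    (Nat.beq (10 % 2) 0) rd10_726.v2 = true := by decide +kernel

/-- run 727 -/
def rd10_727 : CRun :=
  ⟨40, 818, 40, 761, 6, 5,
    2582249878086908589655919172003011874329705792829223513488743872991899132588714304419844650403248056870788973435214509906,
    2582249878086908589655919172003011874329705792829223513483050491501089530042469132726679911302511891663816538419741747325,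
    2074757784440496479256203931845580575506223116121218449997828664845326405706454073199853524473551897144098943305651040509586093704401083398858226501412041258157159857977661162134070,
    [639, 640, 649, 638, 633, 634]⟩

set_option maxRecDepth 100000 in
theorem rk10_727_0 : chkC1 52 10 43 5 5 3 rd10_727.me rd10_727.mo gs10 [rd10_727.c0, rd10_727.c1] false
    (Nat.beq (10 % 2) 1) rd10_727.v0 = true := by decide +kernel

set_option maxRecDepth 100000 in
theorem rk10_727_1 : chkC2 52 10 43 5 5 3 rd10_727.me rd10_727.mo gs10 [rd10_727.c0, rd10_727.c1]
    rd10_727.v1 = true := by decide +kernel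

set_option maxRecDepth 100000 in
theorem rk10_727_2 : chkC1 52 10 43 5 5 3 rd10_727.me rd10_727.mo gs10 [rd10_727.c0, rd10_727.c1] true
    (Nat.beq (10 % 2) 0) rd10_727.v2 = true := by decide +kernel

/-- runs of this file -/
def rds10_90 : List CRun :=
  [rd10_720, rd10_721, rd10_722, rd10_723, rd10_724, rd10_725, rd10_726, rd10_727]

theorem ac10_90 : allC 52 10 43 5 5 3 gs10 rds10_90 :=
  allC_cons rk10_720_0 rk10_720_1 rk10_720_2
    (allC_cons rk10_721_0 rk10_721_1 rk10_721_2
    (allC_cons rk10_722_0 rk10_722_1 rk10_722_2
    (allC_cons rk10_723_0 rk10_723_1 rk10_723_2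
    (allC_cons rk10_724_0 rk10_724_1 rk10_724_2
    (allC_cons rk10_725_0 rk10_725_1 rk10_725_2
    (allC_cons rk10_726_0 rk10_726_1 rk10_726_2
    (allC_cons rk10_727_0 rk10_727_1 rk10_727_2
    (allC_nil))))))))

end Crest.Agent.R347
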