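import Crest.Agent.R347.G10c

/-! Row 347, Chebyshev numerics, ring with 10 sites: run certificates 728..735 (generated) -/

set_option autoImplicit false
set_option Elab.async false

namespace Crest.Agent.R347

/-- run 728 -/
def rd10_728 : CRun :=
  ⟨40, 824, 40, 763, 6, 5,
    2582249878086908589655919172003011874329705792829223513489364151076983102835073501787488339167821627226389131469640841166,
    2582249878086908589655919172003011874329705792829223513487043732541073120877190908526147700369779566103366778615465701474,
    2074757784440496479256203931845580575506223116121218449997828664845326405706454073199853524473551897144098943305651021060814944037841778514491022896321062931934326104835975509625382,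
    [639, 641, 675, 640, 668, 625]⟩

set_option maxRecDepth 100000 in
theorem rk10_728_0 : chkC1 52 10 43 5 5 3 rd10_728.me rd10_728.mo gs10 [rd10_728.c0, rd10_728.c1] false
    (Nat.beq (10 % 2) 1) rd10_728.v0 = true := by decide +kernel

set_option maxRecDepth 100000 in
theorem rk10_728_1 : chkC2 52 10 43 5 5 3 rd10_728.me rd10_728.mo gs10 [rd10_728.c0, rd10_728.c1]
    rd10_728.v1 = true := by decide +kernel

set_option maxRecDepth 100000 in
theorem rk10_728_2 : chkC1 52 10 43 5 5 3 rd10_728.me rd10_728.mo gs10 [rd10_728.c0, rd10_728.c1] true
    (Nat.beq (10 % 2) 0) rd10_728.v2 = true := by decide +kernel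

/-- run 729 -/
def rd10_729 : CRun :=
  ⟨40, 826, 40, 767, 6, 5,
    2582249878086908589655919172003011874329705792829223513505303369537988027378174223781420331022239358721720653602995184188,
    2582249878086908589655919172003011874329705792829223513535507377017880008597260943269064823299246686192862027735319872785,
    2074757784440496479256203931845580575506223116121218449997828664845326405706454073199853524473551897144098943305651076517853789459855177743144791682183638575681844542799514595394914,
    [635, 648, 654, 663, 654, 652]⟩

set_option maxRecDepth 100000 in
theorem rk10_729_0 : chkC1 52 10 43 5 5 3 rd10_729.me rd10_729.mo gs10 [rd10_729.c0, rd10_729.c1] false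
    (Nat.beq (10 % 2) 1) rd10_729.v0 = true := by decide +kernel

set_option maxRecDepth 100000 in
theorem rk10_729_1 : chkC2 52 10 43 5 5 3 rd10_729.me rd10_729.mo gs10 [rd10_729.c0, rd10_729.c1]
    rd10_729.v1 = true := by decide +kernel

set_option maxRecDepth 100000 in
theorem rk10_729_2 : chkC1 52 10 43 5 5 3 rd10_729.me rd10_729.mo gs10 [rd10_729.c0, rd10_729.c1] true
    (Nat.beq (10 % 2) 0) rd10_729.v2 = true := by decide +kernel

/-- run 730 -/
def rd10_730 : CRun :=
  ⟨40, 830, 40, 769, 6, 5,
    2582249878086908589655919172003011874329705792829223513416081348506596110309257862528361959842399081897918647008556970796,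
    2582249878086908589655919172003011874329705792829223513474331245672940248807378446413636763021226418219551104495396601322,
    2074757784440496479256203931845580575506223116121218449997828664845326405706454073199853524473551897144098943305650991898103316825686257978962971088902152358994394934711600460329024,
    [699, 604, 735, 633, 722, 610]⟩

set_option maxRecDepth 100000 in
theorem rk10_730_0 : chkC1 52 10 43 5 5 3 rd10_730.me rd10_730.mo gs10 [rd10_730.c0, rd10_730.c1] false
    (Nat.beq (10 % 2) 1) rd10_730.v0 = true := by decide +kernel

set_option maxRecDepth 100000 in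
theorem rk10_730_1 : chkC2 52 10 43 5 5 3 rd10_730.me rd10_730.mo gs10 [rd10_730.c0, rd10_730.c1]
    rd10_730.v1 = true := by decide +kernel

set_option maxRecDepth 100000 in
theorem rk10_730_2 : chkC1 52 10 43 5 5 3 rd10_730.me rd10_730.mo gs10 [rd10_730.c0, rd10_730.c1] true
    (Nat.beq (10 % 2) 0) rd10_730.v2 = true := by decide +kernel

/-- run 731 -/
def rd10_731 : CRun :=
  ⟨40, 832, 40, 775, 6, 5,
    2582249878086908589655919172003011874329705792829223513414694560974400601701465149242671536516422420714284096791691829114,
    2582249878086908589655919172003011874329705792829223513473828274065087184851133812278733979126636968682497090337947190552,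
    2074757784440496479256203931845580575506223116121218449997828664845326405706454073199853524473551897144098943305651027809954729925600935790731810729203993525186899992565883775383238,
    [659, 603, 679, 633, 651, 628]⟩

set_option maxRecDepth 100000 in
theorem rk10_731_0 : chkC1 52 10 43 5 5 3 rd10_731.me rd10_731.mo gs10 [rd10_731.c0, rd10_731.c1] false
    (Nat.beq (10 % 2) 1) rd10_731.v0 = true := by decide +kernel

set_option maxRecDepth 100000 in
theorem rk10_731_1 : chkC2 52 10 43 5 5 3 rd10_731.me rd10_731.mo gs10 [rd10_731.c0, rd10_731.c1]
    rd10_731.v1 = true := by decide +kernel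

set_option maxRecDepth 100000 in
theorem rk10_731_2 : chkC1 52 10 43 5 5 3 rd10_731.me rd10_731.mo gs10 [rd10_731.c0, rd10_731.c1] true
    (Nat.beq (10 % 2) 0) rd10_731.v2 = true := by decide +kernel

/-- run 732 -/
def rd10_732 : CRun :=
  ⟨40, 842, 40, 785, 6, 5,
    2582249878086908589655919172003011874329705792829223513476778612314346690997028854680272353664867733379082297983560489877,
    2582249878086908589655919172003011874329705792829223513557662231834078707526157974636172432100220298868145392555619973297,
    2074757784440496479256203931845580575506223116121218449997828664845326405706454073199853524473551897144098943305651146900133189959370256205542474132764466445650769235342907960363392,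
    [659, 635, 676, 673, 655, 685]⟩

set_option maxRecDepth 100000 in
theorem rk10_732_0 : chkC1 52 10 43 5 5 3 rd10_732.me rd10_732.mo gs10 [rd10_732.c0, rd10_732.c1] false
    (Nat.beq (10 % 2) 1) rd10_732.v0 = true := by decide +kernel

set_option maxRecDepth 100000 in
theorem rk10_732_1 : chkC2 52 10 43 5 5 3 rd10_732.me rd10_732.mo gs10 [rd10_732.c0, rd10_732.c1]
    rd10_732.v1 = true := by decide +kernel

set_option maxRecDepth 100000 in
theorem rk10_732_2 : chkC1 52 10 43 5 5 3 rd10_732.me rd10_732.mo gs10 [rd10_732.c0, rd10_732.c1] true
    (Nat.beq (10 % 2) 0) rd10_732.v2 = true := by decide +kernel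

/-- run 733 -/
def rd10_733 : CRun :=
  ⟨40, 844, 40, 787, 6, 5,
    2582249878086908589655919172003011874329705792829223513471432329441097030350300746799053305686276364018766946220512817786,
    2582249878086908589655919172003011874329705792829223513528139566084952538183901047075680592766682385466367922585463101965,
    2074757784440496479256203931845580575506223116121218449997828664845326405706454073199853524473551897144098943305651096273550105579881625256026754924436673983645450108454631790510827,
    [663, 632, 683, 659, 654, 661]⟩

set_option maxRecDepth 100000 in
theorem rk10_733_0 : chkC1 52 10 43 5 5 3 rd10_733.me rd10_733.mo gs10 [rd10_733.c0, rd10_733.c1] false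
    (Nat.beq (10 % 2) 1) rd10_733.v0 = true := by decide +kernel

set_option maxRecDepth 100000 in
theorem rk10_733_1 : chkC2 52 10 43 5 5 3 rd10_733.me rd10_733.mo gs10 [rd10_733.c0, rd10_733.c1]
    rd10_733.v1 = true := by decide +kernel

set_option maxRecDepth 100000 in
theorem rk10_733_2 : chkC1 52 10 43 5 5 3 rd10_733.me rd10_733.mo gs10 [rd10_733.c0, rd10_733.c1] true
    (Nat.beq (10 % 2) 0) rd10_733.v2 = true := by decide +kernel

/-- run 734 -/
def rd10_734 : CRun :=
  ⟨40, 848, 40, 793, 6, 5,
    2582249878086908589655919172003011874329705792829223513484622076908374822531949171652989568327778606191736109812666527995,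
    2582249878086908589655919172003011874329705792829223513488461051896109550300218919091592605785204149143883201896201538934,
    2074757784440496479256203931845580575506223116121218449997828664845326405706454073199853524473551897144098943305651047792229310286145012155030428991560955888781127681594790748030154,
    [675, 638, 692, 640, 679, 638]⟩

set_option maxRecDepth 100000 in
theorem rk10_734_0 : chkC1 52 10 43 5 5 3 rd10_734.me rd10_734.mo gs10 [rd10_734.c0, rd10_734.c1] false
    (Nat.beq (10 % 2) 1) rd10_734.v0 = true := by decide +kernel

set_option maxRecDepth 100000 in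
theorem rk10_734_1 : chkC2 52 10 43 5 5 3 rd10_734.me rd10_734.mo gs10 [rd10_734.c0, rd10_734.c1]
    rd10_734.v1 = true := by decide +kernel

set_option maxRecDepth 100000 in
theorem rk10_734_2 : chkC1 52 10 43 5 5 3 rd10_734.me rd10_734.mo gs10 [rd10_734.c0, rd10_734.c1] true
    (Nat.beq (10 % 2) 0) rd10_734.v2 = true := by decide +kernel

/-- run 735 -/
def rd10_735 : CRun :=
  ⟨40, 850, 40, 815, 6, 5,
    2582249878086908589655919172003011874329705792829223513453600137963955015262611593460343424286087477396759294127173422368,
    2582249878086908589655919172003011874329705792829223513485046308552059195964692249645367635254844467782094767121186084124,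
    2074757784440496479256203931845580575506223116121218449997828664845326405706454073199853524473551897144098943305651021685913843254588995700314276817033315313071290686342388441833709,
    [643, 623, 670, 639, 647, 625]⟩

set_option maxRecDepth 100000 in
theorem rk10_735_0 : chkC1 52 10 43 5 5 3 rd10_735.me rd10_735.mo gs10 [rd10_735.c0, rd10_735.c1] false
    (Nat.beq (10 % 2) 1) rd10_735.v0 = true := by decide +kernel

set_option maxRecDepth 100000 in
theorem rk10_735_1 : chkC2 52 10 43 5 5 3 rd10_735.me rd10_735.mo gs10 [rd10_735.c0, rd10_735.c1]
    rd10_735.v1 = true := by decide +kernel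

set_option maxRecDepth 100000 in
theorem rk10_735_2 : chkC1 52 10 43 5 5 3 rd10_735.me rd10_735.mo gs10 [rd10_735.c0, rd10_735.c1] true
    (Nat.beq (10 % 2) 0) rd10_735.v2 = true := by decide +kernel

/-- runs of this file -/
def rds10_91 : List CRun :=
  [rd10_728, rd10_729, rd10_730, rd10_731, rd10_732, rd10_733, rd10_734, rd10_735]

theorem ac10_91 : allC 52 10 43 5 5 3 gs10 rds10_91 :=
  allC_cons rk10_728_0 rk10_728_1 rk10_728_2
    (allC_cons rk10_729_0 rk10_729_1 rk10_729_2
    (allC_cons rk10_730_0 rk10_730_1 rk10_730_2
    (allC_cons rk10_731_0 rk10_731_1 rk10_731_2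
    (allC_cons rk10_732_0 rk10_732_1 rk10_732_2
    (allC_cons rk10_733_0 rk10_733_1 rk10_733_2
    (allC_cons rk10_734_0 rk10_734_1 rk10_734_2
    (allC_cons rk10_735_0 rk10_735_1 rk10_735_2
    (allC_nil))))))))

end Crest.Agent.R347
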