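import Crest.Agent.R347.G10c

/-! Row 347, Chebyshev numerics, ring with 10 sites: run certificates 736..743 (generated) -/

set_option autoImplicit false
set_option Elab.async false

namespace Crest.Agent.R347

/-- run 736 -/
def rd10_736 : CRun :=
  ⟨40, 856, 40, 817, 6, 5,
    2582249878086908589655919172003011874329705792829223513458072246541127785199444873963328879808906768328456806587817146550,
    2582249878086908589655919172003011874329705792829223513498452992655311951833538839381769954847687207359224607746105477698,
    2074757784440496479256203931845580575506223116121218449997828664845326405706454073199853524473551897144098943305651011509175208962403580693068346020450553539959731059915362478215096,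
    [639, 625, 680, 645, 644, 620]⟩

set_option maxRecDepth 100000 in
theorem rk10_736_0 : chkC1 52 10 43 5 5 3 rd10_736.me rd10_736.mo gs10 [rd10_736.c0, rd10_736.c1] false
    (Nat.beq (10 % 2) 1) rd10_736.v0 = true := by decide +kernel

set_option maxRecDepth 100000 in
theorem rk10_736_1 : chkC2 52 10 43 5 5 3 rd10_736.me rd10_736.mo gs10 [rd10_736.c0, rd10_736.c1]
    rd10_736.v1 = true := by decide +kernel

set_option maxRecDepth 100000 in
theorem rk10_736_2 : chkC1 52 10 43 5 5 3 rd10_736.me rd10_736.mo gs10 [rd10_736.c0, rd10_736.c1] true
    (Nat.beq (10 % 2) 0) rd10_736.v2 = true := by decide +kernel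

/-- run 737 -/
def rd10_737 : CRun :=
  ⟨40, 866, 40, 821, 6, 5,
    2582249878086908589655919172003011874329705792829223513513299493246220762989271027152909956132389840818783830751454869340,
    2582249878086908589655919172003011874329705792829223513576304320085527253712720276869422259452080375799019572237951247035,
    2074757784440496479256203931845580575506223116121218449997828664845326405706454073199853524473551897144098943305651099140327576537920276822887127661070756883255591016957049968210360,
    [664, 652, 684, 682, 687, 663]⟩

set_option maxRecDepth 100000 in
theorem rk10_737_0 : chkC1 52 10 43 5 5 3 rd10_737.me rd10_737.mo gs10 [rd10_737.c0, rd10_737.c1] false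
    (Nat.beq (10 % 2) 1) rd10_737.v0 = true := by decide +kernel

set_option maxRecDepth 100000 in
theorem rk10_737_1 : chkC2 52 10 43 5 5 3 rd10_737.me rd10_737.mo gs10 [rd10_737.c0, rd10_737.c1]
    rd10_737.v1 = true := by decide +kernel

set_option maxRecDepth 100000 in
theorem rk10_737_2 : chkC1 52 10 43 5 5 3 rd10_737.me rd10_737.mo gs10 [rd10_737.c0, rd10_737.c1] true
    (Nat.beq (10 % 2) 0) rd10_737.v2 = true := by decide +kernel

/-- run 738 -/
def rd10_738 : CRun :=
  ⟨40, 868, 40, 823, 6, 5,
    2582249878086908589655919172003011874329705792829223513458228119531420907256172444286285972581351422018853737492841392632,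
    2582249878086908589655919172003011874329705792829223513519518343477503055355618420450270255404150766404723239024071207759,
    2074757784440496479256203931845580575506223116121218449997828664845326405706454073199853524473551897144098943305651004870914148128514752429222942559107842520739163743198159848243461,
    [649, 625, 674, 655, 653, 617]⟩

set_option maxRecDepth 100000 in
theorem rk10_738_0 : chkC1 52 10 43 5 5 3 rd10_738.me rd10_738.mo gs10 [rd10_738.c0, rd10_738.c1] false
    (Nat.beq (10 % 2) 1) rd10_738.v0 = true := by decide +kernel

set_option maxRecDepth 100000 in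
theorem rk10_738_1 : chkC2 52 10 43 5 5 3 rd10_738.me rd10_738.mo gs10 [rd10_738.c0, rd10_738.c1]
    rd10_738.v1 = true := by decide +kernel

set_option maxRecDepth 100000 in
theorem rk10_738_2 : chkC1 52 10 43 5 5 3 rd10_738.me rd10_738.mo gs10 [rd10_738.c0, rd10_738.c1] true
    (Nat.beq (10 % 2) 0) rd10_738.v2 = true := by decide +kernel

/-- run 739 -/
def rd10_739 : CRun :=
  ⟨20, 874, 40, 829, 6, 5,
    2582249878086908589655919172003011874329705792829223513514029043118314344574367077942832843953934920977961218698681673930,
    2582249878086908589655919172003011874329705792829223513561226420416245147957310046556985130752614545108355627064318415519,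
    2074757784440496479256203931845580575506223116121218449997828664845326405706454073199853524473551897144098943305651103143210244787065053197914699682906799766063248529894002703885108,
    [649, 653, 669, 675, 648, 665]⟩

set_option maxRecDepth 100000 in
theorem rk10_739_0 : chkC1 52 10 43 5 5 3 rd10_739.me rd10_739.mo gs10 [rd10_739.c0, rd10_739.c1] false
    (Nat.beq (10 % 2) 1) rd10_739.v0 = true := by decide +kernel

set_option maxRecDepth 100000 in
theorem rk10_739_1 : chkC2 52 10 43 5 5 3 rd10_739.me rd10_739.mo gs10 [rd10_739.c0, rd10_739.c1]
    rd10_739.v1 = true := by decide +kernel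

set_option maxRecDepth 100000 in
theorem rk10_739_2 : chkC1 52 10 43 5 5 3 rd10_739.me rd10_739.mo gs10 [rd10_739.c0, rd10_739.c1] true
    (Nat.beq (10 % 2) 0) rd10_739.v2 = true := by decide +kernel

/-- run 740 -/
def rd10_740 : CRun :=
  ⟨40, 896, 40, 839, 6, 5,
    2582249878086908589655919172003011874329705792829223513477668855990866171609679101679429357746665033837637965214317464064,
    2582249878086908589655919172003011874329705792829223513545881769031616049816159850537219369061130028720723738280025601038,
    2074757784440496479256203931845580575506223116121218449997828664845326405706454073199853524473551897144098943305651061820798436667130117636359495129910475907613263405376242929037702,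
    [668, 635, 688, 668, 675, 645]⟩

set_option maxRecDepth 100000 in
theorem rk10_740_0 : chkC1 52 10 43 5 5 3 rd10_740.me rd10_740.mo gs10 [rd10_740.c0, rd10_740.c1] false
    (Nat.beq (10 % 2) 1) rd10_740.v0 = true := by decide +kernel

set_option maxRecDepth 100000 in
theorem rk10_740_1 : chkC2 52 10 43 5 5 3 rd10_740.me rd10_740.mo gs10 [rd10_740.c0, rd10_740.c1]
    rd10_740.v1 = true := by decide +kernel

set_option maxRecDepth 100000 in
theorem rk10_740_2 : chkC1 52 10 43 5 5 3 rd10_740.me rd10_740.mo gs10 [rd10_740.c0, rd10_740.c1] true
    (Nat.beq (10 % 2) 0) rd10_740.v2 = true := by decide +kernel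

/-- run 741 -/
def rd10_741 : CRun :=
  ⟨40, 898, 40, 841, 6, 5,
    2582249878086908589655919172003011874329705792829223513456842938937269657638655272962687890417977283038212970068811645916,
    2582249878086908589655919172003011874329705792829223513522709722433401410042844757165659804332759861550375865594979767237,
    2074757784440496479256203931845580575506223116121218449997828664845326405706454073199853524473551897144098943305651016240000811260870951888604745872833255365325344756457469605498078,
    [679, 625, 693, 657, 668, 622]⟩

set_option maxRecDepth 100000 in
theorem rk10_741_0 : chkC1 52 10 43 5 5 3 rd10_741.me rd10_741.mo gs10 [rd10_741.c0, rd10_741.c1] false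
    (Nat.beq (10 % 2) 1) rd10_741.v0 = true := by decide +kernel

set_option maxRecDepth 100000 in
theorem rk10_741_1 : chkC2 52 10 43 5 5 3 rd10_741.me rd10_741.mo gs10 [rd10_741.c0, rd10_741.c1]
    rd10_741.v1 = true := by decide +kernel

set_option maxRecDepth 100000 in
theorem rk10_741_2 : chkC1 52 10 43 5 5 3 rd10_741.me rd10_741.mo gs10 [rd10_741.c0, rd10_741.c1] true
    (Nat.beq (10 % 2) 0) rd10_741.v2 = true := by decide +kernel

/-- run 742 -/
def rd10_742 : CRun :=
  ⟨40, 902, 20, 847, 6, 5,
    2582249878086908589655919172003011874329705792829223513533148391968907810872765342917507996598744092197988887853097511645,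
    2582249878086908589655919172003011874329705792829223513502582823429057556841681681959086742736169269053246385332830068819,
    2074757784440496479256203931845580575506223116121218449997828664845326405706454073199853524473551897144098943305651021737335860670876684517657063771950518593781786487391759171590901,
    [698, 662, 719, 647, 729, 625]⟩

set_option maxRecDepth 100000 in
theorem rk10_742_0 : chkC1 52 10 43 5 5 3 rd10_742.me rd10_742.mo gs10 [rd10_742.c0, rd10_742.c1] false
    (Nat.beq (10 % 2) 1) rd10_742.v0 = true := by decide +kernel

set_option maxRecDepth 100000 in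
theorem rk10_742_1 : chkC2 52 10 43 5 5 3 rd10_742.me rd10_742.mo gs10 [rd10_742.c0, rd10_742.c1]
    rd10_742.v1 = true := by decide +kernel

set_option maxRecDepth 100000 in
theorem rk10_742_2 : chkC1 52 10 43 5 5 3 rd10_742.me rd10_742.mo gs10 [rd10_742.c0, rd10_742.c1] true
    (Nat.beq (10 % 2) 0) rd10_742.v2 = true := by decide +kernel

/-- run 743 -/
def rd10_743 : CRun :=
  ⟨40, 904, 40, 893, 6, 5,
    2582249878086908589655919172003011874329705792829223513482385219150766308068394760420450669985067699624390462185927010262,
    2582249878086908589655919172003011874329705792829223513542293476378785724530874649185021552969697949435606761878797638307,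
    2074757784440496479256203931845580575506223116121218449997828664845326405706454073199853524473551897144098943305651138110182087862693448991009829026605030649200393243466098861863124,
    [673, 637, 695, 666, 675, 681]⟩

set_option maxRecDepth 100000 in
theorem rk10_743_0 : chkC1 52 10 43 5 5 3 rd10_743.me rd10_743.mo gs10 [rd10_743.c0, rd10_743.c1] false
    (Nat.beq (10 % 2) 1) rd10_743.v0 = true := by decide +kernel

set_option maxRecDepth 100000 in
theorem rk10_743_1 : chkC2 52 10 43 5 5 3 rd10_743.me rd10_743.mo gs10 [rd10_743.c0, rd10_743.c1]
    rd10_743.v1 = true := by decide +kernel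

set_option maxRecDepth 100000 in
theorem rk10_743_2 : chkC1 52 10 43 5 5 3 rd10_743.me rd10_743.mo gs10 [rd10_743.c0, rd10_743.c1] true
    (Nat.beq (10 % 2) 0) rd10_743.v2 = true := by decide +kernel

/-- runs of this file -/
def rds10_92 : List CRun :=
  [rd10_736, rd10_737, rd10_738, rd10_739, rd10_740, rd10_741, rd10_742, rd10_743]

theorem ac10_92 : allC 52 10 43 5 5 3 gs10 rds10_92 :=
  allC_cons rk10_736_0 rk10_736_1 rk10_736_2
    (allC_cons rk10_737_0 rk10_737_1 rk10_737_2
    (allC_cons rk10_738_0 rk10_738_1 rk10_738_2
    (allC_cons rk10_739_0 rk10_739_1 rk10_739_2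
    (allC_cons rk10_740_0 rk10_740_1 rk10_740_2
    (allC_cons rk10_741_0 rk10_741_1 rk10_741_2
    (allC_cons rk10_742_0 rk10_742_1 rk10_742_2
    (allC_cons rk10_743_0 rk10_743_1 rk10_743_2
    (allC_nil))))))))

end Crest.Agent.R347
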