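import Crest.Agent.R347.G10c

/-! Row 347, Chebyshev numerics, ring with 10 sites: run certificates 744..751 (generated) -/

set_option autoImplicit false
set_option Elab.async false

namespace Crest.Agent.R347

/-- run 744 -/
def rd10_744 : CRun :=
  ⟨20, 910, 40, 895, 6, 5,
    2582249878086908589655919172003011874329705792829223513448133334737385930345217838422198789112306942811910232901478221944,
    2582249878086908589655919172003011874329705792829223513510100079600101113350666980627058701390768134658162290216369917213,
    2074757784440496479256203931845580575506223116121218449997828664845326405706454073199853524473551897144098943305651098531298057763762962392483494663770130527340656373278565389036465,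
    [703, 620, 727, 651, 721, 662]⟩

set_option maxRecDepth 100000 in
theorem rk10_744_0 : chkC1 52 10 43 5 5 3 rd10_744.me rd10_744.mo gs10 [rd10_744.c0, rd10_744.c1] false
    (Nat.beq (10 % 2) 1) rd10_744.v0 = true := by decide +kernel

set_option maxRecDepth 100000 in
theorem rk10_744_1 : chkC2 52 10 43 5 5 3 rd10_744.me rd10_744.mo gs10 [rd10_744.c0, rd10_744.c1]
    rd10_744.v1 = true := by decide +kernel

set_option maxRecDepth 100000 in
theorem rk10_744_2 : chkC1 52 10 43 5 5 3 rd10_744.me rd10_744.mo gs10 [rd10_744.c0, rd10_744.c1] true
    (Nat.beq (10 % 2) 0) rd10_744.v2 = true := by decide +kernel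

/-- run 745 -/
def rd10_745 : CRun :=
  ⟨40, 920, 40, 977, 6, 5,
    2582249878086908589655919172003011874329705792829223513415292341926864946083966759141022449004560680227971295726423947320,
    2582249878086908589655919172003011874329705792829223513452439928696000024283670296829673104887066446835248117700085873820,
    2074757784440496479256203931845580575506223116121218449997828664845326405706454073199853524473551897144098943305650983877875537929065792749030168214159603170679252964792559471092277,
    [664, 604, 677, 623, 672, 606]⟩

set_option maxRecDepth 100000 in
theorem rk10_745_0 : chkC1 52 10 43 5 5 3 rd10_745.me rd10_745.mo gs10 [rd10_745.c0, rd10_745.c1] false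
    (Nat.beq (10 % 2) 1) rd10_745.v0 = true := by decide +kernel

set_option maxRecDepth 100000 in
theorem rk10_745_1 : chkC2 52 10 43 5 5 3 rd10_745.me rd10_745.mo gs10 [rd10_745.c0, rd10_745.c1]
    rd10_745.v1 = true := by decide +kernel

set_option maxRecDepth 100000 in
theorem rk10_745_2 : chkC1 52 10 43 5 5 3 rd10_745.me rd10_745.mo gs10 [rd10_745.c0, rd10_745.c1] true
    (Nat.beq (10 % 2) 0) rd10_745.v2 = true := by decide +kernel

/-- run 746 -/
def rd10_746 : CRun :=
  ⟨40, 922, 40, 983, 6, 5,
    2582249878086908589655919172003011874329705792829223513463518159573121503243256583494273079868854514274386691506653529970,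
    2582249878086908589655919172003011874329705792829223513538117044401756608804741089707026871365742743854765283299849337886,
    2074757784440496479256203931845580575506223116121218449997828664845326405706454073199853524473551897144098943305651093506402793365900370772768031912954672440411894814485369401563121,
    [655, 628, 677, 664, 670, 660]⟩

set_option maxRecDepth 100000 in
theorem rk10_746_0 : chkC1 52 10 43 5 5 3 rd10_746.me rd10_746.mo gs10 [rd10_746.c0, rd10_746.c1] false
    (Nat.beq (10 % 2) 1) rd10_746.v0 = true := by decide +kernel

set_option maxRecDepth 100000 in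
theorem rk10_746_1 : chkC2 52 10 43 5 5 3 rd10_746.me rd10_746.mo gs10 [rd10_746.c0, rd10_746.c1]
    rd10_746.v1 = true := by decide +kernel

set_option maxRecDepth 100000 in
theorem rk10_746_2 : chkC1 52 10 43 5 5 3 rd10_746.me rd10_746.mo gs10 [rd10_746.c0, rd10_746.c1] true
    (Nat.beq (10 % 2) 0) rd10_746.v2 = true := by decide +kernel

/-- run 747 -/
def rd10_747 : CRun :=
  ⟨20, 980, 40, 985, 6, 5,
    2582249878086908589655919172003011874329705792829223513428017684299351890075983556950272115653934005735737232189175482669,
    2582249878086908589655919172003011874329705792829223513471546422042239418659864226107609528231055440431325524511819193135,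
    2074757784440496479256203931845580575506223116121218449997828664845326405706454073199853524473551897144098943305651009595311998249946162522591494042125893936015965464609095634259210,
    [616, 610, 646, 632, 630, 619]⟩

set_option maxRecDepth 100000 in
theorem rk10_747_0 : chkC1 52 10 43 5 5 3 rd10_747.me rd10_747.mo gs10 [rd10_747.c0, rd10_747.c1] false
    (Nat.beq (10 % 2) 1) rd10_747.v0 = true := by decide +kernel

set_option maxRecDepth 100000 in
theorem rk10_747_1 : chkC2 52 10 43 5 5 3 rd10_747.me rd10_747.mo gs10 [rd10_747.c0, rd10_747.c1]
    rd10_747.v1 = true := by decide +kernel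

set_option maxRecDepth 100000 in
theorem rk10_747_2 : chkC1 52 10 43 5 5 3 rd10_747.me rd10_747.mo gs10 [rd10_747.c0, rd10_747.c1] true
    (Nat.beq (10 % 2) 0) rd10_747.v2 = true := by decide +kernel

/-- run 748 -/
def rd10_748 : CRun :=
  ⟨40, 986, 40, 1001, 6, 5,
    2582249878086908589655919172003011874329705792829223513511163872585400564913075759532188551033637833040046499073339295460,
    2582249878086908589655919172003011874329705792829223513553426343149412009159829362560761127479971771776533950641765520133,
    2074757784440496479256203931845580575506223116121218449997828664845326405706454073199853524473551897144098943305651089950248901420754890998405921561961833058776669573164824879567339,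
    [629, 651, 657, 671, 631, 658]⟩

set_option maxRecDepth 100000 in
theorem rk10_748_0 : chkC1 52 10 43 5 5 3 rd10_748.me rd10_748.mo gs10 [rd10_748.c0, rd10_748.c1] false
    (Nat.beq (10 % 2) 1) rd10_748.v0 = true := by decide +kernel

set_option maxRecDepth 100000 in
theorem rk10_748_1 : chkC2 52 10 43 5 5 3 rd10_748.me rd10_748.mo gs10 [rd10_748.c0, rd10_748.c1]
    rd10_748.v1 = true := by decide +kernel

set_option maxRecDepth 100000 in
theorem rk10_748_2 : chkC1 52 10 43 5 5 3 rd10_748.me rd10_748.mo gs10 [rd10_748.c0, rd10_748.c1] true
    (Nat.beq (10 % 2) 0) rd10_748.v2 = true := by decide +kernel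

/-- run 749 -/
def rd10_749 : CRun :=
  ⟨40, 988, 20, 1003, 6, 5,
    2582249878086908589655919172003011874329705792829223513508645800670046727151301504933489949235485540948788862700422014237,
    2582249878086908589655919172003011874329705792829223513492700154456864766647098615091188592730657720641482209395726505862,
    2074757784440496479256203931845580575506223116121218449997828664845326405706454073199853524473551897144098943305651017568938573863055909761807396238974727651187220614827144399691788,
    [609, 650, 645, 642, 634, 623]⟩

set_option maxRecDepth 100000 in
theorem rk10_749_0 : chkC1 52 10 43 5 5 3 rd10_749.me rd10_749.mo gs10 [rd10_749.c0, rd10_749.c1] false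
    (Nat.beq (10 % 2) 1) rd10_749.v0 = true := by decide +kernel

set_option maxRecDepth 100000 in
theorem rk10_749_1 : chkC2 52 10 43 5 5 3 rd10_749.me rd10_749.mo gs10 [rd10_749.c0, rd10_749.c1]
    rd10_749.v1 = true := by decide +kernel

set_option maxRecDepth 100000 in
theorem rk10_749_2 : chkC1 52 10 43 5 5 3 rd10_749.me rd10_749.mo gs10 [rd10_749.c0, rd10_749.c1] true
    (Nat.beq (10 % 2) 0) rd10_749.v2 = true := by decide +kernel

/-- run 750 -/
def rd10_750 : CRun :=
  ⟨40, 992, 20, 1055, 6, 5,
    2582249878086908589655919172003011874329705792829223513469492755221676429087721598553597522425032065005271115268304080197,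
    2582249878086908589655919172003011874329705792829223513493733415619323297394272096716563960284079497166484545188825384762,
    2074757784440496479256203931845580575506223116121218449997828664845326405706454073199853524473551897144098943305651043496883917981864005631365756163633319346932525300189541987479827,
    [680, 631, 714, 643, 699, 636]⟩

set_option maxRecDepth 100000 in
theorem rk10_750_0 : chkC1 52 10 43 5 5 3 rd10_750.me rd10_750.mo gs10 [rd10_750.c0, rd10_750.c1] false
    (Nat.beq (10 % 2) 1) rd10_750.v0 = true := by decide +kernel

set_option maxRecDepth 100000 in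
theorem rk10_750_1 : chkC2 52 10 43 5 5 3 rd10_750.me rd10_750.mo gs10 [rd10_750.c0, rd10_750.c1]
    rd10_750.v1 = true := by decide +kernel

set_option maxRecDepth 100000 in
theorem rk10_750_2 : chkC1 52 10 43 5 5 3 rd10_750.me rd10_750.mo gs10 [rd10_750.c0, rd10_750.c1] true
    (Nat.beq (10 % 2) 0) rd10_750.v2 = true := by decide +kernel

/-- run 751 -/
def rd10_751 : CRun :=
  ⟨40, 994, 20, 1487, 6, 5,
    2582249878086908589655919172003011874329705792829223513503092222789087656759028483942358891281168807402275530661620498659,
    2582249878086908589655919172003011874329705792829223513549834836620493165893993077284378629063334648085429408654866950725,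
    2074757784440496479256203931845580575506223116121218449997828664845326405706454073199853524473551897144098943305651149990275049069408556072735577704820151095847126279653530244884861,
    [641, 647, 661, 669, 636, 686]⟩

set_option maxRecDepth 100000 in
theorem rk10_751_0 : chkC1 52 10 43 5 5 3 rd10_751.me rd10_751.mo gs10 [rd10_751.c0, rd10_751.c1] false
    (Nat.beq (10 % 2) 1) rd10_751.v0 = true := by decide +kernel

set_option maxRecDepth 100000 in
theorem rk10_751_1 : chkC2 52 10 43 5 5 3 rd10_751.me rd10_751.mo gs10 [rd10_751.c0, rd10_751.c1]
    rd10_751.v1 = true := by decide +kernel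

set_option maxRecDepth 100000 in
theorem rk10_751_2 : chkC1 52 10 43 5 5 3 rd10_751.me rd10_751.mo gs10 [rd10_751.c0, rd10_751.c1] true
    (Nat.beq (10 % 2) 0) rd10_751.v2 = true := by decide +kernel

/-- runs of this file -/
def rds10_93 : List CRun :=
  [rd10_744, rd10_745, rd10_746, rd10_747, rd10_748, rd10_749, rd10_750, rd10_751]

theorem ac10_93 : allC 52 10 43 5 5 3 gs10 rds10_93 :=
  allC_cons rk10_744_0 rk10_744_1 rk10_744_2
    (allC_cons rk10_745_0 rk10_745_1 rk10_745_2
    (allC_cons rk10_746_0 rk10_746_1 rk10_746_2
    (allC_cons rk10_747_0 rk10_747_1 rk10_747_2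
    (allC_cons rk10_748_0 rk10_748_1 rk10_748_2
    (allC_cons rk10_749_0 rk10_749_1 rk10_749_2
    (allC_cons rk10_750_0 rk10_750_1 rk10_750_2
    (allC_cons rk10_751_0 rk10_751_1 rk10_751_2
    (allC_nil))))))))

end Crest.Agent.R347
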