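import Crest.Agent.R347.G10c

/-! Row 347, Chebyshev numerics, ring with 10 sites: run certificates 752..759 (generated) -/

set_option autoImplicit false
set_option Elab.async false

namespace Crest.Agent.R347

/-- run 752 -/
def rd10_752 : CRun :=
  ⟨40, 1004, 40, 2273, 6, 5,
    2582249878086908589655919172003011874329705792829223513437495404884391414721130049370900292683609958993068144331783059268,
    2582249878086908589655919172003011874329705792829223513494111046059724160109024457808264133495672214870023501505121159957,
    2074757784440496479256203931845580575506223116121218449997828664845326405706454073199853524473551897144098943305651017864615174006710120461528421229748646515272571470861026095186354,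
    [664, 615, 680, 643, 666, 623]⟩

set_option maxRecDepth 100000 in
theorem rk10_752_0 : chkC1 52 10 43 5 5 3 rd10_752.me rd10_752.mo gs10 [rd10_752.c0, rd10_752.c1] false
    (Nat.beq (10 % 2) 1) rd10_752.v0 = true := by decide +kernel

set_option maxRecDepth 100000 in
theorem rk10_752_1 : chkC2 52 10 43 5 5 3 rd10_752.me rd10_752.mo gs10 [rd10_752.c0, rd10_752.c1]
    rd10_752.v1 = true := by decide +kernel

set_option maxRecDepth 100000 in
theorem rk10_752_2 : chkC1 52 10 43 5 5 3 rd10_752.me rd10_752.mo gs10 [rd10_752.c0, rd10_752.c1] true
    (Nat.beq (10 % 2) 0) rd10_752.v2 = true := by decide +kernel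

/-- run 753 -/
def rd10_753 : CRun :=
  ⟨40, 1006, 40, 2279, 6, 5,
    2582249878086908589655919172003011874329705792829223513513448938484336849084896429627497684254424405697205630485137895280,
    2582249878086908589655919172003011874329705792829223513579971352702526269521507034364144792511036043030831905488108982017,
    2074757784440496479256203931845580575506223116121218449997828664845326405706454073199853524473551897144098943305651127256922536937473127980597857354392813214241373234483289236340562,
    [662, 652, 681, 683, 653, 676]⟩

set_option maxRecDepth 100000 in
theorem rk10_753_0 : chkC1 52 10 43 5 5 3 rd10_753.me rd10_753.mo gs10 [rd10_753.c0, rd10_753.c1] false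
    (Nat.beq (10 % 2) 1) rd10_753.v0 = true := by decide +kernel

set_option maxRecDepth 100000 in
theorem rk10_753_1 : chkC2 52 10 43 5 5 3 rd10_753.me rd10_753.mo gs10 [rd10_753.c0, rd10_753.c1]
    rd10_753.v1 = true := by decide +kernel

set_option maxRecDepth 100000 in
theorem rk10_753_2 : chkC1 52 10 43 5 5 3 rd10_753.me rd10_753.mo gs10 [rd10_753.c0, rd10_753.c1] true
    (Nat.beq (10 % 2) 0) rd10_753.v2 = true := by decide +kernel

/-- run 754 -/
def rd10_754 : CRun :=
  ⟨40, 1010, 40, 2281, 6, 5,
    2582249878086908589655919172003011874329705792829223513465539687632799313009888371806438262422827445640565444893462686297,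
    2582249878086908589655919172003011874329705792829223513485947800794888489509271290379171027474859423661606913901790193405,
    2074757784440496479256203931845580575506223116121218449997828664845326405706454073199853524473551897144098943305651017200949761727747136662698077092848491673602735038567585115749857,
    [674, 629, 697, 639, 689, 623]⟩

set_option maxRecDepth 100000 in
theorem rk10_754_0 : chkC1 52 10 43 5 5 3 rd10_754.me rd10_754.mo gs10 [rd10_754.c0, rd10_754.c1] false
    (Nat.beq (10 % 2) 1) rd10_754.v0 = true := by decide +kernel

set_option maxRecDepth 100000 in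
theorem rk10_754_1 : chkC2 52 10 43 5 5 3 rd10_754.me rd10_754.mo gs10 [rd10_754.c0, rd10_754.c1]
    rd10_754.v1 = true := by decide +kernel

set_option maxRecDepth 100000 in
theorem rk10_754_2 : chkC1 52 10 43 5 5 3 rd10_754.me rd10_754.mo gs10 [rd10_754.c0, rd10_754.c1] true
    (Nat.beq (10 % 2) 0) rd10_754.v2 = true := by decide +kernel

/-- run 755 -/
def rd10_755 : CRun :=
  ⟨40, 1012, 20, 2287, 6, 5,
    2582249878086908589655919172003011874329705792829223513482039727471250625159153238570597320025525425980727161726337173530,
    2582249878086908589655919172003011874329705792829223513542190632343953149153239963611111718563136528444004663137338307893,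
    2074757784440496479256203931845580575506223116121218449997828664845326405706454073199853524473551897144098943305651118436439611999875505530767932493751287969869140360733416267086849,
    [642, 637, 664, 666, 652, 672]⟩

set_option maxRecDepth 100000 in
theorem rk10_755_0 : chkC1 52 10 43 5 5 3 rd10_755.me rd10_755.mo gs10 [rd10_755.c0, rd10_755.c1] false
    (Nat.beq (10 % 2) 1) rd10_755.v0 = true := by decide +kernel

set_option maxRecDepth 100000 in
theorem rk10_755_1 : chkC2 52 10 43 5 5 3 rd10_755.me rd10_755.mo gs10 [rd10_755.c0, rd10_755.c1]
    rd10_755.v1 = true := by decide +kernel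

set_option maxRecDepth 100000 in
theorem rk10_755_2 : chkC1 52 10 43 5 5 3 rd10_755.me rd10_755.mo gs10 [rd10_755.c0, rd10_755.c1] true
    (Nat.beq (10 % 2) 0) rd10_755.v2 = true := by decide +kernel

/-- run 756 -/
def rd10_756 : CRun :=
  ⟨40, 1028, 40, 2297, 6, 5,
    2582249878086908589655919172003011874329705792829223513481162339299085216468707327268179045244548303146121756838262673293,
    2582249878086908589655919172003011874329705792829223513536799355205464236778796680791307118031674537399863393174902258598,
    2074757784440496479256203931845580575506223116121218449997828664845326405706454073199853524473551897144098943305651077406490527935076800117849828746846557770460100104683952517118088,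
    [681, 637, 712, 663, 700, 652]⟩

set_option maxRecDepth 100000 in
theorem rk10_756_0 : chkC1 52 10 43 5 5 3 rd10_756.me rd10_756.mo gs10 [rd10_756.c0, rd10_756.c1] false
    (Nat.beq (10 % 2) 1) rd10_756.v0 = true := by decide +kernel

set_option maxRecDepth 100000 in
theorem rk10_756_1 : chkC2 52 10 43 5 5 3 rd10_756.me rd10_756.mo gs10 [rd10_756.c0, rd10_756.c1]
    rd10_756.v1 = true := by decide +kernel

set_option maxRecDepth 100000 in
theorem rk10_756_2 : chkC1 52 10 43 5 5 3 rd10_756.me rd10_756.mo gs10 [rd10_756.c0, rd10_756.c1] true
    (Nat.beq (10 % 2) 0) rd10_756.v2 = true := by decide +kernel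

/-- run 757 -/
def rd10_757 : CRun :=
  ⟨20, 1030, 20, 2299, 6, 5,
    2582249878086908589655919172003011874329705792829223513486630749463698560376376624268416021580931359933964600856793268402,
    2582249878086908589655919172003011874329705792829223513494824526551375151791365088977263609691192072999263061523995002392,
    2074757784440496479256203931845580575506223116121218449997828664845326405706454073199853524473551897144098943305651031645715841571810723509395325147559125745685446152092381639805022,
    [690, 639, 703, 643, 679, 630]⟩

set_option maxRecDepth 100000 in
theorem rk10_757_0 : chkC1 52 10 43 5 5 3 rd10_757.me rd10_757.mo gs10 [rd10_757.c0, rd10_757.c1] false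
    (Nat.beq (10 % 2) 1) rd10_757.v0 = true := by decide +kernel

set_option maxRecDepth 100000 in
theorem rk10_757_1 : chkC2 52 10 43 5 5 3 rd10_757.me rd10_757.mo gs10 [rd10_757.c0, rd10_757.c1]
    rd10_757.v1 = true := by decide +kernel

set_option maxRecDepth 100000 in
theorem rk10_757_2 : chkC1 52 10 43 5 5 3 rd10_757.me rd10_757.mo gs10 [rd10_757.c0, rd10_757.c1] true
    (Nat.beq (10 % 2) 0) rd10_757.v2 = true := by decide +kernel

/-- run 758 -/
def rd10_758 : CRun :=
  ⟨40, 1058, 40, 2441, 6, 5,
    2582249878086908589655919172003011874329705792829223513500443988892148840784935330414180655312212216868521488069043834620,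
    2582249878086908589655919172003011874329705792829223513570032440898784414667279998823014701814436217514285331801769951727,
    2074757784440496479256203931845580575506223116121218449997828664845326405706454073199853524473551897144098943305651149345892893321553455580408778676013947484443725772753603289039325,
    [643, 646, 666, 679, 641, 686]⟩

set_option maxRecDepth 100000 in
theorem rk10_758_0 : chkC1 52 10 43 5 5 3 rd10_758.me rd10_758.mo gs10 [rd10_758.c0, rd10_758.c1] false
    (Nat.beq (10 % 2) 1) rd10_758.v0 = true := by decide +kernel

set_option maxRecDepth 100000 in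
theorem rk10_758_1 : chkC2 52 10 43 5 5 3 rd10_758.me rd10_758.mo gs10 [rd10_758.c0, rd10_758.c1]
    rd10_758.v1 = true := by decide +kernel

set_option maxRecDepth 100000 in
theorem rk10_758_2 : chkC1 52 10 43 5 5 3 rd10_758.me rd10_758.mo gs10 [rd10_758.c0, rd10_758.c1] true
    (Nat.beq (10 % 2) 0) rd10_758.v2 = true := by decide +kernel

/-- run 759 -/
def rd10_759 : CRun :=
  ⟨40, 1060, 20, 2443, 6, 5,
    2582249878086908589655919172003011874329705792829223513461289336505734283731079882072195887339156218722009957844090505684,
    2582249878086908589655919172003011874329705792829223513487887375014309090771850438624626810736103722675102744853998917872,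
    2074757784440496479256203931845580575506223116121218449997828664845326405706454073199853524473551897144098943305651054861149766981443234264121673200335244383952097332100473238737331,
    [642, 627, 670, 640, 644, 642]⟩

set_option maxRecDepth 100000 in
theorem rk10_759_0 : chkC1 52 10 43 5 5 3 rd10_759.me rd10_759.mo gs10 [rd10_759.c0, rd10_759.c1] false
    (Nat.beq (10 % 2) 1) rd10_759.v0 = true := by decide +kernel

set_option maxRecDepth 100000 in
theorem rk10_759_1 : chkC2 52 10 43 5 5 3 rd10_759.me rd10_759.mo gs10 [rd10_759.c0, rd10_759.c1]
    rd10_759.v1 = true := by decide +kernel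

set_option maxRecDepth 100000 in
theorem rk10_759_2 : chkC1 52 10 43 5 5 3 rd10_759.me rd10_759.mo gs10 [rd10_759.c0, rd10_759.c1] true
    (Nat.beq (10 % 2) 0) rd10_759.v2 = true := by decide +kernel

/-- runs of this file -/
def rds10_94 : List CRun :=
  [rd10_752, rd10_753, rd10_754, rd10_755, rd10_756, rd10_757, rd10_758, rd10_759]

theorem ac10_94 : allC 52 10 43 5 5 3 gs10 rds10_94 :=
  allC_cons rk10_752_0 rk10_752_1 rk10_752_2
    (allC_cons rk10_753_0 rk10_753_1 rk10_753_2
    (allC_cons rk10_754_0 rk10_754_1 rk10_754_2
    (allC_cons rk10_755_0 rk10_755_1 rk10_755_2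
    (allC_cons rk10_756_0 rk10_756_1 rk10_756_2
    (allC_cons rk10_757_0 rk10_757_1 rk10_757_2
    (allC_cons rk10_758_0 rk10_758_1 rk10_758_2
    (allC_cons rk10_759_0 rk10_759_1 rk10_759_2
    (allC_nil))))))))

end Crest.Agent.R347
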