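import Crest.Agent.R347.G10c

/-! Row 347, Chebyshev numerics, ring with 10 sites: run certificates 760..767 (generated) -/

set_option autoImplicit false
set_option Elab.async false

namespace Crest.Agent.R347

/-- run 760 -/
def rd10_760 : CRun :=
  ⟨40, 1064, 20, 2459, 6, 5,
    2582249878086908589655919172003011874329705792829223513555468761403665185800043196380126745147777491781631880335433592932,
    2582249878086908589655919172003011874329705792829223513574361531990018134469590044699781793865631032379536175700071902121,
    2074757784440496479256203931845580575506223116121218449997828664845326405706454073199853524473551897144098943305651097816210628068512289776310363571952772404960324139935753679859579,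
    [675, 672, 698, 681, 675, 662]⟩

set_option maxRecDepth 100000 in
theorem rk10_760_0 : chkC1 52 10 43 5 5 3 rd10_760.me rd10_760.mo gs10 [rd10_760.c0, rd10_760.c1] false
    (Nat.beq (10 % 2) 1) rd10_760.v0 = true := by decide +kernel

set_option maxRecDepth 100000 in
theorem rk10_760_1 : chkC2 52 10 43 5 5 3 rd10_760.me rd10_760.mo gs10 [rd10_760.c0, rd10_760.c1]
    rd10_760.v1 = true := by decide +kernel

set_option maxRecDepth 100000 in
theorem rk10_760_2 : chkC1 52 10 43 5 5 3 rd10_760.me rd10_760.mo gs10 [rd10_760.c0, rd10_760.c1] true
    (Nat.beq (10 % 2) 0) rd10_760.v2 = true := by decide +kernel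

/-- run 761 -/
def rd10_761 : CRun :=
  ⟨20, 1066, 40, 2461, 6, 5,
    2582249878086908589655919172003011874329705792829223513536047308200751029329843042532091453933694146398773046127981136134,
    2582249878086908589655919172003011874329705792829223513520220575402844234106030257884623343461452969113006319493097904331,
    2074757784440496479256203931845580575506223116121218449997828664845326405706454073199853524473551897144098943305651061992740807402842077119349439010414874377488983740135076306246794,
    [655, 663, 670, 656, 646, 645]⟩

set_option maxRecDepth 100000 in
theorem rk10_761_0 : chkC1 52 10 43 5 5 3 rd10_761.me rd10_761.mo gs10 [rd10_761.c0, rd10_761.c1] false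
    (Nat.beq (10 % 2) 1) rd10_761.v0 = true := by decide +kernel

set_option maxRecDepth 100000 in
theorem rk10_761_1 : chkC2 52 10 43 5 5 3 rd10_761.me rd10_761.mo gs10 [rd10_761.c0, rd10_761.c1]
    rd10_761.v1 = true := by decide +kernel

set_option maxRecDepth 100000 in
theorem rk10_761_2 : chkC1 52 10 43 5 5 3 rd10_761.me rd10_761.mo gs10 [rd10_761.c0, rd10_761.c1] true
    (Nat.beq (10 % 2) 0) rd10_761.v2 = true := by decide +kernel

/-- run 762 -/
def rd10_762 : CRun :=
  ⟨40, 1082, 40, 2467, 6, 5,
    2582249878086908589655919172003011874329705792829223513510795883773265256139976650213042424797660248554470239514055316369,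
    2582249878086908589655919172003011874329705792829223513506719081954980197810926692384772895275061419559243294090895754460,
    2074757784440496479256203931845580575506223116121218449997828664845326405706454073199853524473551897144098943305651026334785605295847862843210609960016724409804551699962060968746028,
    [657, 651, 679, 649, 671, 628]⟩

set_option maxRecDepth 100000 in
theorem rk10_762_0 : chkC1 52 10 43 5 5 3 rd10_762.me rd10_762.mo gs10 [rd10_762.c0, rd10_762.c1] false
    (Nat.beq (10 % 2) 1) rd10_762.v0 = true := by decide +kernel

set_option maxRecDepth 100000 in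
theorem rk10_762_1 : chkC2 52 10 43 5 5 3 rd10_762.me rd10_762.mo gs10 [rd10_762.c0, rd10_762.c1]
    rd10_762.v1 = true := by decide +kernel

set_option maxRecDepth 100000 in
theorem rk10_762_2 : chkC1 52 10 43 5 5 3 rd10_762.me rd10_762.mo gs10 [rd10_762.c0, rd10_762.c1] true
    (Nat.beq (10 % 2) 0) rd10_762.v2 = true := by decide +kernel

/-- run 763 -/
def rd10_763 : CRun :=
  ⟨40, 1136, 40, 2515, 6, 5,
    2582249878086908589655919172003011874329705792829223513485015776729218275149456952365613153165396545925212894057315335505,
    2582249878086908589655919172003011874329705792829223513508035164213228310846595559338400307446527103811151401423007557892,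
    2074757784440496479256203931845580575506223116121218449997828664845326405706454073199853524473551897144098943305650998423878714561445766954871028086363481201660752686633304619115568,
    [653, 639, 661, 650, 648, 613]⟩

set_option maxRecDepth 100000 in
theorem rk10_763_0 : chkC1 52 10 43 5 5 3 rd10_763.me rd10_763.mo gs10 [rd10_763.c0, rd10_763.c1] false
    (Nat.beq (10 % 2) 1) rd10_763.v0 = true := by decide +kernel

set_option maxRecDepth 100000 in
theorem rk10_763_1 : chkC2 52 10 43 5 5 3 rd10_763.me rd10_763.mo gs10 [rd10_763.c0, rd10_763.c1]
    rd10_763.v1 = true := by decide +kernel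

set_option maxRecDepth 100000 in
theorem rk10_763_2 : chkC1 52 10 43 5 5 3 rd10_763.me rd10_763.mo gs10 [rd10_763.c0, rd10_763.c1] true
    (Nat.beq (10 % 2) 0) rd10_763.v2 = true := by decide +kernel

/-- run 764 -/
def rd10_764 : CRun :=
  ⟨20, 1220, 4, 7381, 6, 5,
    2582249878086908589655919172003011874329705792829223513604414487293749770602775819750746216858001272769261967305878146018,
    2582249878086908589655919172003011874329705792829223513596223924082161697168338438966083311072945604109951072224347083902,
    2074757784440496479256203931845580575506223116121218449997828664845326405706454073199853524473551897144098943305651074946268382174562688263105865372526613308967316623228121670628770,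
    [630, 694, 670, 691, 638, 651]⟩

set_option maxRecDepth 100000 in
theorem rk10_764_0 : chkC1 52 10 43 5 5 3 rd10_764.me rd10_764.mo gs10 [rd10_764.c0, rd10_764.c1] false
    (Nat.beq (10 % 2) 1) rd10_764.v0 = true := by decide +kernel

set_option maxRecDepth 100000 in
theorem rk10_764_1 : chkC2 52 10 43 5 5 3 rd10_764.me rd10_764.mo gs10 [rd10_764.c0, rd10_764.c1]
    rd10_764.v1 = true := by decide +kernel

set_option maxRecDepth 100000 in
theorem rk10_764_2 : chkC1 52 10 43 5 5 3 rd10_764.me rd10_764.mo gs10 [rd10_764.c0, rd10_764.c1] true
    (Nat.beq (10 % 2) 0) rd10_764.v2 = true := by decide +kernel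

/-- run 765 -/
def rd10_765 : CRun :=
  ⟨20, 1222, 40, 5, 6, 3,
    2582249878086908589655919172003011874329705792829223513372968807717171660206742561552940908379330897777720098030256292326,
    2582249878086908589655919172003011874329705792829223513424230131329033449996531152298623995399789173279391189476370191593,
    2074757784440496479256203931845580575506223116121218449997828664845326405706454073199853524473551897144098943305650970220509099771907440917894345406618644334476008804836252244642554,
    [654, 581, 657, 608, 630, 599]⟩

set_option maxRecDepth 100000 in
theorem rk10_765_0 : chkC1 52 10 43 5 5 3 rd10_765.me rd10_765.mo gs10 [rd10_765.c0, rd10_765.c1] false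
    (Nat.beq (10 % 2) 1) rd10_765.v0 = true := by decide +kernel

set_option maxRecDepth 100000 in
theorem rk10_765_1 : chkC2 52 10 43 5 5 3 rd10_765.me rd10_765.mo gs10 [rd10_765.c0, rd10_765.c1]
    rd10_765.v1 = true := by decide +kernel

set_option maxRecDepth 100000 in
theorem rk10_765_2 : chkC1 52 10 43 5 5 3 rd10_765.me rd10_765.mo gs10 [rd10_765.c0, rd10_765.c1] true
    (Nat.beq (10 % 2) 0) rd10_765.v2 = true := by decide +kernel

/-- run 766 -/
def rd10_766 : CRun :=
  ⟨40, 1226, 40, 11, 6, 3,
    2582249878086908589655919172003011874329705792829223513418964195357996738863580142522022005551323914068764977355087585656,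
    2582249878086908589655919172003011874329705792829223513407678669473165850158448942747510020593810482443428423272766050640,
    2074757784440496479256203931845580575506223116121218449997828664845326405706454073199853524473551897144098943305651068619753301926917973454401107825369447179054130100372729089160414,
    [660, 606, 681, 600, 676, 648]⟩

set_option maxRecDepth 100000 in
theorem rk10_766_0 : chkC1 52 10 43 5 5 3 rd10_766.me rd10_766.mo gs10 [rd10_766.c0, rd10_766.c1] false
    (Nat.beq (10 % 2) 1) rd10_766.v0 = true := by decide +kernel

set_option maxRecDepth 100000 in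
theorem rk10_766_1 : chkC2 52 10 43 5 5 3 rd10_766.me rd10_766.mo gs10 [rd10_766.c0, rd10_766.c1]
    rd10_766.v1 = true := by decide +kernel

set_option maxRecDepth 100000 in
theorem rk10_766_2 : chkC1 52 10 43 5 5 3 rd10_766.me rd10_766.mo gs10 [rd10_766.c0, rd10_766.c1] true
    (Nat.beq (10 % 2) 0) rd10_766.v2 = true := by decide +kernel

/-- run 767 -/
def rd10_767 : CRun :=
  ⟨40, 1244, 20, 13, 6, 3,
    2582249878086908589655919172003011874329705792829223513376666372157011596830764616327417923527734486866414304344284773676,
    2582249878086908589655919172003011874329705792829223513438202457623865370442368512691530404228719728310332573179315691012,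
    2074757784440496479256203931845580575506223116121218449997828664845326405706454073199853524473551897144098943305650981546208435709270902937643172227132666910962708985960155448777402,
    [665, 583, 683, 615, 658, 605]⟩

set_option maxRecDepth 100000 in
theorem rk10_767_0 : chkC1 52 10 43 5 5 3 rd10_767.me rd10_767.mo gs10 [rd10_767.c0, rd10_767.c1] false
    (Nat.beq (10 % 2) 1) rd10_767.v0 = true := by decide +kernel

set_option maxRecDepth 100000 in
theorem rk10_767_1 : chkC2 52 10 43 5 5 3 rd10_767.me rd10_767.mo gs10 [rd10_767.c0, rd10_767.c1]
    rd10_767.v1 = true := by decide +kernel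

set_option maxRecDepth 100000 in
theorem rk10_767_2 : chkC1 52 10 43 5 5 3 rd10_767.me rd10_767.mo gs10 [rd10_767.c0, rd10_767.c1] true
    (Nat.beq (10 % 2) 0) rd10_767.v2 = true := by decide +kernel

/-- runs of this file -/
def rds10_95 : List CRun :=
  [rd10_760, rd10_761, rd10_762, rd10_763, rd10_764, rd10_765, rd10_766, rd10_767]

theorem ac10_95 : allC 52 10 43 5 5 3 gs10 rds10_95 :=
  allC_cons rk10_760_0 rk10_760_1 rk10_760_2
    (allC_cons rk10_761_0 rk10_761_1 rk10_761_2
    (allC_cons rk10_762_0 rk10_762_1 rk10_762_2
    (allC_cons rk10_763_0 rk10_763_1 rk10_763_2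
    (allC_cons rk10_764_0 rk10_764_1 rk10_764_2
    (allC_cons rk10_765_0 rk10_765_1 rk10_765_2
    (allC_cons rk10_766_0 rk10_766_1 rk10_766_2
    (allC_cons rk10_767_0 rk10_767_1 rk10_767_2
    (allC_nil))))))))

end Crest.Agent.R347
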