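import Crest.Agent.R347.G10c

/-! Row 347, Chebyshev numerics, ring with 10 sites: run certificates 768..775 (generated) -/

set_option autoImplicit false
set_option Elab.async false

namespace Crest.Agent.R347

/-- run 768 -/
def rd10_768 : CRun :=
  ⟨20, 1298, 40, 29, 6, 3,
    2582249878086908589655919172003011874329705792829223513461191313285034485324271822384563076420402364339389207481137126037,
    2582249878086908589655919172003011874329705792829223513400971310076428824748336792974078007890882807147379045978218063116,
    2074757784440496479256203931845580575506223116121218449997828664845326405706454073199853524473551897144098943305651106967722790123461908987784479454873793768906373732940950721155868,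
    [646, 627, 648, 596, 644, 666]⟩

set_option maxRecDepth 100000 in
theorem rk10_768_0 : chkC1 52 10 43 5 5 3 rd10_768.me rd10_768.mo gs10 [rd10_768.c0, rd10_768.c1] false
    (Nat.beq (10 % 2) 1) rd10_768.v0 = true := by decide +kernel

set_option maxRecDepth 100000 in
theorem rk10_768_1 : chkC2 52 10 43 5 5 3 rd10_768.me rd10_768.mo gs10 [rd10_768.c0, rd10_768.c1]
    rd10_768.v1 = true := by decide +kernel

set_option maxRecDepth 100000 in
theorem rk10_768_2 : chkC1 52 10 43 5 5 3 rd10_768.me rd10_768.mo gs10 [rd10_768.c0, rd10_768.c1] true
    (Nat.beq (10 % 2) 0) rd10_768.v2 = true := by decide +kernel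

/-- run 769 -/
def rd10_769 : CRun :=
  ⟨20, 1478, 40, 31, 6, 3,
    2582249878086908589655919172003011874329705792829223513385829132885376359381904884177947232687316088336963789091173272495,
    2582249878086908589655919172003011874329705792829223513430702877771308662826414175606574198362748606938348279016964239053,
    2074757784440496479256203931845580575506223116121218449997828664845326405706454073199853524473551897144098943305650977692771005576212222188018074793024746062719929894822936396176591,
    [704, 588, 733, 612, 730, 603]⟩

set_option maxRecDepth 100000 in
theorem rk10_769_0 : chkC1 52 10 43 5 5 3 rd10_769.me rd10_769.mo gs10 [rd10_769.c0, rd10_769.c1] false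
    (Nat.beq (10 % 2) 1) rd10_769.v0 = true := by decide +kernel

set_option maxRecDepth 100000 in
theorem rk10_769_1 : chkC2 52 10 43 5 5 3 rd10_769.me rd10_769.mo gs10 [rd10_769.c0, rd10_769.c1]
    rd10_769.v1 = true := by decide +kernel

set_option maxRecDepth 100000 in
theorem rk10_769_2 : chkC1 52 10 43 5 5 3 rd10_769.me rd10_769.mo gs10 [rd10_769.c0, rd10_769.c1] true
    (Nat.beq (10 % 2) 0) rd10_769.v2 = true := by decide +kernel

/-- run 770 -/
def rd10_770 : CRun :=
  ⟨40, 1490, 40, 83, 6, 3,
    2582249878086908589655919172003011874329705792829223513485724436406736489860970957648335605873108837445471105697683272785,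
    2582249878086908589655919172003011874329705792829223513417145141491895561871666641433491809485268780279802855865526464049,
    2074757784440496479256203931845580575506223116121218449997828664845326405706454073199853524473551897144098943305650997271704136827749739391284207877749895193241206144370841708064172,
    [676, 639, 686, 605, 674, 613]⟩

set_option maxRecDepth 100000 in
theorem rk10_770_0 : chkC1 52 10 43 5 5 3 rd10_770.me rd10_770.mo gs10 [rd10_770.c0, rd10_770.c1] false
    (Nat.beq (10 % 2) 1) rd10_770.v0 = true := by decide +kernel

set_option maxRecDepth 100000 in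
theorem rk10_770_1 : chkC2 52 10 43 5 5 3 rd10_770.me rd10_770.mo gs10 [rd10_770.c0, rd10_770.c1]
    rd10_770.v1 = true := by decide +kernel

set_option maxRecDepth 100000 in
theorem rk10_770_2 : chkC1 52 10 43 5 5 3 rd10_770.me rd10_770.mo gs10 [rd10_770.c0, rd10_770.c1] true
    (Nat.beq (10 % 2) 0) rd10_770.v2 = true := by decide +kernel

/-- run 771 -/
def rd10_771 : CRun :=
  ⟨40, 1496, 40, 85, 6, 3,
    2582249878086908589655919172003011874329705792829223513430134021703640980268872321025885426801455747078549170353267496182,
    2582249878086908589655919172003011874329705792829223513455811284712855385881757333299404864027158028716204417068548214320,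
    2074757784440496479256203931845580575506223116121218449997828664845326405706454073199853524473551897144098943305650924146381494778138260578757233800804504817871771064600078483688404,
    [694, 611, 716, 624, 704, 575]⟩

set_option maxRecDepth 100000 in
theorem rk10_771_0 : chkC1 52 10 43 5 5 3 rd10_771.me rd10_771.mo gs10 [rd10_771.c0, rd10_771.c1] false
    (Nat.beq (10 % 2) 1) rd10_771.v0 = true := by decide +kernel

set_option maxRecDepth 100000 in
theorem rk10_771_1 : chkC2 52 10 43 5 5 3 rd10_771.me rd10_771.mo gs10 [rd10_771.c0, rd10_771.c1]
    rd10_771.v1 = true := by decide +kernel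

set_option maxRecDepth 100000 in
theorem rk10_771_2 : chkC1 52 10 43 5 5 3 rd10_771.me rd10_771.mo gs10 [rd10_771.c0, rd10_771.c1] true
    (Nat.beq (10 % 2) 0) rd10_771.v2 = true := by decide +kernel

/-- run 772 -/
def rd10_772 : CRun :=
  ⟨20, 1514, 20, 91, 6, 3,
    2582249878086908589655919172003011874329705792829223513457464823960397886875290012292423920345153375596806910896073330444,
    2582249878086908589655919172003011874329705792829223513435086604756047188298092648194480889942429176705387737871666377018,
    2074757784440496479256203931845580575506223116121218449997828664845326405706454073199853524473551897144098943305650957731386619791035019405764963731102897531914341124970336282455735,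
    [716, 625, 722, 614, 710, 592]⟩

set_option maxRecDepth 100000 in
theorem rk10_772_0 : chkC1 52 10 43 5 5 3 rd10_772.me rd10_772.mo gs10 [rd10_772.c0, rd10_772.c1] false
    (Nat.beq (10 % 2) 1) rd10_772.v0 = true := by decide +kernel

set_option maxRecDepth 100000 in
theorem rk10_772_1 : chkC2 52 10 43 5 5 3 rd10_772.me rd10_772.mo gs10 [rd10_772.c0, rd10_772.c1]
    rd10_772.v1 = true := by decide +kernel

set_option maxRecDepth 100000 in
theorem rk10_772_2 : chkC1 52 10 43 5 5 3 rd10_772.me rd10_772.mo gs10 [rd10_772.c0, rd10_772.c1] true
    (Nat.beq (10 % 2) 0) rd10_772.v2 = true := by decide +kernel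

/-- run 773 -/
def rd10_773 : CRun :=
  ⟨40, 1544, 20, 245, 6, 3,
    2582249878086908589655919172003011874329705792829223513484422816590886707737781968353539264165065853020507043501089144615,
    2582249878086908589655919172003011874329705792829223513428118921396140206463342700562089608897892904524345548137799546306,
    2074757784440496479256203931845580575506223116121218449997828664845326405706454073199853524473551897144098943305651004528636344701349823738785016890440208183509926067463285929088030,
    [665, 638, 676, 610, 682, 617]⟩

set_option maxRecDepth 100000 in
theorem rk10_773_0 : chkC1 52 10 43 5 5 3 rd10_773.me rd10_773.mo gs10 [rd10_773.c0, rd10_773.c1] false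
    (Nat.beq (10 % 2) 1) rd10_773.v0 = true := by decide +kernel

set_option maxRecDepth 100000 in
theorem rk10_773_1 : chkC2 52 10 43 5 5 3 rd10_773.me rd10_773.mo gs10 [rd10_773.c0, rd10_773.c1]
    rd10_773.v1 = true := by decide +kernel

set_option maxRecDepth 100000 in
theorem rk10_773_2 : chkC1 52 10 43 5 5 3 rd10_773.me rd10_773.mo gs10 [rd10_773.c0, rd10_773.c1] true
    (Nat.beq (10 % 2) 0) rd10_773.v2 = true := by decide +kernel

/-- run 774 -/
def rd10_774 : CRun :=
  ⟨20, 1550, 40, 247, 6, 3,
    2582249878086908589655919172003011874329705792829223513461315047514442427575488553465673345940796573969910482529455380499,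
    2582249878086908589655919172003011874329705792829223513431159248175878216064668092840799088541864912588582592182189850423,
    2074757784440496479256203931845580575506223116121218449997828664845326405706454073199853524473551897144098943305650934888762320649488252576773821101476502678798784502570182473427367,
    [682, 627, 747, 612, 732, 580]⟩

set_option maxRecDepth 100000 in
theorem rk10_774_0 : chkC1 52 10 43 5 5 3 rd10_774.me rd10_774.mo gs10 [rd10_774.c0, rd10_774.c1] false
    (Nat.beq (10 % 2) 1) rd10_774.v0 = true := by decide +kernel

set_option maxRecDepth 100000 in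
theorem rk10_774_1 : chkC2 52 10 43 5 5 3 rd10_774.me rd10_774.mo gs10 [rd10_774.c0, rd10_774.c1]
    rd10_774.v1 = true := by decide +kernel

set_option maxRecDepth 100000 in
theorem rk10_774_2 : chkC1 52 10 43 5 5 3 rd10_774.me rd10_774.mo gs10 [rd10_774.c0, rd10_774.c1] true
    (Nat.beq (10 % 2) 0) rd10_774.v2 = true := by decide +kernel

/-- run 775 -/
def rd10_775 : CRun :=
  ⟨20, 2276, 40, 253, 6, 3,
    2582249878086908589655919172003011874329705792829223513478036844803001480382778210998575483982642618323214224773601456593,
    2582249878086908589655919172003011874329705792829223513400643494715399990732126232707240410719968277736647356239816600202,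
    2074757784440496479256203931845580575506223116121218449997828664845326405706454073199853524473551897144098943305651014626635014824844715244474805162306002433033538998533462962888731,
    [650, 635, 661, 596, 647, 622]⟩

set_option maxRecDepth 100000 in
theorem rk10_775_0 : chkC1 52 10 43 5 5 3 rd10_775.me rd10_775.mo gs10 [rd10_775.c0, rd10_775.c1] false
    (Nat.beq (10 % 2) 1) rd10_775.v0 = true := by decide +kernel

set_option maxRecDepth 100000 in
theorem rk10_775_1 : chkC2 52 10 43 5 5 3 rd10_775.me rd10_775.mo gs10 [rd10_775.c0, rd10_775.c1]
    rd10_775.v1 = true := by decide +kernel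

set_option maxRecDepth 100000 in
theorem rk10_775_2 : chkC1 52 10 43 5 5 3 rd10_775.me rd10_775.mo gs10 [rd10_775.c0, rd10_775.c1] true
    (Nat.beq (10 % 2) 0) rd10_775.v2 = true := by decide +kernel

/-- runs of this file -/
def rds10_96 : List CRun :=
  [rd10_768, rd10_769, rd10_770, rd10_771, rd10_772, rd10_773, rd10_774, rd10_775]

theorem ac10_96 : allC 52 10 43 5 5 3 gs10 rds10_96 :=
  allC_cons rk10_768_0 rk10_768_1 rk10_768_2
    (allC_cons rk10_769_0 rk10_769_1 rk10_769_2
    (allC_cons rk10_770_0 rk10_770_1 rk10_770_2
    (allC_cons rk10_771_0 rk10_771_1 rk10_771_2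
    (allC_cons rk10_772_0 rk10_772_1 rk10_772_2
    (allC_cons rk10_773_0 rk10_773_1 rk10_773_2
    (allC_cons rk10_774_0 rk10_774_1 rk10_774_2
    (allC_cons rk10_775_0 rk10_775_1 rk10_775_2
    (allC_nil))))))))

end Crest.Agent.R347
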