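import Crest.Agent.R347.G10c

/-! Row 347, Chebyshev numerics, ring with 10 sites: run certificates 776..783 (generated) -/

set_option autoImplicit false
set_option Elab.async false

namespace Crest.Agent.R347

/-- run 776 -/
def rd10_776 : CRun :=
  ⟨40, 2282, 20, 739, 6, 3,
    2582249878086908589655919172003011874329705792829223513439774043031150662931848551617840061253986442838252144572240405815,
    2582249878086908589655919172003011874329705792829223513366287159329142778641039083172986354278043577729571245421073205258,
    2074757784440496479256203931845580575506223116121218449997828664845326405706454073199853524473551897144098943305651011469001757855928823804519293711921488476904656215345541595686388,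
    [660, 616, 679, 578, 648, 620]⟩

set_option maxRecDepth 100000 in
theorem rk10_776_0 : chkC1 52 10 43 5 5 3 rd10_776.me rd10_776.mo gs10 [rd10_776.c0, rd10_776.c1] false
    (Nat.beq (10 % 2) 1) rd10_776.v0 = true := by decide +kernel

set_option maxRecDepth 100000 in
theorem rk10_776_1 : chkC2 52 10 43 5 5 3 rd10_776.me rd10_776.mo gs10 [rd10_776.c0, rd10_776.c1]
    rd10_776.v1 = true := by decide +kernel

set_option maxRecDepth 100000 in
theorem rk10_776_2 : chkC1 52 10 43 5 5 3 rd10_776.me rd10_776.mo gs10 [rd10_776.c0, rd10_776.c1] true
    (Nat.beq (10 % 2) 0) rd10_776.v2 = true := by decide +kernel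

/-- run 777 -/
def rd10_777 : CRun :=
  ⟨40, 2284, 20, 757, 6, 3,
    2582249878086908589655919172003011874329705792829223513410829874977957730088786730410591040457356522514236480022791996006,
    2582249878086908589655919172003011874329705792829223513349939778604896070567950702807599707122585206673818893907552275825,
    2074757784440496479256203931845580575506223116121218449997828664845326405706454073199853524473551897144098943305650952690421974950582525030629880056875813419763549628349211941946997,
    [641, 601, 656, 569, 642, 590]⟩

set_option maxRecDepth 100000 in
theorem rk10_777_0 : chkC1 52 10 43 5 5 3 rd10_777.me rd10_777.mo gs10 [rd10_777.c0, rd10_777.c1] false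
    (Nat.beq (10 % 2) 1) rd10_777.v0 = true := by decide +kernel

set_option maxRecDepth 100000 in
theorem rk10_777_1 : chkC2 52 10 43 5 5 3 rd10_777.me rd10_777.mo gs10 [rd10_777.c0, rd10_777.c1]
    rd10_777.v1 = true := by decide +kernel

set_option maxRecDepth 100000 in
theorem rk10_777_2 : chkC1 52 10 43 5 5 3 rd10_777.me rd10_777.mo gs10 [rd10_777.c0, rd10_777.c1] true
    (Nat.beq (10 % 2) 0) rd10_777.v2 = true := by decide +kernel

/-- run 778 -/
def rd10_778 : CRun :=
  ⟨40, 2288, 20, 1, 6, 1,
    2582249878086908589655919172003011874329705792829223513209088445149507054936146641489712122686309069862769536307716120750,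
    2582249878086908589655919172003011874329705792829223513582007343204602410200618700335141045528431674223954704010435886152,
    2074757784440496479256203931845580575506223116121218449997828664845326405706454073199853524473551897144098943305651112052074762158907140802552539622312268149156646061697481614807488,
    [696, 486, 724, 684, 716, 669]⟩

set_option maxRecDepth 100000 in
theorem rk10_778_0 : chkC1 52 10 43 5 5 3 rd10_778.me rd10_778.mo gs10 [rd10_778.c0, rd10_778.c1] false
    (Nat.beq (10 % 2) 1) rd10_778.v0 = true := by decide +kernel

set_option maxRecDepth 100000 in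
theorem rk10_778_1 : chkC2 52 10 43 5 5 3 rd10_778.me rd10_778.mo gs10 [rd10_778.c0, rd10_778.c1]
    rd10_778.v1 = true := by decide +kernel

set_option maxRecDepth 100000 in
theorem rk10_778_2 : chkC1 52 10 43 5 5 3 rd10_778.me rd10_778.mo gs10 [rd10_778.c0, rd10_778.c1] true
    (Nat.beq (10 % 2) 0) rd10_778.v2 = true := by decide +kernel

/-- run 779 -/
def rd10_779 : CRun :=
  ⟨40, 2290, 0, 1, 6, 1,
    2582249878086908589655919172003011874329705792829223513209088445149507054936146641489712122686309069862769536307716068353,
    2582249878086908589655919172003011874329705792829223513582007343204602410200618700335141045528431674223954704010435819746,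
    2074757784440496479256203931845580575506223116121218449997828664845326405706454073199853524473551897144098943305651112052074762158907140802552539622312268149156646061697481614713415,
    [657, 486, 676, 684, 647, 669]⟩

set_option maxRecDepth 100000 in
theorem rk10_779_0 : chkC1 52 10 43 5 5 3 rd10_779.me rd10_779.mo gs10 [rd10_779.c0, rd10_779.c1] false
    (Nat.beq (10 % 2) 1) rd10_779.v0 = true := by decide +kernel

set_option maxRecDepth 100000 in
theorem rk10_779_1 : chkC2 52 10 43 5 5 3 rd10_779.me rd10_779.mo gs10 [rd10_779.c0, rd10_779.c1]
    rd10_779.v1 = true := by decide +kernel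

set_option maxRecDepth 100000 in
theorem rk10_779_2 : chkC1 52 10 43 5 5 3 rd10_779.me rd10_779.mo gs10 [rd10_779.c0, rd10_779.c1] true
    (Nat.beq (10 % 2) 0) rd10_779.v2 = true := by decide +kernel

/-- run 780 -/
def rd10_780 : CRun :=
  ⟨40, 2300, 0, 1, 6, 1,
    2582249878086908589655919172003011874329705792829223513209088445149507054936146641489712122686309069862769536307716066710,
    2582249878086908589655919172003011874329705792829223513582007343204602410200618700335141045528431674223954704010435817518,
    2074757784440496479256203931845580575506223116121218449997828664845326405706454073199853524473551897144098943305651112052074762158907140802552539622312268149156646061697481614719282,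
    [656, 486, 675, 684, 652, 669]⟩

set_option maxRecDepth 100000 in
theorem rk10_780_0 : chkC1 52 10 43 5 5 3 rd10_780.me rd10_780.mo gs10 [rd10_780.c0, rd10_780.c1] false
    (Nat.beq (10 % 2) 1) rd10_780.v0 = true := by decide +kernel

set_option maxRecDepth 100000 in
theorem rk10_780_1 : chkC2 52 10 43 5 5 3 rd10_780.me rd10_780.mo gs10 [rd10_780.c0, rd10_780.c1]
    rd10_780.v1 = true := by decide +kernel

set_option maxRecDepth 100000 in
theorem rk10_780_2 : chkC1 52 10 43 5 5 3 rd10_780.me rd10_780.mo gs10 [rd10_780.c0, rd10_780.c1] true
    (Nat.beq (10 % 2) 0) rd10_780.v2 = true := by decide +kernel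

/-- run 781 -/
def rd10_781 : CRun :=
  ⟨40, 2302, 0, 1, 6, 1,
    2582249878086908589655919172003011874329705792829223513209088445149507054936146641489712122686309069862769536307716073431,
    2582249878086908589655919172003011874329705792829223513582007343204602410200618700335141045528431674223954704010435826390,
    2074757784440496479256203931845580575506223116121218449997828664845326405706454073199853524473551897144098943305651112052074762158907140802552539622312268149156646061697481614731153,
    [661, 486, 681, 684, 661, 669]⟩

set_option maxRecDepth 100000 in
theorem rk10_781_0 : chkC1 52 10 43 5 5 3 rd10_781.me rd10_781.mo gs10 [rd10_781.c0, rd10_781.c1] false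
    (Nat.beq (10 % 2) 1) rd10_781.v0 = true := by decide +kernel

set_option maxRecDepth 100000 in
theorem rk10_781_1 : chkC2 52 10 43 5 5 3 rd10_781.me rd10_781.mo gs10 [rd10_781.c0, rd10_781.c1]
    rd10_781.v1 = true := by decide +kernel

set_option maxRecDepth 100000 in
theorem rk10_781_2 : chkC1 52 10 43 5 5 3 rd10_781.me rd10_781.mo gs10 [rd10_781.c0, rd10_781.c1] true
    (Nat.beq (10 % 2) 0) rd10_781.v2 = true := by decide +kernel

/-- run 782 -/
def rd10_782 : CRun :=
  ⟨40, 2306, 0, 1, 6, 1,
    2582249878086908589655919172003011874329705792829223513209088445149507054936146641489712122686309069862769536307716092556,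
    2582249878086908589655919172003011874329705792829223513582007343204602410200618700335141045528431674223954704010435847664,
    2074757784440496479256203931845580575506223116121218449997828664845326405706454073199853524473551897144098943305651112052074762158907140802552539622312268149156646061697481614743388,
    [675, 486, 697, 684, 670, 669]⟩

set_option maxRecDepth 100000 in
theorem rk10_782_0 : chkC1 52 10 43 5 5 3 rd10_782.me rd10_782.mo gs10 [rd10_782.c0, rd10_782.c1] false
    (Nat.beq (10 % 2) 1) rd10_782.v0 = true := by decide +kernel

set_option maxRecDepth 100000 in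
theorem rk10_782_1 : chkC2 52 10 43 5 5 3 rd10_782.me rd10_782.mo gs10 [rd10_782.c0, rd10_782.c1]
    rd10_782.v1 = true := by decide +kernel

set_option maxRecDepth 100000 in
theorem rk10_782_2 : chkC1 52 10 43 5 5 3 rd10_782.me rd10_782.mo gs10 [rd10_782.c0, rd10_782.c1] true
    (Nat.beq (10 % 2) 0) rd10_782.v2 = true := by decide +kernel

/-- run 783 -/
def rd10_783 : CRun :=
  ⟨20, 2308, 0, 1, 6, 1,
    2582249878086908589655919172003011874329705792829223513209088445149507054936146641489712122686309069862769536307716046541,
    2582249878086908589655919172003011874329705792829223513582007343204602410200618700335141045528431674223954704010435815335,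
    2074757784440496479256203931845580575506223116121218449997828664845326405706454073199853524473551897144098943305651112052074762158907140802552539622312268149156646061697481614710073,
    [640, 486, 673, 684, 645, 669]⟩

set_option maxRecDepth 100000 in
theorem rk10_783_0 : chkC1 52 10 43 5 5 3 rd10_783.me rd10_783.mo gs10 [rd10_783.c0, rd10_783.c1] false
    (Nat.beq (10 % 2) 1) rd10_783.v0 = true := by decide +kernel

set_option maxRecDepth 100000 in
theorem rk10_783_1 : chkC2 52 10 43 5 5 3 rd10_783.me rd10_783.mo gs10 [rd10_783.c0, rd10_783.c1]
    rd10_783.v1 = true := by decide +kernel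

set_option maxRecDepth 100000 in
theorem rk10_783_2 : chkC1 52 10 43 5 5 3 rd10_783.me rd10_783.mo gs10 [rd10_783.c0, rd10_783.c1] true
    (Nat.beq (10 % 2) 0) rd10_783.v2 = true := by decide +kernel

/-- runs of this file -/
def rds10_97 : List CRun :=
  [rd10_776, rd10_777, rd10_778, rd10_779, rd10_780, rd10_781, rd10_782, rd10_783]

theorem ac10_97 : allC 52 10 43 5 5 3 gs10 rds10_97 :=
  allC_cons rk10_776_0 rk10_776_1 rk10_776_2
    (allC_cons rk10_777_0 rk10_777_1 rk10_777_2
    (allC_cons rk10_778_0 rk10_778_1 rk10_778_2
    (allC_cons rk10_779_0 rk10_779_1 rk10_779_2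
    (allC_cons rk10_780_0 rk10_780_1 rk10_780_2
    (allC_cons rk10_781_0 rk10_781_1 rk10_781_2
    (allC_cons rk10_782_0 rk10_782_1 rk10_782_2
    (allC_cons rk10_783_0 rk10_783_1 rk10_783_2
    (allC_nil))))))))

end Crest.Agent.R347
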