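import Crest.Agent.R347.G10c

/-! Row 347, Chebyshev numerics, ring with 10 sites: run certificates 784..791 (generated) -/

set_option autoImplicit false
set_option Elab.async false

namespace Crest.Agent.R347

/-- run 784 -/
def rd10_784 : CRun :=
  ⟨40, 2324, 0, 1, 6, 1,
    2582249878086908589655919172003011874329705792829223513209088445149507054936146641489712122686309069862769536307716097812,
    2582249878086908589655919172003011874329705792829223513582007343204602410200618700335141045528431674223954704010435838603,
    2074757784440496479256203931845580575506223116121218449997828664845326405706454073199853524473551897144098943305651112052074762158907140802552539622312268149156646061697481614752001,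
    [679, 486, 690, 684, 676, 669]⟩

set_option maxRecDepth 100000 in
theorem rk10_784_0 : chkC1 52 10 43 5 5 3 rd10_784.me rd10_784.mo gs10 [rd10_784.c0, rd10_784.c1] false
    (Nat.beq (10 % 2) 1) rd10_784.v0 = true := by decide +kernel

set_option maxRecDepth 100000 in
theorem rk10_784_1 : chkC2 52 10 43 5 5 3 rd10_784.me rd10_784.mo gs10 [rd10_784.c0, rd10_784.c1]
    rd10_784.v1 = true := by decide +kernel

set_option maxRecDepth 100000 in
theorem rk10_784_2 : chkC1 52 10 43 5 5 3 rd10_784.me rd10_784.mo gs10 [rd10_784.c0, rd10_784.c1] true
    (Nat.beq (10 % 2) 0) rd10_784.v2 = true := by decide +kernel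

/-- run 785 -/
def rd10_785 : CRun :=
  ⟨40, 2354, 0, 1, 6, 1,
    2582249878086908589655919172003011874329705792829223513209088445149507054936146641489712122686309069862769536307716096957,
    2582249878086908589655919172003011874329705792829223513582007343204602410200618700335141045528431674223954704010435838898,
    2074757784440496479256203931845580575506223116121218449997828664845326405706454073199853524473551897144098943305651112052074762158907140802552539622312268149156646061697481614752154,
    [679, 486, 690, 684, 677, 669]⟩

set_option maxRecDepth 100000 in
theorem rk10_785_0 : chkC1 52 10 43 5 5 3 rd10_785.me rd10_785.mo gs10 [rd10_785.c0, rd10_785.c1] false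
    (Nat.beq (10 % 2) 1) rd10_785.v0 = true := by decide +kernel

set_option maxRecDepth 100000 in
theorem rk10_785_1 : chkC2 52 10 43 5 5 3 rd10_785.me rd10_785.mo gs10 [rd10_785.c0, rd10_785.c1]
    rd10_785.v1 = true := by decide +kernel

set_option maxRecDepth 100000 in
theorem rk10_785_2 : chkC1 52 10 43 5 5 3 rd10_785.me rd10_785.mo gs10 [rd10_785.c0, rd10_785.c1] true
    (Nat.beq (10 % 2) 0) rd10_785.v2 = true := by decide +kernel

/-- run 786 -/
def rd10_786 : CRun :=
  ⟨20, 2360, 0, 1, 6, 1,
    2582249878086908589655919172003011874329705792829223513209088445149507054936146641489712122686309069862769536307716137213,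
    2582249878086908589655919172003011874329705792829223513582007343204602410200618700335141045528431674223954704010435885787,
    2074757784440496479256203931845580575506223116121218449997828664845326405706454073199853524473551897144098943305651112052074762158907140802552539622312268149156646061697481614835297,
    [708, 486, 724, 684, 736, 669]⟩

set_option maxRecDepth 100000 in
theorem rk10_786_0 : chkC1 52 10 43 5 5 3 rd10_786.me rd10_786.mo gs10 [rd10_786.c0, rd10_786.c1] false
    (Nat.beq (10 % 2) 1) rd10_786.v0 = true := by decide +kernel

set_option maxRecDepth 100000 in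
theorem rk10_786_1 : chkC2 52 10 43 5 5 3 rd10_786.me rd10_786.mo gs10 [rd10_786.c0, rd10_786.c1]
    rd10_786.v1 = true := by decide +kernel

set_option maxRecDepth 100000 in
theorem rk10_786_2 : chkC1 52 10 43 5 5 3 rd10_786.me rd10_786.mo gs10 [rd10_786.c0, rd10_786.c1] true
    (Nat.beq (10 % 2) 0) rd10_786.v2 = true := by decide +kernel

/-- run 787 -/
def rd10_787 : CRun :=
  ⟨40, 2444, 0, 1, 6, 1,
    2582249878086908589655919172003011874329705792829223513209088445149507054936146641489712122686309069862769536307716062494,
    2582249878086908589655919172003011874329705792829223513582007343204602410200618700335141045528431674223954704010435812893,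
    2074757784440496479256203931845580575506223116121218449997828664845326405706454073199853524473551897144098943305651112052074762158907140802552539622312268149156646061697481614717228,
    [653, 486, 671, 684, 650, 669]⟩

set_option maxRecDepth 100000 in
theorem rk10_787_0 : chkC1 52 10 43 5 5 3 rd10_787.me rd10_787.mo gs10 [rd10_787.c0, rd10_787.c1] false
    (Nat.beq (10 % 2) 1) rd10_787.v0 = true := by decide +kernel

set_option maxRecDepth 100000 in
theorem rk10_787_1 : chkC2 52 10 43 5 5 3 rd10_787.me rd10_787.mo gs10 [rd10_787.c0, rd10_787.c1]
    rd10_787.v1 = true := by decide +kernel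

set_option maxRecDepth 100000 in
theorem rk10_787_2 : chkC1 52 10 43 5 5 3 rd10_787.me rd10_787.mo gs10 [rd10_787.c0, rd10_787.c1] true
    (Nat.beq (10 % 2) 0) rd10_787.v2 = true := by decide +kernel

/-- run 788 -/
def rd10_788 : CRun :=
  ⟨20, 2446, 0, 1, 6, 1,
    2582249878086908589655919172003011874329705792829223513209088445149507054936146641489712122686309069862769536307716035475,
    2582249878086908589655919172003011874329705792829223513582007343204602410200618700335141045528431674223954704010435793995,
    2074757784440496479256203931845580575506223116121218449997828664845326405706454073199853524473551897144098943305651112052074762158907140802552539622312268149156646061697481614708279,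
    [632, 486, 657, 684, 643, 669]⟩

set_option maxRecDepth 100000 in
theorem rk10_788_0 : chkC1 52 10 43 5 5 3 rd10_788.me rd10_788.mo gs10 [rd10_788.c0, rd10_788.c1] false
    (Nat.beq (10 % 2) 1) rd10_788.v0 = true := by decide +kernel

set_option maxRecDepth 100000 in
theorem rk10_788_1 : chkC2 52 10 43 5 5 3 rd10_788.me rd10_788.mo gs10 [rd10_788.c0, rd10_788.c1]
    rd10_788.v1 = true := by decide +kernel

set_option maxRecDepth 100000 in
theorem rk10_788_2 : chkC1 52 10 43 5 5 3 rd10_788.me rd10_788.mo gs10 [rd10_788.c0, rd10_788.c1] true
    (Nat.beq (10 % 2) 0) rd10_788.v2 = true := by decide +kernel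

/-- run 789 -/
def rd10_789 : CRun :=
  ⟨20, 2450, 0, 1, 6, 1,
    2582249878086908589655919172003011874329705792829223513209088445149507054936146641489712122686309069862769536307716102872,
    2582249878086908589655919172003011874329705792829223513582007343204602410200618700335141045528431674223954704010435891728,
    2074757784440496479256203931845580575506223116121218449997828664845326405706454073199853524473551897144098943305651112052074762158907140802552539622312268149156646061697481614826070,
    [683, 486, 728, 684, 729, 669]⟩

set_option maxRecDepth 100000 in
theorem rk10_789_0 : chkC1 52 10 43 5 5 3 rd10_789.me rd10_789.mo gs10 [rd10_789.c0, rd10_789.c1] false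
    (Nat.beq (10 % 2) 1) rd10_789.v0 = true := by decide +kernel

set_option maxRecDepth 100000 in
theorem rk10_789_1 : chkC2 52 10 43 5 5 3 rd10_789.me rd10_789.mo gs10 [rd10_789.c0, rd10_789.c1]
    rd10_789.v1 = true := by decide +kernel

set_option maxRecDepth 100000 in
theorem rk10_789_2 : chkC1 52 10 43 5 5 3 rd10_789.me rd10_789.mo gs10 [rd10_789.c0, rd10_789.c1] true
    (Nat.beq (10 % 2) 0) rd10_789.v2 = true := by decide +kernel

/-- run 790 -/
def rd10_790 : CRun :=
  ⟨40, 2462, 0, 1, 6, 1,
    2582249878086908589655919172003011874329705792829223513209088445149507054936146641489712122686309069862769536307716093905,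
    2582249878086908589655919172003011874329705792829223513582007343204602410200618700335141045528431674223954704010435847860,
    2074757784440496479256203931845580575506223116121218449997828664845326405706454073199853524473551897144098943305651112052074762158907140802552539622312268149156646061697481614736598,
    [676, 486, 697, 684, 665, 669]⟩

set_option maxRecDepth 100000 in
theorem rk10_790_0 : chkC1 52 10 43 5 5 3 rd10_790.me rd10_790.mo gs10 [rd10_790.c0, rd10_790.c1] false
    (Nat.beq (10 % 2) 1) rd10_790.v0 = true := by decide +kernel

set_option maxRecDepth 100000 in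
theorem rk10_790_1 : chkC2 52 10 43 5 5 3 rd10_790.me rd10_790.mo gs10 [rd10_790.c0, rd10_790.c1]
    rd10_790.v1 = true := by decide +kernel

set_option maxRecDepth 100000 in
theorem rk10_790_2 : chkC1 52 10 43 5 5 3 rd10_790.me rd10_790.mo gs10 [rd10_790.c0, rd10_790.c1] true
    (Nat.beq (10 % 2) 0) rd10_790.v2 = true := by decide +kernel

/-- run 791 -/
def rd10_791 : CRun :=
  ⟨40, 2464, 0, 1, 6, 1,
    2582249878086908589655919172003011874329705792829223513209088445149507054936146641489712122686309069862769536307716085781,
    2582249878086908589655919172003011874329705792829223513582007343204602410200618700335141045528431674223954704010435838146,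
    2074757784440496479256203931845580575506223116121218449997828664845326405706454073199853524473551897144098943305651112052074762158907140802552539622312268149156646061697481614741353,
    [670, 486, 690, 684, 669, 669]⟩

set_option maxRecDepth 100000 in
theorem rk10_791_0 : chkC1 52 10 43 5 5 3 rd10_791.me rd10_791.mo gs10 [rd10_791.c0, rd10_791.c1] false
    (Nat.beq (10 % 2) 1) rd10_791.v0 = true := by decide +kernel

set_option maxRecDepth 100000 in
theorem rk10_791_1 : chkC2 52 10 43 5 5 3 rd10_791.me rd10_791.mo gs10 [rd10_791.c0, rd10_791.c1]
    rd10_791.v1 = true := by decide +kernel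

set_option maxRecDepth 100000 in
theorem rk10_791_2 : chkC1 52 10 43 5 5 3 rd10_791.me rd10_791.mo gs10 [rd10_791.c0, rd10_791.c1] true
    (Nat.beq (10 % 2) 0) rd10_791.v2 = true := by decide +kernel

/-- runs of this file -/
def rds10_98 : List CRun :=
  [rd10_784, rd10_785, rd10_786, rd10_787, rd10_788, rd10_789, rd10_790, rd10_791]

theorem ac10_98 : allC 52 10 43 5 5 3 gs10 rds10_98 :=
  allC_cons rk10_784_0 rk10_784_1 rk10_784_2
    (allC_cons rk10_785_0 rk10_785_1 rk10_785_2
    (allC_cons rk10_786_0 rk10_786_1 rk10_786_2
    (allC_cons rk10_787_0 rk10_787_1 rk10_787_2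
    (allC_cons rk10_788_0 rk10_788_1 rk10_788_2
    (allC_cons rk10_789_0 rk10_789_1 rk10_789_2
    (allC_cons rk10_790_0 rk10_790_1 rk10_790_2
    (allC_cons rk10_791_0 rk10_791_1 rk10_791_2
    (allC_nil))))))))

end Crest.Agent.R347
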