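import Crest.Agent.R347.G10c

/-! Row 347, Chebyshev numerics, ring with 10 sites: run certificates 792..799 (generated) -/

set_option autoImplicit false
set_option Elab.async false

namespace Crest.Agent.R347

/-- run 792 -/
def rd10_792 : CRun :=
  ⟨40, 2468, 0, 1, 6, 1,
    2582249878086908589655919172003011874329705792829223513209088445149507054936146641489712122686309069862769536307716107982,
    2582249878086908589655919172003011874329705792829223513582007343204602410200618700335141045528431674223954704010435875867,
    2074757784440496479256203931845580575506223116121218449997828664845326405706454073199853524473551897144098943305651112052074762158907140802552539622312268149156646061697481614793681,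
    [687, 486, 717, 684, 707, 669]⟩

set_option maxRecDepth 100000 in
theorem rk10_792_0 : chkC1 52 10 43 5 5 3 rd10_792.me rd10_792.mo gs10 [rd10_792.c0, rd10_792.c1] false
    (Nat.beq (10 % 2) 1) rd10_792.v0 = true := by decide +kernel

set_option maxRecDepth 100000 in
theorem rk10_792_1 : chkC2 52 10 43 5 5 3 rd10_792.me rd10_792.mo gs10 [rd10_792.c0, rd10_792.c1]
    rd10_792.v1 = true := by decide +kernel

set_option maxRecDepth 100000 in
theorem rk10_792_2 : chkC1 52 10 43 5 5 3 rd10_792.me rd10_792.mo gs10 [rd10_792.c0, rd10_792.c1] true
    (Nat.beq (10 % 2) 0) rd10_792.v2 = true := by decide +kernel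

/-- run 793 -/
def rd10_793 : CRun :=
  ⟨40, 2470, 0, 1, 6, 1,
    2582249878086908589655919172003011874329705792829223513209088445149507054936146641489712122686309069862769536307716053512,
    2582249878086908589655919172003011874329705792829223513582007343204602410200618700335141045528431674223954704010435833291,
    2074757784440496479256203931845580575506223116121218449997828664845326405706454073199853524473551897144098943305651112052074762158907140802552539622312268149156646061697481614730456,
    [646, 486, 686, 684, 660, 669]⟩

set_option maxRecDepth 100000 in
theorem rk10_793_0 : chkC1 52 10 43 5 5 3 rd10_793.me rd10_793.mo gs10 [rd10_793.c0, rd10_793.c1] false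
    (Nat.beq (10 % 2) 1) rd10_793.v0 = true := by decide +kernel

set_option maxRecDepth 100000 in
theorem rk10_793_1 : chkC2 52 10 43 5 5 3 rd10_793.me rd10_793.mo gs10 [rd10_793.c0, rd10_793.c1]
    rd10_793.v1 = true := by decide +kernel

set_option maxRecDepth 100000 in
theorem rk10_793_2 : chkC1 52 10 43 5 5 3 rd10_793.me rd10_793.mo gs10 [rd10_793.c0, rd10_793.c1] true
    (Nat.beq (10 % 2) 0) rd10_793.v2 = true := by decide +kernel

/-- run 794 -/
def rd10_794 : CRun :=
  ⟨40, 2476, 0, 1, 6, 1,
    2582249878086908589655919172003011874329705792829223513209088445149507054936146641489712122686309069862769536307716093303,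
    2582249878086908589655919172003011874329705792829223513582007343204602410200618700335141045528431674223954704010435840961,
    2074757784440496479256203931845580575506223116121218449997828664845326405706454073199853524473551897144098943305651112052074762158907140802552539622312268149156646061697481614732883,
    [676, 486, 692, 684, 662, 669]⟩

set_option maxRecDepth 100000 in
theorem rk10_794_0 : chkC1 52 10 43 5 5 3 rd10_794.me rd10_794.mo gs10 [rd10_794.c0, rd10_794.c1] false
    (Nat.beq (10 % 2) 1) rd10_794.v0 = true := by decide +kernel

set_option maxRecDepth 100000 in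
theorem rk10_794_1 : chkC2 52 10 43 5 5 3 rd10_794.me rd10_794.mo gs10 [rd10_794.c0, rd10_794.c1]
    rd10_794.v1 = true := by decide +kernel

set_option maxRecDepth 100000 in
theorem rk10_794_2 : chkC1 52 10 43 5 5 3 rd10_794.me rd10_794.mo gs10 [rd10_794.c0, rd10_794.c1] true
    (Nat.beq (10 % 2) 0) rd10_794.v2 = true := by decide +kernel

/-- run 795 -/
def rd10_795 : CRun :=
  ⟨40, 2486, 0, 1, 6, 1,
    2582249878086908589655919172003011874329705792829223513209088445149507054936146641489712122686309069862769536307716121125,
    2582249878086908589655919172003011874329705792829223513582007343204602410200618700335141045528431674223954704010435902022,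
    2074757784440496479256203931845580575506223116121218449997828664845326405706454073199853524473551897144098943305651112052074762158907140802552539622312268149156646061697481614812350,
    [696, 486, 735, 684, 720, 669]⟩

set_option maxRecDepth 100000 in
theorem rk10_795_0 : chkC1 52 10 43 5 5 3 rd10_795.me rd10_795.mo gs10 [rd10_795.c0, rd10_795.c1] false
    (Nat.beq (10 % 2) 1) rd10_795.v0 = true := by decide +kernel

set_option maxRecDepth 100000 in
theorem rk10_795_1 : chkC2 52 10 43 5 5 3 rd10_795.me rd10_795.mo gs10 [rd10_795.c0, rd10_795.c1]
    rd10_795.v1 = true := by decide +kernel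

set_option maxRecDepth 100000 in
theorem rk10_795_2 : chkC1 52 10 43 5 5 3 rd10_795.me rd10_795.mo gs10 [rd10_795.c0, rd10_795.c1] true
    (Nat.beq (10 % 2) 0) rd10_795.v2 = true := by decide +kernel

/-- run 796 -/
def rd10_796 : CRun :=
  ⟨40, 2488, 0, 1, 6, 1,
    2582249878086908589655919172003011874329705792829223513209088445149507054936146641489712122686309069862769536307716118491,
    2582249878086908589655919172003011874329705792829223513582007343204602410200618700335141045528431674223954704010435872510,
    2074757784440496479256203931845580575506223116121218449997828664845326405706454073199853524473551897144098943305651112052074762158907140802552539622312268149156646061697481614783149,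
    [694, 486, 714, 684, 699, 669]⟩

set_option maxRecDepth 100000 in
theorem rk10_796_0 : chkC1 52 10 43 5 5 3 rd10_796.me rd10_796.mo gs10 [rd10_796.c0, rd10_796.c1] false
    (Nat.beq (10 % 2) 1) rd10_796.v0 = true := by decide +kernel

set_option maxRecDepth 100000 in
theorem rk10_796_1 : chkC2 52 10 43 5 5 3 rd10_796.me rd10_796.mo gs10 [rd10_796.c0, rd10_796.c1]
    rd10_796.v1 = true := by decide +kernel

set_option maxRecDepth 100000 in
theorem rk10_796_2 : chkC1 52 10 43 5 5 3 rd10_796.me rd10_796.mo gs10 [rd10_796.c0, rd10_796.c1] true
    (Nat.beq (10 % 2) 0) rd10_796.v2 = true := by decide +kernel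

/-- run 797 -/
def rd10_797 : CRun :=
  ⟨40, 2494, 0, 1, 6, 1,
    2582249878086908589655919172003011874329705792829223513209088445149507054936146641489712122686309069862769536307716078763,
    2582249878086908589655919172003011874329705792829223513582007343204602410200618700335141045528431674223954704010435837506,
    2074757784440496479256203931845580575506223116121218449997828664845326405706454073199853524473551897144098943305651112052074762158907140802552539622312268149156646061697481614736895,
    [665, 486, 689, 684, 665, 669]⟩

set_option maxRecDepth 100000 in
theorem rk10_797_0 : chkC1 52 10 43 5 5 3 rd10_797.me rd10_797.mo gs10 [rd10_797.c0, rd10_797.c1] false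
    (Nat.beq (10 % 2) 1) rd10_797.v0 = true := by decide +kernel

set_option maxRecDepth 100000 in
theorem rk10_797_1 : chkC2 52 10 43 5 5 3 rd10_797.me rd10_797.mo gs10 [rd10_797.c0, rd10_797.c1]
    rd10_797.v1 = true := by decide +kernel

set_option maxRecDepth 100000 in
theorem rk10_797_2 : chkC1 52 10 43 5 5 3 rd10_797.me rd10_797.mo gs10 [rd10_797.c0, rd10_797.c1] true
    (Nat.beq (10 % 2) 0) rd10_797.v2 = true := by decide +kernel

/-- run 798 -/
def rd10_798 : CRun :=
  ⟨40, 2516, 0, 1, 6, 1,
    2582249878086908589655919172003011874329705792829223513209088445149507054936146641489712122686309069862769536307716068469,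
    2582249878086908589655919172003011874329705792829223513582007343204602410200618700335141045528431674223954704010435813490,
    2074757784440496479256203931845580575506223116121218449997828664845326405706454073199853524473551897144098943305651112052074762158907140802552539622312268149156646061697481614735044,
    [657, 486, 672, 684, 664, 669]⟩

set_option maxRecDepth 100000 in
theorem rk10_798_0 : chkC1 52 10 43 5 5 3 rd10_798.me rd10_798.mo gs10 [rd10_798.c0, rd10_798.c1] false
    (Nat.beq (10 % 2) 1) rd10_798.v0 = true := by decide +kernel

set_option maxRecDepth 100000 in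
theorem rk10_798_1 : chkC2 52 10 43 5 5 3 rd10_798.me rd10_798.mo gs10 [rd10_798.c0, rd10_798.c1]
    rd10_798.v1 = true := by decide +kernel

set_option maxRecDepth 100000 in
theorem rk10_798_2 : chkC1 52 10 43 5 5 3 rd10_798.me rd10_798.mo gs10 [rd10_798.c0, rd10_798.c1] true
    (Nat.beq (10 % 2) 0) rd10_798.v2 = true := by decide +kernel

/-- run 799 -/
def rd10_799 : CRun :=
  ⟨40, 2518, 0, 1, 6, 1,
    2582249878086908589655919172003011874329705792829223513209088445149507054936146641489712122686309069862769536307716056497,
    2582249878086908589655919172003011874329705792829223513582007343204602410200618700335141045528431674223954704010435814465,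
    2074757784440496479256203931845580575506223116121218449997828664845326405706454073199853524473551897144098943305651112052074762158907140802552539622312268149156646061697481614735542,
    [648, 486, 673, 684, 664, 669]⟩

set_option maxRecDepth 100000 in
theorem rk10_799_0 : chkC1 52 10 43 5 5 3 rd10_799.me rd10_799.mo gs10 [rd10_799.c0, rd10_799.c1] false
    (Nat.beq (10 % 2) 1) rd10_799.v0 = true := by decide +kernel

set_option maxRecDepth 100000 in
theorem rk10_799_1 : chkC2 52 10 43 5 5 3 rd10_799.me rd10_799.mo gs10 [rd10_799.c0, rd10_799.c1]
    rd10_799.v1 = true := by decide +kernel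

set_option maxRecDepth 100000 in
theorem rk10_799_2 : chkC1 52 10 43 5 5 3 rd10_799.me rd10_799.mo gs10 [rd10_799.c0, rd10_799.c1] true
    (Nat.beq (10 % 2) 0) rd10_799.v2 = true := by decide +kernel

/-- runs of this file -/
def rds10_99 : List CRun :=
  [rd10_792, rd10_793, rd10_794, rd10_795, rd10_796, rd10_797, rd10_798, rd10_799]

theorem ac10_99 : allC 52 10 43 5 5 3 gs10 rds10_99 :=
  allC_cons rk10_792_0 rk10_792_1 rk10_792_2
    (allC_cons rk10_793_0 rk10_793_1 rk10_793_2
    (allC_cons rk10_794_0 rk10_794_1 rk10_794_2
    (allC_cons rk10_795_0 rk10_795_1 rk10_795_2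
    (allC_cons rk10_796_0 rk10_796_1 rk10_796_2
    (allC_cons rk10_797_0 rk10_797_1 rk10_797_2
    (allC_cons rk10_798_0 rk10_798_1 rk10_798_2
    (allC_cons rk10_799_0 rk10_799_1 rk10_799_2
    (allC_nil))))))))

end Crest.Agent.R347
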