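import Crest.Agent.R347.G8c

/-! Row 347, Chebyshev numerics, ring with 8 sites: run certificates 120..134 (generated) -/

set_option autoImplicit false
set_option Elab.async false

namespace Crest.Agent.R347

/-- run 120 -/
def rd8_120 : CRun :=
  ⟨16, 8, 0, 1, 4, 1,
    2582249878086908589655919172003011874329705792829223512839074891078431954089854450107236021829546608514343658051220806048,
    2582249878086908589655919172003011874329705792829223512835131465117820391953674475132630808802957122367600684433391232321,
    2074757784440496479256203931845580575506223116121218449997828664845326405706454073199853524473551897144098943305650402860500751294469845592880364604679734422787196907952685222730537,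
    [81, 73, 98, 53, 84, 72]⟩

set_option maxRecDepth 100000 in
theorem rk8_120_0 : chkC1 58 8 50 3 4 2 rd8_120.me rd8_120.mo gs8 [rd8_120.c0, rd8_120.c1] false
    (Nat.beq (8 % 2) 1) rd8_120.v0 = true := by decide +kernel

set_option maxRecDepth 100000 in
theorem rk8_120_1 : chkC2 58 8 50 3 4 2 rd8_120.me rd8_120.mo gs8 [rd8_120.c0, rd8_120.c1]
    rd8_120.v1 = true := by decide +kernel

set_option maxRecDepth 100000 in
theorem rk8_120_2 : chkC1 58 8 50 3 4 2 rd8_120.me rd8_120.mo gs8 [rd8_120.c0, rd8_120.c1] true
    (Nat.beq (8 % 2) 0) rd8_120.v2 = true := by decide +kernel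

/-- run 121 -/
def rd8_121 : CRun :=
  ⟨32, 14, 0, 1, 4, 1,
    2582249878086908589655919172003011874329705792829223512839074891078431954089854450107236021829546608514343658051220806412,
    2582249878086908589655919172003011874329705792829223512835131465117820391953674475132630808802957122367600684433391232339,
    2074757784440496479256203931845580575506223116121218449997828664845326405706454073199853524473551897144098943305650402860500751294469845592880364604679734422787196907952685222730493,
    [84, 73, 98, 53, 84, 72]⟩

set_option maxRecDepth 100000 in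
theorem rk8_121_0 : chkC1 58 8 50 3 4 2 rd8_121.me rd8_121.mo gs8 [rd8_121.c0, rd8_121.c1] false
    (Nat.beq (8 % 2) 1) rd8_121.v0 = true := by decide +kernel

set_option maxRecDepth 100000 in
theorem rk8_121_1 : chkC2 58 8 50 3 4 2 rd8_121.me rd8_121.mo gs8 [rd8_121.c0, rd8_121.c1]
    rd8_121.v1 = true := by decide +kernel

set_option maxRecDepth 100000 in
theorem rk8_121_2 : chkC1 58 8 50 3 4 2 rd8_121.me rd8_121.mo gs8 [rd8_121.c0, rd8_121.c1] true
    (Nat.beq (8 % 2) 0) rd8_121.v2 = true := by decide +kernel

/-- run 122 -/
def rd8_122 : CRun :=
  ⟨16, 16, 0, 1, 4, 1,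
    2582249878086908589655919172003011874329705792829223512839074891078431954089854450107236021829546608514343658051220806799,
    2582249878086908589655919172003011874329705792829223512835131465117820391953674475132630808802957122367600684433391232715,
    2074757784440496479256203931845580575506223116121218449997828664845326405706454073199853524473551897144098943305650402860500751294469845592880364604679734422787196907952685222729648,
    [86, 73, 100, 53, 78, 72]⟩

set_option maxRecDepth 100000 in
theorem rk8_122_0 : chkC1 58 8 50 3 4 2 rd8_122.me rd8_122.mo gs8 [rd8_122.c0, rd8_122.c1] false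
    (Nat.beq (8 % 2) 1) rd8_122.v0 = true := by decide +kernel

set_option maxRecDepth 100000 in
theorem rk8_122_1 : chkC2 58 8 50 3 4 2 rd8_122.me rd8_122.mo gs8 [rd8_122.c0, rd8_122.c1]
    rd8_122.v1 = true := by decide +kernel

set_option maxRecDepth 100000 in
theorem rk8_122_2 : chkC1 58 8 50 3 4 2 rd8_122.me rd8_122.mo gs8 [rd8_122.c0, rd8_122.c1] true
    (Nat.beq (8 % 2) 0) rd8_122.v2 = true := by decide +kernel

/-- run 123 -/
def rd8_123 : CRun :=
  ⟨16, 20, 0, 1, 4, 1,
    2582249878086908589655919172003011874329705792829223512839074891078431954089854450107236021829546608514343658051220806569,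
    2582249878086908589655919172003011874329705792829223512835131465117820391953674475132630808802957122367600684433391232433,
    2074757784440496479256203931845580575506223116121218449997828664845326405706454073199853524473551897144098943305650402860500751294469845592880364604679734422787196907952685222731049,
    [85, 73, 99, 53, 87, 72]⟩

set_option maxRecDepth 100000 in
theorem rk8_123_0 : chkC1 58 8 50 3 4 2 rd8_123.me rd8_123.mo gs8 [rd8_123.c0, rd8_123.c1] false
    (Nat.beq (8 % 2) 1) rd8_123.v0 = true := by decide +kernel

set_option maxRecDepth 100000 in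
theorem rk8_123_1 : chkC2 58 8 50 3 4 2 rd8_123.me rd8_123.mo gs8 [rd8_123.c0, rd8_123.c1]
    rd8_123.v1 = true := by decide +kernel

set_option maxRecDepth 100000 in
theorem rk8_123_2 : chkC1 58 8 50 3 4 2 rd8_123.me rd8_123.mo gs8 [rd8_123.c0, rd8_123.c1] true
    (Nat.beq (8 % 2) 0) rd8_123.v2 = true := by decide +kernel

/-- run 124 -/
def rd8_124 : CRun :=
  ⟨32, 32, 0, 1, 4, 1,
    2582249878086908589655919172003011874329705792829223512839074891078431954089854450107236021829546608514343658051220806992,
    2582249878086908589655919172003011874329705792829223512835131465117820391953674475132630808802957122367600684433391231834,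
    2074757784440496479256203931845580575506223116121218449997828664845326405706454073199853524473551897144098943305650402860500751294469845592880364604679734422787196907952685222731284,
    [87, 73, 96, 53, 88, 72]⟩

set_option maxRecDepth 100000 in
theorem rk8_124_0 : chkC1 58 8 50 3 4 2 rd8_124.me rd8_124.mo gs8 [rd8_124.c0, rd8_124.c1] false
    (Nat.beq (8 % 2) 1) rd8_124.v0 = true := by decide +kernel

set_option maxRecDepth 100000 in
theorem rk8_124_1 : chkC2 58 8 50 3 4 2 rd8_124.me rd8_124.mo gs8 [rd8_124.c0, rd8_124.c1]
    rd8_124.v1 = true := by decide +kernel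

set_option maxRecDepth 100000 in
theorem rk8_124_2 : chkC1 58 8 50 3 4 2 rd8_124.me rd8_124.mo gs8 [rd8_124.c0, rd8_124.c1] true
    (Nat.beq (8 % 2) 0) rd8_124.v2 = true := by decide +kernel

/-- run 125 -/
def rd8_125 : CRun :=
  ⟨32, 34, 0, 1, 4, 1,
    2582249878086908589655919172003011874329705792829223512839074891078431954089854450107236021829546608514343658051220806612,
    2582249878086908589655919172003011874329705792829223512835131465117820391953674475132630808802957122367600684433391232123,
    2074757784440496479256203931845580575506223116121218449997828664845326405706454073199853524473551897144098943305650402860500751294469845592880364604679734422787196907952685222731051,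
    [85, 73, 97, 53, 87, 72]⟩

set_option maxRecDepth 100000 in
theorem rk8_125_0 : chkC1 58 8 50 3 4 2 rd8_125.me rd8_125.mo gs8 [rd8_125.c0, rd8_125.c1] false
    (Nat.beq (8 % 2) 1) rd8_125.v0 = true := by decide +kernel

set_option maxRecDepth 100000 in
theorem rk8_125_1 : chkC2 58 8 50 3 4 2 rd8_125.me rd8_125.mo gs8 [rd8_125.c0, rd8_125.c1]
    rd8_125.v1 = true := by decide +kernel

set_option maxRecDepth 100000 in
theorem rk8_125_2 : chkC1 58 8 50 3 4 2 rd8_125.me rd8_125.mo gs8 [rd8_125.c0, rd8_125.c1] true
    (Nat.beq (8 % 2) 0) rd8_125.v2 = true := by decide +kernel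

/-- run 126 -/
def rd8_126 : CRun :=
  ⟨32, 38, 0, 1, 4, 1,
    2582249878086908589655919172003011874329705792829223512839074891078431954089854450107236021829546608514343658051220806412,
    2582249878086908589655919172003011874329705792829223512835131465117820391953674475132630808802957122367600684433391231909,
    2074757784440496479256203931845580575506223116121218449997828664845326405706454073199853524473551897144098943305650402860500751294469845592880364604679734422787196907952685222731698,
    [84, 73, 96, 53, 91, 72]⟩

set_option maxRecDepth 100000 in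
theorem rk8_126_0 : chkC1 58 8 50 3 4 2 rd8_126.me rd8_126.mo gs8 [rd8_126.c0, rd8_126.c1] false
    (Nat.beq (8 % 2) 1) rd8_126.v0 = true := by decide +kernel

set_option maxRecDepth 100000 in
theorem rk8_126_1 : chkC2 58 8 50 3 4 2 rd8_126.me rd8_126.mo gs8 [rd8_126.c0, rd8_126.c1]
    rd8_126.v1 = true := by decide +kernel

set_option maxRecDepth 100000 in
theorem rk8_126_2 : chkC1 58 8 50 3 4 2 rd8_126.me rd8_126.mo gs8 [rd8_126.c0, rd8_126.c1] true
    (Nat.beq (8 % 2) 0) rd8_126.v2 = true := by decide +kernel

/-- run 127 -/
def rd8_127 : CRun :=
  ⟨16, 40, 0, 1, 4, 1,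
    2582249878086908589655919172003011874329705792829223512839074891078431954089854450107236021829546608514343658051220807257,
    2582249878086908589655919172003011874329705792829223512835131465117820391953674475132630808802957122367600684433391232891,
    2074757784440496479256203931845580575506223116121218449997828664845326405706454073199853524473551897144098943305650402860500751294469845592880364604679734422787196907952685222730591,
    [89, 73, 101, 53, 84, 72]⟩

set_option maxRecDepth 100000 in
theorem rk8_127_0 : chkC1 58 8 50 3 4 2 rd8_127.me rd8_127.mo gs8 [rd8_127.c0, rd8_127.c1] false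
    (Nat.beq (8 % 2) 1) rd8_127.v0 = true := by decide +kernel

set_option maxRecDepth 100000 in
theorem rk8_127_1 : chkC2 58 8 50 3 4 2 rd8_127.me rd8_127.mo gs8 [rd8_127.c0, rd8_127.c1]
    rd8_127.v1 = true := by decide +kernel

set_option maxRecDepth 100000 in
theorem rk8_127_2 : chkC1 58 8 50 3 4 2 rd8_127.me rd8_127.mo gs8 [rd8_127.c0, rd8_127.c1] true
    (Nat.beq (8 % 2) 0) rd8_127.v2 = true := by decide +kernel

/-- run 128 -/
def rd8_128 : CRun :=
  ⟨16, 56, 0, 1, 4, 1,
    2582249878086908589655919172003011874329705792829223512839074891078431954089854450107236021829546608514343658051220806310,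
    2582249878086908589655919172003011874329705792829223512835131465117820391953674475132630808802957122367600684433391233170,
    2074757784440496479256203931845580575506223116121218449997828664845326405706454073199853524473551897144098943305650402860500751294469845592880364604679734422787196907952685222733429,
    [83, 73, 102, 53, 100, 72]⟩

set_option maxRecDepth 100000 in
theorem rk8_128_0 : chkC1 58 8 50 3 4 2 rd8_128.me rd8_128.mo gs8 [rd8_128.c0, rd8_128.c1] false
    (Nat.beq (8 % 2) 1) rd8_128.v0 = true := by decide +kernel

set_option maxRecDepth 100000 in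
theorem rk8_128_1 : chkC2 58 8 50 3 4 2 rd8_128.me rd8_128.mo gs8 [rd8_128.c0, rd8_128.c1]
    rd8_128.v1 = true := by decide +kernel

set_option maxRecDepth 100000 in
theorem rk8_128_2 : chkC1 58 8 50 3 4 2 rd8_128.me rd8_128.mo gs8 [rd8_128.c0, rd8_128.c1] true
    (Nat.beq (8 % 2) 0) rd8_128.v2 = true := by decide +kernel

/-- run 129 -/
def rd8_129 : CRun :=
  ⟨32, 86, 0, 1, 4, 1,
    2582249878086908589655919172003011874329705792829223512839074891078431954089854450107236021829546608514343658051220806615,
    2582249878086908589655919172003011874329705792829223512835131465117820391953674475132630808802957122367600684433391231441,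
    2074757784440496479256203931845580575506223116121218449997828664845326405706454073199853524473551897144098943305650402860500751294469845592880364604679734422787196907952685222731479,
    [85, 73, 94, 53, 89, 72]⟩

set_option maxRecDepth 100000 in
theorem rk8_129_0 : chkC1 58 8 50 3 4 2 rd8_129.me rd8_129.mo gs8 [rd8_129.c0, rd8_129.c1] false
    (Nat.beq (8 % 2) 1) rd8_129.v0 = true := by decide +kernel

set_option maxRecDepth 100000 in
theorem rk8_129_1 : chkC2 58 8 50 3 4 2 rd8_129.me rd8_129.mo gs8 [rd8_129.c0, rd8_129.c1]
    rd8_129.v1 = true := by decide +kernel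

set_option maxRecDepth 100000 in
theorem rk8_129_2 : chkC1 58 8 50 3 4 2 rd8_129.me rd8_129.mo gs8 [rd8_129.c0, rd8_129.c1] true
    (Nat.beq (8 % 2) 0) rd8_129.v2 = true := by decide +kernel

/-- run 130 -/
def rd8_130 : CRun :=
  ⟨32, 88, 0, 1, 4, 1,
    2582249878086908589655919172003011874329705792829223512839074891078431954089854450107236021829546608514343658051220807545,
    2582249878086908589655919172003011874329705792829223512835131465117820391953674475132630808802957122367600684433391232246,
    2074757784440496479256203931845580575506223116121218449997828664845326405706454073199853524473551897144098943305650402860500751294469845592880364604679734422787196907952685222733304,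
    [90, 73, 98, 53, 99, 72]⟩

set_option maxRecDepth 100000 in
theorem rk8_130_0 : chkC1 58 8 50 3 4 2 rd8_130.me rd8_130.mo gs8 [rd8_130.c0, rd8_130.c1] false
    (Nat.beq (8 % 2) 1) rd8_130.v0 = true := by decide +kernel

set_option maxRecDepth 100000 in
theorem rk8_130_1 : chkC2 58 8 50 3 4 2 rd8_130.me rd8_130.mo gs8 [rd8_130.c0, rd8_130.c1]
    rd8_130.v1 = true := by decide +kernel

set_option maxRecDepth 100000 in
theorem rk8_130_2 : chkC1 58 8 50 3 4 2 rd8_130.me rd8_130.mo gs8 [rd8_130.c0, rd8_130.c1] true
    (Nat.beq (8 % 2) 0) rd8_130.v2 = true := by decide +kernel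

/-- run 131 -/
def rd8_131 : CRun :=
  ⟨32, 92, 0, 1, 4, 1,
    2582249878086908589655919172003011874329705792829223512839074891078431954089854450107236021829546608514343658051220807622,
    2582249878086908589655919172003011874329705792829223512835131465117820391953674475132630808802957122367600684433391232680,
    2074757784440496479256203931845580575506223116121218449997828664845326405706454073199853524473551897144098943305650402860500751294469845592880364604679734422787196907952685222732194,
    [91, 73, 100, 53, 93, 72]⟩

set_option maxRecDepth 100000 in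
theorem rk8_131_0 : chkC1 58 8 50 3 4 2 rd8_131.me rd8_131.mo gs8 [rd8_131.c0, rd8_131.c1] false
    (Nat.beq (8 % 2) 1) rd8_131.v0 = true := by decide +kernel

set_option maxRecDepth 100000 in
theorem rk8_131_1 : chkC2 58 8 50 3 4 2 rd8_131.me rd8_131.mo gs8 [rd8_131.c0, rd8_131.c1]
    rd8_131.v1 = true := by decide +kernel

set_option maxRecDepth 100000 in
theorem rk8_131_2 : chkC1 58 8 50 3 4 2 rd8_131.me rd8_131.mo gs8 [rd8_131.c0, rd8_131.c1] true
    (Nat.beq (8 % 2) 0) rd8_131.v2 = true := by decide +kernel

/-- run 132 -/
def rd8_132 : CRun :=
  ⟨32, 94, 0, 1, 4, 1,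
    2582249878086908589655919172003011874329705792829223512839074891078431954089854450107236021829546608514343658051220806813,
    2582249878086908589655919172003011874329705792829223512835131465117820391953674475132630808802957122367600684433391232576,
    2074757784440496479256203931845580575506223116121218449997828664845326405706454073199853524473551897144098943305650402860500751294469845592880364604679734422787196907952685222731466,
    [86, 73, 99, 53, 89, 72]⟩

set_option maxRecDepth 100000 in
theorem rk8_132_0 : chkC1 58 8 50 3 4 2 rd8_132.me rd8_132.mo gs8 [rd8_132.c0, rd8_132.c1] false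
    (Nat.beq (8 % 2) 1) rd8_132.v0 = true := by decide +kernel

set_option maxRecDepth 100000 in
theorem rk8_132_1 : chkC2 58 8 50 3 4 2 rd8_132.me rd8_132.mo gs8 [rd8_132.c0, rd8_132.c1]
    rd8_132.v1 = true := by decide +kernel

set_option maxRecDepth 100000 in
theorem rk8_132_2 : chkC1 58 8 50 3 4 2 rd8_132.me rd8_132.mo gs8 [rd8_132.c0, rd8_132.c1] true
    (Nat.beq (8 % 2) 0) rd8_132.v2 = true := by decide +kernel

/-- run 133 -/
def rd8_133 : CRun :=
  ⟨16, 100, 0, 1, 4, 1,
    2582249878086908589655919172003011874329705792829223512839074891078431954089854450107236021829546608514343658051220808011,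
    2582249878086908589655919172003011874329705792829223512835131465117820391953674475132630808802957122367600684433391233282,
    2074757784440496479256203931845580575506223116121218449997828664845326405706454073199853524473551897144098943305650402860500751294469845592880364604679734422787196907952685222733130,
    [93, 73, 103, 53, 98, 72]⟩

set_option maxRecDepth 100000 in
theorem rk8_133_0 : chkC1 58 8 50 3 4 2 rd8_133.me rd8_133.mo gs8 [rd8_133.c0, rd8_133.c1] false
    (Nat.beq (8 % 2) 1) rd8_133.v0 = true := by decide +kernel

set_option maxRecDepth 100000 in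
theorem rk8_133_1 : chkC2 58 8 50 3 4 2 rd8_133.me rd8_133.mo gs8 [rd8_133.c0, rd8_133.c1]
    rd8_133.v1 = true := by decide +kernel

set_option maxRecDepth 100000 in
theorem rk8_133_2 : chkC1 58 8 50 3 4 2 rd8_133.me rd8_133.mo gs8 [rd8_133.c0, rd8_133.c1] true
    (Nat.beq (8 % 2) 0) rd8_133.v2 = true := by decide +kernel

/-- run 134 -/
def rd8_134 : CRun :=
  ⟨32, 110, 0, 1, 4, 1,
    2582249878086908589655919172003011874329705792829223512839074891078431954089854450107236021829546608514343658051220806982,
    2582249878086908589655919172003011874329705792829223512835131465117820391953674475132630808802957122367600684433391232631,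
    2074757784440496479256203931845580575506223116121218449997828664845326405706454073199853524473551897144098943305650402860500751294469845592880364604679734422787196907952685222731642,
    [87, 73, 100, 53, 90, 72]⟩

set_option maxRecDepth 100000 in
theorem rk8_134_0 : chkC1 58 8 50 3 4 2 rd8_134.me rd8_134.mo gs8 [rd8_134.c0, rd8_134.c1] false
    (Nat.beq (8 % 2) 1) rd8_134.v0 = true := by decide +kernel

set_option maxRecDepth 100000 in
theorem rk8_134_1 : chkC2 58 8 50 3 4 2 rd8_134.me rd8_134.mo gs8 [rd8_134.c0, rd8_134.c1]
    rd8_134.v1 = true := by decide +kernel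

set_option maxRecDepth 100000 in
theorem rk8_134_2 : chkC1 58 8 50 3 4 2 rd8_134.me rd8_134.mo gs8 [rd8_134.c0, rd8_134.c1] true
    (Nat.beq (8 % 2) 0) rd8_134.v2 = true := by decide +kernel

/-- runs of this file -/
def rds8_8 : List CRun :=
  [rd8_120, rd8_121, rd8_122, rd8_123, rd8_124, rd8_125, rd8_126, rd8_127, rd8_128, rd8_129, rd8_130, rd8_131, rd8_132, rd8_133, rd8_134]

theorem ac8_8 : allC 58 8 50 3 4 2 gs8 rds8_8 :=
  allC_cons rk8_120_0 rk8_120_1 rk8_120_2
    (allC_cons rk8_121_0 rk8_121_1 rk8_121_2
    (allC_cons rk8_122_0 rk8_122_1 rk8_122_2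
    (allC_cons rk8_123_0 rk8_123_1 rk8_123_2
    (allC_cons rk8_124_0 rk8_124_1 rk8_124_2
    (allC_cons rk8_125_0 rk8_125_1 rk8_125_2
    (allC_cons rk8_126_0 rk8_126_1 rk8_126_2
    (allC_cons rk8_127_0 rk8_127_1 rk8_127_2
    (allC_cons rk8_128_0 rk8_128_1 rk8_128_2
    (allC_cons rk8_129_0 rk8_129_1 rk8_129_2
    (allC_cons rk8_130_0 rk8_130_1 rk8_130_2
    (allC_cons rk8_131_0 rk8_131_1 rk8_131_2
    (allC_cons rk8_132_0 rk8_132_1 rk8_132_2
    (allC_cons rk8_133_0 rk8_133_1 rk8_133_2
    (allC_cons rk8_134_0 rk8_134_1 rk8_134_2
    (allC_nil)))))))))))))))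

end Crest.Agent.R347
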