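import Crest.Agent.R347.G8c

/-! Row 347, Chebyshev numerics, ring with 8 sites: run certificates 135..149 (generated) -/

set_option autoImplicit false
set_option Elab.async false

namespace Crest.Agent.R347

/-- run 135 -/
def rd8_135 : CRun :=
  ⟨16, 112, 0, 1, 4, 1,
    2582249878086908589655919172003011874329705792829223512839074891078431954089854450107236021829546608514343658051220807443,
    2582249878086908589655919172003011874329705792829223512835131465117820391953674475132630808802957122367600684433391232400,
    2074757784440496479256203931845580575506223116121218449997828664845326405706454073199853524473551897144098943305650402860500751294469845592880364604679734422787196907952685222731585,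
    [90, 73, 99, 53, 90, 72]⟩

set_option maxRecDepth 100000 in
theorem rk8_135_0 : chkC1 58 8 50 3 4 2 rd8_135.me rd8_135.mo gs8 [rd8_135.c0, rd8_135.c1] false
    (Nat.beq (8 % 2) 1) rd8_135.v0 = true := by decide +kernel

set_option maxRecDepth 100000 in
theorem rk8_135_1 : chkC2 58 8 50 3 4 2 rd8_135.me rd8_135.mo gs8 [rd8_135.c0, rd8_135.c1]
    rd8_135.v1 = true := by decide +kernel

set_option maxRecDepth 100000 in
theorem rk8_135_2 : chkC1 58 8 50 3 4 2 rd8_135.me rd8_135.mo gs8 [rd8_135.c0, rd8_135.c1] true
    (Nat.beq (8 % 2) 0) rd8_135.v2 = true := by decide +kernel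

/-- run 136 -/
def rd8_136 : CRun :=
  ⟨8, 164, 0, 1, 4, 1,
    2582249878086908589655919172003011874329705792829223512839074891078431954089854450107236021829546608514343658051220808492,
    2582249878086908589655919172003011874329705792829223512835131465117820391953674475132630808802957122367600684433391233377,
    2074757784440496479256203931845580575506223116121218449997828664845326405706454073199853524473551897144098943305650402860500751294469845592880364604679734422787196907952685222734548,
    [95, 73, 103, 53, 105, 72]⟩

set_option maxRecDepth 100000 in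
theorem rk8_136_0 : chkC1 58 8 50 3 4 2 rd8_136.me rd8_136.mo gs8 [rd8_136.c0, rd8_136.c1] false
    (Nat.beq (8 % 2) 1) rd8_136.v0 = true := by decide +kernel

set_option maxRecDepth 100000 in
theorem rk8_136_1 : chkC2 58 8 50 3 4 2 rd8_136.me rd8_136.mo gs8 [rd8_136.c0, rd8_136.c1]
    rd8_136.v1 = true := by decide +kernel

set_option maxRecDepth 100000 in
theorem rk8_136_2 : chkC1 58 8 50 3 4 2 rd8_136.me rd8_136.mo gs8 [rd8_136.c0, rd8_136.c1] true
    (Nat.beq (8 % 2) 0) rd8_136.v2 = true := by decide +kernel

/-- run 137 -/
def rd8_137 : CRun :=
  ⟨32, 254, 0, 1, 4, 1,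
    2582249878086908589655919172003011874329705792829223512839074891078431954089854450107236021829546608514343658051220807273,
    2582249878086908589655919172003011874329705792829223512835131465117820391953674475132630808802957122367600684433391232965,
    2074757784440496479256203931845580575506223116121218449997828664845326405706454073199853524473551897144098943305650402860500751294469845592880364604679734422787196907952685222732567,
    [89, 73, 101, 53, 95, 72]⟩

set_option maxRecDepth 100000 in
theorem rk8_137_0 : chkC1 58 8 50 3 4 2 rd8_137.me rd8_137.mo gs8 [rd8_137.c0, rd8_137.c1] false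
    (Nat.beq (8 % 2) 1) rd8_137.v0 = true := by decide +kernel

set_option maxRecDepth 100000 in
theorem rk8_137_1 : chkC2 58 8 50 3 4 2 rd8_137.me rd8_137.mo gs8 [rd8_137.c0, rd8_137.c1]
    rd8_137.v1 = true := by decide +kernel

set_option maxRecDepth 100000 in
theorem rk8_137_2 : chkC1 58 8 50 3 4 2 rd8_137.me rd8_137.mo gs8 [rd8_137.c0, rd8_137.c1] true
    (Nat.beq (8 % 2) 0) rd8_137.v2 = true := by decide +kernel

/-- run 138 -/
def rd8_138 : CRun :=
  ⟨16, 256, 0, 1, 4, 1,
    2582249878086908589655919172003011874329705792829223512839074891078431954089854450107236021829546608514343658051220806148,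
    2582249878086908589655919172003011874329705792829223512835131465117820391953674475132630808802957122367600684433391232570,
    2074757784440496479256203931845580575506223116121218449997828664845326405706454073199853524473551897144098943305650402860500751294469845592880364604679734422787196907952685222730127,
    [82, 73, 99, 53, 81, 72]⟩

set_option maxRecDepth 100000 in
theorem rk8_138_0 : chkC1 58 8 50 3 4 2 rd8_138.me rd8_138.mo gs8 [rd8_138.c0, rd8_138.c1] false
    (Nat.beq (8 % 2) 1) rd8_138.v0 = true := by decide +kernel

set_option maxRecDepth 100000 in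
theorem rk8_138_1 : chkC2 58 8 50 3 4 2 rd8_138.me rd8_138.mo gs8 [rd8_138.c0, rd8_138.c1]
    rd8_138.v1 = true := by decide +kernel

set_option maxRecDepth 100000 in
theorem rk8_138_2 : chkC1 58 8 50 3 4 2 rd8_138.me rd8_138.mo gs8 [rd8_138.c0, rd8_138.c1] true
    (Nat.beq (8 % 2) 0) rd8_138.v2 = true := by decide +kernel

/-- run 139 -/
def rd8_139 : CRun :=
  ⟨16, 272, 0, 1, 4, 1,
    2582249878086908589655919172003011874329705792829223512839074891078431954089854450107236021829546608514343658051220806990,
    2582249878086908589655919172003011874329705792829223512835131465117820391953674475132630808802957122367600684433391234571,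
    2074757784440496479256203931845580575506223116121218449997828664845326405706454073199853524473551897144098943305650402860500751294469845592880364604679734422787196907952685222732074,
    [87, 73, 109, 53, 93, 72]⟩

set_option maxRecDepth 100000 in
theorem rk8_139_0 : chkC1 58 8 50 3 4 2 rd8_139.me rd8_139.mo gs8 [rd8_139.c0, rd8_139.c1] false
    (Nat.beq (8 % 2) 1) rd8_139.v0 = true := by decide +kernel

set_option maxRecDepth 100000 in
theorem rk8_139_1 : chkC2 58 8 50 3 4 2 rd8_139.me rd8_139.mo gs8 [rd8_139.c0, rd8_139.c1]
    rd8_139.v1 = true := by decide +kernel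

set_option maxRecDepth 100000 in
theorem rk8_139_2 : chkC1 58 8 50 3 4 2 rd8_139.me rd8_139.mo gs8 [rd8_139.c0, rd8_139.c1] true
    (Nat.beq (8 % 2) 0) rd8_139.v2 = true := by decide +kernel

/-- run 140 -/
def rd8_140 : CRun :=
  ⟨32, 274, 0, 1, 4, 1,
    2582249878086908589655919172003011874329705792829223512839074891078431954089854450107236021829546608514343658051220806659,
    2582249878086908589655919172003011874329705792829223512835131465117820391953674475132630808802957122367600684433391232715,
    2074757784440496479256203931845580575506223116121218449997828664845326405706454073199853524473551897144098943305650402860500751294469845592880364604679734422787196907952685222731174,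
    [85, 73, 100, 53, 88, 72]⟩

set_option maxRecDepth 100000 in
theorem rk8_140_0 : chkC1 58 8 50 3 4 2 rd8_140.me rd8_140.mo gs8 [rd8_140.c0, rd8_140.c1] false
    (Nat.beq (8 % 2) 1) rd8_140.v0 = true := by decide +kernel

set_option maxRecDepth 100000 in
theorem rk8_140_1 : chkC2 58 8 50 3 4 2 rd8_140.me rd8_140.mo gs8 [rd8_140.c0, rd8_140.c1]
    rd8_140.v1 = true := by decide +kernel

set_option maxRecDepth 100000 in
theorem rk8_140_2 : chkC1 58 8 50 3 4 2 rd8_140.me rd8_140.mo gs8 [rd8_140.c0, rd8_140.c1] true
    (Nat.beq (8 % 2) 0) rd8_140.v2 = true := by decide +kernel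

/-- run 141 -/
def rd8_141 : CRun :=
  ⟨16, 280, 0, 1, 4, 1,
    2582249878086908589655919172003011874329705792829223512839074891078431954089854450107236021829546608514343658051220806396,
    2582249878086908589655919172003011874329705792829223512835131465117820391953674475132630808802957122367600684433391233435,
    2074757784440496479256203931845580575506223116121218449997828664845326405706454073199853524473551897144098943305650402860500751294469845592880364604679734422787196907952685222731438,
    [84, 73, 104, 53, 89, 72]⟩

set_option maxRecDepth 100000 in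
theorem rk8_141_0 : chkC1 58 8 50 3 4 2 rd8_141.me rd8_141.mo gs8 [rd8_141.c0, rd8_141.c1] false
    (Nat.beq (8 % 2) 1) rd8_141.v0 = true := by decide +kernel

set_option maxRecDepth 100000 in
theorem rk8_141_1 : chkC2 58 8 50 3 4 2 rd8_141.me rd8_141.mo gs8 [rd8_141.c0, rd8_141.c1]
    rd8_141.v1 = true := by decide +kernel

set_option maxRecDepth 100000 in
theorem rk8_141_2 : chkC1 58 8 50 3 4 2 rd8_141.me rd8_141.mo gs8 [rd8_141.c0, rd8_141.c1] true
    (Nat.beq (8 % 2) 0) rd8_141.v2 = true := by decide +kernel

/-- run 142 -/
def rd8_142 : CRun :=
  ⟨8, 328, 0, 1, 4, 1,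
    2582249878086908589655919172003011874329705792829223512839074891078431954089854450107236021829546608514343658051220807841,
    2582249878086908589655919172003011874329705792829223512835131465117820391953674475132630808802957122367600684433391233572,
    2074757784440496479256203931845580575506223116121218449997828664845326405706454073199853524473551897144098943305650402860500751294469845592880364604679734422787196907952685222730968,
    [92, 73, 104, 53, 86, 72]⟩

set_option maxRecDepth 100000 in
theorem rk8_142_0 : chkC1 58 8 50 3 4 2 rd8_142.me rd8_142.mo gs8 [rd8_142.c0, rd8_142.c1] false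
    (Nat.beq (8 % 2) 1) rd8_142.v0 = true := by decide +kernel

set_option maxRecDepth 100000 in
theorem rk8_142_1 : chkC2 58 8 50 3 4 2 rd8_142.me rd8_142.mo gs8 [rd8_142.c0, rd8_142.c1]
    rd8_142.v1 = true := by decide +kernel

set_option maxRecDepth 100000 in
theorem rk8_142_2 : chkC1 58 8 50 3 4 2 rd8_142.me rd8_142.mo gs8 [rd8_142.c0, rd8_142.c1] true
    (Nat.beq (8 % 2) 0) rd8_142.v2 = true := by decide +kernel

/-- run 143 -/
def rd8_143 : CRun :=
  ⟨4, 820, 0, 1, 4, 1,
    2582249878086908589655919172003011874329705792829223512839074891078431954089854450107236021829546608514343658051220807625,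
    2582249878086908589655919172003011874329705792829223512835131465117820391953674475132630808802957122367600684433391232114,
    2074757784440496479256203931845580575506223116121218449997828664845326405706454073199853524473551897144098943305650402860500751294469845592880364604679734422787196907952685222733067,
    [91, 73, 97, 53, 98, 72]⟩

set_option maxRecDepth 100000 in
theorem rk8_143_0 : chkC1 58 8 50 3 4 2 rd8_143.me rd8_143.mo gs8 [rd8_143.c0, rd8_143.c1] false
    (Nat.beq (8 % 2) 1) rd8_143.v0 = true := by decide +kernel

set_option maxRecDepth 100000 in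
theorem rk8_143_1 : chkC2 58 8 50 3 4 2 rd8_143.me rd8_143.mo gs8 [rd8_143.c0, rd8_143.c1]
    rd8_143.v1 = true := by decide +kernel

set_option maxRecDepth 100000 in
theorem rk8_143_2 : chkC1 58 8 50 3 4 2 rd8_143.me rd8_143.mo gs8 [rd8_143.c0, rd8_143.c1] true
    (Nat.beq (8 % 2) 0) rd8_143.v2 = true := by decide +kernel

/-- run 144 -/
def rd8_144 : CRun :=
  ⟨16, 2, 0, 1, 2, 1,
    2582249878086908589655919172003011874329705792829223512839074891078431954089854450107236021829546608514343658051220805278,
    2582249878086908589655919172003011874329705792829223512835131465117820391953674475132630808802957122367600684433391226582,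
    2074757784440496479256203931845580575506223116121218449997828664845326405706454073199853524473551897144098943305650402860500751294469845592880364604679734422787196907952685222727838,
    [77, 73, 62, 53, 66, 72]⟩

set_option maxRecDepth 100000 in
theorem rk8_144_0 : chkC1 58 8 50 3 4 2 rd8_144.me rd8_144.mo gs8 [rd8_144.c0, rd8_144.c1] false
    (Nat.beq (8 % 2) 1) rd8_144.v0 = true := by decide +kernel

set_option maxRecDepth 100000 in
theorem rk8_144_1 : chkC2 58 8 50 3 4 2 rd8_144.me rd8_144.mo gs8 [rd8_144.c0, rd8_144.c1]
    rd8_144.v1 = true := by decide +kernel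

set_option maxRecDepth 100000 in
theorem rk8_144_2 : chkC1 58 8 50 3 4 2 rd8_144.me rd8_144.mo gs8 [rd8_144.c0, rd8_144.c1] true
    (Nat.beq (8 % 2) 0) rd8_144.v2 = true := by decide +kernel

/-- run 145 -/
def rd8_145 : CRun :=
  ⟨16, 4, 0, 1, 2, 1,
    2582249878086908589655919172003011874329705792829223512839074891078431954089854450107236021829546608514343658051220805257,
    2582249878086908589655919172003011874329705792829223512835131465117820391953674475132630808802957122367600684433391227900,
    2074757784440496479256203931845580575506223116121218449997828664845326405706454073199853524473551897144098943305650402860500751294469845592880364604679734422787196907952685222729486,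
    [76, 73, 72, 53, 77, 72]⟩

set_option maxRecDepth 100000 in
theorem rk8_145_0 : chkC1 58 8 50 3 4 2 rd8_145.me rd8_145.mo gs8 [rd8_145.c0, rd8_145.c1] false
    (Nat.beq (8 % 2) 1) rd8_145.v0 = true := by decide +kernel

set_option maxRecDepth 100000 in
theorem rk8_145_1 : chkC2 58 8 50 3 4 2 rd8_145.me rd8_145.mo gs8 [rd8_145.c0, rd8_145.c1]
    rd8_145.v1 = true := by decide +kernel

set_option maxRecDepth 100000 in
theorem rk8_145_2 : chkC1 58 8 50 3 4 2 rd8_145.me rd8_145.mo gs8 [rd8_145.c0, rd8_145.c1] true
    (Nat.beq (8 % 2) 0) rd8_145.v2 = true := by decide +kernel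

/-- run 146 -/
def rd8_146 : CRun :=
  ⟨16, 10, 0, 1, 2, 1,
    2582249878086908589655919172003011874329705792829223512839074891078431954089854450107236021829546608514343658051220803717,
    2582249878086908589655919172003011874329705792829223512835131465117820391953674475132630808802957122367600684433391228699,
    2074757784440496479256203931845580575506223116121218449997828664845326405706454073199853524473551897144098943305650402860500751294469845592880364604679734422787196907952685222728137,
    [66, 73, 77, 53, 68, 72]⟩

set_option maxRecDepth 100000 in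
theorem rk8_146_0 : chkC1 58 8 50 3 4 2 rd8_146.me rd8_146.mo gs8 [rd8_146.c0, rd8_146.c1] false
    (Nat.beq (8 % 2) 1) rd8_146.v0 = true := by decide +kernel

set_option maxRecDepth 100000 in
theorem rk8_146_1 : chkC2 58 8 50 3 4 2 rd8_146.me rd8_146.mo gs8 [rd8_146.c0, rd8_146.c1]
    rd8_146.v1 = true := by decide +kernel

set_option maxRecDepth 100000 in
theorem rk8_146_2 : chkC1 58 8 50 3 4 2 rd8_146.me rd8_146.mo gs8 [rd8_146.c0, rd8_146.c1] true
    (Nat.beq (8 % 2) 0) rd8_146.v2 = true := by decide +kernel

/-- run 147 -/
def rd8_147 : CRun :=
  ⟨16, 28, 0, 1, 2, 1,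
    2582249878086908589655919172003011874329705792829223512839074891078431954089854450107236021829546608514343658051220804637,
    2582249878086908589655919172003011874329705792829223512835131465117820391953674475132630808802957122367600684433391228174,
    2074757784440496479256203931845580575506223116121218449997828664845326405706454073199853524473551897144098943305650402860500751294469845592880364604679734422787196907952685222730105,
    [72, 73, 74, 53, 81, 72]⟩

set_option maxRecDepth 100000 in
theorem rk8_147_0 : chkC1 58 8 50 3 4 2 rd8_147.me rd8_147.mo gs8 [rd8_147.c0, rd8_147.c1] false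
    (Nat.beq (8 % 2) 1) rd8_147.v0 = true := by decide +kernel

set_option maxRecDepth 100000 in
theorem rk8_147_1 : chkC2 58 8 50 3 4 2 rd8_147.me rd8_147.mo gs8 [rd8_147.c0, rd8_147.c1]
    rd8_147.v1 = true := by decide +kernel

set_option maxRecDepth 100000 in
theorem rk8_147_2 : chkC1 58 8 50 3 4 2 rd8_147.me rd8_147.mo gs8 [rd8_147.c0, rd8_147.c1] true
    (Nat.beq (8 % 2) 0) rd8_147.v2 = true := by decide +kernel

/-- run 148 -/
def rd8_148 : CRun :=
  ⟨8, 82, 0, 1, 2, 1,
    2582249878086908589655919172003011874329705792829223512839074891078431954089854450107236021829546608514343658051220804175,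
    2582249878086908589655919172003011874329705792829223512835131465117820391953674475132630808802957122367600684433391228757,
    2074757784440496479256203931845580575506223116121218449997828664845326405706454073199853524473551897144098943305650402860500751294469845592880364604679734422787196907952685222729199,
    [69, 73, 78, 53, 75, 72]⟩

set_option maxRecDepth 100000 in
theorem rk8_148_0 : chkC1 58 8 50 3 4 2 rd8_148.me rd8_148.mo gs8 [rd8_148.c0, rd8_148.c1] false
    (Nat.beq (8 % 2) 1) rd8_148.v0 = true := by decide +kernel

set_option maxRecDepth 100000 in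
theorem rk8_148_1 : chkC2 58 8 50 3 4 2 rd8_148.me rd8_148.mo gs8 [rd8_148.c0, rd8_148.c1]
    rd8_148.v1 = true := by decide +kernel

set_option maxRecDepth 100000 in
theorem rk8_148_2 : chkC1 58 8 50 3 4 2 rd8_148.me rd8_148.mo gs8 [rd8_148.c0, rd8_148.c1] true
    (Nat.beq (8 % 2) 0) rd8_148.v2 = true := by decide +kernel

/-- run 149 -/
def rd8_149 : CRun :=
  ⟨2, 0, 0, 1, 0, 1,
    2582249878086908589655919172003011874329705792829223512839074891078431954089854450107236021829546608514343658051220807588,
    2582249878086908589655919172003011874329705792829223512835131465117820391953674475132630808802957122367600684433391230884,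
    2074757784440496479256203931845580575506223116121218449997828664845326405706454073199853524473551897144098943305650402860500751294469845592880364604679734422787196907952685222731684,
    [90, 73, 90, 53, 90, 72]⟩

set_option maxRecDepth 100000 in
theorem rk8_149_0 : chkC1 58 8 50 3 4 2 rd8_149.me rd8_149.mo gs8 [rd8_149.c0, rd8_149.c1] false
    (Nat.beq (8 % 2) 1) rd8_149.v0 = true := by decide +kernel

set_option maxRecDepth 100000 in
theorem rk8_149_1 : chkC2 58 8 50 3 4 2 rd8_149.me rd8_149.mo gs8 [rd8_149.c0, rd8_149.c1]
    rd8_149.v1 = true := by decide +kernel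

set_option maxRecDepth 100000 in
theorem rk8_149_2 : chkC1 58 8 50 3 4 2 rd8_149.me rd8_149.mo gs8 [rd8_149.c0, rd8_149.c1] true
    (Nat.beq (8 % 2) 0) rd8_149.v2 = true := by decide +kernel

/-- runs of this file -/
def rds8_9 : List CRun :=
  [rd8_135, rd8_136, rd8_137, rd8_138, rd8_139, rd8_140, rd8_141, rd8_142, rd8_143, rd8_144, rd8_145, rd8_146, rd8_147, rd8_148, rd8_149]

theorem ac8_9 : allC 58 8 50 3 4 2 gs8 rds8_9 :=
  allC_cons rk8_135_0 rk8_135_1 rk8_135_2
    (allC_cons rk8_136_0 rk8_136_1 rk8_136_2
    (allC_cons rk8_137_0 rk8_137_1 rk8_137_2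
    (allC_cons rk8_138_0 rk8_138_1 rk8_138_2
    (allC_cons rk8_139_0 rk8_139_1 rk8_139_2
    (allC_cons rk8_140_0 rk8_140_1 rk8_140_2
    (allC_cons rk8_141_0 rk8_141_1 rk8_141_2
    (allC_cons rk8_142_0 rk8_142_1 rk8_142_2
    (allC_cons rk8_143_0 rk8_143_1 rk8_143_2
    (allC_cons rk8_144_0 rk8_144_1 rk8_144_2
    (allC_cons rk8_145_0 rk8_145_1 rk8_145_2
    (allC_cons rk8_146_0 rk8_146_1 rk8_146_2
    (allC_cons rk8_147_0 rk8_147_1 rk8_147_2
    (allC_cons rk8_148_0 rk8_148_1 rk8_148_2
    (allC_cons rk8_149_0 rk8_149_1 rk8_149_2
    (allC_nil)))))))))))))))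

end Crest.Agent.R347
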