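import Crest.Agent.R347.G9c

/-! Row 347, Chebyshev numerics, ring with 9 sites: run certificates 300..314 (generated) -/

set_option autoImplicit false
set_option Elab.async false

namespace Crest.Agent.R347

/-- run 300 -/
def rd9_300 : CRun :=
  ⟨36, 272, 18, 985, 4, 5,
    2074757784440496479256203931845580575506223116121218449997828664845326405706454073199853524473551897144098943305650416312179119786477442154645039592551880136148457863711509530552342,
    2582249878086908589655919172003011874329705792829223512862009110846096263302389333089129094492743489641611677396642050455,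
    2582249878086908589655919172003011874329705792829223512851269943896313431290942400426013104820087607034161272878322952594,
    [102, 117, 113, 140, 104, 114]⟩

set_option maxRecDepth 100000 in
theorem rk9_300_0 : chkC1 53 9 40 91 9 2 rd9_300.me rd9_300.mo gs9 [rd9_300.c0, rd9_300.c1] false
    (Nat.beq (9 % 2) 1) rd9_300.v0 = true := by decide +kernel

set_option maxRecDepth 100000 in
theorem rk9_300_1 : chkC2 53 9 40 91 9 2 rd9_300.me rd9_300.mo gs9 [rd9_300.c0, rd9_300.c1]
    rd9_300.v1 = true := by decide +kernel

set_option maxRecDepth 100000 in
theorem rk9_300_2 : chkC1 53 9 40 91 9 2 rd9_300.me rd9_300.mo gs9 [rd9_300.c0, rd9_300.c1] true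
    (Nat.beq (9 % 2) 0) rd9_300.v2 = true := by decide +kernel

/-- run 301 -/
def rd9_301 : CRun :=
  ⟨36, 274, 18, 1003, 4, 5,
    2074757784440496479256203931845580575506223116121218449997828664845326405706454073199853524473551897144098943305650415515137849834018265485831841791335229285135772947446263221069398,
    2582249878086908589655919172003011874329705792829223512861313306672932120513079663503145371085851375745303728098956554263,
    2582249878086908589655919172003011874329705792829223512852451043358843789143465742563883859332941426234591625612269463649,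
    [100, 115, 111, 139, 102, 117]⟩

set_option maxRecDepth 100000 in
theorem rk9_301_0 : chkC1 53 9 40 91 9 2 rd9_301.me rd9_301.mo gs9 [rd9_301.c0, rd9_301.c1] false
    (Nat.beq (9 % 2) 1) rd9_301.v0 = true := by decide +kernel

set_option maxRecDepth 100000 in
theorem rk9_301_1 : chkC2 53 9 40 91 9 2 rd9_301.me rd9_301.mo gs9 [rd9_301.c0, rd9_301.c1]
    rd9_301.v1 = true := by decide +kernel

set_option maxRecDepth 100000 in
theorem rk9_301_2 : chkC1 53 9 40 91 9 2 rd9_301.me rd9_301.mo gs9 [rd9_301.c0, rd9_301.c1] true
    (Nat.beq (9 % 2) 0) rd9_301.v2 = true := by decide +kernel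

/-- run 302 -/
def rd9_302 : CRun :=
  ⟨18, 280, 18, 2461, 4, 5,
    2074757784440496479256203931845580575506223116121218449997828664845326405706454073199853524473551897144098943305650419680321260553321059690597585139628695022685932832445292322236420,
    2582249878086908589655919172003011874329705792829223512864046708286216662971776541022217688672741643037728258711804195162,
    2582249878086908589655919172003011874329705792829223512852774037905739846188849676944444433016048389036341966972165039913,
    [102, 125, 113, 145, 101, 118]⟩

set_option maxRecDepth 100000 in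
theorem rk9_302_0 : chkC1 53 9 40 91 9 2 rd9_302.me rd9_302.mo gs9 [rd9_302.c0, rd9_302.c1] false
    (Nat.beq (9 % 2) 1) rd9_302.v0 = true := by decide +kernel

set_option maxRecDepth 100000 in
theorem rk9_302_1 : chkC2 53 9 40 91 9 2 rd9_302.me rd9_302.mo gs9 [rd9_302.c0, rd9_302.c1]
    rd9_302.v1 = true := by decide +kernel

set_option maxRecDepth 100000 in
theorem rk9_302_2 : chkC1 53 9 40 91 9 2 rd9_302.me rd9_302.mo gs9 [rd9_302.c0, rd9_302.c1] true
    (Nat.beq (9 % 2) 0) rd9_302.v2 = true := by decide +kernel

/-- run 303 -/
def rd9_303 : CRun :=
  ⟨18, 326, 36, 5, 4, 3,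
    2074757784440496479256203931845580575506223116121218449997828664845326405706454073199853524473551897144098943305650403832698268071158962295767430471083108948720008146542350580067394,
    2582249878086908589655919172003011874329705792829223512843524502522985098162830143140928701075930588604128211412170321319,
    2582249878086908589655919172003011874329705792829223512843064918242327026944025141982519128571609238547906332661274126039,
    [107, 76, 109, 90, 100, 88]⟩

set_option maxRecDepth 100000 in
theorem rk9_303_0 : chkC1 53 9 40 91 9 2 rd9_303.me rd9_303.mo gs9 [rd9_303.c0, rd9_303.c1] false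
    (Nat.beq (9 % 2) 1) rd9_303.v0 = true := by decide +kernel

set_option maxRecDepth 100000 in
theorem rk9_303_1 : chkC2 53 9 40 91 9 2 rd9_303.me rd9_303.mo gs9 [rd9_303.c0, rd9_303.c1]
    rd9_303.v1 = true := by decide +kernel

set_option maxRecDepth 100000 in
theorem rk9_303_2 : chkC1 53 9 40 91 9 2 rd9_303.me rd9_303.mo gs9 [rd9_303.c0, rd9_303.c1] true
    (Nat.beq (9 % 2) 0) rd9_303.v2 = true := by decide +kernel

/-- run 304 -/
def rd9_304 : CRun :=
  ⟨18, 328, 36, 11, 4, 3,
    2074757784440496479256203931845580575506223116121218449997828664845326405706454073199853524473551897144098943305650405981174433245428960695370747931217508520905410834136371378006053,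
    2582249878086908589655919172003011874329705792829223512845057521417208174885697174977022170198736770260196995777047834568,
    2582249878086908589655919172003011874329705792829223512842949218703140379644186120711870564864227639932353971577132427538,
    [102, 85, 111, 95, 103, 88]⟩

set_option maxRecDepth 100000 in
theorem rk9_304_0 : chkC1 53 9 40 91 9 2 rd9_304.me rd9_304.mo gs9 [rd9_304.c0, rd9_304.c1] false
    (Nat.beq (9 % 2) 1) rd9_304.v0 = true := by decide +kernel

set_option maxRecDepth 100000 in
theorem rk9_304_1 : chkC2 53 9 40 91 9 2 rd9_304.me rd9_304.mo gs9 [rd9_304.c0, rd9_304.c1]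
    rd9_304.v1 = true := by decide +kernel

set_option maxRecDepth 100000 in
theorem rk9_304_2 : chkC1 53 9 40 91 9 2 rd9_304.me rd9_304.mo gs9 [rd9_304.c0, rd9_304.c1] true
    (Nat.beq (9 % 2) 0) rd9_304.v2 = true := by decide +kernel

/-- run 305 -/
def rd9_305 : CRun :=
  ⟨18, 758, 18, 13, 4, 3,
    2074757784440496479256203931845580575506223116121218449997828664845326405706454073199853524473551897144098943305650406464862784567385033633501337725907451880088511962757014803720095,
    2582249878086908589655919172003011874329705792829223512844336006235335888251978833997560988190204301115988521793997516398,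
    2582249878086908589655919172003011874329705792829223512843362201780514940145000404969602243653075846101756149335804882046,
    [101, 86, 110, 93, 107, 89]⟩

set_option maxRecDepth 100000 in
theorem rk9_305_0 : chkC1 53 9 40 91 9 2 rd9_305.me rd9_305.mo gs9 [rd9_305.c0, rd9_305.c1] false
    (Nat.beq (9 % 2) 1) rd9_305.v0 = true := by decide +kernel

set_option maxRecDepth 100000 in
theorem rk9_305_1 : chkC2 53 9 40 91 9 2 rd9_305.me rd9_305.mo gs9 [rd9_305.c0, rd9_305.c1]
    rd9_305.v1 = true := by decide +kernel

set_option maxRecDepth 100000 in
theorem rk9_305_2 : chkC1 53 9 40 91 9 2 rd9_305.me rd9_305.mo gs9 [rd9_305.c0, rd9_305.c1] true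
    (Nat.beq (9 % 2) 0) rd9_305.v2 = true := by decide +kernel

/-- run 306 -/
def rd9_306 : CRun :=
  ⟨36, 760, 36, 29, 4, 3,
    2074757784440496479256203931845580575506223116121218449997828664845326405706454073199853524473551897144098943305650407462771310052217994745059797069769428046376571101871365525874624,
    2582249878086908589655919172003011874329705792829223512844797197454038218461059377118062901857128173375204183337729011114,
    2582249878086908589655919172003011874329705792829223512844305474412494967436743536717806506100756379259106648730126788885,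
    [101, 90, 109, 94, 103, 93]⟩

set_option maxRecDepth 100000 in
theorem rk9_306_0 : chkC1 53 9 40 91 9 2 rd9_306.me rd9_306.mo gs9 [rd9_306.c0, rd9_306.c1] false
    (Nat.beq (9 % 2) 1) rd9_306.v0 = true := by decide +kernel

set_option maxRecDepth 100000 in
theorem rk9_306_1 : chkC2 53 9 40 91 9 2 rd9_306.me rd9_306.mo gs9 [rd9_306.c0, rd9_306.c1]
    rd9_306.v1 = true := by decide +kernel

set_option maxRecDepth 100000 in
theorem rk9_306_2 : chkC1 53 9 40 91 9 2 rd9_306.me rd9_306.mo gs9 [rd9_306.c0, rd9_306.c1] true
    (Nat.beq (9 % 2) 0) rd9_306.v2 = true := by decide +kernel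

/-- run 307 -/
def rd9_307 : CRun :=
  ⟨18, 814, 36, 31, 4, 3,
    2074757784440496479256203931845580575506223116121218449997828664845326405706454073199853524473551897144098943305650407176736338174117725698590544633042484797424438208534240842228906,
    2582249878086908589655919172003011874329705792829223512843007068472733703294105631347194846717918439240130152119203279294,
    2582249878086908589655919172003011874329705792829223512844790769701861182499957209269693537206718084563229052166387804590,
    [97, 89, 113, 88, 104, 94]⟩

set_option maxRecDepth 100000 in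
theorem rk9_307_0 : chkC1 53 9 40 91 9 2 rd9_307.me rd9_307.mo gs9 [rd9_307.c0, rd9_307.c1] false
    (Nat.beq (9 % 2) 1) rd9_307.v0 = true := by decide +kernel

set_option maxRecDepth 100000 in
theorem rk9_307_1 : chkC2 53 9 40 91 9 2 rd9_307.me rd9_307.mo gs9 [rd9_307.c0, rd9_307.c1]
    rd9_307.v1 = true := by decide +kernel

set_option maxRecDepth 100000 in
theorem rk9_307_2 : chkC1 53 9 40 91 9 2 rd9_307.me rd9_307.mo gs9 [rd9_307.c0, rd9_307.c1] true
    (Nat.beq (9 % 2) 0) rd9_307.v2 = true := by decide +kernel

/-- run 308 -/
def rd9_308 : CRun :=
  ⟨18, 820, 36, 83, 4, 3,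
    2074757784440496479256203931845580575506223116121218449997828664845326405706454073199853524473551897144098943305650404981658969716337009308270326495014369752095148701239227820548787,
    2582249878086908589655919172003011874329705792829223512845833672492585267188783942667622951735754994306194084716498399958,
    2582249878086908589655919172003011874329705792829223512844784341949684146538855041421324172556307995751253920995046599425,
    [95, 81, 115, 98, 105, 94]⟩

set_option maxRecDepth 100000 in
theorem rk9_308_0 : chkC1 53 9 40 91 9 2 rd9_308.me rd9_308.mo gs9 [rd9_308.c0, rd9_308.c1] false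
    (Nat.beq (9 % 2) 1) rd9_308.v0 = true := by decide +kernel

set_option maxRecDepth 100000 in
theorem rk9_308_1 : chkC2 53 9 40 91 9 2 rd9_308.me rd9_308.mo gs9 [rd9_308.c0, rd9_308.c1]
    rd9_308.v1 = true := by decide +kernel

set_option maxRecDepth 100000 in
theorem rk9_308_2 : chkC1 53 9 40 91 9 2 rd9_308.me rd9_308.mo gs9 [rd9_308.c0, rd9_308.c1] true
    (Nat.beq (9 % 2) 0) rd9_308.v2 = true := by decide +kernel

/-- run 309 -/
def rd9_309 : CRun :=
  ⟨18, 2, 36, 85, 2, 3,
    2074757784440496479256203931845580575506223116121218449997828664845326405706454073199853524473551897144098943305650407734343839531987351311651390675425907872628877051163354691802832,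
    2582249878086908589655919172003011874329705792829223512847969293153405465264979210288344356834507002084931416394613922660,
    2582249878086908589655919172003011874329705792829223512843434513992506594707399793263757595970189345236476375013393439455,
    [77, 91, 84, 104, 83, 90]⟩

set_option maxRecDepth 100000 in
theorem rk9_309_0 : chkC1 53 9 40 91 9 2 rd9_309.me rd9_309.mo gs9 [rd9_309.c0, rd9_309.c1] false
    (Nat.beq (9 % 2) 1) rd9_309.v0 = true := by decide +kernel

set_option maxRecDepth 100000 in
theorem rk9_309_1 : chkC2 53 9 40 91 9 2 rd9_309.me rd9_309.mo gs9 [rd9_309.c0, rd9_309.c1]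
    rd9_309.v1 = true := by decide +kernel

set_option maxRecDepth 100000 in
theorem rk9_309_2 : chkC1 53 9 40 91 9 2 rd9_309.me rd9_309.mo gs9 [rd9_309.c0, rd9_309.c1] true
    (Nat.beq (9 % 2) 0) rd9_309.v2 = true := by decide +kernel

/-- run 310 -/
def rd9_310 : CRun :=
  ⟨18, 4, 18, 91, 2, 3,
    2074757784440496479256203931845580575506223116121218449997828664845326405706454073199853524473551897144098943305650408825454771583841748404643651375075314985204709829679689861438864,
    2582249878086908589655919172003011874329705792829223512844723278304002304908384446861815208377412152037490174867305141783,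
    2582249878086908589655919172003011874329705792829223512844011404750395572216319357654908073344494816111244397641266633734,
    [87, 95, 76, 94, 85, 92]⟩

set_option maxRecDepth 100000 in
theorem rk9_310_0 : chkC1 53 9 40 91 9 2 rd9_310.me rd9_310.mo gs9 [rd9_310.c0, rd9_310.c1] false
    (Nat.beq (9 % 2) 1) rd9_310.v0 = true := by decide +kernel

set_option maxRecDepth 100000 in
theorem rk9_310_1 : chkC2 53 9 40 91 9 2 rd9_310.me rd9_310.mo gs9 [rd9_310.c0, rd9_310.c1]
    rd9_310.v1 = true := by decide +kernel

set_option maxRecDepth 100000 in
theorem rk9_310_2 : chkC1 53 9 40 91 9 2 rd9_310.me rd9_310.mo gs9 [rd9_310.c0, rd9_310.c1] true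
    (Nat.beq (9 % 2) 0) rd9_310.v2 = true := by decide +kernel

/-- run 311 -/
def rd9_311 : CRun :=
  ⟨18, 10, 18, 247, 2, 3,
    2074757784440496479256203931845580575506223116121218449997828664845326405706454073199853524473551897144098943305650408068586952737857328624379505882387729197247099757984264434489974,
    2582249878086908589655919172003011874329705792829223512844851833347543024130427803829202501385613928276992798294129253657,
    2582249878086908589655919172003011874329705792829223512844286191155963859553437033172698412149526112823181255216103170564,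
    [83, 92, 87, 94, 94, 93]⟩

set_option maxRecDepth 100000 in
theorem rk9_311_0 : chkC1 53 9 40 91 9 2 rd9_311.me rd9_311.mo gs9 [rd9_311.c0, rd9_311.c1] false
    (Nat.beq (9 % 2) 1) rd9_311.v0 = true := by decide +kernel

set_option maxRecDepth 100000 in
theorem rk9_311_1 : chkC2 53 9 40 91 9 2 rd9_311.me rd9_311.mo gs9 [rd9_311.c0, rd9_311.c1]
    rd9_311.v1 = true := by decide +kernel

set_option maxRecDepth 100000 in
theorem rk9_311_2 : chkC1 53 9 40 91 9 2 rd9_311.me rd9_311.mo gs9 [rd9_311.c0, rd9_311.c1] true
    (Nat.beq (9 % 2) 0) rd9_311.v2 = true := by decide +kernel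

/-- run 312 -/
def rd9_312 : CRun :=
  ⟨18, 28, 36, 253, 2, 3,
    2074757784440496479256203931845580575506223116121218449997828664845326405706454073199853524473551897144098943305650407845222564585857680324046775046966127446660883622176060327597749,
    2582249878086908589655919172003011874329705792829223512845030203470455772051012961621452370434493892809302688298847705882,
    2582249878086908589655919172003011874329705792829223512843164548401071084341108743632244280652965615133520865817062809484,
    [77, 91, 84, 95, 90, 89]⟩

set_option maxRecDepth 100000 in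
theorem rk9_312_0 : chkC1 53 9 40 91 9 2 rd9_312.me rd9_312.mo gs9 [rd9_312.c0, rd9_312.c1] false
    (Nat.beq (9 % 2) 1) rd9_312.v0 = true := by decide +kernel

set_option maxRecDepth 100000 in
theorem rk9_312_1 : chkC2 53 9 40 91 9 2 rd9_312.me rd9_312.mo gs9 [rd9_312.c0, rd9_312.c1]
    rd9_312.v1 = true := by decide +kernel

set_option maxRecDepth 100000 in
theorem rk9_312_2 : chkC1 53 9 40 91 9 2 rd9_312.me rd9_312.mo gs9 [rd9_312.c0, rd9_312.c1] true
    (Nat.beq (9 % 2) 0) rd9_312.v2 = true := by decide +kernel

/-- run 313 -/
def rd9_313 : CRun :=
  ⟨18, 82, 6, 757, 2, 3,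
    2074757784440496479256203931845580575506223116121218449997828664845326405706454073199853524473551897144098943305650405899220592988220456642730681221818215792273058151213936777632822,
    2582249878086908589655919172003011874329705792829223512846550366860324776851675657760807110256479896841421210321042808071,
    2582249878086908589655919172003011874329705792829223512847302413865037984300629296020022774354460287842511557367963851956,
    [85, 84, 87, 100, 86, 102]⟩

set_option maxRecDepth 100000 in
theorem rk9_313_0 : chkC1 53 9 40 91 9 2 rd9_313.me rd9_313.mo gs9 [rd9_313.c0, rd9_313.c1] false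
    (Nat.beq (9 % 2) 1) rd9_313.v0 = true := by decide +kernel

set_option maxRecDepth 100000 in
theorem rk9_313_1 : chkC2 53 9 40 91 9 2 rd9_313.me rd9_313.mo gs9 [rd9_313.c0, rd9_313.c1]
    rd9_313.v1 = true := by decide +kernel

set_option maxRecDepth 100000 in
theorem rk9_313_2 : chkC1 53 9 40 91 9 2 rd9_313.me rd9_313.mo gs9 [rd9_313.c0, rd9_313.c1] true
    (Nat.beq (9 % 2) 0) rd9_313.v2 = true := by decide +kernel

/-- run 314 -/
def rd9_314 : CRun :=
  ⟨2, 0, 18, 1, 0, 1,
    2074757784440496479256203931845580575506223116121218449997828664845326405706454073199853524473551897144098943305650402764084468638930429060362639064209978271455017280985115104651428,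
    2582249878086908589655919172003011874329705792829223512839225943254592299175755394543916091114183695595759240577739139236,
    2582249878086908589655919172003011874329705792829223512839598752880860384919681129749339240837968846690316848515529058468,
    [102, 72, 102, 74, 102, 75]⟩

set_option maxRecDepth 100000 in
theorem rk9_314_0 : chkC1 53 9 40 91 9 2 rd9_314.me rd9_314.mo gs9 [rd9_314.c0, rd9_314.c1] false
    (Nat.beq (9 % 2) 1) rd9_314.v0 = true := by decide +kernel

set_option maxRecDepth 100000 in
theorem rk9_314_1 : chkC2 53 9 40 91 9 2 rd9_314.me rd9_314.mo gs9 [rd9_314.c0, rd9_314.c1]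
    rd9_314.v1 = true := by decide +kernel

set_option maxRecDepth 100000 in
theorem rk9_314_2 : chkC1 53 9 40 91 9 2 rd9_314.me rd9_314.mo gs9 [rd9_314.c0, rd9_314.c1] true
    (Nat.beq (9 % 2) 0) rd9_314.v2 = true := by decide +kernel

/-- runs of this file -/
def rds9_12 : List CRun :=
  [rd9_300, rd9_301, rd9_302, rd9_303, rd9_304, rd9_305, rd9_306, rd9_307, rd9_308, rd9_309, rd9_310, rd9_311, rd9_312, rd9_313, rd9_314]

theorem ac9_12 : allC 53 9 40 91 9 2 gs9 rds9_12 :=
  allC_cons rk9_300_0 rk9_300_1 rk9_300_2
    (allC_cons rk9_301_0 rk9_301_1 rk9_301_2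
    (allC_cons rk9_302_0 rk9_302_1 rk9_302_2
    (allC_cons rk9_303_0 rk9_303_1 rk9_303_2
    (allC_cons rk9_304_0 rk9_304_1 rk9_304_2
    (allC_cons rk9_305_0 rk9_305_1 rk9_305_2
    (allC_cons rk9_306_0 rk9_306_1 rk9_306_2
    (allC_cons rk9_307_0 rk9_307_1 rk9_307_2
    (allC_cons rk9_308_0 rk9_308_1 rk9_308_2
    (allC_cons rk9_309_0 rk9_309_1 rk9_309_2
    (allC_cons rk9_310_0 rk9_310_1 rk9_310_2
    (allC_cons rk9_311_0 rk9_311_1 rk9_311_2
    (allC_cons rk9_312_0 rk9_312_1 rk9_312_2
    (allC_cons rk9_313_0 rk9_313_1 rk9_313_2
    (allC_cons rk9_314_0 rk9_314_1 rk9_314_2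
    (allC_nil)))))))))))))))

end Crest.Agent.R347
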