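import Mathlib
import Crest.Prelude.Def_SpinChain

/-!
# Row 347 (S0545, S0546): Haldane gap.  Basic definitions.

Strategy (helper90), see `R347/BLUEPRINT.md`-style text in the row's `ideas` entry.
-/

set_option autoImplicit false

open Crest.MathPhysics.SpinChain Matrix

namespace Crest.Agent.R347

/-! ## Hamiltonians (complex matrices, `m`-basis of the Prelude) -/

/-- the tensor power `w ⊗ w ⊗ ... ⊗ w` on configurations -/
noncomputable def tens {ι : Type*} [Fintype ι] (w : Matrix (Fin 3) (Fin 3) ℂ) :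
    Matrix (ι → Fin 3) (ι → Fin 3) ℂ :=
  Matrix.of fun s s' => ∏ j, w (s j) (s' j)

/-- twisted bond `Σ_{a,b} g a b S^a_j S^b_k` -/
noncomputable def tbond {ι : Type*} [Fintype ι] [DecidableEq ι] (g : Matrix (Fin 3) (Fin 3) ℝ)
    (j k : ι) : Matrix (ι → Fin 3) (ι → Fin 3) ℂ :=
  ∑ a : Fin 3, ∑ b : Fin 3, ((g a b : ℝ) : ℂ) • (onSite (spinOp a) j * onSite (spinOp b) k)

/-- twisted ring with `L + 1` sites -/
noncomputable def ringH (L : ℕ) (g : Matrix (Fin 3) (Fin 3) ℝ) :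
    Matrix (Fin (L + 1) → Fin 3) (Fin (L + 1) → Fin 3) ℂ :=
  (∑ j : Fin L, bond (Fin.castSucc j) (Fin.succ j)) + tbond g (Fin.last L) 0

/-- open chain with `N + 1` sites and end fields `f₀`, `f₁` -/
noncomputable def openH (N : ℕ) (f₀ f₁ : ℝ) :
    Matrix (Fin (N + 1) → Fin 3) (Fin (N + 1) → Fin 3) ℂ :=
  (∑ j : Fin N, bond (Fin.castSucc j) (Fin.succ j)) -
    ((f₀ : ℂ) • onSite spinZ (0 : Fin (N + 1)) + (f₁ : ℂ) • onSite spinZ (Fin.last N))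

/-- partition function of the twisted ring with `L + 1` sites, with the site operator `w`
inserted (`w ⊗ ... ⊗ w`) -/
noncomputable def zRing (L : ℕ) (β : ℝ) (g : Matrix (Fin 3) (Fin 3) ℝ)
    (w : Matrix (Fin 3) (Fin 3) ℂ) : ℂ :=
  trace (tens w * NormedSpace.exp ((-(β : ℂ)) • ringH L g))

/-- partition function of the open chain with `N + 1` sites -/
noncomputable def zOpen (N : ℕ) (β f₀ f₁ : ℝ) (w : Matrix (Fin 3) (Fin 3) ℂ) : ℂ :=
  trace (tens w * NormedSpace.exp ((-(β : ℂ)) • openH N f₀ f₁))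

/-- `exp(iπS^z)` in the `m`-basis -/
noncomputable def wz : Matrix (Fin 3) (Fin 3) ℂ := Matrix.diagonal ![-1, 1, -1]

/-- `exp(iπS^x)` in the `m`-basis -/
noncomputable def wx : Matrix (Fin 3) (Fin 3) ℂ := !![0, 0, -1; 0, -1, 0; -1, 0, 0]

/-! ## Rotations -/

/-- rotation by `π` about `z` -/
def pz : Matrix (Fin 3) (Fin 3) ℝ := !![-1, 0, 0; 0, -1, 0; 0, 0, 1]
/-- rotation by `π` about `x` -/
def px : Matrix (Fin 3) (Fin 3) ℝ := !![1, 0, 0; 0, -1, 0; 0, 0, -1]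
/-- rotation by `π/2` about `z` -/
def c4 : Matrix (Fin 3) (Fin 3) ℝ := !![0, -1, 0; 1, 0, 0; 0, 0, 1]

/-! ## The time channel (real matrices, Cartesian basis) -/

/-- `R a = i S^a` in the Cartesian basis: `(R a) b c = ε a b c` -/
def R : Fin 3 → Matrix (Fin 3) (Fin 3) ℝ :=
  ![!![0, 0, 0; 0, 0, 1; 0, -1, 0], !![0, 0, -1; 0, 0, 0; 1, 0, 0], !![0, 1, 0; -1, 0, 0; 0, 0, 0]]

/-- site tensor: `T 0 0 = 1`, `T 0 (a+1) = T (a+1) 0 = √τ R a`, `T (a+1) (b+1) = 0` -/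
noncomputable def TR (τ : ℝ) (a b : Fin 4) : Matrix (Fin 3) (Fin 3) ℝ :=
  Fin.cases (motive := fun _ => Matrix (Fin 3) (Fin 3) ℝ)
    (Fin.cases (motive := fun _ => Matrix (Fin 3) (Fin 3) ℝ) 1 (fun c => Real.sqrt τ • R c) b)
    (fun c => Fin.cases (motive := fun _ => Matrix (Fin 3) (Fin 3) ℝ)
      (Real.sqrt τ • R c) (fun _ => 0) b) a

/-- the column transfer matrix (in the time channel) with `n` time slices and insertion `h` -/
noncomputable def BR (n : ℕ) (τ : ℝ) (h : Matrix (Fin 3) (Fin 3) ℝ) :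
    Matrix (Fin n → Fin 4) (Fin n → Fin 4) ℝ :=
  Matrix.of fun a a' => trace (h * (List.ofFn fun t => TR τ (a t) (a' t)).prod)

/-- `1 ⊕ g` -/
def Q4 (g : Matrix (Fin 3) (Fin 3) ℝ) (a b : Fin 4) : ℝ :=
  Fin.cases (motive := fun _ => ℝ)
    (Fin.cases (motive := fun _ => ℝ) 1 (fun _ => 0) b)
    (fun c => Fin.cases (motive := fun _ => ℝ) 0 (fun d => g c d) b) a

/-- `(1 ⊕ g)^{⊗ n}` -/
noncomputable def QG (n : ℕ) (g : Matrix (Fin 3) (Fin 3) ℝ) :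
    Matrix (Fin n → Fin 4) (Fin n → Fin 4) ℝ :=
  Matrix.of fun a a' => ∏ t, Q4 g (a t) (a' t)

/-- end-site tensor with field `f`: `A 0 = 1 + τ f S^z = 1 - i τ f R_z`, `A (a+1) = √τ R a` -/
noncomputable def AE (τ f : ℝ) (a : Fin 4) : Matrix (Fin 3) (Fin 3) ℂ :=
  Fin.cases (motive := fun _ => Matrix (Fin 3) (Fin 3) ℂ)
    (1 - (Complex.I * ((τ * f : ℝ) : ℂ)) • (R 2).map (fun x : ℝ => (x : ℂ)))
    (fun c => ((Real.sqrt τ : ℝ) : ℂ) • (R c).map (fun x : ℝ => (x : ℂ))) a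

/-- boundary vector -/
noncomputable def vE (n : ℕ) (τ f : ℝ) (h : Matrix (Fin 3) (Fin 3) ℝ) (a : Fin n → Fin 4) : ℂ :=
  trace (h.map (fun x : ℝ => (x : ℂ)) * (List.ofFn fun t => AE τ f (a t)).prod)

/-- The change of basis to the Cartesian basis (rows `x,y,z`, columns `m = 1,0,-1`). -/
noncomputable def UC : Matrix (Fin 3) (Fin 3) ℂ :=
  !![-((Real.sqrt 2 : ℝ) : ℂ)⁻¹, 0, ((Real.sqrt 2 : ℝ) : ℂ)⁻¹;
     -Complex.I * ((Real.sqrt 2 : ℝ) : ℂ)⁻¹, 0, -Complex.I * ((Real.sqrt 2 : ℝ) : ℂ)⁻¹;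
     0, 1, 0]

end Crest.Agent.R347
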