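import Crest.Agent.R347.Sch6

/-! Row 347, numerics, ring with 6 sites: error recursion (generated) -/

set_option autoImplicit false
set_option Elab.async false

namespace Crest.Agent.R347

set_option maxRecDepth 100000 in
theorem err6 : errOK 44 6 39 17177009417 1527 sched6 = true := by decide +kernel

end Crest.Agent.R347
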