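import Mathlib

/-!
# Row 347, piece R_SUMPOW (elementary)

With `a_i = y_i^10`: let `M = max y_i`.  If `M ≤ s`: `Σ y_i^L ≤ s^(L-10) (t^10 + s^10) ≤ t^L + s^L`.
If `M ≥ s`: let `u^10 = t^10 + s^10 - M^10`; the other `y_i` are `≤ u` and `Σ' y_i^L ≤ u^L`; and
`M^L + u^L ≤ t^L + s^L` by convexity of `x^(L/10)`.
-/

set_option autoImplicit false

namespace Crest.Agent.R347

private theorem conv_two {φ : ℝ → ℝ} (hφ : ConvexOn ℝ (Set.Ici 0) φ) {a b A S : ℝ} (hS : 0 ≤ S)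
    (hSa : S ≤ a) (haA : a ≤ A) (hab : a + b = A + S) : φ a + φ b ≤ φ A + φ S := by
  rcases eq_or_lt_of_le (hSa.trans haA) with h | h
  · have h1 : a = A := le_antisymm haA (h ▸ hSa)
    have h2 : b = S := by linarith
    rw [h1, h2]
  · set l := (a - S) / (A - S) with hl
    have hAS : 0 < A - S := by linarith
    have hl0 : 0 ≤ l := div_nonneg (by linarith) hAS.le
    have hl1 : l ≤ 1 := by rw [hl, div_le_one hAS]; linarith
    have hla : l * A + (1 - l) * S = a := by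
      rw [hl]; field_simp; ring
    have hlb : (1 - l) * A + l * S = b := by linarith
    have hA : A ∈ Set.Ici (0 : ℝ) := by simp; linarith
    have hS' : S ∈ Set.Ici (0 : ℝ) := hS
    have h1 := hφ.2 hA hS' hl0 (by linarith : (0 : ℝ) ≤ 1 - l) (by ring)
    have h2 := hφ.2 hA hS' (by linarith : (0 : ℝ) ≤ 1 - l) hl0 (by ring)
    simp only [smul_eq_mul] at h1 h2
    rw [hla] at h1
    rw [hlb] at h2
    linarith

private theorem two_pow {M u t s : ℝ} (hM : 0 ≤ M) (hu : 0 ≤ u) (hs : 0 ≤ s) (hsM : s ≤ M)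
    (hMt : M ≤ t) (h : M ^ 10 + u ^ 10 = t ^ 10 + s ^ 10) {L : ℕ} (hL : 10 ≤ L) :
    M ^ L + u ^ L ≤ t ^ L + s ^ L := by
  have hp : (1 : ℝ) ≤ (L : ℝ) / 10 := by
    rw [le_div_iff₀ (by norm_num)]
    have : (10 : ℝ) ≤ L := by exact_mod_cast hL
    linarith
  have key : ∀ x : ℝ, 0 ≤ x → (x ^ 10) ^ ((L : ℝ) / 10) = x ^ L := by
    intro x hx
    rw [← Real.rpow_natCast x 10, ← Real.rpow_mul hx, ← Real.rpow_natCast x L]
    congr 1
    push_cast
    ring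
  have := conv_two (convexOn_rpow hp) (pow_nonneg hs 10) (pow_le_pow_left₀ hs hsM 10)
    (pow_le_pow_left₀ hM hMt 10) h
  rwa [key M hM, key u hu, key t (hM.trans hMt), key s hs] at this

theorem sum_pow_le {k : ℕ} (y : Fin k → ℝ) (hy0 : ∀ i, 0 ≤ y i) {t s : ℝ} (hyt : ∀ i, y i ≤ t)
    (hs0 : 0 ≤ s) (hst : s ≤ t) (hsum : ∑ i, y i ^ 10 ≤ t ^ 10 + s ^ 10) {L : ℕ} (hL : 10 ≤ L) :
    ∑ i, y i ^ L ≤ t ^ L + s ^ L := by
  have ht0 : 0 ≤ t := hs0.trans hst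
  obtain ⟨n, rfl⟩ := Nat.exists_eq_add_of_le hL
  have hbd : ∀ (A : Finset (Fin k)) (c : ℝ), (∀ i ∈ A, y i ≤ c) →
      ∑ i ∈ A, y i ^ (10 + n) ≤ c ^ n * ∑ i ∈ A, y i ^ 10 := by
    intro A c hc
    rw [Finset.mul_sum]
    refine Finset.sum_le_sum fun i hi => ?_
    rw [pow_add, mul_comm]
    exact mul_le_mul_of_nonneg_right (pow_le_pow_left₀ (hy0 i) (hc i hi) n) (pow_nonneg (hy0 i) 10)
  by_cases hM : ∀ i, y i ≤ s
  · calc ∑ i, y i ^ (10 + n) ≤ s ^ n * ∑ i, y i ^ 10 := hbd _ s fun i _ => hM i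
      _ ≤ s ^ n * (t ^ 10 + s ^ 10) := mul_le_mul_of_nonneg_left hsum (pow_nonneg hs0 n)
      _ = s ^ n * t ^ 10 + s ^ (10 + n) := by ring
      _ ≤ t ^ n * t ^ 10 + s ^ (10 + n) := by
          have := mul_le_mul_of_nonneg_right (pow_le_pow_left₀ hs0 hst n) (pow_nonneg ht0 10)
          linarith
      _ = t ^ (10 + n) + s ^ (10 + n) := by ring
  · push Not at hM
    obtain ⟨i₀, hi₀⟩ := hM
    set M := y i₀ with hMdef
    have hM0 : 0 ≤ M := hy0 i₀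
    have hMt : M ≤ t := hyt i₀
    have hb0 : 0 ≤ t ^ 10 + s ^ 10 - M ^ 10 := by
      have h1 := pow_le_pow_left₀ hM0 hMt 10
      have h2 := pow_nonneg hs0 10
      linarith
    set u := (t ^ 10 + s ^ 10 - M ^ 10) ^ (((10 : ℕ) : ℝ)⁻¹) with hu
    have hu0 : 0 ≤ u := Real.rpow_nonneg hb0 _
    have hu10 : u ^ 10 = t ^ 10 + s ^ 10 - M ^ 10 := Real.rpow_inv_natCast_pow hb0 (by norm_num)
    have hsplit : ∀ m : ℕ, ∑ i, y i ^ m = M ^ m + ∑ i ∈ Finset.univ.erase i₀, y i ^ m := by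
      intro m
      rw [← Finset.add_sum_erase Finset.univ (fun i => y i ^ m) (Finset.mem_univ i₀)]
    have hrest : ∑ i ∈ Finset.univ.erase i₀, y i ^ 10 ≤ u ^ 10 := by
      rw [hu10]
      have := hsplit 10
      linarith
    have hyu : ∀ i ∈ Finset.univ.erase i₀, y i ≤ u := by
      intro i hi
      have h1 : y i ^ 10 ≤ ∑ i ∈ Finset.univ.erase i₀, y i ^ 10 :=
        Finset.single_le_sum (f := fun i => y i ^ 10) (fun j _ => pow_nonneg (hy0 j) 10) hi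
      exact le_of_pow_le_pow_left₀ (by norm_num) hu0 (h1.trans hrest)
    have h1 : ∑ i ∈ Finset.univ.erase i₀, y i ^ (10 + n) ≤ u ^ (10 + n) := by
      calc _ ≤ u ^ n * ∑ i ∈ Finset.univ.erase i₀, y i ^ 10 := hbd _ u hyu
        _ ≤ u ^ n * u ^ 10 := mul_le_mul_of_nonneg_left hrest (pow_nonneg hu0 n)
        _ = u ^ (10 + n) := by ring
    rw [hsplit]
    refine (add_le_add_right h1 _).trans ?_
    exact two_pow hM0 hu0 hs0 hi₀.le hMt (by rw [hu10]; ring) hL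

end Crest.Agent.R347
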