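import Crest.Agent.R347.Abs
import Crest.Agent.R347.RSumPow

/-!
# Row 347, piece R_BASE (elementary, ~1.5-2 h)

Christoffel-type bounds for limits of power sums.

`BaseHyp`: `Σ μ_i^6 (μ_i-r₁)²(μ_i-r₂)² → Q` where `Q = z10 - 2 p z9 + (p²+2q) z8 - 2 p q z7 + q² z6`, `p = r₁+r₂`,
`q = r₁ r₂`.  For `x ≥ t`: `x^6 (x-r₁)²(x-r₂)² ≥ t^6 (t-r₁)²(t-r₂)² > Q` (as `r_i < t`), so for `k` large no `μ_i ≥ t`; the same with
`r'` on the negative side (`x ≤ -tn`: `x^6 (x-r₁')²(x-r₂')² ≥ tn^6 (tn+r₁')²(tn+r₂')²` as `-tn < r_i'`). So eventually all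
`-tn < μ_i < t` (`BaseHyp.eventually`).

`base_bound`: with `a_i = |μ_i|^10`, `Σ a_i → z 10 ≤ T^10 + s^10`, `|μ_i| ≤ T := max t tn`: `sum_pow_le` with a small error, pass to
the limit.  `sum_pow_le` proof: let `a₀ = max a_i`, `P = L/10 ≥ 1` real, `A = T^10`, `S = s^10`.
`Σ_{i≠0} a_i^P ≤ (Σ_{i≠0} a_i)^P ≤ (A+S-a₀)^P`. If `a₀ ≥ S`: `a₀^P + (A+S-a₀)^P ≤ A^P + S^P` (convexity, `a₀ ∈ [S,A]`).
If `a₀ < S`: `Σ a_i^P ≤ a₀^(P-1) (A+S) ≤ S^(P-1)(A+S) ≤ A^P + S^P`.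

`poly_bound`: eventually `μ_i ∈ [-tn, t]`, so `Σ c_i μ_i^n ≤ Σ_k p_k Σ c_i μ_i^k`.

`poly_lower`: if `z 68 > a^68 + s^68`, `z 10 ≤ a^10 + s^10`, `s < a`, `tn < a`: eventually some `μ_{i₀} ≥ a` (else
`z 68 ≤ a^68 + s^68` by `sum_pow_le`), and `Σ_{i≠i₀} μ_i^10 ≤ z 10 + err - a^10 ≤ s^10 + err`, so all other `|μ_i| ≤ s + err`: use
the hypothesis on the slightly larger set `|x| ≤ s'` with `s < s'`.
-/

set_option autoImplicit false

open Filter Topology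

namespace Crest.Agent.R347

/-- the hypotheses under which all `μ_i ∈ (-tn, t)` eventually -/
structure BaseHyp (z : ℕ → ℝ) (t tn r₁ r₂ r₁' r₂' : ℝ) : Prop where
  ht : 0 < t
  htn : 0 < tn
  h1 : r₁ < t
  h2 : r₂ < t
  h1' : -tn < r₁'
  h2' : -tn < r₂'
  hQ : z 10 - 2 * (r₁ + r₂) * z 9 + ((r₁ + r₂) ^ 2 + 2 * (r₁ * r₂)) * z 8
      - 2 * (r₁ * r₂) * (r₁ + r₂) * z 7 + (r₁ * r₂) ^ 2 * z 6 < t ^ 6 * (t - r₁) ^ 2 * (t - r₂) ^ 2
  hQ' : z 10 - 2 * (r₁' + r₂') * z 9 + ((r₁' + r₂') ^ 2 + 2 * (r₁' * r₂')) * z 8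
      - 2 * (r₁' * r₂') * (r₁' + r₂') * z 7 + (r₁' * r₂') ^ 2 * z 6
      < tn ^ 6 * (tn + r₁') ^ 2 * (tn + r₂') ^ 2

theorem BaseHyp.eventually {z : ℕ → ℝ} {t tn r₁ r₂ r₁' r₂' : ℝ} (hb : BaseHyp z t tn r₁ r₂ r₁' r₂')
    {κ : ℕ → ℕ} {μ : (k : ℕ) → Fin (κ k) → ℝ}
    (h : ∀ L, 2 ≤ L → Tendsto (fun k => ∑ i, μ k i ^ L) atTop (𝓝 (z L))) :
    ∀ᶠ k in atTop, ∀ i, -tn < μ k i ∧ μ k i < t := by
  have key : ∀ a b : ℝ, Tendsto (fun k => ∑ i, μ k i ^ 6 * (μ k i - a) ^ 2 * (μ k i - b) ^ 2) atTop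
      (𝓝 (z 10 - 2 * (a + b) * z 9 + ((a + b) ^ 2 + 2 * (a * b)) * z 8
      - 2 * (a * b) * (a + b) * z 7 + (a * b) ^ 2 * z 6)) := by
    intro a b
    have h0 := ((((h 10 (by norm_num)).sub ((h 9 (by norm_num)).const_mul (2 * (a + b)))).add
      ((h 8 (by norm_num)).const_mul ((a + b) ^ 2 + 2 * (a * b)))).sub
      ((h 7 (by norm_num)).const_mul (2 * (a * b) * (a + b)))).add
      ((h 6 (by norm_num)).const_mul ((a * b) ^ 2))
    refine h0.congr (fun k => ?_)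
    simp only [Finset.mul_sum]
    rw [← Finset.sum_sub_distrib, ← Finset.sum_add_distrib, ← Finset.sum_sub_distrib,
      ← Finset.sum_add_distrib]
    refine Finset.sum_congr rfl (fun i _ => ?_)
    ring
  filter_upwards [(key r₁ r₂).eventually_lt_const hb.hQ, (key r₁' r₂').eventually_lt_const hb.hQ']
    with k h1 h2 i
  have nn : ∀ a b x : ℝ, 0 ≤ x ^ 6 * (x - a) ^ 2 * (x - b) ^ 2 := by
    intro a b x
    have : x ^ 6 = (x ^ 3) ^ 2 := by ring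
    rw [this]; positivity
  have s1 : μ k i ^ 6 * (μ k i - r₁) ^ 2 * (μ k i - r₂) ^ 2 ≤
      ∑ i, μ k i ^ 6 * (μ k i - r₁) ^ 2 * (μ k i - r₂) ^ 2 :=
    Finset.single_le_sum (f := fun i => μ k i ^ 6 * (μ k i - r₁) ^ 2 * (μ k i - r₂) ^ 2)
      (fun j _ => nn _ _ _) (Finset.mem_univ i)
  have s2 : μ k i ^ 6 * (μ k i - r₁') ^ 2 * (μ k i - r₂') ^ 2 ≤
      ∑ i, μ k i ^ 6 * (μ k i - r₁') ^ 2 * (μ k i - r₂') ^ 2 :=
    Finset.single_le_sum (f := fun i => μ k i ^ 6 * (μ k i - r₁') ^ 2 * (μ k i - r₂') ^ 2)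
      (fun j _ => nn _ _ _) (Finset.mem_univ i)
  constructor
  · by_contra hc
    push Not at hc
    have e1 : tn ^ 6 ≤ μ k i ^ 6 := by
      have h3 : tn ≤ - μ k i := by linarith
      have := pow_le_pow_left₀ hb.htn.le h3 6
      have e : (- μ k i) ^ 6 = μ k i ^ 6 := by ring
      linarith
    have e2 : (tn + r₁') ^ 2 ≤ (μ k i - r₁') ^ 2 := by
      have h3 : tn + r₁' ≤ - μ k i + r₁' := by linarith
      have h4 : 0 ≤ tn + r₁' := by linarith [hb.h1']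
      have := pow_le_pow_left₀ h4 h3 2
      have e : (- μ k i + r₁') ^ 2 = (μ k i - r₁') ^ 2 := by ring
      linarith
    have e3 : (tn + r₂') ^ 2 ≤ (μ k i - r₂') ^ 2 := by
      have h3 : tn + r₂' ≤ - μ k i + r₂' := by linarith
      have h4 : 0 ≤ tn + r₂' := by linarith [hb.h2']
      have := pow_le_pow_left₀ h4 h3 2
      have e : (- μ k i + r₂') ^ 2 = (μ k i - r₂') ^ 2 := by ring
      linarith
    have htn := hb.htn
    have : tn ^ 6 * (tn + r₁') ^ 2 * (tn + r₂') ^ 2 ≤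
        μ k i ^ 6 * (μ k i - r₁') ^ 2 * (μ k i - r₂') ^ 2 := by
      have p6 : 0 ≤ μ k i ^ 6 := le_trans (by positivity) e1
      exact mul_le_mul (mul_le_mul e1 e2 (sq_nonneg _) p6) e3 (sq_nonneg _)
        (mul_nonneg p6 (sq_nonneg _))
    linarith
  · by_contra hc
    push Not at hc
    have ht := hb.ht
    have e1 : t ^ 6 ≤ μ k i ^ 6 := pow_le_pow_left₀ hb.ht.le hc 6
    have e2 : (t - r₁) ^ 2 ≤ (μ k i - r₁) ^ 2 :=
      pow_le_pow_left₀ (by linarith [hb.h1]) (by linarith) 2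
    have e3 : (t - r₂) ^ 2 ≤ (μ k i - r₂) ^ 2 :=
      pow_le_pow_left₀ (by linarith [hb.h2]) (by linarith) 2
    have : t ^ 6 * (t - r₁) ^ 2 * (t - r₂) ^ 2 ≤
        μ k i ^ 6 * (μ k i - r₁) ^ 2 * (μ k i - r₂) ^ 2 := by
      have p6 : 0 ≤ μ k i ^ 6 := le_trans (by positivity) e1
      exact mul_le_mul (mul_le_mul e1 e2 (sq_nonneg _) p6) e3 (sq_nonneg _)
        (mul_nonneg p6 (sq_nonneg _))
    linarith

theorem IsPS.base_bound {z : ℕ → ℝ} (h : IsPS z) {t tn r₁ r₂ r₁' r₂' T s : ℝ}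
    (hb : BaseHyp z t tn r₁ r₂ r₁' r₂') (ht : t ≤ T) (htn : tn ≤ T)
    (hs0 : 0 ≤ s) (hst : s ≤ T) (h10 : z 10 ≤ T ^ 10 + s ^ 10)
    {L : ℕ} (hL : Even L) (h10L : 10 ≤ L) : z L ≤ T ^ L + s ^ L := by
  obtain ⟨κ, μ, hμ⟩ := h
  have hev := hb.eventually hμ
  have hT : 0 < T := lt_of_lt_of_le hb.ht ht
  have main : ∀ δ : ℝ, 0 < δ → z L ≤ (T + δ) ^ L + s ^ L := by
    intro δ hδ
    have hlt : z 10 < (T + δ) ^ 10 + s ^ 10 := by
      have : T ^ 10 < (T + δ) ^ 10 := pow_lt_pow_left₀ (by linarith) hT.le (by norm_num)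
      linarith
    refine le_of_tendsto (hμ L (by omega)) ?_
    filter_upwards [hev, (hμ 10 (by norm_num)).eventually_lt_const hlt] with k h1 h2
    have e : ∀ M : ℕ, Even M → ∑ i, |μ k i| ^ M = ∑ i, μ k i ^ M := by
      intro M hM
      exact Finset.sum_congr rfl (fun i _ => hM.pow_abs _)
    have := sum_pow_le (fun i => |μ k i|) (fun i => abs_nonneg _) (t := T + δ) (s := s)
      (fun i => by
        show |μ k i| ≤ T + δ
        rw [abs_le]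
        have := h1 i
        constructor <;> linarith [this.1, this.2]) hs0 (by linarith)
      (by
        show ∑ i, |μ k i| ^ 10 ≤ _
        rw [e 10 ⟨5, rfl⟩]; exact h2.le) h10L
    have e' := e L hL
    rw [e'] at this
    exact this
  have hcont : Tendsto (fun δ : ℝ => (T + δ) ^ L + s ^ L) (𝓝[>] 0) (𝓝 ((T + 0) ^ L + s ^ L)) := by
    have : Continuous (fun δ : ℝ => (T + δ) ^ L + s ^ L) := by fun_prop
    exact (this.tendsto 0).mono_left nhdsWithin_le_nhds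
  rw [add_zero] at hcont
  refine ge_of_tendsto hcont ?_
  filter_upwards [self_mem_nhdsWithin] with δ hδ
  exact main δ hδ

theorem IsPSO.poly_bound {z O : ℕ → ℝ} (h : IsPSO z O) {t tn r₁ r₂ r₁' r₂' : ℝ}
    (hb : BaseHyp z t tn r₁ r₂ r₁' r₂') (p : Fin 7 → ℝ) (n : ℕ)
    (hp : ∀ x : ℝ, -tn ≤ x → x ≤ t → x ^ n ≤ ∑ k : Fin 7, p k * x ^ (k : ℕ)) :
    O n ≤ ∑ k : Fin 7, p k * O k := by
  obtain ⟨κ, μ, c, hc, hμ, hO⟩ := h
  have hev := hb.eventually hμ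
  have hlim : Tendsto (fun j => ∑ k : Fin 7, p k * ∑ i, c j i * μ j i ^ (k : ℕ)) atTop
      (𝓝 (∑ k : Fin 7, p k * O k)) :=
    tendsto_finsetSum _ (fun k _ => (hO k).const_mul (p k))
  refine le_of_tendsto_of_tendsto (hO n) hlim ?_
  filter_upwards [hev] with j h1
  have e : ∑ k : Fin 7, p k * ∑ i, c j i * μ j i ^ (k : ℕ) =
      ∑ i, c j i * ∑ k : Fin 7, p k * μ j i ^ (k : ℕ) := by
    simp only [Finset.mul_sum]
    rw [Finset.sum_comm]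
    exact Finset.sum_congr rfl (fun i _ => Finset.sum_congr rfl (fun k _ => by ring))
  show ∑ i, c j i * μ j i ^ n ≤ ∑ k : Fin 7, p k * ∑ i, c j i * μ j i ^ (k : ℕ)
  rw [e]
  exact Finset.sum_le_sum (fun i _ =>
    mul_le_mul_of_nonneg_left (hp _ (h1 i).1.le (h1 i).2.le) (hc j i))

theorem IsPSO.poly_lower {z O : ℕ → ℝ} (h : IsPSO z O) {t tn r₁ r₂ r₁' r₂' a s s' : ℝ}
    (hb : BaseHyp z t tn r₁ r₂ r₁' r₂') (htn : tn < a) (hs0 : 0 ≤ s) (hsa : s < a) (hss' : s < s')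
    (h10 : z 10 ≤ a ^ 10 + s ^ 10) (h68 : a ^ 68 + s ^ 68 < z 68) (p : Fin 7 → ℝ) (n : ℕ)
    (hp : ∀ x : ℝ, (|x| ≤ s' ∨ (a ≤ x ∧ x ≤ t)) → ∑ k : Fin 7, p k * x ^ (k : ℕ) ≤ x ^ n) :
    ∑ k : Fin 7, p k * O k ≤ O n := by
  obtain ⟨κ, μ, c, hc, hμ, hO⟩ := h
  have hev := hb.eventually hμ
  have ha : 0 < a := lt_trans hb.htn htn
  have hlim : Tendsto (fun j => ∑ k : Fin 7, p k * ∑ i, c j i * μ j i ^ (k : ℕ)) atTop
      (𝓝 (∑ k : Fin 7, p k * O k)) :=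
    tendsto_finsetSum _ (fun k _ => (hO k).const_mul (p k))
  obtain ⟨δ, hδ, hδ68⟩ : ∃ δ : ℝ, 0 < δ ∧ (a + δ) ^ 68 + s ^ 68 < z 68 := by
    have hcont : Tendsto (fun δ : ℝ => (a + δ) ^ 68 + s ^ 68) (𝓝[>] 0)
        (𝓝 ((a + 0) ^ 68 + s ^ 68)) := by
      have : Continuous (fun δ : ℝ => (a + δ) ^ 68 + s ^ 68) := by fun_prop
      exact (this.tendsto 0).mono_left nhdsWithin_le_nhds
    rw [add_zero] at hcont
    have h1 := hcont.eventually_lt_const h68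
    have h2 : ∀ᶠ δ : ℝ in 𝓝[>] 0, 0 < δ := by
      filter_upwards [self_mem_nhdsWithin] with δ hδ
      exact hδ
    obtain ⟨δ, h3, h4⟩ := (h1.and h2).exists
    exact ⟨δ, h4, h3⟩
  have hlt : z 10 < (a + δ) ^ 10 + s ^ 10 := by
    have : a ^ 10 < (a + δ) ^ 10 := pow_lt_pow_left₀ (by linarith) ha.le (by norm_num)
    linarith
  have hlt' : z 10 < a ^ 10 + s' ^ 10 := by
    have : s ^ 10 < s' ^ 10 := pow_lt_pow_left₀ hss' hs0 (by norm_num)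
    linarith
  refine le_of_tendsto_of_tendsto hlim (hO n) ?_
  filter_upwards [hev, (hμ 10 (by norm_num)).eventually_lt_const hlt,
    (hμ 10 (by norm_num)).eventually_lt_const hlt',
    (hμ 68 (by norm_num)).eventually_const_lt hδ68] with j h1 h2 h3 h4
  have e : ∑ k : Fin 7, p k * ∑ i, c j i * μ j i ^ (k : ℕ) =
      ∑ i, c j i * ∑ k : Fin 7, p k * μ j i ^ (k : ℕ) := by
    simp only [Finset.mul_sum]
    rw [Finset.sum_comm]
    exact Finset.sum_congr rfl (fun i _ => Finset.sum_congr rfl (fun k _ => by ring))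
  -- some eigenvalue is at least `a`
  obtain ⟨i₀, hi₀⟩ : ∃ i₀, a ≤ μ j i₀ := by
    by_contra hcon
    push Not at hcon
    have e2 : ∀ M : ℕ, Even M → ∑ i, |μ j i| ^ M = ∑ i, μ j i ^ M := by
      intro M hM
      exact Finset.sum_congr rfl (fun i _ => hM.pow_abs _)
    have := sum_pow_le (fun i => |μ j i|) (fun i => abs_nonneg _) (t := a + δ) (s := s)
      (fun i => by
        show |μ j i| ≤ a + δ
        rw [abs_le]
        have h5 := h1 i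
        have h6 := hcon i
        constructor <;> linarith [h5.1, h5.2]) hs0 (by linarith)
      (by
        show ∑ i, |μ j i| ^ 10 ≤ _
        rw [e2 10 ⟨5, rfl⟩]; exact h2.le) (L := 68) (by norm_num)
    have e' := e2 68 ⟨34, rfl⟩
    rw [e'] at this
    linarith
  have hs'0 : 0 ≤ s' := by linarith
  have hall : ∀ i, |μ j i| ≤ s' ∨ (a ≤ μ j i ∧ μ j i ≤ t) := by
    intro i
    by_cases hi : i = i₀
    · right
      rw [hi]
      exact ⟨hi₀, (h1 i₀).2.le⟩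
    · left
      have hsum : μ j i₀ ^ 10 + μ j i ^ 10 ≤ ∑ i, μ j i ^ 10 := by
        have h5 : ∑ x ∈ ({i₀, i} : Finset _), μ j x ^ 10 ≤ ∑ i, μ j i ^ 10 :=
          Finset.sum_le_sum_of_subset_of_nonneg (Finset.subset_univ _)
            (fun x _ _ => Even.pow_nonneg ⟨5, rfl⟩ _)
        rwa [Finset.sum_pair (Ne.symm hi)] at h5
      have h6 : a ^ 10 ≤ μ j i₀ ^ 10 := pow_le_pow_left₀ ha.le hi₀ 10
      have h7 : |μ j i| ^ 10 ≤ s' ^ 10 := by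
        have h8 : |μ j i| ^ 10 = μ j i ^ 10 := Even.pow_abs ⟨5, rfl⟩ _
        rw [h8]
        linarith
      exact le_of_pow_le_pow_left₀ (by norm_num) hs'0 h7
  show ∑ k : Fin 7, p k * ∑ i, c j i * μ j i ^ (k : ℕ) ≤ ∑ i, c j i * μ j i ^ n
  rw [e]
  exact Finset.sum_le_sum (fun i _ =>
    mul_le_mul_of_nonneg_left (hp _ (hall i)) (hc j i))

end Crest.Agent.R347
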