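import Crest.Agent.R347.EDefs
import Crest.Agent.R347.RBase

/-!
# Row 347, piece E_BASE (helper55): the tables and `BaseHyp` for the seven sectors
-/

set_option autoImplicit false

open Crest.MathPhysics.SpinChain Matrix

namespace Crest.Agent.R347

/-- all tables -/
structure AllTab : Prop where
  t6 : Tab6
  t7 : Tab7
  t8 : Tab8
  t9 : Tab9
  t10 : Tab10
  o0 : TabO0
  o1 : TabO1
  o2 : TabO2
  o3 : TabO3
  o4 : TabO4
  o5 : TabO5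
  o6 : TabO6

theorem base_A1 (T : AllTab) : BaseHyp (sA1 (17 / 2)) (100451 / 100000) (6094 / 10000)
    (521 / 1000) (-(383 / 1000)) (976 / 1000) (176 / 1000) := by
  obtain ⟨h6, -, -, -, -, -, -⟩ := T.t6
  obtain ⟨h7, -, -, -, -, -, -⟩ := T.t7
  obtain ⟨h8, -, -, -, -, -, -⟩ := T.t8
  obtain ⟨h9, -, -, -, -, -, -⟩ := T.t9
  obtain ⟨h10, -, -, -, -, -, -⟩ := T.t10
  rw [abs_le] at h6 h7 h8 h9 h10
  obtain ⟨a6, b6⟩ := h6
  obtain ⟨a7, b7⟩ := h7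
  obtain ⟨a8, b8⟩ := h8
  obtain ⟨a9, b9⟩ := h9
  obtain ⟨a10, b10⟩ := h10
  refine ⟨by norm_num, by norm_num, by norm_num, by norm_num, by norm_num, by norm_num, ?_, ?_⟩
  · norm_num at *
    linarith
  · norm_num at *
    linarith

theorem base_A2 (T : AllTab) : BaseHyp (sA2 (17 / 2)) (70007 / 100000) (8632 / 10000)
    (182 / 1000) (-(771 / 1000)) (542 / 1000) (-(549 / 1000)) := by
  obtain ⟨-, h6, -, -, -, -, -⟩ := T.t6
  obtain ⟨-, h7, -, -, -, -, -⟩ := T.t7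
  obtain ⟨-, h8, -, -, -, -, -⟩ := T.t8
  obtain ⟨-, h9, -, -, -, -, -⟩ := T.t9
  obtain ⟨-, h10, -, -, -, -, -⟩ := T.t10
  rw [abs_le] at h6 h7 h8 h9 h10
  obtain ⟨a6, b6⟩ := h6
  obtain ⟨a7, b7⟩ := h7
  obtain ⟨a8, b8⟩ := h8
  obtain ⟨a9, b9⟩ := h9
  obtain ⟨a10, b10⟩ := h10
  refine ⟨by norm_num, by norm_num, by norm_num, by norm_num, by norm_num, by norm_num, ?_, ?_⟩
  · norm_num at *
    linarith
  · norm_num at *
    linarith

theorem base_B (T : AllTab) : BaseHyp (sB (17 / 2)) (67336 / 100000) (5631 / 10000)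
    (397 / 1000) (-(391 / 1000)) (576 / 1000) (-(183 / 1000)) := by
  obtain ⟨-, -, h6, -, -, -, -⟩ := T.t6
  obtain ⟨-, -, h7, -, -, -, -⟩ := T.t7
  obtain ⟨-, -, h8, -, -, -, -⟩ := T.t8
  obtain ⟨-, -, h9, -, -, -, -⟩ := T.t9
  obtain ⟨-, -, h10, -, -, -, -⟩ := T.t10
  rw [abs_le] at h6 h7 h8 h9 h10
  obtain ⟨a6, b6⟩ := h6
  obtain ⟨a7, b7⟩ := h7
  obtain ⟨a8, b8⟩ := h8
  obtain ⟨a9, b9⟩ := h9
  obtain ⟨a10, b10⟩ := h10
  refine ⟨by norm_num, by norm_num, by norm_num, by norm_num, by norm_num, by norm_num, ?_, ?_⟩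
  · norm_num at *
    linarith
  · norm_num at *
    linarith

theorem base_PA1 (T : AllTab) : BaseHyp (sPA1 (17 / 2)) (71030 / 100000) (8647 / 10000)
    (175 / 1000) (-(771 / 1000)) (563 / 1000) (-(542 / 1000)) := by
  obtain ⟨-, -, -, h6, -, -, -⟩ := T.t6
  obtain ⟨-, -, -, h7, -, -, -⟩ := T.t7
  obtain ⟨-, -, -, h8, -, -, -⟩ := T.t8
  obtain ⟨-, -, -, h9, -, -, -⟩ := T.t9
  obtain ⟨-, -, -, h10, -, -, -⟩ := T.t10
  rw [abs_le] at h6 h7 h8 h9 h10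
  obtain ⟨a6, b6⟩ := h6
  obtain ⟨a7, b7⟩ := h7
  obtain ⟨a8, b8⟩ := h8
  obtain ⟨a9, b9⟩ := h9
  obtain ⟨a10, b10⟩ := h10
  refine ⟨by norm_num, by norm_num, by norm_num, by norm_num, by norm_num, by norm_num, ?_, ?_⟩
  · norm_num at *
    linarith
  · norm_num at *
    linarith

theorem base_PA2 (T : AllTab) : BaseHyp (sPA2 (17 / 2)) (99973 / 100000) (6081 / 10000)
    (520 / 1000) (-(380 / 1000)) (970 / 1000) (176 / 1000) := by
  obtain ⟨-, -, -, -, h6, -, -⟩ := T.t6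
  obtain ⟨-, -, -, -, h7, -, -⟩ := T.t7
  obtain ⟨-, -, -, -, h8, -, -⟩ := T.t8
  obtain ⟨-, -, -, -, h9, -, -⟩ := T.t9
  obtain ⟨-, -, -, -, h10, -, -⟩ := T.t10
  rw [abs_le] at h6 h7 h8 h9 h10
  obtain ⟨a6, b6⟩ := h6
  obtain ⟨a7, b7⟩ := h7
  obtain ⟨a8, b8⟩ := h8
  obtain ⟨a9, b9⟩ := h9
  obtain ⟨a10, b10⟩ := h10
  refine ⟨by norm_num, by norm_num, by norm_num, by norm_num, by norm_num, by norm_num, ?_, ?_⟩
  · norm_num at *
    linarith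
  · norm_num at *
    linarith

theorem base_PB (T : AllTab) : BaseHyp (sPB (17 / 2)) (66027 / 100000) (5608 / 10000)
    (407 / 1000) (-(393 / 1000)) (556 / 1000) (-(207 / 1000)) := by
  obtain ⟨-, -, -, -, -, h6, -⟩ := T.t6
  obtain ⟨-, -, -, -, -, h7, -⟩ := T.t7
  obtain ⟨-, -, -, -, -, h8, -⟩ := T.t8
  obtain ⟨-, -, -, -, -, h9, -⟩ := T.t9
  obtain ⟨-, -, -, -, -, h10, -⟩ := T.t10
  rw [abs_le] at h6 h7 h8 h9 h10
  obtain ⟨a6, b6⟩ := h6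
  obtain ⟨a7, b7⟩ := h7
  obtain ⟨a8, b8⟩ := h8
  obtain ⟨a9, b9⟩ := h9
  obtain ⟨a10, b10⟩ := h10
  refine ⟨by norm_num, by norm_num, by norm_num, by norm_num, by norm_num, by norm_num, ?_, ?_⟩
  · norm_num at *
    linarith
  · norm_num at *
    linarith

theorem base_PE (T : AllTab) : BaseHyp (sPE (17 / 2)) (74395 / 100000) (8583 / 10000)
    (282 / 1000) (-(738 / 1000)) (551 / 1000) (-(499 / 1000)) := by
  obtain ⟨-, -, -, -, -, -, h6⟩ := T.t6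
  obtain ⟨-, -, -, -, -, -, h7⟩ := T.t7
  obtain ⟨-, -, -, -, -, -, h8⟩ := T.t8
  obtain ⟨-, -, -, -, -, -, h9⟩ := T.t9
  obtain ⟨-, -, -, -, -, -, h10⟩ := T.t10
  rw [abs_le] at h6 h7 h8 h9 h10
  obtain ⟨a6, b6⟩ := h6
  obtain ⟨a7, b7⟩ := h7
  obtain ⟨a8, b8⟩ := h8
  obtain ⟨a9, b9⟩ := h9
  obtain ⟨a10, b10⟩ := h10
  refine ⟨by norm_num, by norm_num, by norm_num, by norm_num, by norm_num, by norm_num, ?_, ?_⟩
  · norm_num at *
    linarith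
  · norm_num at *
    linarith

end Crest.Agent.R347
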