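import Crest.Agent.R347.LDefs

/-!
# Row 347, piece L_COV (1.2 h): symmetries of the time-channel transfer matrix

`TR τ a b = TR τ b a`, so `BR` is symmetric.  `QG` is multiplicative (`Finset.prod_univ_sum`), `Q4 (g g') = Q4 g · Q4 g'`.
Covariance: `Σ_{b,b'} Q4 k a b · Q4 k a' b' • TR τ b b' = kᵀ * TR τ a a' * k` (`IsRot.cov`), hence
`(QG k * BR h * QG kᵀ) a a' = trace (h * Π_t (kᵀ TR(a_t,a'_t) k)) = trace (k h kᵀ Π_t TR(a_t, a'_t))`.
-/

set_option autoImplicit false

open Crest.MathPhysics.SpinChain Matrix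

namespace Crest.Agent.R347


/-! ### auxiliary lemmas (helper4) -/

namespace LCovAux

theorem ofFn_prod_conj {A : Type*} [Ring A] (u v : A) (huv : u * v = 1) (hvu : v * u = 1) {n : ℕ}
    (M : Fin n → A) : (List.ofFn fun t => v * M t * u).prod = v * (List.ofFn M).prod * u := by
  induction n with
  | zero => simp [hvu]
  | succ n ih =>
    rw [List.ofFn_succ, List.prod_cons, ih, List.ofFn_succ, List.prod_cons]
    calc v * M 0 * u * (v * (List.ofFn fun i => M (Fin.succ i)).prod * u)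
        = v * M 0 * (u * v) * (List.ofFn fun i => M (Fin.succ i)).prod * u := by
          simp only [mul_assoc]
      _ = _ := by rw [huv, mul_one]; simp only [mul_assoc]

theorem ofFn_prod_sum {K A : Type*} [CommRing K] [Ring A] [Algebra K A] {n : ℕ} {ι : Type*}
    [Fintype ι] [DecidableEq ι] (c : Fin n → ι → K) (F : Fin n → ι → A) :
    (List.ofFn fun t => ∑ i, c t i • F t i).prod =
      ∑ r : Fin n → ι, (∏ t, c t (r t)) • (List.ofFn fun t => F t (r t)).prod := by
  classical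
  have h := MultilinearMap.map_sum (MultilinearMap.mkPiAlgebraFin K n A)
    (fun t i => c t i • F t i)
  simp only [MultilinearMap.mkPiAlgebraFin_apply] at h
  rw [h]
  refine Finset.sum_congr rfl fun r _ => ?_
  have h2 := MultilinearMap.map_smul_univ (MultilinearMap.mkPiAlgebraFin K n A)
    (fun t => c t (r t)) (fun t => F t (r t))
  simp only [MultilinearMap.mkPiAlgebraFin_apply] at h2
  exact h2

theorem Q4_mul (g g' : Matrix (Fin 3) (Fin 3) ℝ) (a b : Fin 4) :
    Q4 (g * g') a b = ∑ c, Q4 g a c * Q4 g' c b := by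
  refine Fin.cases ?_ (fun c => ?_) a <;> refine Fin.cases ?_ (fun d => ?_) b
  · rw [Fin.sum_univ_succ]; simp [Q4]
  · rw [Fin.sum_univ_succ]; simp [Q4]
  · rw [Fin.sum_univ_succ]; simp [Q4]
  · rw [Fin.sum_univ_succ]; simp [Q4, Matrix.mul_apply]

theorem Q4_one (a b : Fin 4) : Q4 1 a b = if a = b then 1 else 0 := by
  refine Fin.cases ?_ (fun c => ?_) a <;> refine Fin.cases ?_ (fun d => ?_) b
  · simp [Q4]
  · simp [Q4, (Fin.succ_ne_zero d).symm]
  · simp [Q4, Fin.succ_ne_zero c]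
  · simp [Q4, Matrix.one_apply]

theorem Q4_transpose (g : Matrix (Fin 3) (Fin 3) ℝ) (a b : Fin 4) : Q4 gᵀ a b = Q4 g b a := by
  refine Fin.cases ?_ (fun c => ?_) a <;> refine Fin.cases ?_ (fun d => ?_) b <;> simp [Q4]

theorem TR_symm (τ : ℝ) (a b : Fin 4) : TR τ a b = TR τ b a := by
  refine Fin.cases ?_ (fun c => ?_) a <;> refine Fin.cases ?_ (fun d => ?_) b <;> simp [TR]

/-- one-site covariance -/
theorem TR_cov (τ : ℝ) {k : Matrix (Fin 3) (Fin 3) ℝ} (hk : IsRot k) (a a' : Fin 4) :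
    ∑ p : Fin 4 × Fin 4, (Q4 k a p.1 * Q4 k a' p.2) • TR τ p.1 p.2 = kᵀ * TR τ a a' * k := by
  rw [Fintype.sum_prod_type]
  refine Fin.cases ?_ (fun c => ?_) a <;> refine Fin.cases ?_ (fun d => ?_) a'
  · simp only [Fin.sum_univ_succ (n := 3)]
    simp [Q4, TR, hk.t_mul]
  · simp only [Fin.sum_univ_succ (n := 3)]
    simp only [Q4, TR, Fin.cases_zero, Fin.cases_succ, mul_zero, zero_smul, zero_mul, one_mul,
      Finset.sum_const_zero, add_zero, zero_add, smul_zero]
    rw [Matrix.mul_smul, Matrix.smul_mul, hk.cov d, Finset.smul_sum]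
    exact Finset.sum_congr rfl fun b _ => by rw [smul_smul, smul_smul, mul_comm]
  · simp only [Fin.sum_univ_succ (n := 3)]
    simp only [Q4, TR, Fin.cases_zero, Fin.cases_succ, mul_zero, zero_smul, mul_one,
      Finset.sum_const_zero, add_zero, zero_add, smul_zero]
    rw [Matrix.mul_smul, Matrix.smul_mul, hk.cov c, Finset.smul_sum]
    exact Finset.sum_congr rfl fun b _ => by rw [smul_smul, smul_smul, mul_comm]
  · simp only [Fin.sum_univ_succ (n := 3)]
    simp [Q4, TR]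

/-- complexification -/
noncomputable def cM (A : Matrix (Fin 3) (Fin 3) ℝ) : Matrix (Fin 3) (Fin 3) ℂ :=
  A.map (fun x : ℝ => (x : ℂ))

theorem cM_mul (A B : Matrix (Fin 3) (Fin 3) ℝ) : cM (A * B) = cM A * cM B := by
  unfold cM
  exact Matrix.map_mul (f := Complex.ofRealHom)

theorem cM_one : cM 1 = 1 := by
  unfold cM
  exact Matrix.map_one _ Complex.ofReal_zero Complex.ofReal_one

theorem cM_smul (c : ℝ) (A : Matrix (Fin 3) (Fin 3) ℝ) : cM (c • A) = (c : ℂ) • cM A := by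
  ext i j
  simp [cM]

theorem cM_sum {ι : Type*} (s : Finset ι) (A : ι → Matrix (Fin 3) (Fin 3) ℝ) :
    cM (∑ i ∈ s, A i) = ∑ i ∈ s, cM (A i) := by
  ext i j
  simp [cM, Matrix.sum_apply]

theorem AE_zero (τ f : ℝ) : AE τ f 0 = 1 - (Complex.I * ((τ * f : ℝ) : ℂ)) • cM (R 2) := rfl

theorem AE_succ (τ f : ℝ) (c : Fin 3) :
    AE τ f (Fin.succ c) = ((Real.sqrt τ : ℝ) : ℂ) • cM (R c) := rfl

/-- one-site covariance of the boundary tensor -/
theorem AE_cov (τ f f' : ℝ) {k : Matrix (Fin 3) (Fin 3) ℝ} (hk : IsRot k)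
    (hz : f' • (kᵀ * R 2 * k) = f • R 2) (a : Fin 4) :
    ∑ b, ((Q4 k a b : ℝ) : ℂ) • AE τ f b = cM kᵀ * AE τ f' a * cM k := by
  refine Fin.cases ?_ (fun c => ?_) a
  · rw [Fin.sum_univ_succ]
    have h0 : ∀ b : Fin 3, Q4 k 0 (Fin.succ b) = 0 := fun b => by simp [Q4]
    have h1 : Q4 k 0 0 = 1 := by simp [Q4]
    simp only [h0, h1, Complex.ofReal_zero, zero_smul, Finset.sum_const_zero, add_zero,
      Complex.ofReal_one, one_smul]
    rw [AE_zero, AE_zero, mul_sub, sub_mul, mul_one, ← cM_mul, hk.t_mul, cM_one, Matrix.mul_smul,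
      Matrix.smul_mul, ← cM_mul, ← cM_mul]
    congr 1
    have h2 := congrArg cM hz
    rw [cM_smul, cM_smul] at h2
    have e1 : Complex.I * ((τ * f : ℝ) : ℂ) = (Complex.I * (τ : ℂ)) * (f : ℂ) := by
      push_cast; ring
    have e2 : Complex.I * ((τ * f' : ℝ) : ℂ) = (Complex.I * (τ : ℂ)) * (f' : ℂ) := by
      push_cast; ring
    rw [e1, e2, mul_smul (Complex.I * (τ : ℂ)) (f : ℂ), mul_smul (Complex.I * (τ : ℂ)) (f' : ℂ), h2]
  · rw [Fin.sum_univ_succ]
    have h0 : ∀ b : Fin 3, Q4 k (Fin.succ c) (Fin.succ b) = k c b := fun b => by simp [Q4]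
    have h1 : Q4 k (Fin.succ c) 0 = 0 := by simp [Q4]
    simp only [h0, h1, Complex.ofReal_zero, zero_smul, zero_add]
    simp only [AE_succ]
    rw [Matrix.mul_smul, Matrix.smul_mul, ← cM_mul, ← cM_mul, hk.cov c, cM_sum, Finset.smul_sum]
    refine Finset.sum_congr rfl fun b _ => ?_
    rw [cM_smul, smul_smul, smul_smul, mul_comm]

theorem QG_apply (n : ℕ) (g : Matrix (Fin 3) (Fin 3) ℝ) (a b : Fin n → Fin 4) :
    QG n g a b = ∏ t, Q4 g (a t) (b t) := rfl

theorem vE_gen (n : ℕ) (τ f f' : ℝ) (h : Matrix (Fin 3) (Fin 3) ℝ) {k : Matrix (Fin 3) (Fin 3) ℝ}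
    (hk : IsRot k) (hz : f' • (kᵀ * R 2 * k) = f • R 2) (hh : k * h * kᵀ = h) (a : Fin n → Fin 4) :
    ∑ b, ((QG n k a b : ℝ) : ℂ) * vE n τ f h b = vE n τ f' h a := by
  have h1 : ∀ b : Fin n → Fin 4, vE n τ f h b = trace (cM h * (List.ofFn fun t => AE τ f (b t)).prod) :=
    fun b => rfl
  have h1' : vE n τ f' h a = trace (cM h * (List.ofFn fun t => AE τ f' (a t)).prod) := rfl
  have h2 : ∑ b, ((QG n k a b : ℝ) : ℂ) * vE n τ f h b =
      trace (cM h * (List.ofFn fun t => ∑ b, ((Q4 k (a t) b : ℝ) : ℂ) • AE τ f b).prod) := by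
    rw [ofFn_prod_sum (K := ℂ) (fun t b => ((Q4 k (a t) b : ℝ) : ℂ)) (fun _ b => AE τ f b),
      Matrix.mul_sum, Matrix.trace_sum]
    refine Finset.sum_congr rfl fun b _ => ?_
    rw [Matrix.mul_smul, Matrix.trace_smul, h1 b, smul_eq_mul, QG_apply]
    push_cast
    rfl
  rw [h2]
  simp only [AE_cov τ f f' hk hz]
  rw [ofFn_prod_conj (cM k) (cM kᵀ) (by rw [← cM_mul, hk.mul_t, cM_one])
    (by rw [← cM_mul, hk.t_mul, cM_one]), h1']
  rw [← mul_assoc, ← mul_assoc, Matrix.trace_mul_comm, ← mul_assoc, ← mul_assoc, ← cM_mul,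
    ← cM_mul, hh]

end LCovAux

open LCovAux

theorem isRot_one : IsRot 1 := by
  refine ⟨by simp, by simp, fun a => ?_⟩
  simp [Matrix.one_apply, Finset.sum_ite_eq]

theorem isRot_pz : IsRot pz := by
  refine ⟨?_, ?_, fun a => ?_⟩
  · ext i j; fin_cases i <;> fin_cases j <;> simp [pz, Matrix.mul_apply, Fin.sum_univ_three]
  · ext i j; fin_cases i <;> fin_cases j <;> simp [pz, Matrix.mul_apply, Fin.sum_univ_three]
  · ext i j
    fin_cases a <;> fin_cases i <;> fin_cases j <;>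
      simp [pz, R, Matrix.mul_apply, Fin.sum_univ_three]

theorem isRot_px : IsRot px := by
  refine ⟨?_, ?_, fun a => ?_⟩
  · ext i j; fin_cases i <;> fin_cases j <;> simp [px, Matrix.mul_apply, Fin.sum_univ_three]
  · ext i j; fin_cases i <;> fin_cases j <;> simp [px, Matrix.mul_apply, Fin.sum_univ_three]
  · ext i j
    fin_cases a <;> fin_cases i <;> fin_cases j <;>
      simp [px, R, Matrix.mul_apply, Fin.sum_univ_three]

theorem isRot_py : IsRot py := by
  refine ⟨?_, ?_, fun a => ?_⟩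
  · ext i j; fin_cases i <;> fin_cases j <;> simp [py, Matrix.mul_apply, Fin.sum_univ_three]
  · ext i j; fin_cases i <;> fin_cases j <;> simp [py, Matrix.mul_apply, Fin.sum_univ_three]
  · ext i j
    fin_cases a <;> fin_cases i <;> fin_cases j <;>
      simp [py, R, Matrix.mul_apply, Fin.sum_univ_three]

theorem isRot_c4 : IsRot c4 := by
  refine ⟨?_, ?_, fun a => ?_⟩
  · ext i j; fin_cases i <;> fin_cases j <;> simp [c4, Matrix.mul_apply, Fin.sum_univ_three]
  · ext i j; fin_cases i <;> fin_cases j <;> simp [c4, Matrix.mul_apply, Fin.sum_univ_three]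
  · ext i j
    fin_cases a <;> fin_cases i <;> fin_cases j <;>
      simp [c4, R, Matrix.mul_apply, Fin.sum_univ_three]

theorem isRot_k8 : IsRot k8 := by
  have h2 : Real.sqrt 2 * Real.sqrt 2 = 2 := Real.mul_self_sqrt (by norm_num)
  refine ⟨?_, ?_, fun a => ?_⟩
  · ext i j
    fin_cases i <;> fin_cases j <;> simp [k8, Matrix.mul_apply, Fin.sum_univ_three] <;> nlinarith
  · ext i j
    fin_cases i <;> fin_cases j <;> simp [k8, Matrix.mul_apply, Fin.sum_univ_three] <;> nlinarith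
  · ext i j
    fin_cases a <;> fin_cases i <;> fin_cases j <;>
      simp [k8, R, Matrix.mul_apply, Fin.sum_univ_three] <;> nlinarith

theorem isRot_cyc : IsRot cyc := by
  refine ⟨?_, ?_, fun a => ?_⟩
  · ext i j; fin_cases i <;> fin_cases j <;> simp [cyc, Matrix.mul_apply, Fin.sum_univ_three]
  · ext i j; fin_cases i <;> fin_cases j <;> simp [cyc, Matrix.mul_apply, Fin.sum_univ_three]
  · ext i j
    fin_cases a <;> fin_cases i <;> fin_cases j <;>
      simp [cyc, R, Matrix.mul_apply, Fin.sum_univ_three]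

theorem isRot_y4 : IsRot y4 := by
  refine ⟨?_, ?_, fun a => ?_⟩
  · ext i j; fin_cases i <;> fin_cases j <;> simp [y4, Matrix.mul_apply, Fin.sum_univ_three]
  · ext i j; fin_cases i <;> fin_cases j <;> simp [y4, Matrix.mul_apply, Fin.sum_univ_three]
  · ext i j
    fin_cases a <;> fin_cases i <;> fin_cases j <;>
      simp [y4, R, Matrix.mul_apply, Fin.sum_univ_three]

theorem IsRot.mul {k l : Matrix (Fin 3) (Fin 3) ℝ} (hk : IsRot k) (hl : IsRot l) : IsRot (k * l) := by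
  refine ⟨?_, ?_, fun a => ?_⟩
  · rw [Matrix.transpose_mul]
    calc k * l * (lᵀ * kᵀ) = k * (l * lᵀ) * kᵀ := by simp only [mul_assoc]
      _ = 1 := by rw [hl.mul_t, mul_one, hk.mul_t]
  · rw [Matrix.transpose_mul]
    calc lᵀ * kᵀ * (k * l) = lᵀ * (kᵀ * k) * l := by simp only [mul_assoc]
      _ = 1 := by rw [hk.t_mul, mul_one, hl.t_mul]
  · rw [Matrix.transpose_mul]
    calc lᵀ * kᵀ * R a * (k * l) = lᵀ * (kᵀ * R a * k) * l := by simp only [mul_assoc]
      _ = ∑ b, k a b • (lᵀ * R b * l) := by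
          rw [hk.cov a, Matrix.mul_sum, Matrix.sum_mul]
          exact Finset.sum_congr rfl fun b _ => by rw [Matrix.mul_smul, Matrix.smul_mul]
      _ = ∑ b, ∑ c, (k a b * l b c) • R c := by
          refine Finset.sum_congr rfl fun b _ => ?_
          rw [hl.cov b, Finset.smul_sum]
          exact Finset.sum_congr rfl fun c _ => by rw [smul_smul]
      _ = ∑ c, (k * l) a c • R c := by
          rw [Finset.sum_comm]
          refine Finset.sum_congr rfl fun c _ => ?_
          rw [Matrix.mul_apply, Finset.sum_smul]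

theorem IsRot.transpose {k : Matrix (Fin 3) (Fin 3) ℝ} (hk : IsRot k) : IsRot kᵀ := by
  refine ⟨by rw [Matrix.transpose_transpose]; exact hk.t_mul,
    by rw [Matrix.transpose_transpose]; exact hk.mul_t, fun a => ?_⟩
  rw [Matrix.transpose_transpose]
  have h1 : kᵀ * (∑ b, kᵀ a b • R b) * k = R a := by
    rw [Matrix.mul_sum, Matrix.sum_mul]
    have h2 : ∀ b, kᵀ * (kᵀ a b • R b) * k = ∑ c, (kᵀ a b * k b c) • R c := fun b => by
      rw [Matrix.mul_smul, Matrix.smul_mul, hk.cov b, Finset.smul_sum]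
      exact Finset.sum_congr rfl fun c _ => by rw [smul_smul]
    rw [Finset.sum_congr rfl fun b _ => h2 b, Finset.sum_comm]
    have h3 : ∀ c, ∑ b, (kᵀ a b * k b c) • R c = (kᵀ * k) a c • R c := fun c => by
      rw [Matrix.mul_apply, Finset.sum_smul]
    rw [Finset.sum_congr rfl fun c _ => h3 c, hk.t_mul]
    simp [Matrix.one_apply]
  calc k * R a * kᵀ = k * (kᵀ * (∑ b, kᵀ a b • R b) * k) * kᵀ := by rw [h1]
    _ = (k * kᵀ) * (∑ b, kᵀ a b • R b) * (k * kᵀ) := by simp only [mul_assoc]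
    _ = ∑ b, kᵀ a b • R b := by rw [hk.mul_t, one_mul, mul_one]

theorem QG_mul (n : ℕ) (g g' : Matrix (Fin 3) (Fin 3) ℝ) : QG n (g * g') = QG n g * QG n g' := by
  classical
  ext a a'
  rw [Matrix.mul_apply]
  simp only [QG_apply]
  have h1 : ∀ t, Q4 (g * g') (a t) (a' t) = ∑ c, Q4 g (a t) c * Q4 g' c (a' t) := fun t =>
    Q4_mul g g' (a t) (a' t)
  simp only [h1, Finset.prod_univ_sum, Fintype.piFinset_univ, Finset.prod_mul_distrib]

theorem QG_one (n : ℕ) : QG n 1 = 1 := by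
  classical
  ext a a'
  rw [QG_apply, Matrix.one_apply]
  simp only [Q4_one]
  by_cases h : a = a'
  · subst h; simp
  · rw [if_neg h]
    obtain ⟨t, ht⟩ := Function.ne_iff.1 h
    exact Finset.prod_eq_zero (Finset.mem_univ t) (if_neg ht)

theorem QG_transpose (n : ℕ) (g : Matrix (Fin 3) (Fin 3) ℝ) : (QG n g)ᵀ = QG n gᵀ := by
  ext a a'
  rw [Matrix.transpose_apply, QG_apply, QG_apply]
  simp only [Q4_transpose]

theorem BR_transpose (n : ℕ) (τ : ℝ) (h : Matrix (Fin 3) (Fin 3) ℝ) : (BR n τ h)ᵀ = BR n τ h := by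
  ext a a'
  rw [Matrix.transpose_apply]
  unfold BR
  simp only [Matrix.of_apply]
  simp only [TR_symm τ (a' _) (a _)]

theorem BR_cov (n : ℕ) (τ : ℝ) (h : Matrix (Fin 3) (Fin 3) ℝ) {k : Matrix (Fin 3) (Fin 3) ℝ}
    (hk : IsRot k) : QG n k * BR n τ h * QG n kᵀ = BR n τ (k * h * kᵀ) := by
  classical
  ext a a'
  have h1 : (QG n k * BR n τ h * QG n kᵀ) a a' =
      ∑ r : Fin n → Fin 4 × Fin 4, (∏ t, (Q4 k (a t) (r t).1 * Q4 k (a' t) (r t).2)) *
        trace (h * (List.ofFn fun t => TR τ (r t).1 (r t).2).prod) := by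
    rw [Matrix.mul_apply]
    simp only [Matrix.mul_apply, Finset.sum_mul]
    rw [← (Equiv.arrowProdEquivProdArrow (Fin n) (fun _ => Fin 4) (fun _ => Fin 4)).symm.sum_comp,
      Fintype.sum_prod_type, Finset.sum_comm]
    refine Finset.sum_congr rfl fun b _ => Finset.sum_congr rfl fun b' _ => ?_
    simp only [QG_apply, Q4_transpose, Equiv.arrowProdEquivProdArrow, Equiv.coe_fn_symm_mk,
      Finset.prod_mul_distrib]
    unfold BR
    simp only [Matrix.of_apply]
    ring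
  have h2 := ofFn_prod_sum (K := ℝ) (n := n) (fun t (p : Fin 4 × Fin 4) => Q4 k (a t) p.1 * Q4 k (a' t) p.2)
    (fun _ p => TR τ p.1 p.2)
  simp only [TR_cov τ hk] at h2
  rw [ofFn_prod_conj k kᵀ hk.mul_t hk.t_mul] at h2
  rw [h1]
  have h3 : ∑ r : Fin n → Fin 4 × Fin 4, (∏ t, (Q4 k (a t) (r t).1 * Q4 k (a' t) (r t).2)) *
        trace (h * (List.ofFn fun t => TR τ (r t).1 (r t).2).prod) =
      trace (h * ∑ r : Fin n → Fin 4 × Fin 4, (∏ t, (Q4 k (a t) (r t).1 * Q4 k (a' t) (r t).2)) •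
        (List.ofFn fun t => TR τ (r t).1 (r t).2).prod) := by
    rw [Matrix.mul_sum, Matrix.trace_sum]
    exact Finset.sum_congr rfl fun r _ => by rw [Matrix.mul_smul, Matrix.trace_smul, smul_eq_mul]
  rw [h3, ← h2]
  unfold BR
  simp only [Matrix.of_apply]
  rw [← mul_assoc, ← mul_assoc, Matrix.trace_mul_comm, ← mul_assoc, ← mul_assoc]

/-- conjugation invariance of the twisted traces -/
theorem trace_cov (n : ℕ) (τ : ℝ) (g h : Matrix (Fin 3) (Fin 3) ℝ) {k : Matrix (Fin 3) (Fin 3) ℝ}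
    (hk : IsRot k) (L : ℕ) :
    trace (QG n (k * g * kᵀ) * BR n τ (k * h * kᵀ) ^ L) = trace (QG n g * BR n τ h ^ L) := by
  have hq : QG n kᵀ * QG n k = 1 := by rw [← QG_mul, hk.t_mul, QG_one]
  have hpow : ∀ L : ℕ, (QG n k * BR n τ h * QG n kᵀ) ^ L = QG n k * BR n τ h ^ L * QG n kᵀ := by
    intro L
    induction L with
    | zero => rw [pow_zero, pow_zero, mul_one, ← QG_mul, hk.mul_t, QG_one]
    | succ L ih =>
      rw [pow_succ, ih, pow_succ]
      calc QG n k * BR n τ h ^ L * QG n kᵀ * (QG n k * BR n τ h * QG n kᵀ)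
          = QG n k * BR n τ h ^ L * (QG n kᵀ * QG n k) * BR n τ h * QG n kᵀ := by
            simp only [mul_assoc]
        _ = _ := by rw [hq, mul_one]; simp only [mul_assoc]
  rw [← BR_cov n τ h hk, hpow, QG_mul, QG_mul]
  calc trace (QG n k * QG n g * QG n kᵀ * (QG n k * BR n τ h ^ L * QG n kᵀ))
      = trace (QG n k * (QG n g * (QG n kᵀ * QG n k) * BR n τ h ^ L * QG n kᵀ)) := by
        simp only [mul_assoc]
    _ = trace (QG n k * (QG n g * BR n τ h ^ L * QG n kᵀ)) := by rw [hq, mul_one]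
    _ = trace (QG n g * BR n τ h ^ L * (QG n kᵀ * QG n k)) := by
        rw [Matrix.trace_mul_comm]; simp only [mul_assoc]
    _ = _ := by rw [hq, mul_one]

/-- `k` a rotation about the `z`-axis (`kᵀ R_z k = R_z`) commuting with `h` -/
theorem vE_cov (n : ℕ) (τ f : ℝ) (h : Matrix (Fin 3) (Fin 3) ℝ) {k : Matrix (Fin 3) (Fin 3) ℝ}
    (hk : IsRot k) (hz : kᵀ * R 2 * k = R 2) (hh : k * h * kᵀ = h) (a : Fin n → Fin 4) :
    ∑ b, ((QG n k a b : ℝ) : ℂ) * vE n τ f h b = vE n τ f h a := by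
  exact vE_gen n τ f f h hk (by rw [hz]) hh a

theorem vE_px (n : ℕ) (τ f : ℝ) (h : Matrix (Fin 3) (Fin 3) ℝ) (hh : px * h * pxᵀ = h)
    (a : Fin n → Fin 4) :
    ∑ b, ((QG n px a b : ℝ) : ℂ) * vE n τ f h b = vE n τ (-f) h a := by
  refine vE_gen n τ f (-f) h isRot_px ?_ hh a
  rw [isRot_px.cov 2]
  rw [Fin.sum_univ_three]
  simp [px]

theorem vE_conj (n : ℕ) (τ f : ℝ) (h : Matrix (Fin 3) (Fin 3) ℝ) (a : Fin n → Fin 4) :
    (starRingEnd ℂ) (vE n τ f h a) = vE n τ (-f) h a := by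
  have hR : ∀ A : Matrix (Fin 3) (Fin 3) ℝ, (cM A).map (starRingEnd ℂ) = cM A := by
    intro A
    ext i j
    simp [cM]
  have hAE : ∀ b, (AE τ f b).map (starRingEnd ℂ) = AE τ (-f) b := by
    intro b
    refine Fin.cases ?_ (fun c => ?_) b
    · rw [AE_zero, AE_zero]
      ext i j
      simp only [Matrix.map_apply, Matrix.sub_apply, Matrix.smul_apply, smul_eq_mul, map_sub,
        map_mul, Complex.conj_I, Complex.conj_ofReal]
      have h1 := congrFun (congrFun (hR (R 2)) i) j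
      rw [Matrix.map_apply] at h1
      rw [h1]
      have h2 : (starRingEnd ℂ) ((1 : Matrix (Fin 3) (Fin 3) ℂ) i j) = (1 : Matrix (Fin 3) (Fin 3) ℂ) i j := by
        rw [Matrix.one_apply]; split_ifs <;> simp
      rw [h2]
      push_cast
      ring
    · rw [AE_succ, AE_succ]
      ext i j
      simp only [Matrix.map_apply, Matrix.smul_apply, smul_eq_mul, map_mul, Complex.conj_ofReal]
      have h1 := congrFun (congrFun (hR (R c)) i) j
      rw [Matrix.map_apply] at h1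
      rw [h1]
  have h0 : vE n τ f h a = trace (cM h * (List.ofFn fun t => AE τ f (a t)).prod) := rfl
  have h0' : vE n τ (-f) h a = trace (cM h * (List.ofFn fun t => AE τ (-f) (a t)).prod) := rfl
  rw [h0, h0']
  have h3 : (starRingEnd ℂ) (trace (cM h * (List.ofFn fun t => AE τ f (a t)).prod)) =
      trace ((starRingEnd ℂ).mapMatrix (cM h * (List.ofFn fun t => AE τ f (a t)).prod)) := by
    simp only [Matrix.trace, Matrix.diag_apply, map_sum, RingHom.mapMatrix_apply, Matrix.map_apply]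
  rw [h3, map_mul, map_list_prod, List.map_ofFn]
  have h4 : (starRingEnd ℂ).mapMatrix (cM h) = cM h := hR h
  have h5 : ((starRingEnd ℂ).mapMatrix : Matrix (Fin 3) (Fin 3) ℂ →+* Matrix (Fin 3) (Fin 3) ℂ) ∘
      (fun t => AE τ f (a t)) = fun t => AE τ (-f) (a t) := by
    funext t
    exact hAE (a t)
  rw [h4]
  congr 4

end Crest.Agent.R347
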