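import Crest.Agent.R347.LDefs

/-!
# Row 347, piece L_EXP, open chain: `WO_expand`

Right-to-left recursion: `VO M b` = sum over the bonds to the right of a site with incoming bond variable `b`;
`VO M 0 = 1 + τ h + O(τ²)`, `VO M (c+1) = √τ R_c ⊗ 1 + O(τ^{3/2})`.
-/

set_option autoImplicit false

open Crest.MathPhysics.SpinChain Matrix Filter Topology

namespace Crest.Agent.R347

namespace ExpOpen

/-- `A ⊗ X` on configurations -/
def ext1 {K : Type*} [CommRing K] {n : ℕ} (A : Matrix (Fin 3) (Fin 3) K)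
    (X : Matrix (Fin n → Fin 3) (Fin n → Fin 3) K) :
    Matrix (Fin (n + 1) → Fin 3) (Fin (n + 1) → Fin 3) K :=
  Matrix.of fun t t' => A (t 0) (t' 0) * X (fun i => t i.succ) (fun i => t' i.succ)

theorem ext1_apply {K : Type*} [CommRing K] {n : ℕ} (A : Matrix (Fin 3) (Fin 3) K)
    (X : Matrix (Fin n → Fin 3) (Fin n → Fin 3) K) (t t' : Fin (n + 1) → Fin 3) :
    ext1 A X t t' = A (t 0) (t' 0) * X (fun i => t i.succ) (fun i => t' i.succ) := rfl

theorem sum_cons {β : Type*} [Fintype β] {M : Type*} [AddCommMonoid M] {n : ℕ}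
    (F : (Fin (n + 1) → β) → M) :
    ∑ a : Fin (n + 1) → β, F a = ∑ b : β, ∑ a : Fin n → β, F (Fin.cons b a) := by
  rw [← Fintype.sum_prod_type (f := fun p : β × (Fin n → β) => F (Fin.cons p.1 p.2))]
  exact (Fintype.sum_equiv (Fin.consEquiv fun _ : Fin (n + 1) => β)
    (fun p : β × (Fin n → β) => F (Fin.cons p.1 p.2)) F (fun _ => rfl)).symm

theorem ext1_mul {K : Type*} [CommRing K] {n : ℕ} (A B : Matrix (Fin 3) (Fin 3) K)
    (X Y : Matrix (Fin n → Fin 3) (Fin n → Fin 3) K) :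
    ext1 A X * ext1 B Y = ext1 (A * B) (X * Y) := by
  ext t t'
  rw [Matrix.mul_apply, sum_cons, ext1_apply, Matrix.mul_apply, Matrix.mul_apply,
    Finset.sum_mul_sum]
  refine Finset.sum_congr rfl fun b _ => Finset.sum_congr rfl fun a _ => ?_
  simp only [ext1_apply, Fin.cons_zero, Fin.cons_succ]
  ring

theorem ext1_one {K : Type*} [CommRing K] {n : ℕ} :
    ext1 (1 : Matrix (Fin 3) (Fin 3) K) (1 : Matrix (Fin n → Fin 3) (Fin n → Fin 3) K) = 1 := by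
  ext t t'
  rw [ext1_apply, Matrix.one_apply, Matrix.one_apply, Matrix.one_apply]
  by_cases h0 : t 0 = t' 0
  · by_cases h1 : (fun i : Fin n => t i.succ) = fun i => t' i.succ
    · have : t = t' := by
        funext i
        refine Fin.cases h0 (fun j => ?_) i
        exact congrFun h1 j
      rw [if_pos h0, if_pos h1, if_pos this, one_mul]
    · have : t ≠ t' := by
        rintro rfl
        exact h1 rfl
      rw [if_neg h1, if_neg this, mul_zero]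
  · have : t ≠ t' := by
      rintro rfl
      exact h0 rfl
    rw [if_neg h0, if_neg this, zero_mul]

theorem onR_pos {ι : Type*} [Fintype ι] [DecidableEq ι] (A : Matrix (Fin 3) (Fin 3) ℝ) (j : ι)
    (σ τ : ι → Fin 3) (h : ∀ k, k ≠ j → σ k = τ k) : onR A j σ τ = A (σ j) (τ j) := by
  unfold onR
  rw [Matrix.of_apply, if_pos h]

theorem onR_neg {ι : Type*} [Fintype ι] [DecidableEq ι] (A : Matrix (Fin 3) (Fin 3) ℝ) (j : ι)
    (σ τ : ι → Fin 3) (h : ¬ ∀ k, k ≠ j → σ k = τ k) : onR A j σ τ = 0 := by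
  unfold onR
  rw [Matrix.of_apply, if_neg h]

theorem onR_zero {n : ℕ} (A : Matrix (Fin 3) (Fin 3) ℝ) :
    onR A (0 : Fin (n + 1)) = ext1 A 1 := by
  ext t t'
  rw [ext1_apply, Matrix.one_apply]
  by_cases h : ∀ k, k ≠ (0 : Fin (n + 1)) → t k = t' k
  · rw [onR_pos _ _ _ _ h, if_pos, mul_one]
    funext i
    exact h _ (Fin.succ_ne_zero i)
  · rw [onR_neg _ _ _ _ h, if_neg, mul_zero]
    intro h1
    apply h
    intro k hk
    obtain ⟨j, rfl⟩ := Fin.exists_succ_eq.2 hk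
    exact congrFun h1 j

theorem onR_succ {n : ℕ} (A : Matrix (Fin 3) (Fin 3) ℝ) (j : Fin n) :
    onR A (Fin.succ j) = ext1 1 (onR A j) := by
  ext t t'
  rw [ext1_apply, Matrix.one_apply]
  by_cases h0 : t 0 = t' 0
  · rw [if_pos h0, one_mul]
    by_cases h : ∀ k, k ≠ j → t k.succ = t' k.succ
    · rw [onR_pos A j _ _ h, onR_pos]
      intro k hk
      refine Fin.cases (fun _ => h0) (fun i hi => ?_) k hk
      exact h i (fun h' => hi (by rw [h']))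
    · rw [onR_neg A j _ _ h, onR_neg]
      intro h'
      apply h
      intro k hk
      exact h' _ (fun h'' => hk (Fin.succ_injective _ h''))
  · rw [if_neg h0, zero_mul, onR_neg]
    intro h
    exact h0 (h 0 (Fin.succ_ne_zero j).symm)

/-- bond sum -/
noncomputable def BS (n : ℕ) : Matrix (Fin (n + 1) → Fin 3) (Fin (n + 1) → Fin 3) ℝ :=
  ∑ j : Fin n, ∑ c : Fin 3, onR (R c) (Fin.castSucc j) * onR (R c) (Fin.succ j)

theorem ext1_sum_right {K : Type*} [CommRing K] {n : ℕ} {ι : Type*} (S : Finset ι)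
    (A : Matrix (Fin 3) (Fin 3) K) (X : ι → Matrix (Fin n → Fin 3) (Fin n → Fin 3) K) :
    ext1 A (∑ i ∈ S, X i) = ∑ i ∈ S, ext1 A (X i) := by
  ext t t'
  rw [Matrix.sum_apply, ext1_apply, Matrix.sum_apply, Finset.mul_sum]
  rfl

theorem BS_succ (n : ℕ) :
    BS (n + 1) = (∑ c : Fin 3, ext1 (R c) (onR (R c) 0)) + ext1 1 (BS n) := by
  unfold BS
  rw [Fin.sum_univ_succ]
  congr 1
  · refine Finset.sum_congr rfl fun c _ => ?_
    rw [Fin.castSucc_zero, onR_zero, onR_succ, ext1_mul, mul_one, one_mul]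
  · rw [ext1_sum_right]
    refine Finset.sum_congr rfl fun j _ => ?_
    rw [ext1_sum_right]
    refine Finset.sum_congr rfl fun c _ => ?_
    rw [← Fin.succ_castSucc, onR_succ, onR_succ, ext1_mul, mul_one]

/-- the part to the right of a bond with value `b` -/
noncomputable def VO (M : ℕ) (τ f : ℝ) (b : Fin 4) (t t' : Fin (M + 1) → Fin 3) : ℂ :=
  ∑ a : Fin M → Fin 4,
    (∏ x : Fin M, ((TR τ ((Fin.cons b a : Fin (M + 1) → Fin 4) (Fin.castSucc x))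
      ((Fin.cons b a : Fin (M + 1) → Fin 4) (Fin.succ x))
      (t (Fin.castSucc x)) (t' (Fin.castSucc x)) : ℝ) : ℂ)) *
    AE τ f ((Fin.cons b a : Fin (M + 1) → Fin 4) (Fin.last M)) (t (Fin.last M)) (t' (Fin.last M))

theorem VO_zero (τ f : ℝ) (b : Fin 4) (t t' : Fin 1 → Fin 3) :
    VO 0 τ f b t t' = AE τ f b (t 0) (t' 0) := by
  unfold VO
  rw [Fintype.sum_unique]
  simp

theorem VO_succ (M : ℕ) (τ f : ℝ) (b : Fin 4) (t t' : Fin (M + 2) → Fin 3) :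
    VO (M + 1) τ f b t t' = ∑ b' : Fin 4, ((TR τ b b' (t 0) (t' 0) : ℝ) : ℂ) *
      VO M τ f b' (fun i => t i.succ) (fun i => t' i.succ) := by
  unfold VO
  rw [sum_cons]
  refine Finset.sum_congr rfl fun b' _ => ?_
  rw [Finset.mul_sum]
  refine Finset.sum_congr rfl fun a _ => ?_
  rw [Fin.prod_univ_succ]
  simp only [Fin.castSucc_zero, Fin.cons_zero, Fin.cons_succ, ← Fin.succ_castSucc,
    ← Fin.succ_last]
  ring

theorem WO_eq (M : ℕ) (τ f₀ f₁ : ℝ) (s s' : Fin (M + 2) → Fin 3) :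
    WO M τ f₀ f₁ s s' = ∑ b : Fin 4, AE τ f₀ b (s 0) (s' 0) *
      VO M τ f₁ b (fun i => s i.succ) (fun i => s' i.succ) := by
  show (∑ a : Fin (M + 1) → Fin 4,
    AE τ f₀ (a 0) (s 0) (s' 0) *
      (∏ x : Fin M, ((TR τ (a (Fin.castSucc x)) (a (Fin.succ x))
        (s (Fin.succ (Fin.castSucc x))) (s' (Fin.succ (Fin.castSucc x))) : ℝ) : ℂ)) *
      AE τ f₁ (a (Fin.last M)) (s (Fin.last (M + 1))) (s' (Fin.last (M + 1)))) = _
  rw [sum_cons]
  refine Finset.sum_congr rfl fun b _ => ?_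
  unfold VO
  rw [Finset.mul_sum]
  refine Finset.sum_congr rfl fun a _ => ?_
  rw [Fin.cons_zero, ← Fin.succ_last]
  ring

theorem TR_00 (τ : ℝ) : TR τ 0 0 = 1 := rfl
theorem TR_0s (τ : ℝ) (c : Fin 3) : TR τ 0 c.succ = Real.sqrt τ • R c := rfl
theorem TR_s0 (τ : ℝ) (c : Fin 3) : TR τ c.succ 0 = Real.sqrt τ • R c := rfl
theorem TR_ss (τ : ℝ) (c d : Fin 3) : TR τ c.succ d.succ = 0 := rfl
theorem AE_0 (τ f : ℝ) :
    AE τ f 0 = 1 - (Complex.I * ((τ * f : ℝ) : ℂ)) • (R 2).map (fun x : ℝ => (x : ℂ)) := rfl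
theorem AE_s (τ f : ℝ) (c : Fin 3) :
    AE τ f c.succ = ((Real.sqrt τ : ℝ) : ℂ) • (R c).map (fun x : ℝ => (x : ℂ)) := rfl

theorem R_le (c i j : Fin 3) : |R c i j| ≤ 1 := by
  fin_cases c <;> fin_cases i <;> fin_cases j <;> simp [R]

/-- first order term -/
noncomputable def hM (M : ℕ) (f : ℝ) : Matrix (Fin (M + 1) → Fin 3) (Fin (M + 1) → Fin 3) ℂ :=
  toC (BS M) - (Complex.I * (f : ℂ)) • toC (onR (R 2) (Fin.last M))

theorem hM_succ (M : ℕ) (f : ℝ) (t t' : Fin (M + 2) → Fin 3) :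
    hM (M + 1) f t t' = (∑ c : Fin 3, ((R c (t 0) (t' 0) : ℝ) : ℂ) *
      ((onR (R c) (0 : Fin (M + 1)) (fun i => t i.succ) (fun i => t' i.succ) : ℝ) : ℂ)) +
      (1 : Matrix (Fin 3) (Fin 3) ℂ) (t 0) (t' 0) *
        hM M f (fun i => t i.succ) (fun i => t' i.succ) := by
  have h1 : ((BS (M + 1) t t' : ℝ) : ℂ) = (∑ c : Fin 3, ((R c (t 0) (t' 0) : ℝ) : ℂ) *
      ((onR (R c) (0 : Fin (M + 1)) (fun i => t i.succ) (fun i => t' i.succ) : ℝ) : ℂ)) +
      (1 : Matrix (Fin 3) (Fin 3) ℂ) (t 0) (t' 0) *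
        ((BS M (fun i => t i.succ) (fun i => t' i.succ) : ℝ) : ℂ) := by
    rw [BS_succ, Matrix.add_apply, Matrix.sum_apply]
    simp only [ext1_apply]
    push_cast
    congr 2
    rw [Matrix.one_apply, Matrix.one_apply]
    split_ifs <;> simp
  have h2 : ((onR (R 2) (Fin.last (M + 1)) t t' : ℝ) : ℂ) =
      (1 : Matrix (Fin 3) (Fin 3) ℂ) (t 0) (t' 0) *
        ((onR (R 2) (Fin.last M) (fun i => t i.succ) (fun i => t' i.succ) : ℝ) : ℂ) := by
    rw [← Fin.succ_last, onR_succ, ext1_apply, Matrix.one_apply, Matrix.one_apply]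
    split_ifs <;> simp
  have h3 : ∀ (n : ℕ) (u u' : Fin (n + 1) → Fin 3), hM n f u u' = ((BS n u u' : ℝ) : ℂ) -
      Complex.I * (f : ℂ) * ((onR (R 2) (Fin.last n) u u' : ℝ) : ℂ) := fun n u u' => rfl
  rw [h3, h3, h1, h2]
  ring

theorem one_cons {n : ℕ} (t t' : Fin (n + 1) → Fin 3) :
    (1 : Matrix (Fin (n + 1) → Fin 3) (Fin (n + 1) → Fin 3) ℂ) t t' =
      (1 : Matrix (Fin 3) (Fin 3) ℂ) (t 0) (t' 0) *
        (1 : Matrix (Fin n → Fin 3) (Fin n → Fin 3) ℂ) (fun i => t i.succ) (fun i => t' i.succ) := by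
  rw [← ext1_apply (1 : Matrix (Fin 3) (Fin 3) ℂ) 1 t t', ext1_one]

theorem one_norm_le (i j : Fin 3) : ‖(1 : Matrix (Fin 3) (Fin 3) ℂ) i j‖ ≤ 1 := by
  rw [Matrix.one_apply]
  split_ifs <;> simp

theorem R_norm_le (c i j : Fin 3) : ‖((R c i j : ℝ) : ℂ)‖ ≤ 1 := by
  rw [Complex.norm_real, Real.norm_eq_abs]
  exact R_le c i j

theorem exists_bound {ι : Type*} [Fintype ι] (X : Matrix ι ι ℂ) :
    ∃ H : ℝ, 0 ≤ H ∧ ∀ i j, ‖X i j‖ ≤ H := by
  refine ⟨∑ i, ∑ j, ‖X i j‖, by positivity, fun i j => ?_⟩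
  calc ‖X i j‖ ≤ ∑ j, ‖X i j‖ :=
        Finset.single_le_sum (f := fun j => ‖X i j‖) (fun _ _ => norm_nonneg _) (Finset.mem_univ j)
    _ ≤ ∑ i, ∑ j, ‖X i j‖ :=
        Finset.single_le_sum (f := fun i => ∑ j, ‖X i j‖) (fun _ _ => by positivity)
          (Finset.mem_univ i)

theorem onR_zero_C {n : ℕ} (A : Matrix (Fin 3) (Fin 3) ℝ) (t t' : Fin (n + 1) → Fin 3) :
    ((onR A (0 : Fin (n + 1)) t t' : ℝ) : ℂ) = ((A (t 0) (t' 0) : ℝ) : ℂ) *
      (1 : Matrix (Fin n → Fin 3) (Fin n → Fin 3) ℂ) (fun i => t i.succ) (fun i => t' i.succ) := by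
  rw [onR_zero, ext1_apply, Matrix.one_apply, Matrix.one_apply]
  split_ifs <;> simp

theorem VO_expand (M : ℕ) (f : ℝ) : ∃ C : ℝ, 0 ≤ C ∧ ∀ τ : ℝ, 0 ≤ τ → τ ≤ 1 → ∀ t t',
    ‖VO M τ f 0 t t' - ((1 : Matrix (Fin (M + 1) → Fin 3) (Fin (M + 1) → Fin 3) ℂ) t t' +
      (τ : ℂ) * hM M f t t')‖ ≤ C * τ ^ 2 ∧
    ∀ c : Fin 3, ‖VO M τ f c.succ t t' - ((Real.sqrt τ : ℝ) : ℂ) *
      ((onR (R c) (0 : Fin (M + 1)) t t' : ℝ) : ℂ)‖ ≤ C * (τ * Real.sqrt τ) := by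
  induction M with
  | zero =>
    refine ⟨0, le_refl _, fun τ _ _ t t' => ⟨?_, fun c => ?_⟩⟩
    · have h3 : hM 0 f t t' = ((BS 0 t t' : ℝ) : ℂ) -
        Complex.I * (f : ℂ) * ((onR (R 2) (0 : Fin 1) t t' : ℝ) : ℂ) := rfl
      have h4 : BS 0 t t' = 0 := by
        unfold BS
        simp
      have h5 : AE τ f 0 (t 0) (t' 0) = (1 : Matrix (Fin 3) (Fin 3) ℂ) (t 0) (t' 0) -
        Complex.I * ((τ * f : ℝ) : ℂ) * ((R 2 (t 0) (t' 0) : ℝ) : ℂ) := rfl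
      have h6 : (1 : Matrix (Fin 0 → Fin 3) (Fin 0 → Fin 3) ℂ) (fun i => t i.succ)
        (fun i => t' i.succ) = 1 := by
        rw [Matrix.one_apply, if_pos (Subsingleton.elim _ _)]
      rw [VO_zero, h3, h4, h5, onR_zero_C, one_cons, h6]
      have : (1 : Matrix (Fin 3) (Fin 3) ℂ) (t 0) (t' 0) -
          Complex.I * ((τ * f : ℝ) : ℂ) * ((R 2 (t 0) (t' 0) : ℝ) : ℂ) -
          ((1 : Matrix (Fin 3) (Fin 3) ℂ) (t 0) (t' 0) * 1 + (τ : ℂ) * (((0 : ℝ) : ℂ) -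
            Complex.I * (f : ℂ) * (((R 2 (t 0) (t' 0) : ℝ) : ℂ) * 1))) = 0 := by
        push_cast
        ring
      rw [this, norm_zero]
      positivity
    · have h5 : AE τ f c.succ (t 0) (t' 0) = ((Real.sqrt τ : ℝ) : ℂ) *
        ((R c (t 0) (t' 0) : ℝ) : ℂ) := rfl
      have h6 : (1 : Matrix (Fin 0 → Fin 3) (Fin 0 → Fin 3) ℂ) (fun i => t i.succ)
        (fun i => t' i.succ) = 1 := by
        rw [Matrix.one_apply, if_pos (Subsingleton.elim _ _)]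
      rw [VO_zero, h5, onR_zero_C, h6, mul_one, sub_self, norm_zero]
      positivity
  | succ M ih =>
    obtain ⟨C, hC, ih⟩ := ih
    obtain ⟨H, hH, hb⟩ := exists_bound (hM M f)
    refine ⟨4 * C + H, by positivity, fun τ h0 h1 t t' => ?_⟩
    obtain ⟨e0, es⟩ := ih τ h0 h1 (fun i => t i.succ) (fun i => t' i.succ)
    have hbt := hb (fun i => t i.succ) (fun i => t' i.succ)
    set q : ℝ := Real.sqrt τ with hq
    have hq0 : 0 ≤ q := Real.sqrt_nonneg τ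
    have hqq : q * q = τ := Real.mul_self_sqrt h0
    have hqC : (q : ℂ) * (q : ℂ) = (τ : ℂ) := by
      rw [← hqq]; push_cast; ring
    set u : Fin (M + 1) → Fin 3 := fun i => t i.succ with hu
    set u' : Fin (M + 1) → Fin 3 := fun i => t' i.succ with hu'
    constructor
    · have e1 : VO (M + 1) τ f 0 t t' =
          (1 : Matrix (Fin 3) (Fin 3) ℂ) (t 0) (t' 0) * VO M τ f 0 u u' +
          ∑ c : Fin 3, ((q : ℂ) * ((R c (t 0) (t' 0) : ℝ) : ℂ)) * VO M τ f c.succ u u' := by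
        rw [VO_succ, Fin.sum_univ_succ]
        congr 1
        · rw [TR_00]
          congr 1
          rw [Matrix.one_apply, Matrix.one_apply]
          split_ifs <;> simp
        · refine Finset.sum_congr rfl fun c _ => ?_
          rw [TR_0s, Matrix.smul_apply, smul_eq_mul]
          push_cast
          rfl
      have e2 : VO (M + 1) τ f 0 t t' -
          ((1 : Matrix (Fin (M + 2) → Fin 3) (Fin (M + 2) → Fin 3) ℂ) t t' +
          (τ : ℂ) * hM (M + 1) f t t') =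
          (1 : Matrix (Fin 3) (Fin 3) ℂ) (t 0) (t' 0) * (VO M τ f 0 u u' -
            ((1 : Matrix (Fin (M + 1) → Fin 3) (Fin (M + 1) → Fin 3) ℂ) u u' +
              (τ : ℂ) * hM M f u u')) +
          ∑ c : Fin 3, ((q : ℂ) * ((R c (t 0) (t' 0) : ℝ) : ℂ)) * (VO M τ f c.succ u u' -
            (q : ℂ) * ((onR (R c) (0 : Fin (M + 1)) u u' : ℝ) : ℂ)) := by
        rw [e1, hM_succ, one_cons]
        simp only [mul_sub, Finset.sum_sub_distrib, mul_add, Finset.mul_sum]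
        have e3 : ∀ c : Fin 3, (q : ℂ) * ((R c (t 0) (t' 0) : ℝ) : ℂ) *
            ((q : ℂ) * ((onR (R c) (0 : Fin (M + 1)) u u' : ℝ) : ℂ)) =
            (τ : ℂ) * (((R c (t 0) (t' 0) : ℝ) : ℂ) *
              ((onR (R c) (0 : Fin (M + 1)) u u' : ℝ) : ℂ)) := by
          intro c
          rw [← hqC]; ring
        simp only [e3]
        ring
      rw [e2]
      have b1 : ‖(1 : Matrix (Fin 3) (Fin 3) ℂ) (t 0) (t' 0) * (VO M τ f 0 u u' -
            ((1 : Matrix (Fin (M + 1) → Fin 3) (Fin (M + 1) → Fin 3) ℂ) u u' +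
              (τ : ℂ) * hM M f u u'))‖ ≤ 1 * (C * τ ^ 2) := by
        rw [norm_mul]
        exact mul_le_mul (one_norm_le _ _) e0 (norm_nonneg _) zero_le_one
      have b2 : ‖∑ c : Fin 3, ((q : ℂ) * ((R c (t 0) (t' 0) : ℝ) : ℂ)) * (VO M τ f c.succ u u' -
            (q : ℂ) * ((onR (R c) (0 : Fin (M + 1)) u u' : ℝ) : ℂ))‖ ≤
            ∑ _c : Fin 3, (q * 1) * (C * (τ * q)) := by
        refine norm_sum_le_of_le _ fun c _ => ?_
        rw [norm_mul, norm_mul, Complex.norm_real, Real.norm_of_nonneg hq0]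
        exact mul_le_mul (mul_le_mul_of_nonneg_left (R_norm_le _ _ _) hq0) (es c) (norm_nonneg _)
          (by positivity)
      have b3 : ∑ _c : Fin 3, (q * 1) * (C * (τ * q)) = 3 * C * τ ^ 2 := by
        rw [Finset.sum_const, Finset.card_univ, Fintype.card_fin, nsmul_eq_mul, pow_two]
        push_cast
        linear_combination 3 * C * τ * hqq
      calc _ ≤ _ + _ := norm_add_le _ _
        _ ≤ 1 * (C * τ ^ 2) + 3 * C * τ ^ 2 := by rw [← b3]; exact add_le_add b1 b2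
        _ ≤ (4 * C + H) * τ ^ 2 := by nlinarith [mul_nonneg hH (sq_nonneg τ)]
    · intro c
      have e1 : VO (M + 1) τ f c.succ t t' =
          ((q : ℂ) * ((R c (t 0) (t' 0) : ℝ) : ℂ)) * VO M τ f 0 u u' := by
        rw [VO_succ, Fin.sum_univ_succ, TR_s0, Matrix.smul_apply, smul_eq_mul]
        have : ∑ i : Fin 3, ((TR τ c.succ i.succ (t 0) (t' 0) : ℝ) : ℂ) *
            VO M τ f i.succ u u' = 0 := by
          refine Finset.sum_eq_zero fun i _ => ?_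
          rw [TR_ss, Matrix.zero_apply, Complex.ofReal_zero, zero_mul]
        rw [this, add_zero]
        push_cast
        rfl
      have e2 : VO (M + 1) τ f c.succ t t' - (q : ℂ) *
          ((onR (R c) (0 : Fin (M + 2)) t t' : ℝ) : ℂ) =
          ((q : ℂ) * ((R c (t 0) (t' 0) : ℝ) : ℂ)) * ((VO M τ f 0 u u' -
            ((1 : Matrix (Fin (M + 1) → Fin 3) (Fin (M + 1) → Fin 3) ℂ) u u' +
              (τ : ℂ) * hM M f u u')) + (τ : ℂ) * hM M f u u') := by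
        rw [e1, onR_zero_C]
        ring
      rw [e2, norm_mul, norm_mul, Complex.norm_real, Real.norm_of_nonneg hq0]
      have b1 : ‖(VO M τ f 0 u u' -
            ((1 : Matrix (Fin (M + 1) → Fin 3) (Fin (M + 1) → Fin 3) ℂ) u u' +
              (τ : ℂ) * hM M f u u')) + (τ : ℂ) * hM M f u u'‖ ≤ C * τ ^ 2 + τ * H := by
        refine (norm_add_le _ _).trans (add_le_add e0 ?_)
        rw [norm_mul, Complex.norm_real, Real.norm_of_nonneg h0]
        exact mul_le_mul_of_nonneg_left hbt h0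
      have b2 : q * ‖((R c (t 0) (t' 0) : ℝ) : ℂ)‖ ≤ q * 1 :=
        mul_le_mul_of_nonneg_left (R_norm_le _ _ _) hq0
      have b3 : C * τ ^ 2 + τ * H ≤ (4 * C + H) * τ := by
        have : τ ^ 2 ≤ τ := by nlinarith
        nlinarith [mul_le_mul_of_nonneg_left this hC, mul_nonneg hC h0]
      calc _ ≤ (q * 1) * (C * τ ^ 2 + τ * H) :=
            mul_le_mul b2 b1 (norm_nonneg _) (by positivity)
        _ ≤ (q * 1) * ((4 * C + H) * τ) := mul_le_mul_of_nonneg_left b3 (by positivity)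
        _ = (4 * C + H) * (τ * q) := by ring

end ExpOpen

open ExpOpen in
theorem WO_expand (M : ℕ) (f₀ f₁ : ℝ) :
    ∃ C : ℝ, ∀ τ : ℝ, 0 ≤ τ → τ ≤ 1 → ∀ s s',
      ‖WO M τ f₀ f₁ s s' -
        (1 - (τ : ℂ) • HO M f₀ f₁ : Matrix (Fin (M + 2) → Fin 3) (Fin (M + 2) → Fin 3) ℂ) s s'‖
          ≤ C * τ ^ 2 := by
  obtain ⟨C, hC, ih⟩ := VO_expand M f₁
  obtain ⟨H, hH, hb⟩ := exists_bound (hM M f₁)
  refine ⟨4 * C + |f₀| * (H + C), fun τ h0 h1 s s' => ?_⟩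
  obtain ⟨e0, es⟩ := ih τ h0 h1 (fun i => s i.succ) (fun i => s' i.succ)
  have hbt := hb (fun i => s i.succ) (fun i => s' i.succ)
  set q : ℝ := Real.sqrt τ with hq
  have hq0 : 0 ≤ q := Real.sqrt_nonneg τ
  have hqq : q * q = τ := Real.mul_self_sqrt h0
  have hqC : (q : ℂ) * (q : ℂ) = (τ : ℂ) := by
    rw [← hqq]; push_cast; ring
  set u : Fin (M + 1) → Fin 3 := fun i => s i.succ with hu
  set u' : Fin (M + 1) → Fin 3 := fun i => s' i.succ with hu'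
  have e1 : WO M τ f₀ f₁ s s' =
      ((1 : Matrix (Fin 3) (Fin 3) ℂ) (s 0) (s' 0) - Complex.I * ((τ : ℂ) * (f₀ : ℂ)) *
        ((R 2 (s 0) (s' 0) : ℝ) : ℂ)) * VO M τ f₁ 0 u u' +
      ∑ c : Fin 3, ((q : ℂ) * ((R c (s 0) (s' 0) : ℝ) : ℂ)) * VO M τ f₁ c.succ u u' := by
    rw [WO_eq, Fin.sum_univ_succ]
    congr 1
    rw [AE_0]
    congr 1
    show (1 : Matrix (Fin 3) (Fin 3) ℂ) (s 0) (s' 0) - Complex.I * ((τ * f₀ : ℝ) : ℂ) *
      ((R 2 (s 0) (s' 0) : ℝ) : ℂ) = _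
    push_cast
    ring
  have e4 : HO M f₀ f₁ s s' = -((BS (M + 1) s s' : ℝ) : ℂ) +
      Complex.I * (f₀ : ℂ) * ((onR (R 2) (0 : Fin (M + 2)) s s' : ℝ) : ℂ) +
      Complex.I * (f₁ : ℂ) * ((onR (R 2) (Fin.last (M + 1)) s s' : ℝ) : ℂ) := by
    have : (((-BS (M + 1)) s s' : ℝ) : ℂ) = -((BS (M + 1) s s' : ℝ) : ℂ) := by
      rw [Matrix.neg_apply]; push_cast; ring
    rw [← this]
    rfl
  have e5 : HO M f₀ f₁ s s' = -hM (M + 1) f₁ s s' +
      Complex.I * (f₀ : ℂ) * ((onR (R 2) (0 : Fin (M + 2)) s s' : ℝ) : ℂ) := by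
    have h3 : hM (M + 1) f₁ s s' = ((BS (M + 1) s s' : ℝ) : ℂ) -
      Complex.I * (f₁ : ℂ) * ((onR (R 2) (Fin.last (M + 1)) s s' : ℝ) : ℂ) := rfl
    rw [e4, h3]
    ring
  have e2 : WO M τ f₀ f₁ s s' -
      (1 - (τ : ℂ) • HO M f₀ f₁ : Matrix (Fin (M + 2) → Fin 3) (Fin (M + 2) → Fin 3) ℂ) s s' =
      ((1 : Matrix (Fin 3) (Fin 3) ℂ) (s 0) (s' 0) * (VO M τ f₁ 0 u u' -
            ((1 : Matrix (Fin (M + 1) → Fin 3) (Fin (M + 1) → Fin 3) ℂ) u u' +
              (τ : ℂ) * hM M f₁ u u')) +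
      (-(Complex.I * ((τ : ℂ) * (f₀ : ℂ)) * ((R 2 (s 0) (s' 0) : ℝ) : ℂ))) *
        ((VO M τ f₁ 0 u u' - ((1 : Matrix (Fin (M + 1) → Fin 3) (Fin (M + 1) → Fin 3) ℂ) u u' +
              (τ : ℂ) * hM M f₁ u u')) + (τ : ℂ) * hM M f₁ u u')) +
      ∑ c : Fin 3, ((q : ℂ) * ((R c (s 0) (s' 0) : ℝ) : ℂ)) * (VO M τ f₁ c.succ u u' -
            (q : ℂ) * ((onR (R c) (0 : Fin (M + 1)) u u' : ℝ) : ℂ)) := by
    rw [Matrix.sub_apply, Matrix.smul_apply, smul_eq_mul, e5, e1, hM_succ, one_cons, onR_zero_C]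
    simp only [mul_sub, Finset.sum_sub_distrib, mul_add, Finset.mul_sum]
    have e3 : ∀ c : Fin 3, (q : ℂ) * ((R c (s 0) (s' 0) : ℝ) : ℂ) *
        ((q : ℂ) * ((onR (R c) (0 : Fin (M + 1)) u u' : ℝ) : ℂ)) =
        (τ : ℂ) * (((R c (s 0) (s' 0) : ℝ) : ℂ) *
          ((onR (R c) (0 : Fin (M + 1)) u u' : ℝ) : ℂ)) := by
      intro c
      rw [← hqC]; ring
    simp only [e3, mul_neg, mul_add, Finset.mul_sum, neg_add_rev]
    ring
  rw [e2]
  have b1 : ‖(1 : Matrix (Fin 3) (Fin 3) ℂ) (s 0) (s' 0) * (VO M τ f₁ 0 u u' -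
        ((1 : Matrix (Fin (M + 1) → Fin 3) (Fin (M + 1) → Fin 3) ℂ) u u' +
          (τ : ℂ) * hM M f₁ u u'))‖ ≤ 1 * (C * τ ^ 2) := by
    rw [norm_mul]
    exact mul_le_mul (one_norm_le _ _) e0 (norm_nonneg _) zero_le_one
  have b1' : ‖(-(Complex.I * ((τ : ℂ) * (f₀ : ℂ)) * ((R 2 (s 0) (s' 0) : ℝ) : ℂ))) *
        ((VO M τ f₁ 0 u u' - ((1 : Matrix (Fin (M + 1) → Fin 3) (Fin (M + 1) → Fin 3) ℂ) u u' +
              (τ : ℂ) * hM M f₁ u u')) + (τ : ℂ) * hM M f₁ u u')‖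
        ≤ (τ * |f₀| * 1) * (C * τ ^ 2 + τ * H) := by
    rw [norm_mul]
    refine mul_le_mul ?_ ?_ (norm_nonneg _) (by positivity)
    · rw [norm_neg, norm_mul, norm_mul, norm_mul, Complex.norm_I, one_mul, Complex.norm_real,
        Complex.norm_real, Real.norm_of_nonneg h0, Real.norm_eq_abs]
      exact mul_le_mul_of_nonneg_left (R_norm_le _ _ _) (by positivity)
    · refine (norm_add_le _ _).trans (add_le_add e0 ?_)
      rw [norm_mul, Complex.norm_real, Real.norm_of_nonneg h0]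
      exact mul_le_mul_of_nonneg_left hbt h0
  have b2 : ‖∑ c : Fin 3, ((q : ℂ) * ((R c (s 0) (s' 0) : ℝ) : ℂ)) * (VO M τ f₁ c.succ u u' -
        (q : ℂ) * ((onR (R c) (0 : Fin (M + 1)) u u' : ℝ) : ℂ))‖ ≤
        ∑ _c : Fin 3, (q * 1) * (C * (τ * q)) := by
    refine norm_sum_le_of_le _ fun c _ => ?_
    rw [norm_mul, norm_mul, Complex.norm_real, Real.norm_of_nonneg hq0]
    exact mul_le_mul (mul_le_mul_of_nonneg_left (R_norm_le _ _ _) hq0) (es c) (norm_nonneg _)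
      (by positivity)
  have b3 : ∑ _c : Fin 3, (q * 1) * (C * (τ * q)) = 3 * C * τ ^ 2 := by
    rw [Finset.sum_const, Finset.card_univ, Fintype.card_fin, nsmul_eq_mul, pow_two]
    push_cast
    linear_combination 3 * C * τ * hqq
  have b4 : (τ * |f₀| * 1) * (C * τ ^ 2 + τ * H) ≤ |f₀| * (H + C) * τ ^ 2 := by
    have h5 : τ ^ 3 ≤ τ ^ 2 := pow_le_pow_of_le_one h0 h1 (by norm_num)
    have h6 := mul_le_mul_of_nonneg_left h5 (mul_nonneg (abs_nonneg f₀) hC)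
    nlinarith [h6]
  calc _ ≤ _ + _ := norm_add_le _ _
    _ ≤ (1 * (C * τ ^ 2) + (τ * |f₀| * 1) * (C * τ ^ 2 + τ * H)) + 3 * C * τ ^ 2 := by
        rw [← b3]
        exact add_le_add ((norm_add_le _ _).trans (add_le_add b1 b1')) b2
    _ ≤ (4 * C + |f₀| * (H + C)) * τ ^ 2 := by nlinarith [b4]

end Crest.Agent.R347
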