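import Crest.Agent.R347.LDefs

/-!
# Row 347: the expansion of one time slice of the ring (`WR_expand`)
-/

set_option autoImplicit false

open Crest.MathPhysics.SpinChain Matrix

namespace Crest.Agent.R347

namespace ExpRing

/-- `0` for the zero bond variable, `1` otherwise -/
def u (a : Fin 4) : ℕ := if a = 0 then 0 else 1

theorem TR_zero_zero (τ : ℝ) : TR τ 0 0 = 1 := rfl

theorem TR_zero_succ (τ : ℝ) (c : Fin 3) : TR τ 0 c.succ = Real.sqrt τ • R c := rfl

theorem TR_succ_zero (τ : ℝ) (c : Fin 3) : TR τ c.succ 0 = Real.sqrt τ • R c := rfl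

theorem TR_succ_succ (τ : ℝ) (c d : Fin 3) : TR τ c.succ d.succ = 0 := rfl

theorem u_zero : u 0 = 0 := rfl

theorem u_succ (c : Fin 3) : u c.succ = 1 := by
  unfold u; rw [if_neg (Fin.succ_ne_zero c)]

theorem TR_scale (τ : ℝ) (a b : Fin 4) (i j : Fin 3) :
    TR τ a b i j = (Real.sqrt τ) ^ (u a + u b) * TR 1 a b i j := by
  refine Fin.cases ?_ (fun c => ?_) a <;> refine Fin.cases ?_ (fun d => ?_) b
  · rw [TR_zero_zero, TR_zero_zero, u_zero]; simp
  · rw [TR_zero_succ, TR_zero_succ, u_zero, u_succ]; simp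
  · rw [TR_succ_zero, TR_succ_zero, u_zero, u_succ]; simp
  · rw [TR_succ_succ, TR_succ_succ]; simp

theorem Q4_ne (g : Matrix (Fin 3) (Fin 3) ℝ) (a b : Fin 4) (h : Q4 g a b ≠ 0) : u a = u b := by
  revert h
  refine Fin.cases ?_ (fun c => ?_) a <;> refine Fin.cases ?_ (fun d => ?_) b
  · intro _; rfl
  · intro h; exact absurd rfl h
  · intro h; exact absurd rfl h
  · intro _; rw [u_succ, u_succ]

/-- number of non-zero ring bonds -/
def mm {L : ℕ} (a : Fin (L + 2) → Fin 4) : ℕ := ∑ x : Fin (L + 1), u (a (Fin.castSucc x))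

/-- the constant of a term -/
noncomputable def KK {L : ℕ} (g : Matrix (Fin 3) (Fin 3) ℝ) (s s' : Fin (L + 1) → Fin 3)
    (a : Fin (L + 2) → Fin 4) : ℝ :=
  Q4 g (a (Fin.last (L + 1))) (a 0) *
    ∏ x : Fin (L + 1), TR 1 (a (Fin.castSucc x)) (a (Fin.succ x)) (s x) (s' x)

theorem term_eq {L : ℕ} (τ : ℝ) (hτ : 0 ≤ τ) (g : Matrix (Fin 3) (Fin 3) ℝ)
    (s s' : Fin (L + 1) → Fin 3) (a : Fin (L + 2) → Fin 4) :
    Q4 g (a (Fin.last (L + 1))) (a 0) *
      ∏ x : Fin (L + 1), TR τ (a (Fin.castSucc x)) (a (Fin.succ x)) (s x) (s' x)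
      = τ ^ mm a * KK g s s' a := by
  by_cases hQ : Q4 g (a (Fin.last (L + 1))) (a 0) = 0
  · unfold KK; rw [hQ]; ring
  have hu := Q4_ne _ _ _ hQ
  have h1 : (∑ x : Fin (L + 1), u (a (Fin.succ x))) = mm a := by
    have e1 := Fin.sum_univ_castSucc (fun x : Fin (L + 2) => u (a x))
    have e2 := Fin.sum_univ_succ (fun x : Fin (L + 2) => u (a x))
    unfold mm
    omega
  have h2 : (∏ x : Fin (L + 1), TR τ (a (Fin.castSucc x)) (a (Fin.succ x)) (s x) (s' x))
      = τ ^ mm a * ∏ x : Fin (L + 1), TR 1 (a (Fin.castSucc x)) (a (Fin.succ x)) (s x) (s' x) := by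
    calc (∏ x : Fin (L + 1), TR τ (a (Fin.castSucc x)) (a (Fin.succ x)) (s x) (s' x))
        = ∏ x : Fin (L + 1), ((Real.sqrt τ) ^ (u (a (Fin.castSucc x)) + u (a (Fin.succ x))) *
            TR 1 (a (Fin.castSucc x)) (a (Fin.succ x)) (s x) (s' x)) :=
          Finset.prod_congr rfl (fun x _ => TR_scale τ _ _ _ _)
      _ = (Real.sqrt τ) ^ (∑ x : Fin (L + 1), (u (a (Fin.castSucc x)) + u (a (Fin.succ x)))) *
            ∏ x : Fin (L + 1), TR 1 (a (Fin.castSucc x)) (a (Fin.succ x)) (s x) (s' x) := by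
          rw [Finset.prod_mul_distrib, Finset.prod_pow_eq_pow_sum]
      _ = _ := by
          congr 1
          rw [Finset.sum_add_distrib, h1]
          unfold mm
          rw [← two_mul, pow_mul, Real.sq_sqrt hτ]
  unfold KK
  rw [h2]; ring

/-! ### tensor products -/

theorem tensF_mul {ι : Type*} [Fintype ι] [DecidableEq ι] (v w : ι → Matrix (Fin 3) (Fin 3) ℝ) :
    tensF v * tensF w = tensF (fun j => v j * w j) := by
  ext s s'
  simp only [tensF, Matrix.mul_apply, Matrix.of_apply]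
  rw [Finset.prod_univ_sum, Fintype.piFinset_univ]
  exact Finset.sum_congr rfl (fun t _ => Finset.prod_mul_distrib.symm)

theorem tensF_one {ι : Type*} [Fintype ι] [DecidableEq ι] :
    tensF (fun _ : ι => (1 : Matrix (Fin 3) (Fin 3) ℝ)) = 1 := by
  ext s s'
  simp only [tensF, Matrix.of_apply, Matrix.one_apply]
  rw [Finset.prod_ite_zero]
  by_cases h : s = s'
  · subst h; simp
  · rw [if_neg h, if_neg]
    intro h'
    exact h (funext fun i => h' i (Finset.mem_univ _))

theorem onR_eq {ι : Type*} [Fintype ι] [DecidableEq ι] (A : Matrix (Fin 3) (Fin 3) ℝ) (j : ι) :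
    onR A j = tensF (Function.update (fun _ : ι => (1 : Matrix (Fin 3) (Fin 3) ℝ)) j A) := by
  ext s s'
  simp only [onR, tensF, Matrix.of_apply]
  rw [← Finset.mul_prod_erase Finset.univ _ (Finset.mem_univ j), Function.update_self]
  have h1 : (∏ x ∈ Finset.univ.erase j,
      Function.update (fun _ : ι => (1 : Matrix (Fin 3) (Fin 3) ℝ)) j A x (s x) (s' x))
      = ∏ x ∈ Finset.univ.erase j, (if s x = s' x then (1 : ℝ) else 0) := by
    refine Finset.prod_congr rfl (fun x hx => ?_)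
    rw [Function.update_of_ne (Finset.ne_of_mem_erase hx), Matrix.one_apply]
  rw [h1, Finset.prod_ite_zero]
  by_cases h : ∀ k, k ≠ j → s k = s' k
  · rw [if_pos h, if_pos (fun i hi => h i (Finset.ne_of_mem_erase hi))]; simp
  · rw [if_neg h, if_neg (fun h' => h (fun k hk => h' k (Finset.mem_erase.2 ⟨hk, Finset.mem_univ _⟩)))]
    simp

theorem onR_mul {ι : Type*} [Fintype ι] [DecidableEq ι] (A B : Matrix (Fin 3) (Fin 3) ℝ)
    (j k : ι) :
    onR A j * onR B k = tensF (fun x =>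
      Function.update (fun _ : ι => (1 : Matrix (Fin 3) (Fin 3) ℝ)) j A x *
      Function.update (fun _ : ι => (1 : Matrix (Fin 3) (Fin 3) ℝ)) k B x) := by
  rw [onR_eq, onR_eq, tensF_mul]

/-! ### the terms with zero or one non-zero bond -/

theorem KK_ne {L : ℕ} (g : Matrix (Fin 3) (Fin 3) ℝ) (s s' : Fin (L + 1) → Fin 3)
    (a : Fin (L + 2) → Fin 4) (h : KK g s s' a ≠ 0) :
    u (a (Fin.last (L + 1))) = u (a 0) :=
  Q4_ne g _ _ (left_ne_zero_of_mul h)

theorem u_eq_zero (a : Fin 4) : u a = 0 ↔ a = 0 := by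
  unfold u; split_ifs with h <;> simp [h]

theorem sum_zero {L : ℕ} (g : Matrix (Fin 3) (Fin 3) ℝ) (s s' : Fin (L + 1) → Fin 3) :
    (∑ a : Fin (L + 2) → Fin 4, if mm a = 0 then KK g s s' a else 0) =
      (1 : Matrix (Fin (L + 1) → Fin 3) (Fin (L + 1) → Fin 3) ℝ) s s' := by
  rw [Finset.sum_eq_single (fun _ => (0 : Fin 4))]
  · rw [if_pos (by unfold mm; exact Finset.sum_eq_zero (fun x _ => rfl)), ← tensF_one]
    unfold KK
    simp only [TR_zero_zero]
    show (1 : ℝ) * _ = _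
    rw [one_mul]; rfl
  · intro a _ ha
    by_cases hm : mm a = 0
    · rw [if_pos hm]
      by_contra hK
      apply ha
      have h1 : ∀ x : Fin (L + 1), a (Fin.castSucc x) = 0 := by
        intro x
        have := (Finset.sum_eq_zero_iff.1 hm) x (Finset.mem_univ _)
        exact (u_eq_zero _).1 this
      have h2 : a (Fin.last (L + 1)) = 0 := by
        have := KK_ne g s s' a hK
        have h0 : a 0 = 0 := h1 0
        rw [h0, u_zero] at this
        exact (u_eq_zero _).1 this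
      funext x
      exact Fin.lastCases h2 h1 x
    · rw [if_neg hm]
  · intro h; exact absurd (Finset.mem_univ _) h

/-- the bond configurations with exactly one non-zero ring bond -/
def ph {L : ℕ} : (Fin L × Fin 3) ⊕ (Fin 3 × Fin 3) → (Fin (L + 2) → Fin 4)
  | Sum.inl (j, c) => Pi.single (Fin.castSucc (Fin.succ j)) c.succ
  | Sum.inr (c, d) => Function.update (Pi.single 0 d.succ) (Fin.last (L + 1)) c.succ

theorem ph_inl {L : ℕ} (j : Fin L) (c : Fin 3) (x : Fin (L + 2)) :
    ph (Sum.inl (j, c)) x = if x = Fin.castSucc (Fin.succ j) then c.succ else 0 := by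
  show (Pi.single (Fin.castSucc (Fin.succ j)) c.succ : Fin (L + 2) → Fin 4) x = _
  rw [Pi.single_apply]

theorem ph_inr {L : ℕ} (c d : Fin 3) (x : Fin (L + 2)) :
    ph (L := L) (Sum.inr (c, d)) x =
      if x = Fin.last (L + 1) then c.succ else if x = 0 then d.succ else 0 := by
  show (Function.update (Pi.single 0 d.succ) (Fin.last (L + 1)) c.succ : Fin (L + 2) → Fin 4) x = _
  rw [Function.update_apply, Pi.single_apply]

theorem ph_inj {L : ℕ} : Function.Injective (ph (L := L)) := by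
  rintro (⟨j, c⟩ | ⟨c, d⟩) (⟨j', c'⟩ | ⟨c', d'⟩) h
  · have h1 := congrFun h (Fin.castSucc (Fin.succ j))
    rw [ph_inl, ph_inl, if_pos rfl] at h1
    by_cases hj : Fin.castSucc (Fin.succ j) = Fin.castSucc (Fin.succ j')
    · have hj' : j = j' := Fin.succ_injective _ (Fin.castSucc_injective _ hj)
      rw [if_pos hj] at h1
      rw [hj', Fin.succ_injective _ h1]
    · rw [if_neg hj] at h1
      exact absurd h1 (Fin.succ_ne_zero c)
  · exfalso
    have h1 := congrFun h (Fin.last (L + 1))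
    rw [ph_inl, ph_inr, if_pos rfl, if_neg (ne_of_gt (Fin.castSucc_lt_last _))] at h1
    exact Fin.succ_ne_zero _ h1.symm
  · exfalso
    have h1 := congrFun h (Fin.last (L + 1))
    rw [ph_inl, ph_inr, if_pos rfl, if_neg (ne_of_gt (Fin.castSucc_lt_last _))] at h1
    exact Fin.succ_ne_zero _ h1
  · have h1 := congrFun h (Fin.last (L + 1))
    have h2 := congrFun h 0
    have h0 : (0 : Fin (L + 2)) ≠ Fin.last (L + 1) := by
      intro h; simpa using congrArg Fin.val h
    rw [ph_inr, ph_inr, if_pos rfl, if_pos rfl] at h1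
    rw [ph_inr, ph_inr, if_neg h0, if_neg h0, if_pos rfl, if_pos rfl] at h2
    rw [Fin.succ_injective _ h1, Fin.succ_injective _ h2]

theorem exists_succ (a : Fin 4) (h : a ≠ 0) : ∃ c : Fin 3, a = c.succ :=
  ⟨a.pred h, (Fin.succ_pred a h).symm⟩

theorem mem_ph {L : ℕ} (g : Matrix (Fin 3) (Fin 3) ℝ) (s s' : Fin (L + 1) → Fin 3)
    (a : Fin (L + 2) → Fin 4) (hm : mm a = 1) (hK : KK g s s' a ≠ 0) : ∃ i, ph i = a := by
  have hu := KK_ne g s s' a hK
  obtain ⟨x, hx, hx'⟩ : ∃ x : Fin (L + 1), u (a (Fin.castSucc x)) ≠ 0 ∧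
      ∀ y, y ≠ x → u (a (Fin.castSucc y)) = 0 := by
    obtain ⟨x, _, hx⟩ : ∃ x ∈ Finset.univ, u (a (Fin.castSucc x)) ≠ 0 := by
      apply Finset.exists_ne_zero_of_sum_ne_zero
      unfold mm at hm; rw [hm]; exact one_ne_zero
    refine ⟨x, hx, fun y hy => ?_⟩
    by_contra hy'
    have h2 : u (a (Fin.castSucc x)) + u (a (Fin.castSucc y)) ≤ mm a := by
      unfold mm
      calc u (a (Fin.castSucc x)) + u (a (Fin.castSucc y))
          = ∑ z ∈ {x, y}, u (a (Fin.castSucc z)) := by rw [Finset.sum_pair hy.symm]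
        _ ≤ _ := Finset.sum_le_sum_of_subset (Finset.subset_univ _)
    omega
  obtain ⟨c, hc⟩ := exists_succ (a (Fin.castSucc x)) (fun h => hx (by rw [h, u_zero]))
  have hz : ∀ y, y ≠ x → a (Fin.castSucc y) = 0 := fun y hy => (u_eq_zero _).1 (hx' y hy)
  rcases Fin.eq_zero_or_eq_succ x with h0 | ⟨j, hj⟩
  · subst h0
    have ha0 : a 0 = c.succ := hc
    obtain ⟨d, hd⟩ := exists_succ (a (Fin.last (L + 1))) (fun h => by
      rw [h, u_zero, ha0, u_succ] at hu; exact absurd hu (by norm_num))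
    refine ⟨Sum.inr (d, c), ?_⟩
    funext y
    rw [ph_inr]
    refine Fin.lastCases ?_ (fun y => ?_) y
    · rw [if_pos rfl, hd]
    · rw [if_neg (ne_of_lt (Fin.castSucc_lt_last _))]
      by_cases hy : y = 0
      · subst hy
        rw [if_pos Fin.castSucc_zero]; exact hc.symm
      · rw [if_neg (by
          intro h; apply hy; exact Fin.castSucc_injective _ h), hz y hy]
  · subst hj
    have ha0 : a 0 = 0 := hz 0 (Fin.succ_ne_zero j).symm
    have hal : a (Fin.last (L + 1)) = 0 := by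
      rw [ha0, u_zero] at hu; exact (u_eq_zero _).1 hu
    refine ⟨Sum.inl (j, c), ?_⟩
    funext y
    rw [ph_inl]
    refine Fin.lastCases ?_ (fun y => ?_) y
    · rw [if_neg (ne_of_gt (Fin.castSucc_lt_last _)), hal]
    · by_cases hy : y = Fin.succ j
      · subst hy
        rw [if_pos rfl, hc]
      · rw [if_neg (fun h => hy (Fin.castSucc_injective _ h)), hz y hy]

theorem mm_ph {L : ℕ} (i : (Fin L × Fin 3) ⊕ (Fin 3 × Fin 3)) : mm (ph i) = 1 := by
  unfold mm
  rcases i with ⟨j, c⟩ | ⟨c, d⟩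
  · rw [Finset.sum_eq_single (Fin.succ j)]
    · rw [ph_inl, if_pos rfl, u_succ]
    · intro y _ hy
      rw [ph_inl, if_neg (fun h => hy (Fin.castSucc_injective _ h)), u_zero]
    · intro h; exact absurd (Finset.mem_univ _) h
  · rw [Finset.sum_eq_single 0]
    · rw [ph_inr, if_neg (ne_of_lt (Fin.castSucc_lt_last _)), if_pos Fin.castSucc_zero, u_succ]
    · intro y _ hy
      rw [ph_inr, if_neg (ne_of_lt (Fin.castSucc_lt_last _)),
        if_neg (fun h => hy (Fin.castSucc_injective _ (h.trans Fin.castSucc_zero.symm))), u_zero]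
    · intro h; exact absurd (Finset.mem_univ _) h

theorem Q4_zero_zero (g : Matrix (Fin 3) (Fin 3) ℝ) : Q4 g 0 0 = 1 := rfl
theorem Q4_succ_succ (g : Matrix (Fin 3) (Fin 3) ℝ) (c d : Fin 3) :
    Q4 g c.succ d.succ = g c d := rfl

theorem KK_inl {L : ℕ} (g : Matrix (Fin 3) (Fin 3) ℝ) (s s' : Fin (L + 1) → Fin 3)
    (j : Fin L) (c : Fin 3) :
    KK g s s' (ph (Sum.inl (j, c))) =
      (onR (R c) (Fin.castSucc j) * onR (R c) (Fin.succ j)) s s' := by
  unfold KK
  rw [onR_mul]
  have h0 : ph (Sum.inl (j, c)) (0 : Fin (L + 2)) = 0 := by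
    rw [ph_inl, if_neg]
    intro h
    exact Fin.succ_ne_zero j (Fin.castSucc_injective _ (h.symm.trans Fin.castSucc_zero.symm))
  have hl : ph (Sum.inl (j, c)) (Fin.last (L + 1)) = 0 := by
    rw [ph_inl, if_neg (ne_of_gt (Fin.castSucc_lt_last _))]
  rw [h0, hl, Q4_zero_zero, one_mul]
  show _ = ∏ x : Fin (L + 1), _
  refine Finset.prod_congr rfl (fun x _ => ?_)
  have key : TR 1 (ph (Sum.inl (j, c)) (Fin.castSucc x)) (ph (Sum.inl (j, c)) (Fin.succ x)) =
      Function.update (fun _ : Fin (L + 1) => (1 : Matrix (Fin 3) (Fin 3) ℝ)) (Fin.castSucc j)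
        (R c) x *
      Function.update (fun _ : Fin (L + 1) => (1 : Matrix (Fin 3) (Fin 3) ℝ)) (Fin.succ j)
        (R c) x := by
    rw [ph_inl, ph_inl, Function.update_apply, Function.update_apply]
    by_cases h1 : x = Fin.castSucc j
    · subst h1
      have h2 : Fin.castSucc j ≠ Fin.succ j := ne_of_lt (Fin.castSucc_lt_succ)
      have h3 : Fin.castSucc (Fin.castSucc j) ≠ Fin.castSucc (Fin.succ j) :=
        fun h => h2 (Fin.castSucc_injective _ h)
      have h4 : Fin.succ (Fin.castSucc j) = Fin.castSucc (Fin.succ j) := Fin.succ_castSucc j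
      rw [if_neg h3, if_pos h4, if_pos rfl, if_neg h2, TR_zero_succ, Real.sqrt_one, one_smul,
        mul_one]
    · have h4 : Fin.succ x ≠ Fin.castSucc (Fin.succ j) := by
        intro h
        rw [← Fin.succ_castSucc] at h
        exact h1 (Fin.succ_injective _ h)
      rw [if_neg h4, if_neg h1, one_mul]
      by_cases h2 : x = Fin.succ j
      · subst h2
        rw [if_pos rfl, if_pos rfl, TR_succ_zero, Real.sqrt_one, one_smul]
      · rw [if_neg (fun h => h2 (Fin.castSucc_injective _ h)), if_neg h2, TR_zero_zero]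
  rw [key]

theorem KK_inr {L : ℕ} (hL : 1 ≤ L) (g : Matrix (Fin 3) (Fin 3) ℝ) (s s' : Fin (L + 1) → Fin 3)
    (c d : Fin 3) :
    KK g s s' (ph (Sum.inr (c, d))) =
      g c d * (onR (R c) (Fin.last L) * onR (R d) (0 : Fin (L + 1)) :
        Matrix (Fin (L + 1) → Fin 3) (Fin (L + 1) → Fin 3) ℝ) s s' := by
  unfold KK
  rw [onR_mul]
  have hne : (0 : Fin (L + 2)) ≠ Fin.last (L + 1) := by
    intro h; simpa using congrArg Fin.val h
  have h0 : ph (L := L) (Sum.inr (c, d)) (0 : Fin (L + 2)) = d.succ := by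
    rw [ph_inr, if_neg hne, if_pos rfl]
  have hl : ph (L := L) (Sum.inr (c, d)) (Fin.last (L + 1)) = c.succ := by
    rw [ph_inr, if_pos rfl]
  rw [h0, hl, Q4_succ_succ]
  congr 1
  show _ = ∏ x : Fin (L + 1), _
  refine Finset.prod_congr rfl (fun x _ => ?_)
  have key : TR 1 (ph (L := L) (Sum.inr (c, d)) (Fin.castSucc x))
      (ph (L := L) (Sum.inr (c, d)) (Fin.succ x)) =
      Function.update (fun _ : Fin (L + 1) => (1 : Matrix (Fin 3) (Fin 3) ℝ)) (Fin.last L)
        (R c) x *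
      Function.update (fun _ : Fin (L + 1) => (1 : Matrix (Fin 3) (Fin 3) ℝ)) 0
        (R d) x := by
    have h00 : (0 : Fin (L + 1)) ≠ Fin.last L := by
      intro h
      have := congrArg Fin.val h
      simp at this
      omega
    rw [ph_inr, ph_inr, Function.update_apply, Function.update_apply,
      if_neg (ne_of_lt (Fin.castSucc_lt_last _)), if_neg (Fin.succ_ne_zero x)]
    by_cases h1 : x = Fin.last L
    · subst h1
      rw [if_pos rfl, if_neg h00.symm, mul_one, if_pos (Fin.succ_last L), if_neg, TR_zero_succ,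
        Real.sqrt_one, one_smul]
      intro h
      exact h00.symm (Fin.castSucc_injective _ (h.trans Fin.castSucc_zero.symm))
    · have h5 : Fin.succ x ≠ Fin.last (L + 1) :=
        fun h => h1 (Fin.succ_injective _ (h.trans (Fin.succ_last L).symm))
      rw [if_neg h1, one_mul, if_neg h5]
      by_cases h2 : x = 0
      · subst h2
        rw [if_pos Fin.castSucc_zero, if_pos rfl, TR_succ_zero, Real.sqrt_one, one_smul]
      · have h6 : Fin.castSucc x ≠ 0 :=
          fun h => h2 (Fin.castSucc_injective _ (h.trans Fin.castSucc_zero.symm))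
        rw [if_neg h6, if_neg h2, TR_zero_zero]
  rw [key]

theorem sum_one {L : ℕ} (hL : 1 ≤ L) (g : Matrix (Fin 3) (Fin 3) ℝ)
    (s s' : Fin (L + 1) → Fin 3) :
    (∑ a : Fin (L + 2) → Fin 4, if mm a = 1 then KK g s s' a else 0) = -(HR L g s s') := by
  have h1 : (∑ i : (Fin L × Fin 3) ⊕ (Fin 3 × Fin 3), KK g s s' (ph i)) =
      ∑ a : Fin (L + 2) → Fin 4, if mm a = 1 then KK g s s' a else 0 := by
    refine Finset.sum_of_injOn (ph (L := L)) (ph_inj.injOn) (fun _ _ => Finset.mem_coe.2 (Finset.mem_univ _)) ?_ ?_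
    · intro a _ ha
      by_cases hm : mm a = 1
      · rw [if_pos hm]
        by_contra hK
        obtain ⟨i, hi⟩ := mem_ph g s s' a hm hK
        exact ha ⟨i, Finset.mem_coe.2 (Finset.mem_univ _), hi⟩
      · rw [if_neg hm]
    · intro i _
      rw [if_pos (mm_ph i)]
  rw [← h1, Fintype.sum_sum_type, Fintype.sum_prod_type, Fintype.sum_prod_type]
  unfold HR
  rw [Matrix.neg_apply, neg_neg, Matrix.add_apply, Matrix.sum_apply, Matrix.sum_apply]
  congr 1
  · refine Finset.sum_congr rfl (fun j _ => ?_)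
    rw [Matrix.sum_apply]
    exact Finset.sum_congr rfl (fun c _ => KK_inl g s s' j c)
  · refine Finset.sum_congr rfl (fun c _ => ?_)
    rw [Matrix.sum_apply]
    refine Finset.sum_congr rfl (fun d _ => ?_)
    rw [KK_inr hL, Matrix.smul_apply, smul_eq_mul]

end ExpRing

open ExpRing in
theorem WR_expand (L : ℕ) (hL : 1 ≤ L) (g : Matrix (Fin 3) (Fin 3) ℝ) :
    ∃ C : ℝ, ∀ τ : ℝ, 0 ≤ τ → τ ≤ 1 → ∀ s s',
      |WR L τ g s s' -
        (1 - τ • HR L g : Matrix (Fin (L + 1) → Fin 3) (Fin (L + 1) → Fin 3) ℝ) s s'| ≤ C * τ ^ 2 := by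
  refine ⟨∑ s : Fin (L + 1) → Fin 3, ∑ s' : Fin (L + 1) → Fin 3,
    ∑ a : Fin (L + 2) → Fin 4, |KK g s s' a|, fun τ h0 h1 s s' => ?_⟩
  have e1 : WR L τ g s s' = ∑ a : Fin (L + 2) → Fin 4, τ ^ mm a * KK g s s' a := by
    unfold WR
    rw [Matrix.of_apply]
    exact Finset.sum_congr rfl (fun a _ => term_eq τ h0 g s s' a)
  have e2 : (1 - τ • HR L g : Matrix (Fin (L + 1) → Fin 3) (Fin (L + 1) → Fin 3) ℝ) s s' =
      ∑ a : Fin (L + 2) → Fin 4, ((if mm a = 0 then KK g s s' a else 0) +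
        τ * (if mm a = 1 then KK g s s' a else 0)) := by
    rw [Finset.sum_add_distrib, ← Finset.mul_sum, sum_zero, sum_one hL, Matrix.sub_apply,
      Matrix.smul_apply, smul_eq_mul]
    ring
  rw [e1, e2, ← Finset.sum_sub_distrib]
  have e3 : |∑ a : Fin (L + 2) → Fin 4, (τ ^ mm a * KK g s s' a -
      ((if mm a = 0 then KK g s s' a else 0) + τ * (if mm a = 1 then KK g s s' a else 0)))| ≤
      ∑ a : Fin (L + 2) → Fin 4, |KK g s s' a| * τ ^ 2 := by
    refine (Finset.abs_sum_le_sum_abs _ _).trans (Finset.sum_le_sum (fun a _ => ?_))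
    rcases Nat.lt_or_ge (mm a) 2 with h | h
    · have h2 : mm a = 0 ∨ mm a = 1 := by omega
      rcases h2 with h2 | h2
      · rw [h2, if_pos rfl, if_neg (by norm_num)]
        have : τ ^ 0 * KK g s s' a - (KK g s s' a + τ * 0) = 0 := by ring
        rw [this, abs_zero]
        positivity
      · rw [h2, if_neg (by norm_num), if_pos rfl]
        have : τ ^ 1 * KK g s s' a - (0 + τ * KK g s s' a) = 0 := by ring
        rw [this, abs_zero]
        positivity
    · rw [if_neg (by omega), if_neg (by omega)]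
      have : τ ^ mm a * KK g s s' a - (0 + τ * 0) = KK g s s' a * τ ^ mm a := by ring
      rw [this, abs_mul, abs_of_nonneg (pow_nonneg h0 _)]
      exact mul_le_mul_of_nonneg_left (pow_le_pow_of_le_one h0 h1 h) (abs_nonneg _)
  refine e3.trans ?_
  rw [← Finset.sum_mul]
  refine mul_le_mul_of_nonneg_right ?_ (sq_nonneg τ)
  have hn : ∀ t t' : Fin (L + 1) → Fin 3, 0 ≤ ∑ a : Fin (L + 2) → Fin 4, |KK g t t' a| :=
    fun t t' => Finset.sum_nonneg (fun a _ => abs_nonneg _)
  calc (∑ a : Fin (L + 2) → Fin 4, |KK g s s' a|)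
      ≤ ∑ t' : Fin (L + 1) → Fin 3, ∑ a : Fin (L + 2) → Fin 4, |KK g s t' a| :=
        Finset.single_le_sum (f := fun t' => ∑ a : Fin (L + 2) → Fin 4, |KK g s t' a|)
          (fun t' _ => hn s t') (Finset.mem_univ s')
    _ ≤ _ := Finset.single_le_sum
          (f := fun t => ∑ t' : Fin (L + 1) → Fin 3, ∑ a : Fin (L + 2) → Fin 4, |KK g t t' a|)
          (fun t _ => Finset.sum_nonneg (fun t' _ => hn t t')) (Finset.mem_univ s)

end Crest.Agent.R347
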