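import Crest.Agent.R347.LDefs

/-!
# Row 347, piece POWEXP: `W(β/n)^n → exp(-β A)` if `W(τ) = 1 - τ A + O(τ²)`
-/

set_option autoImplicit false

open Crest.MathPhysics.SpinChain Matrix Filter Topology

namespace Crest.Agent.R347

theorem pow_sub_pow_norm_le {𝔸 : Type*} [NormedRing 𝔸] [NormOneClass 𝔸] (x y : 𝔸) (M : ℝ)
    (hM : 1 ≤ M) (hx : ‖x‖ ≤ M) (hy : ‖y‖ ≤ M) (n : ℕ) :
    ‖x ^ n - y ^ n‖ ≤ n * M ^ n * ‖x - y‖ := by
  induction n with
  | zero => simp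
  | succ n ih =>
    have h1 : x ^ (n + 1) - y ^ (n + 1) = x * (x ^ n - y ^ n) + (x - y) * y ^ n := by
      rw [pow_succ', pow_succ']
      noncomm_ring
    have hM0 : 0 ≤ M := by linarith
    have h2 : ‖y ^ n‖ ≤ M ^ n := (norm_pow_le y n).trans (pow_le_pow_left₀ (norm_nonneg _) hy n)
    have h3 : M ^ n ≤ M ^ (n + 1) := pow_le_pow_right₀ hM (Nat.le_succ n)
    rw [h1]
    calc ‖x * (x ^ n - y ^ n) + (x - y) * y ^ n‖
        ≤ ‖x‖ * ‖x ^ n - y ^ n‖ + ‖x - y‖ * ‖y ^ n‖ :=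
          (norm_add_le _ _).trans (add_le_add (norm_mul_le _ _) (norm_mul_le _ _))
      _ ≤ M * (n * M ^ n * ‖x - y‖) + ‖x - y‖ * M ^ (n + 1) := by
          refine add_le_add ?_ ?_
          · exact mul_le_mul hx ih (norm_nonneg _) hM0
          · exact mul_le_mul_of_nonneg_left (h2.trans h3) (norm_nonneg _)
      _ = ((n + 1 : ℕ) : ℝ) * M ^ (n + 1) * ‖x - y‖ := by
          push_cast
          ring

theorem pow_sub_pow_tendsto {𝔸 : Type*} [NormedRing 𝔸] [NormOneClass 𝔸] (X Y : ℕ → 𝔸) (K : ℝ)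
    (hK : 0 ≤ K) (hX : ∀ᶠ n : ℕ in atTop, ‖X n‖ ≤ 1 + K / n)
    (hY : ∀ᶠ n : ℕ in atTop, ‖Y n‖ ≤ 1 + K / n)
    (h : Tendsto (fun n : ℕ => (n : ℝ) * ‖X n - Y n‖) atTop (𝓝 0)) :
    Tendsto (fun n : ℕ => X n ^ n - Y n ^ n) atTop (𝓝 0) := by
  have h0 : Tendsto (fun n : ℕ => Real.exp K * ((n : ℝ) * ‖X n - Y n‖)) atTop (𝓝 0) := by
    simpa using h.const_mul (Real.exp K)
  refine squeeze_zero_norm' ?_ h0
  filter_upwards [hX, hY, eventually_ge_atTop 1] with n h1 h2 hn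
  have hn' : (0 : ℝ) < n := by exact_mod_cast hn
  have hKn : 0 ≤ K / n := by positivity
  have h3 := pow_sub_pow_norm_le (X n) (Y n) (1 + K / n) (by linarith) h1 h2 n
  have h4 : (1 + K / n) ^ n ≤ Real.exp K := by
    have h5 : 1 + K / n ≤ Real.exp (K / n) := by
      have := Real.add_one_le_exp (K / n)
      linarith
    calc (1 + K / n) ^ n ≤ Real.exp (K / n) ^ n := pow_le_pow_left₀ (by linarith) h5 n
      _ = Real.exp K := by
        rw [← Real.exp_nat_mul]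
        congr 1
        field_simp
  calc ‖X n ^ n - Y n ^ n‖ ≤ n * (1 + K / n) ^ n * ‖X n - Y n‖ := h3
    _ ≤ n * Real.exp K * ‖X n - Y n‖ := by
        refine mul_le_mul_of_nonneg_right ?_ (norm_nonneg _)
        exact mul_le_mul_of_nonneg_left h4 hn'.le
    _ = Real.exp K * ((n : ℝ) * ‖X n - Y n‖) := by ring

/-- the limit in a Banach algebra -/
theorem pow_tendsto_exp_alg {𝔸 : Type*} [NormedRing 𝔸] [NormOneClass 𝔸] [NormedAlgebra ℂ 𝔸]
    [CompleteSpace 𝔸] (a : 𝔸) (X : ℕ → 𝔸) (C : ℝ) (hC : 0 ≤ C)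
    (hX : ∀ᶠ n : ℕ in atTop, ‖X n - (1 + ((1 : ℂ) / n) • a)‖ ≤ C / (n : ℝ) ^ 2) :
    Tendsto (fun n : ℕ => X n ^ n) atTop (𝓝 (NormedSpace.exp a)) := by
  have hexp : Tendsto (fun n : ℕ => (n : ℝ) *
      ‖NormedSpace.exp (((1 : ℂ) / n) • a) - (1 + ((1 : ℂ) / n) • a)‖) atTop (𝓝 0) := by
    have hd : HasFDerivAt (NormedSpace.exp : 𝔸 → 𝔸) (1 : 𝔸 →L[ℂ] 𝔸) 0 := hasFDerivAt_exp_zero
    have hl : Tendsto (fun n : ℕ => ((1 : ℂ) / n) • a) atTop (𝓝 0) := by
      have h1 : Tendsto (fun n : ℕ => (1 : ℂ) / n) atTop (𝓝 0) := by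
        have := tendsto_one_div_atTop_nhds_zero_nat (𝕜 := ℂ)
        exact this
      simpa using h1.smul_const a
    rw [hasFDerivAt_iff_isLittleO_nhds_zero] at hd
    have h2 := hd.comp_tendsto hl
    simp only [Function.comp_def, zero_add, NormedSpace.exp_zero] at h2
    have h3 : (fun n : ℕ => ((1 : ℂ) / n) • a) =O[atTop] (fun n : ℕ => (1 : ℝ) / n) := by
      refine Asymptotics.IsBigO.of_bound ‖a‖ (Eventually.of_forall fun n => ?_)
      rw [norm_smul, norm_div, norm_one, Complex.norm_natCast, Real.norm_eq_abs,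
        abs_of_nonneg (by positivity)]
      exact le_of_eq (mul_comm _ _)
    have h4 := h2.trans_isBigO h3
    have h5 := h4.norm_left.tendsto_div_nhds_zero
    refine h5.congr fun n => ?_
    rw [div_div_eq_mul_div, div_one, mul_comm]
    congr 2
    simp only [one_apply_eq_self]
    abel
  set Y : ℕ → 𝔸 := fun n => NormedSpace.exp (((1 : ℂ) / n) • a) with hYdef
  have hXY : Tendsto (fun n : ℕ => (n : ℝ) * ‖X n - Y n‖) atTop (𝓝 0) := by
    have h1 : Tendsto (fun n : ℕ => C / (n : ℝ) + (n : ℝ) *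
        ‖NormedSpace.exp (((1 : ℂ) / n) • a) - (1 + ((1 : ℂ) / n) • a)‖) atTop (𝓝 0) := by
      have h2 : Tendsto (fun n : ℕ => C / (n : ℝ)) atTop (𝓝 0) :=
        tendsto_const_div_atTop_nhds_zero_nat C
      simpa using h2.add hexp
    refine squeeze_zero' (Eventually.of_forall fun n => by positivity) ?_ h1
    filter_upwards [hX, eventually_ge_atTop 1] with n h2 hn
    have hn' : (0 : ℝ) < n := by exact_mod_cast hn
    have h3 : ‖X n - Y n‖ ≤ C / (n : ℝ) ^ 2 +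
        ‖NormedSpace.exp (((1 : ℂ) / n) • a) - (1 + ((1 : ℂ) / n) • a)‖ := by
      have : X n - Y n = (X n - (1 + ((1 : ℂ) / n) • a)) -
          (NormedSpace.exp (((1 : ℂ) / n) • a) - (1 + ((1 : ℂ) / n) • a)) := by
        simp only [hYdef]
        abel
      rw [this]
      exact (norm_sub_le _ _).trans (add_le_add h2 le_rfl)
    calc (n : ℝ) * ‖X n - Y n‖ ≤ n * (C / (n : ℝ) ^ 2 +
        ‖NormedSpace.exp (((1 : ℂ) / n) • a) - (1 + ((1 : ℂ) / n) • a)‖) :=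
          mul_le_mul_of_nonneg_left h3 hn'.le
      _ = _ := by
        rw [mul_add]
        congr 1
        field_simp
  have hbase : ∀ n : ℕ, 1 ≤ n → ‖(1 : 𝔸) + ((1 : ℂ) / n) • a‖ ≤ 1 + ‖a‖ / n := by
    intro n hn
    refine (norm_add_le _ _).trans ?_
    rw [norm_one, norm_smul, norm_div, norm_one, Complex.norm_natCast]
    exact le_of_eq (by ring)
  have hXb : ∀ᶠ n : ℕ in atTop, ‖X n‖ ≤ 1 + (‖a‖ + C + 1) / n := by
    filter_upwards [hX, eventually_ge_atTop 1] with n h2 hn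
    have hn' : (1 : ℝ) ≤ n := by exact_mod_cast hn
    have h3 : ‖X n‖ ≤ ‖X n - (1 + ((1 : ℂ) / n) • a)‖ + ‖(1 : 𝔸) + ((1 : ℂ) / n) • a‖ := by
      have := norm_add_le (X n - (1 + ((1 : ℂ) / n) • a)) (1 + ((1 : ℂ) / n) • a)
      rwa [sub_add_cancel] at this
    have h4 : C / (n : ℝ) ^ 2 ≤ C / n := by
      apply div_le_div_of_nonneg_left hC (by linarith)
      nlinarith
    have h5 := hbase n hn
    have h6 : (‖a‖ + C + 1) / (n : ℝ) = ‖a‖ / n + C / n + 1 / n := by ring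
    have h7 : 0 ≤ 1 / (n : ℝ) := by positivity
    rw [h6]
    linarith
  have hYb : ∀ᶠ n : ℕ in atTop, ‖Y n‖ ≤ 1 + (‖a‖ + C + 1) / n := by
    have h1 := hexp.eventually (gt_mem_nhds (show (0 : ℝ) < 1 by norm_num))
    filter_upwards [h1, eventually_ge_atTop 1] with n h2 hn
    have hn' : (1 : ℝ) ≤ n := by exact_mod_cast hn
    have hn0 : (0 : ℝ) < n := by linarith
    have h3 : ‖Y n‖ ≤ ‖NormedSpace.exp (((1 : ℂ) / n) • a) - (1 + ((1 : ℂ) / n) • a)‖ +
        ‖(1 : 𝔸) + ((1 : ℂ) / n) • a‖ := by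
      have := norm_add_le (NormedSpace.exp (((1 : ℂ) / n) • a) - (1 + ((1 : ℂ) / n) • a))
        (1 + ((1 : ℂ) / n) • a)
      rwa [sub_add_cancel] at this
    have h4 : ‖NormedSpace.exp (((1 : ℂ) / n) • a) - (1 + ((1 : ℂ) / n) • a)‖ ≤ 1 / n := by
      rw [le_div_iff₀ hn0]
      linarith
    have h5 := hbase n hn
    have h6 : (‖a‖ + C + 1) / (n : ℝ) = ‖a‖ / n + C / n + 1 / n := by ring
    have h7 : 0 ≤ C / (n : ℝ) := by positivity
    rw [h6]
    linarith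
  have hmain := pow_sub_pow_tendsto X Y (‖a‖ + C + 1) (by positivity) hXb hYb hXY
  have hYn : ∀ᶠ n : ℕ in atTop, Y n ^ n = NormedSpace.exp a := by
    filter_upwards [eventually_ge_atTop 1] with n hn
    have hn0 : (n : ℂ) ≠ 0 := by
      have : n ≠ 0 := by omega
      exact_mod_cast this
    simp only [hYdef]
    letI : NormedAlgebra ℚ 𝔸 := NormedAlgebra.restrictScalars ℚ ℂ 𝔸
    rw [← NormedSpace.exp_nsmul, ← Nat.cast_smul_eq_nsmul ℂ, smul_smul, mul_one_div_cancel hn0,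
      one_smul]
  have h2 : Tendsto (fun n : ℕ => (X n ^ n - Y n ^ n) + Y n ^ n) atTop
      (𝓝 (0 + NormedSpace.exp a)) :=
    hmain.add (tendsto_const_nhds.congr' (by filter_upwards [hYn] with n hn using hn.symm))
  simpa using h2

open scoped Matrix.Norms.Operator in
theorem pow_tendsto_exp {ι : Type*} [Fintype ι] [DecidableEq ι] (A : Matrix ι ι ℂ)
    (W : ℝ → Matrix ι ι ℂ) (C : ℝ)
    (hW : ∀ τ : ℝ, 0 ≤ τ → τ ≤ 1 → ∀ s s', ‖W τ s s' - (1 - (τ : ℂ) • A : Matrix ι ι ℂ) s s'‖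
      ≤ C * τ ^ 2) (β : ℝ) (hβ : 0 ≤ β) :
    Tendsto (fun n : ℕ => W (β / n) ^ n) atTop (𝓝 (NormedSpace.exp ((-(β : ℂ)) • A))) := by
  rcases isEmpty_or_nonempty ι with hι | hι
  · have : ∀ M N : Matrix ι ι ℂ, M = N := fun M N => by
      ext i
      exact hι.elim i
    refine (tendsto_const_nhds (x := NormedSpace.exp ((-(β : ℂ)) • A))).congr fun n => ?_
    exact this _ _
  · have hC : 0 ≤ C := by
      obtain ⟨s⟩ := hι
      have := hW 1 zero_le_one le_rfl s s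
      have h2 := norm_nonneg (W 1 s s - (1 - ((1 : ℝ) : ℂ) • A : Matrix ι ι ℂ) s s)
      nlinarith
    refine pow_tendsto_exp_alg ((-(β : ℂ)) • A) (fun n => W (β / n))
      (Fintype.card ι * (C * β ^ 2)) (by positivity) ?_
    filter_upwards [eventually_ge_atTop 1, eventually_ge_atTop (Nat.ceil β)] with n hn hn2
    have hn' : (0 : ℝ) < n := by exact_mod_cast hn
    have hβn : β ≤ n := (Nat.le_ceil β).trans (by exact_mod_cast hn2)
    have h1 : β / n ≤ 1 := (div_le_one hn').2 hβn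
    have h2 := hW (β / n) (by positivity) h1
    have h3 : (1 : Matrix ι ι ℂ) + ((1 : ℂ) / n) • ((-(β : ℂ)) • A) =
        1 - (((β / n : ℝ)) : ℂ) • A := by
      rw [smul_smul, sub_eq_add_neg, ← neg_smul]
      congr 2
      push_cast
      ring
    rw [h3]
    rw [Matrix.linfty_opNorm_def]
    have h4 : ∀ i, ∑ j, ‖(W (β / n) - (1 - (((β / n : ℝ)) : ℂ) • A)) i j‖₊ ≤
        Real.toNNReal (Fintype.card ι * (C * β ^ 2) / (n : ℝ) ^ 2) := by
      intro i
      rw [← NNReal.coe_le_coe, Real.coe_toNNReal _ (by positivity)]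
      rw [NNReal.coe_sum]
      simp only [coe_nnnorm]
      calc ∑ j, ‖(W (β / n) - (1 - (((β / n : ℝ)) : ℂ) • A)) i j‖
          ≤ ∑ _j : ι, C * (β / n) ^ 2 := Finset.sum_le_sum fun j _ => h2 i j
        _ = Fintype.card ι * (C * β ^ 2) / (n : ℝ) ^ 2 := by
          rw [Finset.sum_const, Finset.card_univ, nsmul_eq_mul]
          field_simp
    have h5 := Finset.sup_le (s := Finset.univ) (fun i _ => h4 i)
    have h6 := NNReal.coe_le_coe.2 h5
    rw [Real.coe_toNNReal _ (by positivity)] at h6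
    exact h6

end Crest.Agent.R347
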