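import Crest.Agent.R347.LDefs
import Crest.Agent.R347.LPowExp
import Crest.Agent.R347.LExpOpen
import Crest.Agent.R347.LExpRing

/-!
# Row 347, piece L_EXP (2 h; three independent parts: ring expansion, open expansion, limit lemma)

`WR_expand` (proved in LExpRing.lean): in `WR L τ g s s' = Σ_a Q4 (a_{L+1}) (a_0) Π_x TR (a_x) (a_{x+1})` (joined cyclically, `a_{L+1}` and `a_0` both
zero or both nonzero) call `#a` the number of indices `x : Fin (L+1)` with exactly one of `a_x, a_{x+1}` nonzero;
terms with both nonzero vanish; each such `x` gives `√τ`, so the term is `(√τ)^#a · const`, and `#a = 2 (number of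
nonzero bonds)` when the term is nonzero (nonzero bonds are isolated).  `#a = 0`: the identity; `#a = 2`: one nonzero
bond: `τ R_c ⊗ R_c` (interior) or `τ g_{cd} R_c (last) R_d (0)` (boundary); all others are bounded by `const · τ²` for `0 ≤ τ ≤ 1`.
One possible organisation: `r = √τ`, every entry is a polynomial in `r` (finite sum of monomials
`coefficient · r^k`), show that its coefficients of `r⁰, r¹, r², r³` are `δ, 0, -HR, 0`.  Here `L ≥ 1`.

`WO_expand` (proved in LExpOpen.lean): the same, with the end tensors `AE` (whose zero component has the extra term `-i τ f R_z = τ f S^z`).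

`pow_tendsto_exp` (proved in LPowExp.lean): standard: with a submultiplicative norm (`Matrix.linftyOpNormedRing` etc. or `Matrix.frobenius…`),
`‖W(β/n)‖ ≤ exp(β(‖A‖ + C'))^{1/n}`, `‖exp(β/n A) - W(β/n)‖ ≤ C''/n²`, telescoping `X^n - Y^n`.
-/

set_option autoImplicit false

open Crest.MathPhysics.SpinChain Matrix Filter Topology

namespace Crest.Agent.R347

end Crest.Agent.R347
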