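import Crest.Agent.R347.LDual
import Crest.Agent.R347.LExp

/-!
# Row 347, piece L_LIMIT (0.7 h): Trotter limits (combine LUnit, LDual, LExp)
-/

set_option autoImplicit false

open Crest.MathPhysics.SpinChain Matrix Filter Topology

namespace Crest.Agent.R347

theorem lim_toC_map {ι : Type*} [Fintype ι] [DecidableEq ι] (A : Matrix ι ι ℝ) :
    toC A = Complex.ofRealHom.mapMatrix A := rfl

theorem lim_toC_pow {ι : Type*} [Fintype ι] [DecidableEq ι] (A : Matrix ι ι ℝ) (n : ℕ) :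
    toC (A ^ n) = toC A ^ n := by
  rw [lim_toC_map, lim_toC_map, map_pow]

theorem lim_toC_mul {ι : Type*} [Fintype ι] [DecidableEq ι] (A B : Matrix ι ι ℝ) :
    toC (A * B) = toC A * toC B := by
  rw [lim_toC_map, lim_toC_map, lim_toC_map, map_mul]

theorem lim_toC_tensF {ι : Type*} [Fintype ι] [DecidableEq ι] (h : Matrix (Fin 3) (Fin 3) ℝ) :
    toC (tensF (fun _ : ι => h)) = tensF (fun _ : ι => toC h) := by
  ext s s'
  simp [toC, tensF]

theorem lim_trace_toC {ι : Type*} [Fintype ι] (A : Matrix ι ι ℝ) :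
    (trace (toC A)).re = trace A := by
  simp [trace, toC]

theorem lim_trace {ι : Type*} [Fintype ι] [DecidableEq ι] (A B : Matrix ι ι ℂ)
    (W : ℝ → Matrix ι ι ℂ) (C : ℝ)
    (hW : ∀ τ : ℝ, 0 ≤ τ → τ ≤ 1 → ∀ s s', ‖W τ s s' - (1 - (τ : ℂ) • A : Matrix ι ι ℂ) s s'‖
      ≤ C * τ ^ 2) (β : ℝ) (hβ : 0 ≤ β) :
    Tendsto (fun n : ℕ => (trace (B * W (β / n) ^ n)).re) atTop
      (𝓝 (trace (B * NormedSpace.exp ((-(β : ℂ)) • A))).re) := by
  have h := pow_tendsto_exp A W C hW β hβ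
  have hc : Continuous fun X : Matrix ι ι ℂ => (trace (B * X)).re := by
    have h1 : Continuous fun X : Matrix ι ι ℂ => B * X := continuous_const.matrix_mul continuous_id
    exact Complex.continuous_re.comp h1.matrix_trace
  exact (hc.tendsto _).comp h

theorem ring_limit (L : ℕ) (hL : 1 ≤ L) (β : ℝ) (hβ : 0 ≤ β) (g : Matrix (Fin 3) (Fin 3) ℝ)
    {w : Matrix (Fin 3) (Fin 3) ℂ} {h : Matrix (Fin 3) (Fin 3) ℝ} (hwh : UC * w * UCᴴ = toC h) :
    Tendsto (fun n : ℕ => trace (QG n g * BR n (β / n) h ^ (L + 1))) atTop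
      (𝓝 (zRing L β g w).re) := by
  obtain ⟨C, hC⟩ := WR_expand L hL g
  rw [zRing_cart L hL β g hwh]
  have key := lim_trace (toC (HR L g)) (tensF (fun _ : Fin (L + 1) => toC h))
    (fun τ => toC (WR L τ g)) C (by
      intro τ h0 h1 s s'
      have := hC τ h0 h1 s s'
      rw [← Real.norm_eq_abs, ← Complex.norm_real] at this
      refine le_trans (le_of_eq ?_) this
      congr 1
      simp only [toC, Matrix.map_apply, Matrix.sub_apply, Matrix.smul_apply, Matrix.one_apply,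
        smul_eq_mul]
      push_cast
      split_ifs <;> simp) β hβ
  refine key.congr fun n => ?_
  rw [duality_ring, ← lim_toC_tensF, ← lim_toC_pow, ← lim_toC_mul, lim_trace_toC]

theorem open_limit (M : ℕ) (β : ℝ) (hβ : 0 ≤ β) (f₀ f₁ : ℝ)
    {w : Matrix (Fin 3) (Fin 3) ℂ} {h : Matrix (Fin 3) (Fin 3) ℝ} (hwh : UC * w * UCᴴ = toC h) :
    Tendsto (fun n : ℕ => (∑ a, ∑ a', vE n (β / n) f₀ h a *
      (((BR n (β / n) h ^ M) a a' : ℝ) : ℂ) * vE n (β / n) f₁ h a').re) atTop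
      (𝓝 (zOpen (M + 1) β f₀ f₁ w).re) := by
  obtain ⟨C, hC⟩ := WO_expand M f₀ f₁
  rw [zOpen_cart M β f₀ f₁ hwh]
  have key := lim_trace (HO M f₀ f₁) (tensF (fun _ : Fin (M + 2) => toC h))
    (fun τ => WO M τ f₀ f₁) C hC β hβ
  refine key.congr fun n => ?_
  rw [duality_open]

end Crest.Agent.R347
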