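import Crest.Agent.R347.LSecP

/-!
# Row 347, piece L_SEC, first half (helper3): the D₄ sector sums with `h = 1`
-/

set_option autoImplicit false

open Crest.MathPhysics.SpinChain Matrix Filter Topology

namespace Crest.Agent.R347

namespace SP

theorem px_c4_px : px * c4 * pxᵀ = c4ᵀ := by
  ext i j; fin_cases i <;> fin_cases j <;> simp [px, c4, Matrix.mul_apply, Fin.sum_univ_three]

theorem cyc_pz_cyc : cyc * pz * cycᵀ = px := by
  ext i j; fin_cases i <;> fin_cases j <;> simp [px, pz, cyc, Matrix.mul_apply, Fin.sum_univ_three]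

theorem cyc_px_cyc : cyc * px * cycᵀ = py := by
  ext i j; fin_cases i <;> fin_cases j <;> simp [px, py, cyc, Matrix.mul_apply, Fin.sum_univ_three]

private theorem sq2 : Real.sqrt 2 * Real.sqrt 2 = 2 := Real.mul_self_sqrt (by norm_num)

theorem k8_px_k8 : k8 * px * k8ᵀ = c4 * px := by
  have h := sq2
  ext i j; fin_cases i <;> fin_cases j <;>
    simp [px, k8, c4, Matrix.mul_apply, Fin.sum_univ_three] <;> nlinarith [h]

theorem k8_py_k8 : k8 * py * k8ᵀ = c4ᵀ * px := by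
  have h := sq2
  ext i j; fin_cases i <;> fin_cases j <;>
    simp [px, py, k8, c4, Matrix.mul_apply, Fin.sum_univ_three] <;> nlinarith [h]

theorem trace_cov_one (n : ℕ) (τ : ℝ) (g g' : Matrix (Fin 3) (Fin 3) ℝ)
    {k : Matrix (Fin 3) (Fin 3) ℝ} (hk : IsRot k) (hg : k * g * kᵀ = g') (L : ℕ) :
    trace (QG n g' * BR n τ 1 ^ L) = trace (QG n g * BR n τ 1 ^ L) := by
  have h := trace_cov n τ g 1 hk L
  rwa [hg, Matrix.mul_one, hk.mul_t] at h

theorem trace_prj_one (n : ℕ) (τ ε δ : ℝ) (L : ℕ) :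
    trace (prj ε δ (QG n c4) (QG n px) * BR n τ 1 ^ L) =
      (trace (QG n 1 * BR n τ 1 ^ L) + 2 * δ * trace (QG n c4 * BR n τ 1 ^ L) +
        (1 + 2 * ε + 2 * ε * δ) * trace (QG n pz * BR n τ 1 ^ L)) / 8 := by
  have e1 := trace_cov_one n τ c4 _ isRot_px px_c4_px L
  have e2 := trace_cov_one n τ pz _ isRot_cyc cyc_pz_cyc L
  have e3 := trace_cov_one n τ px _ isRot_cyc cyc_px_cyc L
  have e4 := trace_cov_one n τ px _ isRot_k8 k8_px_k8 L
  have e5 := trace_cov_one n τ py _ isRot_k8 k8_py_k8 L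
  rw [trace_prj, e5, e4, e3, e2, e1]
  ring

theorem lim_one (β : ℝ) (hβ : 0 ≤ β) (g : Matrix (Fin 3) (Fin 3) ℝ) (L : ℕ) (hL : 2 ≤ L) :
    Tendsto (fun n : ℕ => trace (QG n g * BR n (β / n) 1 ^ L)) atTop
      (𝓝 (zRing (L - 1) β g 1).re) := by
  have h := ring_limit (L - 1) (by omega) β hβ g UC_one
  rwa [Nat.sub_add_cancel (by omega)] at h

theorem isPS_one_char (β : ℝ) (hβ : 0 ≤ β) {ε δ : ℝ} (hε : ε * ε = 1) (hδ : δ * δ = 1) :
    IsPS (fun L => ((zRing (L - 1) β 1 1).re + 2 * δ * (zRing (L - 1) β c4 1).re +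
        (1 + 2 * ε + 2 * ε * δ) * (zRing (L - 1) β pz 1).re) / 8) := by
  have D : ∀ n : ℕ, D4Data (BR n (β / n) 1) (QG n c4) (QG n px) := fun n =>
    d4data n (β / n) 1 (by rw [Matrix.mul_one, isRot_c4.mul_t])
      (by rw [Matrix.mul_one, isRot_px.mul_t])
  refine isPS_of_proj _ (fun n => BR n (β / n) 1) (fun n => prj ε δ (QG n c4) (QG n px))
    (fun n => (D n).bt) (fun n => (prj_spec (D n) hε hδ).1) (fun n => (prj_spec (D n) hε hδ).2.1)
    (fun n => (prj_spec (D n) hε hδ).2.2) fun L hL => ?_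
  simp only [trace_prj_one]
  exact (((lim_one β hβ 1 L hL).add ((lim_one β hβ c4 L hL).const_mul (2 * δ))).add
    ((lim_one β hβ pz L hL).const_mul _)).div_const 8

theorem Zs_eq (β : ℝ) (g : Matrix (Fin 3) (Fin 3) ℝ) (w : Matrix (Fin 3) (Fin 3) ℂ) (L : ℕ) :
    Zs β g w L = (zRing (L - 1) β g w).re * Real.exp (β * eV) ^ L := by
  unfold Zs
  rw [← Real.exp_nat_mul]
  congr 2
  ring

theorem isPS_one_char' (β : ℝ) (hβ : 0 ≤ β) {ε δ : ℝ} (hε : ε * ε = 1) (hδ : δ * δ = 1) :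
    IsPS (fun L => (Zs β 1 1 L + 2 * δ * Zs β c4 1 L + (1 + 2 * ε + 2 * ε * δ) * Zs β pz 1 L) / 8) := by
  have h := (isPS_one_char β hβ hε hδ).scale (Real.exp (β * eV))
  convert h using 2 with L
  simp only [Zs_eq]
  ring

end SP

open SP

theorem isPS_sA1 (β : ℝ) (hβ : 0 ≤ β) : IsPS (sA1 β) := by
  have h := isPS_one_char' β hβ (ε := 1) (δ := 1) (by norm_num) (by norm_num)
  convert h using 2 with L
  unfold sA1
  ring

theorem isPS_sA2 (β : ℝ) (hβ : 0 ≤ β) : IsPS (sA2 β) := by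
  have h := isPS_one_char' β hβ (ε := -1) (δ := 1) (by norm_num) (by norm_num)
  convert h using 2 with L
  unfold sA2
  ring

theorem isPS_sB (β : ℝ) (hβ : 0 ≤ β) : IsPS (sB β) := by
  have h := isPS_one_char' β hβ (ε := 1) (δ := -1) (by norm_num) (by norm_num)
  convert h using 2 with L
  unfold sB
  ring

theorem isPS_Zs (β : ℝ) (hβ : 0 ≤ β) : IsPS (fun L => Zs β 1 1 L) := by
  have h1 : IsPS (fun L => (zRing (L - 1) β 1 1).re) := by
    refine isPS_of_proj _ (fun n => BR n (β / n) 1) (fun _ => 1)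
      (fun n => BR_transpose _ _ _) (fun n => Matrix.transpose_one) (fun n => Matrix.one_mul _)
      (fun n => by rw [Matrix.one_mul, Matrix.mul_one]) fun L hL => ?_
    have := lim_one β hβ 1 L hL
    simpa only [QG_one] using this
  have h := h1.scale (Real.exp (β * eV))
  convert h using 2 with L
  exact Zs_eq β 1 1 L

end Crest.Agent.R347
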