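import Crest.Agent.R347.LSecCommon

/-!
# Row 347, piece SEC2 (helper28): the sectors with the parity `wz` inserted (`h = pz`)
-/

set_option autoImplicit false

open Crest.MathPhysics.SpinChain Matrix Filter Topology

namespace Crest.Agent.R347.Sec2

theorem pz_c4 : c4 * pz * c4ᵀ = pz := by
  ext i j; fin_cases i <;> fin_cases j <;> simp [c4, pz, Matrix.mul_apply, Fin.sum_univ_three]

theorem pz_px : px * pz * pxᵀ = pz := by
  ext i j; fin_cases i <;> fin_cases j <;> simp [px, pz, Matrix.mul_apply, Fin.sum_univ_three]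

theorem pz_k8 : k8 * pz * k8ᵀ = pz := by
  have h2 : Real.sqrt 2 * Real.sqrt 2 = 2 := Real.mul_self_sqrt (by norm_num)
  ext i j
  fin_cases i <;> fin_cases j <;> simp [k8, pz, Matrix.mul_apply, Fin.sum_univ_three] <;>
    nlinarith

/-- exchange of the insertion and the twist -/
theorem tt_swap (n : ℕ) (τ : ℝ) (L : ℕ) : tt n τ pz px L = tt n τ px pz L := by
  refine tt_cov n τ pz px _ _ isRot_y4 ?_ ?_ L
  · ext i j
    fin_cases i <;> fin_cases j <;> simp [y4, px, pz, Matrix.mul_apply, Fin.sum_univ_three]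
  · ext i j
    fin_cases i <;> fin_cases j <;> simp [y4, px, pz, Matrix.mul_apply, Fin.sum_univ_three]

theorem tt_px_limit (β : ℝ) (hβ : 0 ≤ β) (L : ℕ) (hL : 2 ≤ L) :
    Tendsto (fun n : ℕ => tt n (β / n) pz px L) atTop (𝓝 ((zRing (L - 1) β pz wx).re)) :=
  (tt_limit β hβ pz UC_wx L hL).congr fun n => (tt_swap n (β / n) L).symm

theorem isPS_pz (β : ℝ) (hβ : 0 ≤ β) (s r : ℝ) (hs : s * s = 1) (hr : r * r = 1) :
    IsPS (fun L => (Zs β 1 wz L + Zs β pz wz L + 2 * s * Zs β c4 wz L +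
      (2 * r + 2 * r * s) * Zs β pz wx L) / 8) := by
  have h := isPS_d4 β pz pz_c4 pz_px pz_k8 s r hs hr
    (fun L => ((zRing (L - 1) β 1 wz).re + (zRing (L - 1) β pz wz).re +
      2 * s * (zRing (L - 1) β c4 wz).re + (2 * r + 2 * r * s) * (zRing (L - 1) β pz wx).re) / 8)
    _ _ _ _ (tt_limit β hβ 1 UC_wz) (tt_limit β hβ pz UC_wz) (tt_limit β hβ c4 UC_wz)
    (tt_px_limit β hβ) (fun L => rfl)
  have h2 := h.scale (Real.exp (β * eV))
  refine (congrArg IsPS ?_).mp h2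
  funext L
  rw [Zs_eq, Zs_eq, Zs_eq, Zs_eq]
  ring

end Crest.Agent.R347.Sec2

namespace Crest.Agent.R347

open Sec2

theorem isPS_sPA1 (β : ℝ) (hβ : 0 ≤ β) : IsPS (sPA1 β) := by
  refine (congrArg IsPS ?_).mp (isPS_pz β hβ 1 1 (by norm_num) (by norm_num))
  funext L
  unfold sPA1
  ring

theorem isPS_sPA2 (β : ℝ) (hβ : 0 ≤ β) : IsPS (sPA2 β) := by
  refine (congrArg IsPS ?_).mp (isPS_pz β hβ 1 (-1) (by norm_num) (by norm_num))
  funext L
  unfold sPA2
  ring

theorem isPS_sPB (β : ℝ) (hβ : 0 ≤ β) : IsPS (sPB β) := by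
  refine (congrArg IsPS ?_).mp (isPS_pz β hβ (-1) 1 (by norm_num) (by norm_num))
  funext L
  unfold sPB
  ring

theorem isPS_sPE (β : ℝ) (hβ : 0 ≤ β) : IsPS (sPE β) := by
  have h := isPS_d4E β pz pz_c4 pz_px
    (fun L => ((zRing (L - 1) β 1 wz).re - (zRing (L - 1) β pz wz).re) / 4)
    _ _ (tt_limit β hβ 1 UC_wz) (tt_limit β hβ pz UC_wz) (fun L => rfl)
  have h2 := h.scale (Real.exp (β * eV))
  refine (congrArg IsPS ?_).mp h2
  funext L
  unfold sPE
  rw [Zs_eq, Zs_eq]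
  ring

end Crest.Agent.R347
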