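import Crest.Agent.R347.Abs

/-!
# Row 347, piece R_TOP (elementary analysis, ~1.5 h)

Existence of the top data for limits of power sums.

Finite stage `k`: real `μ_i` (finitely many). `M_k = max |μ_i|` (0 if empty). For even exponents:
`M^L ≤ Σ μ^L` (L even ≥ 2), `Σ μ^(L+L') ≤ M^L Σ μ^L'`, and with `i₀` the index of the maximum,
`Σ_{i≠i₀} μ^(L+L') ≤ (Σ_{i≠i₀} μ^L)(Σ_{i≠i₀} μ^L')` (nonnegative terms).  `M_k` is bounded (by `z 2`), and bounded below
eventually since `Σ μ^4 ≤ M² Σ μ²` and `z 4 > 0`.  Pass to a convergent subsequence (`tendsto_subseq_of_bounded` /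
`IsCompact.tendsto_subseq`), all inequalities are closed.

For `OTop`: the top index `i₀` is in the first list or in the second one.  Pass to a subsequence where the alternative
is constant and `M_k`, the weight `c_k` (`c_k` = weight of the top index in list 1, or `0` in the second case; bounded by
`O 0`), and the sign `σ_k` converge.  In case 1: `c_k M^n ≤ Σ c μ^n`;
`Σ_{i≠i₀} c_i μ_i^(n+L) ≤ (Σ_{i≠i₀} c_i μ_i^n) (Σ_{rest} μ^L)`; `Σ c'_i μ'_i^(n+L) ≤ (Σ c' μ'^n)(Σ_{list 2} μ'^L)` and list 2 is part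
of the rest.  In case 2: `c = 0`.  Odd exponents: `|Σ_{i≠i₀} c_i μ_i^(n+1)| ≤ M Σ_{i≠i₀} c_i μ_i^n` for `n` even.
-/

set_option autoImplicit false

open Filter Topology

namespace Crest.Agent.R347

/-- finite stage -/
private theorem fin_top {κ : ℕ} (μ : Fin κ → ℝ) : ∃ M : ℝ, 0 ≤ M ∧
    (∀ L, Even L → 2 ≤ L → M ^ L ≤ ∑ i, μ i ^ L) ∧
    (∀ L L', Even L → Even L' → 2 ≤ L → 2 ≤ L' →
      ∑ i, μ i ^ (L + L') ≤ M ^ L * ∑ i, μ i ^ L') ∧
    (∀ L L', Even L → Even L' → 2 ≤ L → 2 ≤ L' →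
      ∑ i, μ i ^ (L + L') - M ^ (L + L') ≤
        (∑ i, μ i ^ L - M ^ L) * (∑ i, μ i ^ L' - M ^ L')) := by
  classical
  rcases Nat.eq_zero_or_pos κ with h0 | hpos
  · subst h0
    refine ⟨0, le_rfl, ?_, ?_, ?_⟩
    · intro L _ hL
      simp [zero_pow (by omega : L ≠ 0)]
    · intro L L' _ _ hL _
      simp
    · intro L L' _ _ hL hL'
      simp [zero_pow (by omega : L ≠ 0), zero_pow (by omega : L + L' ≠ 0)]
  · have : Nonempty (Fin κ) := ⟨⟨0, hpos⟩⟩
    obtain ⟨i0, hi0⟩ := Finite.exists_max (fun i => |μ i|)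
    have hM : ∀ L, Even L → |μ i0| ^ L = μ i0 ^ L := fun L hL => hL.pow_abs _
    have hsplit : ∀ L, ∑ i, μ i ^ L - μ i0 ^ L = ∑ i ∈ Finset.univ.erase i0, μ i ^ L := by
      intro L
      rw [← Finset.add_sum_erase _ _ (Finset.mem_univ i0)]
      ring
    refine ⟨|μ i0|, abs_nonneg _, ?_, ?_, ?_⟩
    · intro L hL _
      rw [hM L hL]
      have h1 := hsplit L
      have h2 : 0 ≤ ∑ i ∈ Finset.univ.erase i0, μ i ^ L :=
        Finset.sum_nonneg fun i _ => hL.pow_nonneg _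
      linarith
    · intro L L' hL hL' _ _
      rw [Finset.mul_sum]
      refine Finset.sum_le_sum fun i _ => ?_
      rw [pow_add]
      refine mul_le_mul_of_nonneg_right ?_ (hL'.pow_nonneg _)
      rw [← hL.pow_abs (μ i)]
      exact pow_le_pow_left₀ (abs_nonneg _) (hi0 i) L
    · intro L L' hL hL' _ _
      rw [hM L hL, hM L' hL', hM _ (hL.add hL'), hsplit, hsplit, hsplit, Finset.sum_mul]
      refine Finset.sum_le_sum fun i hi => ?_
      rw [pow_add]
      refine mul_le_mul_of_nonneg_left ?_ (hL.pow_nonneg _)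
      exact Finset.single_le_sum (f := fun i => μ i ^ L') (fun j _ => hL'.pow_nonneg _) hi

theorem IsPS.exists_top {z : ℕ → ℝ} (h : IsPS z) (hz : ∀ L, Even L → 2 ≤ L → 0 < z L) :
    ∃ m, TopData z m := by
  obtain ⟨κ, μ, hμ⟩ := h
  choose M hM0 hM1 hM2 hM3 using fun k => fin_top (μ k)
  obtain ⟨B, hB⟩ := (hμ 2 le_rfl).bddAbove_range
  have hB' : ∀ k, ∑ i, μ k i ^ 2 ≤ B := fun k => hB ⟨k, rfl⟩
  have hMB : ∀ k, M k ∈ Set.Icc (0 : ℝ) (B + 1) := by
    intro k
    refine ⟨hM0 k, ?_⟩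
    have h1 := hM1 k 2 even_two le_rfl
    have h2 := hB' k
    have h3 : 0 ≤ (M k - 1 / 2) ^ 2 := sq_nonneg _
    nlinarith
  obtain ⟨m, hm, φ, hφ, hlim⟩ := isCompact_Icc.tendsto_subseq hMB
  have hz' : ∀ L, 2 ≤ L → Tendsto (fun k => ∑ i, μ (φ k) i ^ L) atTop (𝓝 (z L)) :=
    fun L hL => (hμ L hL).comp hφ.tendsto_atTop
  have hm' : ∀ L : ℕ, Tendsto (fun k => M (φ k) ^ L) atTop (𝓝 (m ^ L)) := fun L => hlim.pow L
  have T2 : ∀ L L', Even L → Even L' → 2 ≤ L → 2 ≤ L' → z (L + L') ≤ m ^ L * z L' := by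
    intro L L' hL hL' h2 h2'
    exact le_of_tendsto_of_tendsto' (hz' _ (by omega)) ((hm' L).mul (hz' _ h2'))
      fun k => hM2 (φ k) L L' hL hL' h2 h2'
  refine ⟨m, ?_, ?_, T2, ?_⟩
  · rcases lt_or_eq_of_le hm.1 with h | h
    · exact h
    · exfalso
      have h1 := T2 2 2 even_two even_two le_rfl le_rfl
      have h2 := hz 4 (by decide) (by norm_num)
      rw [← h] at h1
      norm_num at h1
      linarith
  · intro L hL h2
    exact le_of_tendsto_of_tendsto' (hm' L) (hz' _ h2) fun k => hM1 (φ k) L hL h2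
  · intro L L' hL hL' h2 h2'
    exact le_of_tendsto_of_tendsto' ((hz' _ (by omega)).sub (hm' _))
      (((hz' _ h2).sub (hm' _)).mul ((hz' _ h2').sub (hm' _)))
      fun k => hM3 (φ k) L L' hL hL' h2 h2'

private theorem sum_scale {κ : ℕ} (μ : Fin κ → ℝ) (a : ℝ) (L : ℕ) :
    ∑ i, (μ i * a) ^ L = (∑ i, μ i ^ L) * a ^ L := by
  rw [Finset.sum_mul]
  exact Finset.sum_congr rfl fun i _ => mul_pow _ _ _

private theorem sum_scale' {κ : ℕ} (μ c : Fin κ → ℝ) (a b : ℝ) (L : ℕ) :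
    ∑ i, (b * c i) * (μ i * a) ^ L = (∑ i, c i * μ i ^ L) * (b * a ^ L) := by
  rw [Finset.sum_mul]
  refine Finset.sum_congr rfl fun i _ => ?_
  rw [mul_pow]; ring

theorem IsPS.scale {z : ℕ → ℝ} (h : IsPS z) (a : ℝ) : IsPS (fun L => z L * a ^ L) := by
  obtain ⟨κ, μ, hμ⟩ := h
  refine ⟨κ, fun k i => μ k i * a, fun L hL => ?_⟩
  simp only [sum_scale]
  exact (hμ L hL).mul_const _

theorem IsPSO.scale {z O : ℕ → ℝ} (h : IsPSO z O) (a b : ℝ) (hb : 0 ≤ b) :
    IsPSO (fun L => z L * a ^ L) (fun n => O n * (b * a ^ n)) := by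
  obtain ⟨κ, μ, c, hc, hμ, hO⟩ := h
  refine ⟨κ, fun k i => μ k i * a, fun k i => b * c k i, fun k i => mul_nonneg hb (hc k i),
    fun L hL => ?_, fun n => ?_⟩
  · simp only [sum_scale]
    exact (hμ L hL).mul_const _
  · simp only [sum_scale']
    exact (hO n).mul_const _

theorem IsPSO2.scale {z O O' : ℕ → ℝ} (h : IsPSO2 z O O') (a b : ℝ) (hb : 0 ≤ b) :
    IsPSO2 (fun L => z L * a ^ L) (fun n => O n * (b * a ^ n)) (fun n => O' n * (b * a ^ n)) := by
  obtain ⟨κ, κ', μ, c, μ', c', hc, hc', hμ, hO, hO'⟩ := h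
  refine ⟨κ, κ', fun k i => μ k i * a, fun k i => b * c k i, fun k i => μ' k i * a,
    fun k i => b * c' k i, fun k i => mul_nonneg hb (hc k i), fun k i => mul_nonneg hb (hc' k i),
    fun L hL => ?_, fun n => ?_, fun n => ?_⟩
  · simp only [sum_scale, ← add_mul]
    exact (hμ L hL).mul_const _
  · simp only [sum_scale']
    exact (hO n).mul_const _
  · simp only [sum_scale']
    exact (hO' n).mul_const _

/-- norm monotonicity: `z (k L) ≤ (z L)^k` for even `L` -/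
theorem IsPS.pow_le {z : ℕ → ℝ} (h : IsPS z) {L : ℕ} (hL : Even L) (h2 : 2 ≤ L) (k : ℕ) (hk : 1 ≤ k) :
    z (k * L) ≤ z L ^ k := by
  obtain ⟨κ, μ, hμ⟩ := h
  have hfin : ∀ j, ∑ i, μ j i ^ (k * L) ≤ (∑ i, μ j i ^ L) ^ k := by
    intro j
    have key : ∀ k : ℕ, 1 ≤ k → ∑ i, μ j i ^ (k * L) ≤ (∑ i, μ j i ^ L) ^ k := by
      intro k hk
      induction k, hk using Nat.le_induction with
      | base => simp
      | succ k hk ih =>
        rw [pow_succ]
        refine le_trans ?_ (mul_le_mul_of_nonneg_right ih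
          (Finset.sum_nonneg fun i _ => hL.pow_nonneg _))
        rw [Finset.sum_mul]
        refine Finset.sum_le_sum fun i _ => ?_
        rw [show (k + 1) * L = k * L + L by ring, pow_add]
        refine mul_le_mul_of_nonneg_left ?_ ((hL.mul_left k).pow_nonneg _)
        exact Finset.single_le_sum (f := fun i => μ j i ^ L) (fun j _ => hL.pow_nonneg _)
          (Finset.mem_univ i)
    exact key k hk
  exact le_of_tendsto_of_tendsto' (hμ (k * L) (by nlinarith)) ((hμ L h2).pow k) hfin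

end Crest.Agent.R347
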