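import Crest.Agent.R347.LProj
import Crest.Agent.R347.LLimit
import Crest.Agent.R347.LCov
import Crest.Agent.R347.RTop
import Crest.Agent.R347.LSec1
import Crest.Agent.R347.LSec2

/-!
# Row 347, piece L_SEC: the D₄ sector sums are limits of power sums

`LSec1.lean` (helper3): `isPS_sA1`, `isPS_sA2`, `isPS_sB`, `isPS_Zs`;
`LSec2.lean` (helper28): `isPS_sPA1`, `isPS_sPA2`, `isPS_sPB`, `isPS_sPE`.
-/
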