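import Crest.Agent.R347.LSecP

/-!
# Row 347, piece L_SECO (1.5 h): open-chain quantities as weighted power sums

At finite `n` write `v = vE n τ f h = u + i w` (`f = 3/5`, `h = 1` or `pz`, `u`, `w` real vectors).  `vE_conj`: `conj v_f = v_{-f}`;
`vE_cov` (`k = c4`): `QG c4` fixes `v`, hence `u` and `w`; `vE_px`: `QG px v_f = v_{-f} = conj v_f`, hence `QG px u = u`,
`QG px w = -w`.  `Re Σ v B^n v = uB^n u - wB^n w`, `Re Σ v B^n conj v = uB^n u + wB^n w`.  So at finite Trotter number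
`oR = u B^n u` (`h = 1`, `u` in the range of the A1 projection), `oI = w B^n w` (`w` in the range of `(1-X)/2`),
`oP = w B^n w` (`h = pz`, `w` in the range of the A2 projection); `exists_eig_proj` with `v := u` resp. `w`, limits by
`open_limit`/`ring_limit`, scaling by `IsPSO.scale`, `IsPSO2.scale` (`a = exp(β eV)`, `b = exp(β (2 eV + 403/1000))`).
-/

set_option autoImplicit false

open Crest.MathPhysics.SpinChain Matrix Filter Topology

namespace Crest.Agent.R347

open SP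

/-! ### real and imaginary parts of the boundary vector -/

noncomputable def soU (n : ℕ) (τ f : ℝ) (h : Matrix (Fin 3) (Fin 3) ℝ) (a : Fin n → Fin 4) : ℝ :=
  (vE n τ f h a).re

noncomputable def soW (n : ℕ) (τ f : ℝ) (h : Matrix (Fin 3) (Fin 3) ℝ) (a : Fin n → Fin 4) : ℝ :=
  (vE n τ f h a).im

theorem so_c4R : c4ᵀ * R 2 * c4 = R 2 := by
  ext i j; fin_cases i <;> fin_cases j <;> simp [c4, R, Matrix.mul_apply, Fin.sum_univ_three]

theorem so_re_sum (n : ℕ) (M : Matrix (Fin n → Fin 4) (Fin n → Fin 4) ℝ) (v : (Fin n → Fin 4) → ℂ)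
    (a : Fin n → Fin 4) :
    (∑ b, ((M a b : ℝ) : ℂ) * v b).re = M.mulVec (fun b => (v b).re) a := by
  rw [Complex.re_sum]
  simp [Matrix.mulVec, dotProduct]

theorem so_im_sum (n : ℕ) (M : Matrix (Fin n → Fin 4) (Fin n → Fin 4) ℝ) (v : (Fin n → Fin 4) → ℂ)
    (a : Fin n → Fin 4) :
    (∑ b, ((M a b : ℝ) : ℂ) * v b).im = M.mulVec (fun b => (v b).im) a := by
  rw [Complex.im_sum]
  simp [Matrix.mulVec, dotProduct]

section
variable (n : ℕ) (τ f : ℝ) {h : Matrix (Fin 3) (Fin 3) ℝ}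

theorem soU_c4 (h1 : c4 * h * c4ᵀ = h) : (QG n c4).mulVec (soU n τ f h) = soU n τ f h := by
  funext a
  have h2 := vE_cov n τ f h isRot_c4 so_c4R h1 a
  have h3 := congrArg Complex.re h2
  rw [so_re_sum] at h3
  exact h3

theorem soW_c4 (h1 : c4 * h * c4ᵀ = h) : (QG n c4).mulVec (soW n τ f h) = soW n τ f h := by
  funext a
  have h2 := vE_cov n τ f h isRot_c4 so_c4R h1 a
  have h3 := congrArg Complex.im h2
  rw [so_im_sum] at h3
  exact h3

theorem soU_px (h1 : px * h * pxᵀ = h) : (QG n px).mulVec (soU n τ f h) = soU n τ f h := by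
  funext a
  have h2 := vE_px n τ f h h1 a
  rw [← vE_conj n τ f h a] at h2
  have h3 := congrArg Complex.re h2
  rw [so_re_sum, Complex.conj_re] at h3
  exact h3

theorem soW_px (h1 : px * h * pxᵀ = h) : (QG n px).mulVec (soW n τ f h) = -soW n τ f h := by
  funext a
  have h2 := vE_px n τ f h h1 a
  rw [← vE_conj n τ f h a] at h2
  have h3 := congrArg Complex.im h2
  rw [so_im_sum, Complex.conj_im] at h3
  exact h3

end

/-- the four bilinear forms -/
theorem so_form_pp (n : ℕ) (τ f : ℝ) (h : Matrix (Fin 3) (Fin 3) ℝ)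
    (M : Matrix (Fin n → Fin 4) (Fin n → Fin 4) ℝ) :
    (∑ a, ∑ a', vE n τ f h a * (((M a a' : ℝ)) : ℂ) * vE n τ f h a').re =
      soU n τ f h ⬝ᵥ M.mulVec (soU n τ f h) - soW n τ f h ⬝ᵥ M.mulVec (soW n τ f h) := by
  simp only [dotProduct, Matrix.mulVec, Finset.mul_sum]
  rw [Complex.re_sum, ← Finset.sum_sub_distrib]
  refine Finset.sum_congr rfl fun a _ => ?_
  rw [Complex.re_sum, ← Finset.sum_sub_distrib]
  refine Finset.sum_congr rfl fun b _ => ?_
  simp only [Complex.mul_re, Complex.mul_im, Complex.ofReal_re, Complex.ofReal_im, soU, soW]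
  ring

theorem so_form_pm (n : ℕ) (τ f : ℝ) (h : Matrix (Fin 3) (Fin 3) ℝ)
    (M : Matrix (Fin n → Fin 4) (Fin n → Fin 4) ℝ) :
    (∑ a, ∑ a', vE n τ f h a * (((M a a' : ℝ)) : ℂ) * vE n τ (-f) h a').re =
      soU n τ f h ⬝ᵥ M.mulVec (soU n τ f h) + soW n τ f h ⬝ᵥ M.mulVec (soW n τ f h) := by
  simp only [dotProduct, Matrix.mulVec, Finset.mul_sum]
  rw [Complex.re_sum, ← Finset.sum_add_distrib]
  refine Finset.sum_congr rfl fun a _ => ?_
  rw [Complex.re_sum, ← Finset.sum_add_distrib]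
  refine Finset.sum_congr rfl fun b _ => ?_
  rw [← vE_conj n τ f h b]
  simp only [Complex.mul_re, Complex.mul_im, Complex.ofReal_re, Complex.ofReal_im, soU, soW,
    Complex.conj_re, Complex.conj_im]
  ring

section
variable (β : ℝ) (hβ : 0 ≤ β) {w : Matrix (Fin 3) (Fin 3) ℂ} {h : Matrix (Fin 3) (Fin 3) ℝ}
  (hwh : UC * w * UCᴴ = toC h)
include hβ hwh

theorem so_limU (M : ℕ) (f : ℝ) :
    Tendsto (fun n : ℕ => soU n (β / n) f h ⬝ᵥ (BR n (β / n) h ^ M).mulVec (soU n (β / n) f h)) atTop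
      (𝓝 (((zOpen (M + 1) β f (-f) w).re + (zOpen (M + 1) β f f w).re) / 2)) := by
  have h1 := open_limit M β hβ f (-f) hwh
  have h2 := open_limit M β hβ f f hwh
  refine ((h1.add h2).div_const 2).congr fun n => ?_
  rw [so_form_pm, so_form_pp]
  ring

theorem so_limW (M : ℕ) (f : ℝ) :
    Tendsto (fun n : ℕ => soW n (β / n) f h ⬝ᵥ (BR n (β / n) h ^ M).mulVec (soW n (β / n) f h)) atTop
      (𝓝 (((zOpen (M + 1) β f (-f) w).re - (zOpen (M + 1) β f f w).re) / 2)) := by
  have h1 := open_limit M β hβ f (-f) hwh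
  have h2 := open_limit M β hβ f f hwh
  refine ((h1.sub h2).div_const 2).congr fun n => ?_
  rw [so_form_pm, so_form_pp]
  ring

theorem so_limT (L : ℕ) (hL : 2 ≤ L) (g : Matrix (Fin 3) (Fin 3) ℝ) :
    Tendsto (fun n : ℕ => trace (QG n g * BR n (β / n) h ^ L)) atTop
      (𝓝 (zRing (L - 1) β g w).re) := by
  have h1 := ring_limit (L - 1) (by omega) β hβ g hwh
  rwa [show L - 1 + 1 = L by omega] at h1

end

/-! ### conjugations -/

theorem so_cyc_pz : cyc * pz * cycᵀ = px := by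
  ext i j; fin_cases i <;> fin_cases j <;> simp [cyc, px, pz, Matrix.mul_apply, Fin.sum_univ_three]

theorem so_y4_px : y4 * px * y4ᵀ = pz := by
  ext i j; fin_cases i <;> fin_cases j <;> simp [y4, px, pz, Matrix.mul_apply, Fin.sum_univ_three]

theorem so_y4_pz : y4 * pz * y4ᵀ = px := by
  ext i j; fin_cases i <;> fin_cases j <;> simp [y4, px, pz, Matrix.mul_apply, Fin.sum_univ_three]

theorem so_c4_px : c4 * px * c4ᵀ = py := by
  ext i j; fin_cases i <;> fin_cases j <;> simp [c4, px, py, Matrix.mul_apply, Fin.sum_univ_three]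

theorem so_c4_c4tpx : c4 * (c4ᵀ * px) * c4ᵀ = c4 * px := by
  rw [← mul_assoc, isRot_c4.mul_t, one_mul]
  ext i j; fin_cases i <;> fin_cases j <;> simp [c4, px, Matrix.mul_apply, Fin.sum_univ_three]

theorem so_px_c4 : px * c4 * pxᵀ = c4ᵀ := by
  ext i j; fin_cases i <;> fin_cases j <;> simp [c4, px, Matrix.mul_apply, Fin.sum_univ_three]

theorem so_c4_pz : c4 * pz * c4ᵀ = pz := by
  ext i j; fin_cases i <;> fin_cases j <;> simp [c4, pz, Matrix.mul_apply, Fin.sum_univ_three]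

theorem so_px_pz : px * pz * pxᵀ = pz := by
  ext i j; fin_cases i <;> fin_cases j <;> simp [px, pz, Matrix.mul_apply, Fin.sum_univ_three]

theorem so_k8_px : k8 * px * k8ᵀ = c4 * px := by
  have h2 : Real.sqrt 2 * Real.sqrt 2 = 2 := Real.mul_self_sqrt (by norm_num)
  ext i j
  fin_cases i <;> fin_cases j <;>
    simp [k8, c4, px, Matrix.mul_apply, Fin.sum_univ_three] <;> nlinarith

theorem so_k8_pz : k8 * pz * k8ᵀ = pz := by
  have h2 : Real.sqrt 2 * Real.sqrt 2 = 2 := Real.mul_self_sqrt (by norm_num)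
  ext i j
  fin_cases i <;> fin_cases j <;>
    simp [k8, pz, Matrix.mul_apply, Fin.sum_univ_three] <;> nlinarith

theorem so_conj (n : ℕ) (τ : ℝ) {g g' h h' k : Matrix (Fin 3) (Fin 3) ℝ} (hk : IsRot k)
    (hg : k * g * kᵀ = g') (hh : k * h * kᵀ = h') (L : ℕ) :
    trace (QG n g' * BR n τ h' ^ L) = trace (QG n g * BR n τ h ^ L) := by
  rw [← hg, ← hh]
  exact trace_cov n τ g h hk L

theorem so_one {k : Matrix (Fin 3) (Fin 3) ℝ} (hk : IsRot k) : k * 1 * kᵀ = 1 := by
  rw [mul_one, hk.mul_t]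

/-- trace of the `A1` projection at `h = 1` -/
theorem so_trA1 (n : ℕ) (τ : ℝ) (L : ℕ) :
    trace (prj 1 1 (QG n c4) (QG n px) * BR n τ 1 ^ L) =
      (trace (QG n 1 * BR n τ 1 ^ L) + 5 * trace (QG n pz * BR n τ 1 ^ L) +
        2 * trace (QG n c4 * BR n τ 1 ^ L)) / 8 := by
  rw [trace_prj]
  have e1 := so_conj n τ isRot_px so_px_c4 (so_one isRot_px) L
  have e2 := so_conj n τ isRot_cyc so_cyc_pz (so_one isRot_cyc) L
  have e3 := so_conj n τ isRot_c4 so_c4_px (so_one isRot_c4) L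
  have e4 := so_conj n τ isRot_k8 so_k8_px (so_one isRot_k8) L
  have e5 := so_conj n τ isRot_c4 so_c4_c4tpx (so_one isRot_c4) L
  rw [← e5, e4, e3, e2, e1]
  ring

/-- trace of the `A2` projection at `h = pz` -/
theorem so_trA2 (n : ℕ) (τ : ℝ) (L : ℕ) :
    trace (prj (-1) 1 (QG n c4) (QG n px) * BR n τ pz ^ L) =
      (trace (QG n 1 * BR n τ pz ^ L) + trace (QG n pz * BR n τ pz ^ L) +
        2 * trace (QG n c4 * BR n τ pz ^ L) - 4 * trace (QG n pz * BR n τ px ^ L)) / 8 := by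
  rw [trace_prj]
  have e1 := so_conj n τ isRot_px so_px_c4 so_px_pz L
  have e2 := so_conj n τ isRot_y4 so_y4_px so_y4_pz L
  have e3 := so_conj n τ isRot_c4 so_c4_px so_c4_pz L
  have e4 := so_conj n τ isRot_k8 so_k8_px so_k8_pz L
  have e5 := so_conj n τ isRot_c4 so_c4_c4tpx so_c4_pz L
  rw [← e5, e4, e3, e2, e1]
  ring

/-! ### vectors in the ranges of the projections -/

theorem so_prj_fix {I : Type*} [Fintype I] [DecidableEq I] (ε : ℝ) (hε : ε * ε = 1)
    {C X : Matrix I I ℝ} {v : I → ℝ} (hC : C.mulVec v = v) (hX : X.mulVec v = ε • v) :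
    (prj ε 1 C X).mulVec v = v := by
  unfold prj
  simp only [Matrix.smul_mulVec, Matrix.add_mulVec, Matrix.one_mulVec, one_smul,
    ← Matrix.mulVec_mulVec, hC, hX, Matrix.mulVec_smul, smul_add, smul_smul]
  match_scalars
  linear_combination (1 / 2) * hε

/-- `(1 + ε X)/2` -/
noncomputable def soP {I : Type*} [DecidableEq I] (ε : ℝ) (X : Matrix I I ℝ) : Matrix I I ℝ :=
  (1 / 2 : ℝ) • (1 + ε • X)

theorem soP_spec {I : Type*} [Fintype I] [DecidableEq I] {B C X : Matrix I I ℝ}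
    (D : D4Data B C X) {ε : ℝ} (hε : ε * ε = 1) :
    (soP ε X)ᵀ = soP ε X ∧ soP ε X * soP ε X = soP ε X ∧ soP ε X * B = B * soP ε X := by
  refine ⟨?_, ?_, ?_⟩
  · unfold soP
    rw [Matrix.transpose_smul, Matrix.transpose_add, Matrix.transpose_one, Matrix.transpose_smul,
      D.xt]
  · unfold soP
    simp only [Matrix.smul_mul, Matrix.mul_smul, Matrix.add_mul, Matrix.mul_add, Matrix.one_mul,
      Matrix.mul_one, D.x2, smul_add, smul_smul]
    match_scalars
    · linear_combination (1 / 4) * hε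
    · ring
  · unfold soP
    simp only [Matrix.smul_mul, Matrix.mul_smul, Matrix.add_mul, Matrix.mul_add, Matrix.one_mul,
      Matrix.mul_one, D.xb]

theorem soP_fix {I : Type*} [Fintype I] [DecidableEq I] (ε : ℝ) (hε : ε * ε = 1)
    {X : Matrix I I ℝ} {v : I → ℝ} (hX : X.mulVec v = ε • v) : (soP ε X).mulVec v = v := by
  unfold soP
  simp only [Matrix.smul_mulVec, Matrix.add_mulVec, Matrix.one_mulVec, hX, smul_add, smul_smul]
  match_scalars
  linear_combination (1 / 2) * hε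

theorem soP_trace {I : Type*} [Fintype I] [DecidableEq I] (X A : Matrix I I ℝ) :
    trace (soP 1 X * A) + trace (soP (-1) X * A) = trace A := by
  rw [← Matrix.trace_add, ← Matrix.add_mul]
  congr 1
  have : soP 1 X + soP (-1) X = 1 := by
    unfold soP
    module
  rw [this, Matrix.one_mul]

/-! ### the three theorems -/

theorem so_Zs (β : ℝ) (g : Matrix (Fin 3) (Fin 3) ℝ) (w : Matrix (Fin 3) (Fin 3) ℂ) (L : ℕ) :
    Zs β g w L = (zRing (L - 1) β g w).re * Real.exp (β * eV) ^ L := by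
  unfold Zs
  congr 1
  rw [← Real.exp_nat_mul]
  congr 1
  ring

theorem so_Zo (β f₀ f₁ : ℝ) (w : Matrix (Fin 3) (Fin 3) ℂ) (n : ℕ) :
    Zo β f₀ f₁ w n = (zOpen (n + 1) β f₀ f₁ w).re *
      (Real.exp (β * (2 * eV + 403 / 1000)) * Real.exp (β * eV) ^ n) := by
  unfold Zo
  congr 1
  rw [← Real.exp_nat_mul, ← Real.exp_add]
  congr 1
  ring

theorem isPSO_sA1 (β : ℝ) (hβ : 0 ≤ β) : IsPSO (sA1 β) (oR β) := by
  have key : IsPSO (fun L => ((zRing (L - 1) β 1 1).re + 5 * (zRing (L - 1) β pz 1).re +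
      2 * (zRing (L - 1) β c4 1).re) / 8)
      (fun M => ((zOpen (M + 1) β (3 / 5) (-(3 / 5)) 1).re +
        (zOpen (M + 1) β (3 / 5) (3 / 5) 1).re) / 2) := by
    have hD := fun n : ℕ => d4data n (β / n) 1 (so_one isRot_c4) (so_one isRot_px)
    have hP := fun n => prj_spec (ε := 1) (δ := 1) (hD n) (by norm_num) (by norm_num)
    have hex := fun n : ℕ => exists_eig_proj (BR n (β / n) 1) (prj 1 1 (QG n c4) (QG n px))
      (BR_transpose n (β / n) 1) (hP n).1 (hP n).2.1 (hP n).2.2 (soU n (β / n) (3 / 5) 1)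
      (so_prj_fix 1 (by norm_num) (soU_c4 n (β / n) (3 / 5) (so_one isRot_c4))
        (by rw [one_smul]; exact soU_px n (β / n) (3 / 5) (so_one isRot_px)))
    choose κ μ c hc hμ hn using hex
    refine ⟨κ, μ, c, hc, fun L hL => ?_, fun M => ?_⟩
    · simp only [← hμ, so_trA1]
      exact (((so_limT β hβ UC_one L hL 1).add ((so_limT β hβ UC_one L hL pz).const_mul 5)).add
        ((so_limT β hβ UC_one L hL c4).const_mul 2)).div_const 8
    · simp only [← hn]
      exact so_limU β hβ UC_one M (3 / 5)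
  have h2 := key.scale (Real.exp (β * eV)) (Real.exp (β * (2 * eV + 403 / 1000)))
    (Real.exp_pos _).le
  convert h2 using 1
  · funext L
    unfold sA1
    rw [so_Zs, so_Zs, so_Zs]
    ring
  · funext M
    unfold oR
    rw [so_Zo, so_Zo]
    ring

theorem isPSO_sPA2 (β : ℝ) (hβ : 0 ≤ β) : IsPSO (sPA2 β) (oP β) := by
  have key : IsPSO (fun L => ((zRing (L - 1) β 1 wz).re + (zRing (L - 1) β pz wz).re +
      2 * (zRing (L - 1) β c4 wz).re - 4 * (zRing (L - 1) β pz wx).re) / 8)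
      (fun M => ((zOpen (M + 1) β (3 / 5) (-(3 / 5)) wz).re -
        (zOpen (M + 1) β (3 / 5) (3 / 5) wz).re) / 2) := by
    have hD := fun n : ℕ => d4data n (β / n) pz so_c4_pz so_px_pz
    have hP := fun n => prj_spec (ε := -1) (δ := 1) (hD n) (by norm_num) (by norm_num)
    have hex := fun n : ℕ => exists_eig_proj (BR n (β / n) pz) (prj (-1) 1 (QG n c4) (QG n px))
      (BR_transpose n (β / n) pz) (hP n).1 (hP n).2.1 (hP n).2.2 (soW n (β / n) (3 / 5) pz)
      (so_prj_fix (-1) (by norm_num) (soW_c4 n (β / n) (3 / 5) so_c4_pz)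
        (by rw [neg_one_smul]; exact soW_px n (β / n) (3 / 5) so_px_pz))
    choose κ μ c hc hμ hn using hex
    refine ⟨κ, μ, c, hc, fun L hL => ?_, fun M => ?_⟩
    · simp only [← hμ, so_trA2]
      exact ((((so_limT β hβ UC_wz L hL 1).add (so_limT β hβ UC_wz L hL pz)).add
        ((so_limT β hβ UC_wz L hL c4).const_mul 2)).sub
        ((so_limT β hβ UC_wx L hL pz).const_mul 4)).div_const 8
    · simp only [← hn]
      exact so_limW β hβ UC_wz M (3 / 5)
  have h2 := key.scale (Real.exp (β * eV)) (Real.exp (β * (2 * eV + 403 / 1000)))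
    (Real.exp_pos _).le
  convert h2 using 1
  · funext L
    unfold sPA2
    rw [so_Zs, so_Zs, so_Zs, so_Zs]
    ring
  · funext M
    unfold oP
    rw [so_Zo, so_Zo]
    ring

theorem isPSO2_Zs (β : ℝ) (hβ : 0 ≤ β) : IsPSO2 (fun L => Zs β 1 1 L) (oR β) (oI β) := by
  have key : IsPSO2 (fun L => (zRing (L - 1) β 1 1).re)
      (fun M => ((zOpen (M + 1) β (3 / 5) (-(3 / 5)) 1).re +
        (zOpen (M + 1) β (3 / 5) (3 / 5) 1).re) / 2)
      (fun M => ((zOpen (M + 1) β (3 / 5) (-(3 / 5)) 1).re -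
        (zOpen (M + 1) β (3 / 5) (3 / 5) 1).re) / 2) := by
    have hD := fun n : ℕ => d4data n (β / n) 1 (so_one isRot_c4) (so_one isRot_px)
    have hP := fun n => soP_spec (ε := 1) (hD n) (by norm_num)
    have hP' := fun n => soP_spec (ε := -1) (hD n) (by norm_num)
    have hex := fun n : ℕ => exists_eig_proj (BR n (β / n) 1) (soP 1 (QG n px))
      (BR_transpose n (β / n) 1) (hP n).1 (hP n).2.1 (hP n).2.2 (soU n (β / n) (3 / 5) 1)
      (soP_fix 1 (by norm_num)
        (by rw [one_smul]; exact soU_px n (β / n) (3 / 5) (so_one isRot_px)))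
    have hex' := fun n : ℕ => exists_eig_proj (BR n (β / n) 1) (soP (-1) (QG n px))
      (BR_transpose n (β / n) 1) (hP' n).1 (hP' n).2.1 (hP' n).2.2 (soW n (β / n) (3 / 5) 1)
      (soP_fix (-1) (by norm_num)
        (by rw [neg_one_smul]; exact soW_px n (β / n) (3 / 5) (so_one isRot_px)))
    choose κ μ c hc hμ hn using hex
    choose κ' μ' c' hc' hμ' hn' using hex'
    refine ⟨κ, κ', μ, c, μ', c', hc, hc', fun L hL => ?_, fun M => ?_, fun M => ?_⟩
    · simp only [← hμ, ← hμ', soP_trace]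
      refine (so_limT β hβ UC_one L hL 1).congr fun n => ?_
      rw [QG_one, one_mul]
    · simp only [← hn]
      exact so_limU β hβ UC_one M (3 / 5)
    · simp only [← hn']
      exact so_limW β hβ UC_one M (3 / 5)
  have h2 := key.scale (Real.exp (β * eV)) (Real.exp (β * (2 * eV + 403 / 1000)))
    (Real.exp_pos _).le
  convert h2 using 1
  · funext L
    rw [so_Zs]
  · funext M
    unfold oR
    rw [so_Zo, so_Zo]
    ring
  · funext M
    unfold oI
    rw [so_Zo, so_Zo]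
    ring

end Crest.Agent.R347
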