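import Crest.Agent.R347.RPurity

/-!
# Row 347, pieces R_INIT_RING and R_INIT_OPEN (elementary; `β₀ = 17/2`)

`V4Lev`: the levels of a ring of fixed length under `V₄ = Z₂ × Z₂`: trivial sector `x`, three
equivalent nontrivial sectors `y` each.

`init_ring`.  All levels at `β₀`: `X = Σ x^β₀`, `Y = Σ y^β₀`; `4 X = z + 3 zp ≤ U + 3 V =: 4 T`, `X + 3 Y ≤ U`.
L = 34: `T = 1.053575`, `U = 1.1858`.  `z (4β₀) ≤ X⁴ + 3 Y⁴ ≤ max(T⁴ + 3((U-T)/3)⁴, 3 (U/3)⁴) = 1.23218 ≤ 1.2324`,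
`z (2β₀) ≤ T² + 3 ((U-T)/3)² = 1.11585 ≤ 1.1161` (convexity in `(X,Y)`; the vertex `X = 0, Y = U/3` is smaller).
`z ≥ 1` for all `β` (`F.ge_one`) gives: the largest of all the `x_i`, `y_i` is `≥ 1` (else all `< 1`, `z β → 0` as
`β → ∞`); it is not a `y` (else `z (β₀) ≥ 3`).  So some `x₀ ≥ 1`, `X = x₀^β₀ + e`, `e ≤ T - 1`, `e + 3Y ≤ U - 1`,
`z (2β₀) ≤ x₀^{2β₀} (1 + a)`, `a = e² + 3Y² ≤ max((U-1)²/3, (T-1)² + (U-T)²/3)`: `a ≤ 0.01151` (L = 34), `a ≤ 0.04278` (L = 68,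
`U = 1.3582`, `T = 1.07605`); `z (4β₀) ≥ x₀^{4β₀}`, so `u = 1/(1+a)²`: `0.9773`, `0.9196`.
`exc`, `exc₁` for L = 34: `m ≥ 1` (`one_le_m`), so `z ≤ z · m^L`.  For L = 68: TopData (4):
`z(68) - m^68 ≤ (z(34) - m^34)²`, `0 ≤ z(34) - m^34 ≤ 0.2324` (resp. `0.1161` at `β = 17`), squares `0.05401`, `0.01348`.

`ParLev f fp ℓ`: levels split by parity, `x` = main list containing a level `≥ ℓ`, `y` = minor list.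

`init_open`.  Notation at `β₀`: `A = O - O' = q_A + p_A` (main `q_A`), `B = O + O' = p_B + q_B` (main `p_B`);
`O + OP = q_A + p_B`, `O - OP = p_A + q_B` with `OP = (Bp - Ap)/2`.  At `n = 18`: top main levels (powers `β₀`)
`a₀ ≥ exp(-0.01398·8.5) ≥ 0.88796`, `b₀ ≥ exp(0.01132·8.5) ≥ 1.10101`; `q_A + p_B ≤ 1.0727 + 0.98615 = 2.05885`,
`(q_A + p_B) + (p_A + q_B) ≤ 2·1.0727`, `p_A + q_B ≤ 1.0727 - 0.913 = 0.1597`.  Convexity (extreme point `q_A = 0.88796`,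
`p_B = 1.17089`, minor `= 0.08655`):
`O(34,18) ≤ (q_A⁴ + p_B⁴ + (p_A+q_B)⁴)/2 ≤ 1.2507`, `O(17,18) ≤ 1.0835` (squares), `O'(34,18) ≤ 0.6290`, `O'(17,18) ≤ 0.295`.
Lower bounds at `n = 52`: `O(34,52) ≥ exp(-0.000596·34) ≥ 0.97993`, `O(17,52) ≥ 0.98991`.
With `M = m^34 ≥ 1`, `Z = z(34,34) ≤ 1.2324`, `X' = c m^18 ≤ O(34,18)` and OTop (6):
`O(34,52) - X'M ≤ (O(34,18) - X')(Z - M) ≤ (1.2507 - X')(1.2324 - M)`.  Claim: `O(34,52) ≤ 1.0925 X'M`.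
 (If `X = X'M ≤ 1.0148` then `(1.2507 - X/M)(1.2324 - M) ≤ (1.2507 - X)·0.2324`, and `X + 0.2324(1.2507 - X) ≥ 0.97993` gives
 `X ≥ 0.8979`, rest `≤ 0.08199`, ratio `0.0914`; if `X > 1.0148`: `(OO - X/M)(Z - M) ≤ (√(OO Z) - √X)² ≤ 0.0549`.)
Same at `β = 17` with `1.1161`, `1.0835`: rest `≤ 0.0123`, `X ≥ 0.9776`, ratio `≤ 0.013`.  `c > 0` follows.
`O'(34,52) ≤ O'(34,18)(Z - M) ≤ 0.6290·0.2324 ≤ 0.1463 ≤ 0.1640·X`;  `O'(17,52) ≤ 0.295·0.1161 ≤ 0.0343 ≤ 0.0360·X`.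
Purity at `n = 52` (powers `β₀`): `a₀, b₀ ≥ exp(-0.000596·8.5) ≥ 0.99494`; `B = b₀ + x + y` (`x` = rest of the main list, `y` = minor):
`x ≤ 1.2487 + 0.97595 - 2·0.99494 = 0.23477`, `y ≤ 1.2487 - 0.856 = 0.3927`, `x + y ≤ 2·1.2487 - 2·0.99494 = 0.50752`; hence
`x² + y² ≤ 0.3927² + 0.11482² = 0.16740`, `a = 0.16740/0.98990 = 0.16911`, `1/(1+a)² ≥ 0.7315`; same for `A`.
-/

set_option autoImplicit false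

namespace Crest.Agent.R347

def V4Lev (f fp : ℝ → ℝ) : Prop :=
  ∃ (k l : ℕ) (x : Fin k → ℝ) (y : Fin l → ℝ), (∀ i, 0 < x i) ∧ (∀ i, 0 < y i) ∧
    ∀ β, 0 < β → f β = ∑ i, x i ^ β + 3 * ∑ i, y i ^ β ∧ fp β = ∑ i, x i ^ β - ∑ i, y i ^ β

def ParLev (f fp : ℝ → ℝ) (ℓ : ℝ) : Prop :=
  ∃ (k l : ℕ) (x : Fin k → ℝ) (y : Fin l → ℝ) (i₀ : Fin k), (∀ i, 0 < x i) ∧ (∀ i, 0 < y i) ∧
    ℓ ≤ x i₀ ∧
    ∀ β, 0 < β → f β = ∑ i, x i ^ β + ∑ i, y i ^ β ∧ fp β = ∑ i, x i ^ β - ∑ i, y i ^ β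

end Crest.Agent.R347
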