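import Mathlib

/-!
# Row 347, piece R_POLY_A (two univariate polynomial inequalities)

`x^n ≤ A (x+a)²(x-b)²(x-c)² + ε` on `[-l, t]`: for `|x| ≤ r` by `r^n ≤ ε`; on `[u, v]` by monotonicity (`poly_seg`);
near `t` by Bernoulli (`poly_top`).
-/

set_option autoImplicit false

namespace Crest.Agent.R347

/-- monotone segment -/
theorem poly_seg {A a b c ε u v x : ℝ} {n : ℕ} (hA : 0 ≤ A) (hu : 0 ≤ u) (ha : 0 ≤ u + a)
    (hb : 0 ≤ u - b) (hc : 0 ≤ u - c)
    (h : v ^ n ≤ A * ((u + a) ^ 2 * (u - b) ^ 2 * (u - c) ^ 2) + ε) (h1 : u ≤ x) (h2 : x ≤ v) :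
    x ^ n ≤ A * ((x + a) ^ 2 * (x - b) ^ 2 * (x - c) ^ 2) + ε := by
  have e1 : x ^ n ≤ v ^ n := pow_le_pow_left₀ (hu.trans h1) h2 n
  have e2 : (u + a) ^ 2 * (u - b) ^ 2 * (u - c) ^ 2 ≤ (x + a) ^ 2 * (x - b) ^ 2 * (x - c) ^ 2 := by
    have k1 : u + a ≤ x + a := by linarith
    have k2 : u - b ≤ x - b := by linarith
    have k3 : u - c ≤ x - c := by linarith
    gcongr
  have e3 := mul_le_mul_of_nonneg_left e2 hA
  linarith

/-- Bernoulli: `(1 - s)^m (1 + m s) ≤ 1` -/
theorem one_sub_pow_mul_le {s : ℝ} (h0 : 0 ≤ s) (h1 : s ≤ 1) (m : ℕ) :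
    (1 - s) ^ m * (1 + m * s) ≤ 1 := by
  have h := one_add_mul_le_pow (a := s) (by linarith) m
  have e : (1 - s) ^ m * (1 + s) ^ m ≤ 1 := by
    rw [← mul_pow]
    apply pow_le_one₀
    · nlinarith
    · nlinarith
  calc (1 - s) ^ m * (1 + m * s) ≤ (1 - s) ^ m * (1 + s) ^ m := by
        apply mul_le_mul_of_nonneg_left h
        exact pow_nonneg (by linarith) m
    _ ≤ 1 := e

/-- near the right end -/
theorem poly_top {A a b c ε t s₀ x : ℝ} {m : ℕ} (hA : 0 ≤ A) (hε : 0 ≤ ε) (ht : 0 < t)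
    (ha : 0 < t + a) (hb : 0 < t - b) (hc : 0 < t - c)
    (hs0 : t * s₀ ≤ t - c) (hs1 : t * s₀ ≤ t - b) (hs2 : t * s₀ ≤ t + a) (hs3 : s₀ ≤ 1)
    (h : t ^ (2 * m) ≤ A * ((t + a) ^ 2 * (t - b) ^ 2 * (t - c) ^ 2))
    (hK : t * ((t - b) * (t - c) + (t + a) * (t - c) + (t + a) * (t - b)) * (1 + m * s₀) ≤
      m * ((t + a) * (t - b) * (t - c)))
    (h1 : t * (1 - s₀) ≤ x) (h2 : x ≤ t) :
    x ^ (2 * m) ≤ A * ((x + a) ^ 2 * (x - b) ^ 2 * (x - c) ^ 2) + ε := by
  -- s = (t - x) / t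
  obtain ⟨s, hs⟩ : ∃ s, x = t * (1 - s) := ⟨(t - x) / t, by field_simp; ring⟩
  subst hs
  have s0 : 0 ≤ s := by
    by_contra hh
    push Not at hh
    nlinarith
  have s1 : s ≤ s₀ := by
    by_contra hh
    push Not at hh
    nlinarith
  set E := (t + a) * (t - b) * (t - c) with hE
  set D := t * ((t - b) * (t - c) + (t + a) * (t - c) + (t + a) * (t - b)) with hD
  have hEpos : 0 < E := by positivity
  have hDpos : 0 < D := by positivity
  have hts : t * s ≤ t * s₀ := mul_le_mul_of_nonneg_left s1 ht.le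
  -- the cubic
  have hq : E - s * D ≤ (t * (1 - s) + a) * (t * (1 - s) - b) * (t * (1 - s) - c) := by
    have key : (t * (1 - s) + a) * (t * (1 - s) - b) * (t * (1 - s) - c) - (E - s * D) =
        (t * s) ^ 2 * ((t + a) + (t - b) + (t - c) - t * s) := by
      rw [hE, hD]; ring
    have : 0 ≤ (t * s) ^ 2 * ((t + a) + (t - b) + (t - c) - t * s) := by
      apply mul_nonneg (sq_nonneg _)
      linarith
    linarith
  -- Bernoulli
  have hB := one_sub_pow_mul_le s0 (s1.trans hs3) m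
  have hms : (0 : ℝ) < 1 + m * s := by positivity
  have hy0 : 0 ≤ (1 - s) ^ m := pow_nonneg (by linarith) m
  -- (1-s)^m * E ≤ E - s D
  have hmain : (1 - s) ^ m * E ≤ E - s * D := by
    have e1 : E ≤ (E - s * D) * (1 + m * s) := by
      have : 0 ≤ s * (m * E - D * (1 + m * s)) := by
        apply mul_nonneg s0
        have : D * (1 + m * s) ≤ D * (1 + m * s₀) := by gcongr
        linarith
      nlinarith
    have e2 : (1 - s) ^ m * E * (1 + m * s) ≤ E := by
      calc (1 - s) ^ m * E * (1 + m * s) = ((1 - s) ^ m * (1 + m * s)) * E := by ring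
        _ ≤ 1 * E := mul_le_mul_of_nonneg_right hB hEpos.le
        _ = E := one_mul _
    exact le_of_mul_le_mul_right (e2.trans e1) hms
  have hfin : (1 - s) ^ m * E ≤ (t * (1 - s) + a) * (t * (1 - s) - b) * (t * (1 - s) - c) :=
    hmain.trans hq
  have hsq : ((1 - s) ^ m * E) ^ 2 ≤
      ((t * (1 - s) + a) * (t * (1 - s) - b) * (t * (1 - s) - c)) ^ 2 :=
    pow_le_pow_left₀ (mul_nonneg hy0 hEpos.le) hfin 2
  have h' : t ^ (2 * m) ≤ A * E ^ 2 := by
    calc t ^ (2 * m) ≤ _ := h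
      _ = A * E ^ 2 := by rw [hE]; ring
  calc (t * (1 - s)) ^ (2 * m) = t ^ (2 * m) * ((1 - s) ^ m) ^ 2 := by
        rw [mul_pow, pow_mul (1 - s), pow_right_comm]
    _ ≤ A * E ^ 2 * ((1 - s) ^ m) ^ 2 := mul_le_mul_of_nonneg_right h' (sq_nonneg _)
    _ = A * ((1 - s) ^ m * E) ^ 2 := by ring
    _ ≤ A * ((t * (1 - s) + a) * (t * (1 - s) - b) * (t * (1 - s) - c)) ^ 2 :=
        mul_le_mul_of_nonneg_left hsq hA
    _ = A * ((t * (1 - s) + a) ^ 2 * (t * (1 - s) - b) ^ 2 * (t * (1 - s) - c) ^ 2) := by ring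
    _ ≤ _ := by linarith

/-- small `|x|` -/
theorem poly_small {A a b c ε r x : ℝ} {n : ℕ} (hn : Even n) (hA : 0 ≤ A) (h : r ^ n ≤ ε)
    (h1 : -r ≤ x) (h2 : x ≤ r) :
    x ^ n ≤ A * ((x + a) ^ 2 * (x - b) ^ 2 * (x - c) ^ 2) + ε := by
  have e1 : x ^ n ≤ r ^ n := by
    rw [← hn.pow_abs x]
    exact pow_le_pow_left₀ (abs_nonneg x) (abs_le.2 ⟨h1, h2⟩) n
  have e2 : 0 ≤ A * ((x + a) ^ 2 * (x - b) ^ 2 * (x - c) ^ 2) := by positivity
  linarith

theorem poly_A18 (x : ℝ) (h1 : -(6094 / 10000) ≤ x) (h2 : x ≤ 100451 / 100000) :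
    x ^ 18 ≤ 4136228 / 1000000 * ((x + 434 / 1000) ^ 2 * (x - 36 / 1000) ^ 2 * (x - 637 / 1000) ^ 2)
      + 32 / 100000 := by
  rcases le_total x (6395 / 10000) with g0 | g0
  · exact poly_small (r := 6395 / 10000) ⟨9, rfl⟩ (by norm_num) (by norm_num) (by linarith) g0
  rcases le_total x (6406 / 10000) with g1 | g1
  · exact poly_seg (by norm_num) (by norm_num) (by norm_num) (by norm_num) (by norm_num) (by norm_num) g0 g1
  rcases le_total x (6419 / 10000) with g2 | g2
  · exact poly_seg (by norm_num) (by norm_num) (by norm_num) (by norm_num) (by norm_num) (by norm_num) g1 g2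
  rcases le_total x (6439 / 10000) with g3 | g3
  · exact poly_seg (by norm_num) (by norm_num) (by norm_num) (by norm_num) (by norm_num) (by norm_num) g2 g3
  rcases le_total x (647 / 1000) with g4 | g4
  · exact poly_seg (by norm_num) (by norm_num) (by norm_num) (by norm_num) (by norm_num) (by norm_num) g3 g4
  rcases le_total x (655 / 1000) with g5 | g5
  · exact poly_seg (by norm_num) (by norm_num) (by norm_num) (by norm_num) (by norm_num) (by norm_num) g4 g5
  rcases le_total x (678 / 1000) with g6 | g6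
  · exact poly_seg (by norm_num) (by norm_num) (by norm_num) (by norm_num) (by norm_num) (by norm_num) g5 g6
  rcases le_total x (734 / 1000) with g7 | g7
  · exact poly_seg (by norm_num) (by norm_num) (by norm_num) (by norm_num) (by norm_num) (by norm_num) g6 g7
  rcases le_total x (816 / 1000) with g8 | g8
  · exact poly_seg (by norm_num) (by norm_num) (by norm_num) (by norm_num) (by norm_num) (by norm_num) g7 g8
  rcases le_total x (8914 / 10000) with g9 | g9
  · exact poly_seg (by norm_num) (by norm_num) (by norm_num) (by norm_num) (by norm_num) (by norm_num) g8 g9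
  exact poly_top (m := 9) (s₀ := 11263 / 100000) (t := 100451 / 100000) (by norm_num) (by norm_num)
    (by norm_num) (by norm_num) (by norm_num) (by norm_num) (by norm_num) (by norm_num) (by norm_num)
    (by norm_num) (by norm_num) (by norm_num) (by linarith) h2

theorem poly_A52 (x : ℝ) (h1 : -(6094 / 10000) ≤ x) (h2 : x ≤ 100451 / 100000) :
    x ^ 52 ≤ 4820027 / 1000000 * ((x + 434 / 1000) ^ 2 * (x - 36 / 1000) ^ 2 * (x - 637 / 1000) ^ 2)
      + 1 / 1000000 := by
  rcases le_total x (766 / 1000) with g0 | g0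
  · exact poly_small (r := 766 / 1000) ⟨26, rfl⟩ (by norm_num) (by norm_num) (by linarith) g0
  rcases le_total x (819 / 1000) with g1 | g1
  · exact poly_seg (by norm_num) (by norm_num) (by norm_num) (by norm_num) (by norm_num) (by norm_num) g0 g1
  exact poly_top (m := 26) (s₀ := 185 / 1000) (t := 100451 / 100000) (by norm_num) (by norm_num)
    (by norm_num) (by norm_num) (by norm_num) (by norm_num) (by norm_num) (by norm_num) (by norm_num)
    (by norm_num) (by norm_num) (by norm_num) (by linarith) h2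

end Crest.Agent.R347
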