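import Mathlib

/-!
# Row 347, piece R347_POLY_P (helper31)

`x ^ n ≤ A q(x)^2 + ε`, `q(x) = (x+a)(x-b)(x-c)`: for `|x|` small `x^n ≤ ε`; on a few intervals `[u,v]`
monotonicity; on `[0.69 t, t]` with `x = t s`: `(t+a) s ≤ ts+a`, `(t-b) s² ≤ ts-b`, `(t-c) s⁶ ≤ ts-c`.
-/

set_option autoImplicit false

namespace Crest.Agent.R347

/-- one interval of the subdivision -/
private theorem poly_step {a b c A e : ℝ} (n : ℕ) (ha : 0 ≤ a) (hb : 0 ≤ b) (hbc : b ≤ c) (hA : 0 ≤ A)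
    (u v x : ℝ) (hcu : c ≤ u) (h1 : u ≤ x) (h2 : x ≤ v)
    (hn : v ^ n ≤ A * ((u + a) ^ 2 * (u - b) ^ 2 * (u - c) ^ 2) + e) :
    x ^ n ≤ A * ((x + a) ^ 2 * (x - b) ^ 2 * (x - c) ^ 2) + e := by
  have hc0 : 0 ≤ c := hb.trans hbc
  have hu0 : 0 ≤ u := hc0.trans hcu
  have hx0 : 0 ≤ x := hu0.trans h1
  have e1 : x ^ n ≤ v ^ n := pow_le_pow_left₀ hx0 h2 n
  have f1 : (u + a) ^ 2 ≤ (x + a) ^ 2 := pow_le_pow_left₀ (by linarith) (by linarith) 2
  have f2 : (u - b) ^ 2 ≤ (x - b) ^ 2 := pow_le_pow_left₀ (by linarith) (by linarith) 2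
  have f3 : (u - c) ^ 2 ≤ (x - c) ^ 2 := pow_le_pow_left₀ (by linarith) (by linarith) 2
  have f4 : (u + a) ^ 2 * (u - b) ^ 2 * (u - c) ^ 2 ≤ (x + a) ^ 2 * (x - b) ^ 2 * (x - c) ^ 2 :=
    mul_le_mul (mul_le_mul f1 f2 (sq_nonneg _) (sq_nonneg _)) f3 (sq_nonneg _)
      (mul_nonneg (sq_nonneg _) (sq_nonneg _))
  have f5 := mul_le_mul_of_nonneg_left f4 hA
  linarith

/-- the interval near `t` -/
private theorem poly_top {a b c A e t : ℝ} (n k : ℕ) (hn : n = 2 * k) (hk : 9 ≤ k) (ha : 0 ≤ a)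
    (hb : 0 ≤ b) (hbt : 3 * b ≤ t) (hct : c < t) (hc0 : 0 ≤ c) (hA : 0 ≤ A) (he : 0 ≤ e)
    (hK : t ≤ (t - c) * (1 + 69 / 100 + (69 / 100) ^ 2 + (69 / 100) ^ 3 + (69 / 100) ^ 4 +
      (69 / 100) ^ 5))
    (hnum : t ^ n ≤ A * ((t + a) ^ 2 * (t - b) ^ 2 * (t - c) ^ 2))
    (x : ℝ) (h1 : 69 / 100 * t ≤ x) (h2 : x ≤ t) :
    x ^ n ≤ A * ((x + a) ^ 2 * (x - b) ^ 2 * (x - c) ^ 2) + e := by
  have ht : 0 < t := lt_of_le_of_lt hc0 hct
  obtain ⟨s, hs⟩ : ∃ s, x = t * s := ⟨x / t, by field_simp⟩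
  have hs1 : s ≤ 1 := by
    rw [hs] at h2
    exact le_of_mul_le_mul_left (by linarith) ht
  have hs0 : 69 / 100 ≤ s := by
    rw [hs] at h1
    exact le_of_mul_le_mul_left (by linarith) ht
  have hs00 : 0 ≤ s := by linarith
  have g1 : (t + a) * s ≤ x + a := by
    rw [hs]; nlinarith
  have g2 : (t - b) * s ^ 2 ≤ x - b := by
    rw [hs]
    have : x - b = x - b := rfl
    nlinarith [mul_nonneg (sub_nonneg.2 hs1) (by nlinarith : (0:ℝ) ≤ t * s - b * (1 + s))]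
  have g3 : (t - c) * s ^ 6 ≤ x - c := by
    have p2 : (69 / 100 : ℝ) ^ 2 ≤ s ^ 2 := pow_le_pow_left₀ (by norm_num) hs0 2
    have p3 : (69 / 100 : ℝ) ^ 3 ≤ s ^ 3 := pow_le_pow_left₀ (by norm_num) hs0 3
    have p4 : (69 / 100 : ℝ) ^ 4 ≤ s ^ 4 := pow_le_pow_left₀ (by norm_num) hs0 4
    have p5 : (69 / 100 : ℝ) ^ 5 ≤ s ^ 5 := pow_le_pow_left₀ (by norm_num) hs0 5
    have p6 : (1 + 69 / 100 + (69 / 100) ^ 2 + (69 / 100) ^ 3 + (69 / 100) ^ 4 +
      (69 / 100) ^ 5 : ℝ) ≤ 1 + s + s ^ 2 + s ^ 3 + s ^ 4 + s ^ 5 := by linarith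
    have p7 : t ≤ (t - c) * (1 + s + s ^ 2 + s ^ 3 + s ^ 4 + s ^ 5) :=
      hK.trans (mul_le_mul_of_nonneg_left p6 (by linarith))
    have p8 := mul_le_mul_of_nonneg_right p7 (sub_nonneg.2 hs1)
    rw [hs]
    nlinarith
  have hta : 0 ≤ (t + a) * s := by positivity
  have htb : 0 ≤ (t - b) * s ^ 2 := mul_nonneg (by linarith) (sq_nonneg _)
  have htc : 0 ≤ (t - c) * s ^ 6 := mul_nonneg (by linarith) (by positivity)
  have f1 : ((t + a) * s) ^ 2 ≤ (x + a) ^ 2 := pow_le_pow_left₀ hta g1 2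
  have f2 : ((t - b) * s ^ 2) ^ 2 ≤ (x - b) ^ 2 := pow_le_pow_left₀ htb g2 2
  have f3 : ((t - c) * s ^ 6) ^ 2 ≤ (x - c) ^ 2 := pow_le_pow_left₀ htc g3 2
  have f4 : ((t + a) * s) ^ 2 * ((t - b) * s ^ 2) ^ 2 * ((t - c) * s ^ 6) ^ 2 ≤
      (x + a) ^ 2 * (x - b) ^ 2 * (x - c) ^ 2 :=
    mul_le_mul (mul_le_mul f1 f2 (sq_nonneg _) (sq_nonneg _)) f3 (sq_nonneg _)
      (mul_nonneg (sq_nonneg _) (sq_nonneg _))
  have f5 := mul_le_mul_of_nonneg_left f4 hA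
  have f6 : A * (((t + a) * s) ^ 2 * ((t - b) * s ^ 2) ^ 2 * ((t - c) * s ^ 6) ^ 2) =
      A * ((t + a) ^ 2 * (t - b) ^ 2 * (t - c) ^ 2) * s ^ 18 := by ring
  have f7 : x ^ n = t ^ n * s ^ n := by rw [hs, mul_pow]
  have f8 : s ^ n ≤ s ^ 18 := pow_le_pow_of_le_one hs00 hs1 (by omega)
  have f9 : t ^ n * s ^ n ≤ t ^ n * s ^ 18 := mul_le_mul_of_nonneg_left f8 (by positivity)
  have f10 : t ^ n * s ^ 18 ≤ A * ((t + a) ^ 2 * (t - b) ^ 2 * (t - c) ^ 2) * s ^ 18 :=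
    mul_le_mul_of_nonneg_right hnum (by positivity)
  linarith

/-- the middle part -/
private theorem poly_mid {a b c A e r : ℝ} (n : ℕ) (hn : Even n) (hA : 0 ≤ A) (x : ℝ)
    (h1 : -r ≤ x) (h2 : x ≤ r) (hnum : r ^ n ≤ e) :
    x ^ n ≤ A * ((x + a) ^ 2 * (x - b) ^ 2 * (x - c) ^ 2) + e := by
  have h3 : x ^ n ≤ r ^ n := by
    rw [← hn.pow_abs x]
    exact pow_le_pow_left₀ (abs_nonneg _) (abs_le.2 ⟨h1, h2⟩) n
  have h4 : 0 ≤ A * ((x + a) ^ 2 * (x - b) ^ 2 * (x - c) ^ 2) := by positivity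
  linarith

theorem poly_P18 (x : ℝ) (h1 : -(6081 / 10000) ≤ x) (h2 : x ≤ 99973 / 100000) :
    x ^ 18 ≤ 4175404 / 1000000 * ((x + 415 / 1000) ^ 2 * (x - 51 / 1000) ^ 2 * (x - 636 / 1000) ^ 2)
      + 32 / 100000 := by
  rcases le_total x (639 / 1000) with g | g
  · exact poly_mid 18 (by decide) (by norm_num) x (r := 639 / 1000) (by linarith) g (by norm_num)
  rcases le_total x (641 / 1000) with g' | g'
  · exact poly_step 18 (by norm_num) (by norm_num) (by norm_num) (by norm_num) (639 / 1000)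
      (641 / 1000) x (by norm_num) g g' (by norm_num)
  rcases le_total x (6437 / 10000) with g1 | g1
  · exact poly_step 18 (by norm_num) (by norm_num) (by norm_num) (by norm_num) (641 / 1000)
      (6437 / 10000) x (by norm_num) g' g1 (by norm_num)
  rcases le_total x (649 / 1000) with g2 | g2
  · exact poly_step 18 (by norm_num) (by norm_num) (by norm_num) (by norm_num) (6437 / 10000)
      (649 / 1000) x (by norm_num) g1 g2 (by norm_num)
  rcases le_total x (6625 / 10000) with g3 | g3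
  · exact poly_step 18 (by norm_num) (by norm_num) (by norm_num) (by norm_num) (649 / 1000)
      (6625 / 10000) x (by norm_num) g2 g3 (by norm_num)
  rcases le_total x (699 / 1000) with g4 | g4
  · exact poly_step 18 (by norm_num) (by norm_num) (by norm_num) (by norm_num) (6625 / 10000)
      (699 / 1000) x (by norm_num) g3 g4 (by norm_num)
  exact poly_top (t := 99973 / 100000) 18 9 (by norm_num) (by norm_num) (by norm_num) (by norm_num)
    (by norm_num) (by norm_num) (by norm_num) (by norm_num) (by norm_num) (by norm_num)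
    (by norm_num) x (by linarith) h2

theorem poly_P52 (x : ℝ) (h1 : -(6081 / 10000) ≤ x) (h2 : x ≤ 99973 / 100000) :
    x ^ 52 ≤ 4137244 / 1000000 * ((x + 415 / 1000) ^ 2 * (x - 51 / 1000) ^ 2 * (x - 636 / 1000) ^ 2)
      + 1 / 1000000 := by
  rcases le_total x (76 / 100) with g | g
  · exact poly_mid 52 (by decide) (by norm_num) x (r := 76 / 100) (by linarith) g (by norm_num)
  exact poly_top (t := 99973 / 100000) 52 26 (by norm_num) (by norm_num) (by norm_num) (by norm_num)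
    (by norm_num) (by norm_num) (by norm_num) (by norm_num) (by norm_num) (by norm_num)
    (by norm_num) x (by linarith) h2

end Crest.Agent.R347
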