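import Mathlib
import Crest.Agent.R347.RPolyA
import Crest.Agent.R347.RPolyP

/-!
# Row 347, piece R_POLY: the four univariate polynomial inequalities are in `RPolyA.lean` (`poly_A18`, `poly_A52`)
and `RPolyP.lean` (`poly_P18`, `poly_P52`).
-/
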