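import Crest.Agent.R347.EDefs
import Crest.Agent.R347.EBaseH
import Crest.Agent.R347.RBase
import Crest.Agent.R347.LSecO
import Crest.Agent.R347.LSec
import Crest.Agent.R347.RInit
import Crest.Agent.R347.RPoly

/-!
# Row 347, pieces E_BASE, E_RING, E_OPEN (rational arithmetic, all inequalities verified exactly with the tables)

`base_A1` etc.: `BaseHyp` for each sector: `Q` = the table value with the worst signs; slack: A1 5.2e-6/6.4e-5, A2 6.3e-6/2.4e-5,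
B 7.6e-7/1.5e-7, PA1 8.5e-6/1.7e-5, PA2 3.8e-6/8.7e-5, PB 8.4e-7/7.4e-6, PE 5.7e-6/1.3e-4 (linear in the unknown
sums: `linarith`/`nlinarith`-free, after `abs_le`; powers of rationals by `norm_num`).
`h10`: `s 10 ≤ T^10 + s^10` with `T = max t tn`:
A1 (1.00451, 0.699), A2 (0.8632, 0.751), B (0.67336, 0.594), PA1 (0.8647, 0.754), PA2 (0.99973, 0.699), PB (0.66027, 0.6),
PE (0.8583, 0.77).

`E_ring`: `Zs 1 1 = sA1 + 3 sA2 + 4 sB`, `Zs 1 wz = sPA1 + sPA2 + 2 sPB + 2 sPE` (ring identities), `IsPS.base_bound`: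
totals `L = 34`: U = 1.185688, V = 1.009433; `L = 68`: U = 1.358106, V = 0.981918.

`E_open_up`: `IsPSO.poly_bound` with the polynomials of `RPoly` (expand the product, 7 coefficients, e.g. by
`Fin.sum_univ_succ` and `ring`; choose `p : Fin 7 → ℝ := ![…]`): 1.072677, 1.248603, 0.986145, 0.975946.

`E_open_low`: `IsPSO.poly_lower` for `(sPA2, oP)` with `a = 0.9981`, `s = 0.732`, `s' = 0.733`,
`p(x) = λ (x + 0.31)² (x - 0.46)² (x² - 0.733²)`, `λ = 4.250042` (n = 18), `λ = 3.983924` (n = 52): values 0.913257, 0.856073.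
 `h10`: `sPA2 10 ≤ 1.0248021 ≤ a^10 + s^10`; `h68`: `a^68 + s^68 ≤ 0.878691 < sPA2 68`, because `Zs (17/2) 1 wz 68 ≥ (4 - U)/3 ≥ 0.8806`
(`v4_lower`) and `sPA1 68 + 2 sPB 68 + 2 sPE 68 ≤ 1.13e-4` (`base_bound`).
`p(x) ≤ x^n`: `p ≤ 0` for `|x| ≤ s'`; on `[a, t]`: `p(x)/x^n` is decreasing (`2/(x+.31) + 2/(x-.46) + 2x/(x²-s'²) ≤ 9.6 < 18/x`) and
`p(a) ≤ a^n`; e.g. write `x = a + y`, `0 ≤ y ≤ 0.00163`, `x^n ≥ a^n (1 + n y/a)`, and `p(x) ≤ p(a)(1 + 10 y)`.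
-/

set_option autoImplicit false

open Crest.MathPhysics.SpinChain Matrix

namespace Crest.Agent.R347

end Crest.Agent.R347
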