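import Crest.Agent.R347.Defs

/-! Row 347: target statements of the numerics group (ring).  `NumL L d a0 a1 a2 b0 b1 b2 dd`:
the seven traces of the ring with `L` sites at `β = 17/2`, multiplied by `exp(17/2 * L)`, are within
`d` of the given numbers. -/

set_option autoImplicit false

open Crest.MathPhysics.SpinChain Matrix

namespace Crest.Agent.R347

/-- intervals for the seven ring traces with `L` sites (`L ≥ 2`) at `β = 17/2` -/
def NumL (L : ℕ) (d a0 a1 a2 b0 b1 b2 dd : ℝ) : Prop :=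
  |Real.exp (17 / 2 * L) * (zRing (L - 1) (17 / 2) 1 1).re - a0| ≤ d ∧
  |Real.exp (17 / 2 * L) * (zRing (L - 1) (17 / 2) c4 1).re - a1| ≤ d ∧
  |Real.exp (17 / 2 * L) * (zRing (L - 1) (17 / 2) pz 1).re - a2| ≤ d ∧
  |Real.exp (17 / 2 * L) * (zRing (L - 1) (17 / 2) 1 wz).re - b0| ≤ d ∧
  |Real.exp (17 / 2 * L) * (zRing (L - 1) (17 / 2) c4 wz).re - b1| ≤ d ∧
  |Real.exp (17 / 2 * L) * (zRing (L - 1) (17 / 2) pz wz).re - b2| ≤ d ∧
  |Real.exp (17 / 2 * L) * (zRing (L - 1) (17 / 2) pz wx).re - dd| ≤ d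

/-- intervals for the four open-chain traces with `N` sites (`N ≥ 2`), end fields `3/5`,
at `β = 17/2` -/
def NumO (N : ℕ) (d pp pm qp qm : ℝ) : Prop :=
  |Real.exp (17 / 2 * N) * (zOpen (N - 1) (17 / 2) (3 / 5) (3 / 5) 1).re - pp| ≤ d ∧
  |Real.exp (17 / 2 * N) * (zOpen (N - 1) (17 / 2) (3 / 5) (-(3 / 5)) 1).re - pm| ≤ d ∧
  |Real.exp (17 / 2 * N) * (zOpen (N - 1) (17 / 2) (3 / 5) (3 / 5) wz).re - qp| ≤ d ∧
  |Real.exp (17 / 2 * N) * (zOpen (N - 1) (17 / 2) (3 / 5) (-(3 / 5)) wz).re - qm| ≤ d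

/-- table, ring with 6 sites -/
def Num6 : Prop := NumL 6 (918549899 * 10 ^ 39) (918549899 * 10 ^ 45) (295284895 * 10 ^ 45) (675952862 * 10 ^ 44) (910567611 * 10 ^ 45) (293820289 * 10 ^ 45) (675690694 * 10 ^ 44) (-616550453 * 10 ^ 44)

/-- table, ring with 7 sites -/
def Num7 : Prop := NumL 7 (182551959 * 10 ^ 48) (150715543 * 10 ^ 53) (642469413 * 10 ^ 53) (182551959 * 10 ^ 54) (149867553 * 10 ^ 53) (621706586 * 10 ^ 53) (174101423 * 10 ^ 54) (-178298251 * 10 ^ 54)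

/-- table, ring with 8 sites -/
def Num8 : Prop := NumL 8 (245892220 * 10 ^ 57) (245892220 * 10 ^ 63) (124152361 * 10 ^ 63) (539109550 * 10 ^ 62) (239677587 * 10 ^ 63) (122279463 * 10 ^ 63) (537789013 * 10 ^ 62) (-499493336 * 10 ^ 62)

/-- table, ring with 9 sites -/
def Num9 : Prop := NumL 9 (419745882 * 10 ^ 66) (198348111 * 10 ^ 71) (444020336 * 10 ^ 71) (839491765 * 10 ^ 71) (196046955 * 10 ^ 71) (424086665 * 10 ^ 71) (783864342 * 10 ^ 71) (-810772955 * 10 ^ 71)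

/-- table, ring with 10 sites (relative tolerance 1.8e-5; 6, 7, 8 sites: 1e-6; 9 sites: 5e-6) -/
def Num10 : Prop := NumL 10 (163543484 * 10 ^ 76) (908574912 * 10 ^ 80) (586270480 * 10 ^ 80) (351926916 * 10 ^ 80) (867979273 * 10 ^ 80) (569748366 * 10 ^ 80) (349248370 * 10 ^ 80) (-327338074 * 10 ^ 80)

/-- table, open chain with 2 sites -/
def NumOpen2 : Prop := NumO 2 (131740531 * 10 ^ 4) (603053342 * 10 ^ 6) (131740531 * 10 ^ 9) (564107840 * 10 ^ 6) (131738581 * 10 ^ 9)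

/-- table, open chain with 3 sites -/
def NumOpen3 : Prop := NumO 3 (520494678 * 10 ^ 12) (520494678 * 10 ^ 17) (291027556 * 10 ^ 15) (-519811680 * 10 ^ 17) (176178859 * 10 ^ 15)

/-- table, open chain with 4 sites -/
def NumOpen4 : Prop := NumO 4 (341170911 * 10 ^ 21) (571155441 * 10 ^ 24) (341170911 * 10 ^ 26) (-164716677 * 10 ^ 24) (340946205 * 10 ^ 26)

/-- table, open chain with 5 sites -/
def NumOpen5 : Prop := NumO 5 (193137527 * 10 ^ 30) (193137527 * 10 ^ 35) (771500509 * 10 ^ 33) (-192271697 * 10 ^ 35) (640615967 * 10 ^ 33)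

/-- table, open chain with 6 sites -/
def NumOpen6 : Prop := NumO 6 (125503839 * 10 ^ 39) (901742718 * 10 ^ 42) (125503839 * 10 ^ 44) (-701871992 * 10 ^ 42) (125049760 * 10 ^ 44)

/-- table, open chain with 7 sites -/
def NumOpen7 : Prop := NumO 7 (793001846 * 10 ^ 47) (793001846 * 10 ^ 52) (966562368 * 10 ^ 51) (-785569798 * 10 ^ 52) (862023882 * 10 ^ 51)

/-- table, open chain with 8 sites -/
def NumOpen8 : Prop := NumO 8 (527545152 * 10 ^ 56) (926282730 * 10 ^ 60) (527545152 * 10 ^ 61) (-814845610 * 10 ^ 60) (522549315 * 10 ^ 61)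

end Crest.Agent.R347
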