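import Crest.Agent.R347.LDefs
import Crest.Agent.R347.NumStmt

/-!
# Row 347, evaluation group E: tables of the normalised sector sums at `β = 17/2`

`TabS L v e …`: the seven sector sums at length `L` are within `e` of `v` (order A1, A2, B, PA1, PA2, PB, PE);
`TabO n v e v' e'`: `oR`, `oP` at `n`.

Piece E_NORM (1 h): `tab6 … tab10`, `tabO0 … tabO6` from `Num6 …`, `NumOpen2 …`:
`Zs (17/2) g w L = (exp(17/2 L) (zRing (L-1) (17/2) g w).re) * κ^L`, `κ = exp(17/2 (eV - 1)) = exp(-20.412529)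
= 1.36443010634216089104131866324979594868759796669491e-9`; `Zo (17/2) f f' w n = (exp(17/2 N) (zOpen (N-1) …).re) * κ^N * κ'`,
`N = n + 2`, `κ' = exp(17/2 · 403/1000) = exp(3.4255) = 30.7380100148994056886950623058045725639478869832663`.
The tables contain `wt · d · κ^L` (`wt` = 1, 3/4, 1/2, 1, 1, 1/2, 1/2) times `1.0001` plus `1e-8`, so the enclosures of `κ`, `κ'` need
relative accuracy about `5e-10` (`Real.exp_one_near_20` and a Taylor bound for `exp(0.412529)`, `exp(0.4255)`).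
-/

set_option autoImplicit false

open Crest.MathPhysics.SpinChain Matrix

namespace Crest.Agent.R347

def TabS (L : ℕ) (a1 e1 a2 e2 b e3 p1 f1 p2 f2 pb f3 pe f4 : ℝ) : Prop :=
  |sA1 (17 / 2) L - a1| ≤ e1 ∧ |sA2 (17 / 2) L - a2| ≤ e2 ∧ |sB (17 / 2) L - b| ≤ e3 ∧
  |sPA1 (17 / 2) L - p1| ≤ f1 ∧ |sPA2 (17 / 2) L - p2| ≤ f2 ∧ |sPB (17 / 2) L - pb| ≤ f3 ∧
  |sPE (17 / 2) L - pe| ≤ f4

def TabO (n : ℕ) (r e p f : ℝ) : Prop :=
  |oR (17 / 2) n - r| ≤ e ∧ |oP (17 / 2) n - p| ≤ f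

def Tab6 : Prop := TabS 6
    (14897289952 / 10 ^ 10) (59373 / 10 ^ 10) (10535907490 / 10 ^ 10) (44555 / 10 ^ 10) (3190414021 / 10 ^ 10) (29737 / 10 ^ 10)
    (10639330167 / 10 ^ 10) (59373 / 10 ^ 10) (14617436458 / 10 ^ 10) (59373 / 10 ^ 10) (3149448261 / 10 ^ 10) (29737 / 10 ^ 10) (13597986123 / 10 ^ 10) (29737 / 10 ^ 10)

def Tab7 : Prop := TabS 7
    (11624297651 / 10 ^ 10) (16173 / 10 ^ 10) (-4446800485 / 10 ^ 10) (12155 / 10 ^ 10) (760734838 / 10 ^ 10) (8137 / 10 ^ 10)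
    (-4399184903 / 10 ^ 10) (16173 / 10 ^ 10) (11297434871 / 10 ^ 10) (16173 / 10 ^ 10) (712504788 / 10 ^ 10) (8137 / 10 ^ 10) (-3501944670 / 10 ^ 10) (8137 / 10 ^ 10)

def Tab8 : Prop := TabS 8
    (11467600674 / 10 ^ 10) (29640 / 10 ^ 10) (4991890936 / 10 ^ 10) (22255 / 10 ^ 10) (773240415 / 10 ^ 10) (14870 / 10 ^ 10)
    (5078286300 / 10 ^ 10) (29640 / 10 ^ 10) (11078131526 / 10 ^ 10) (29640 / 10 ^ 10) (734188488 / 10 ^ 10) (14870 / 10 ^ 10) (5582473586 / 10 ^ 10) (14870 / 10 ^ 10)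

def Tab9 : Prop := TabS 9
    (10824851297 / 10 ^ 10) (68901 / 10 ^ 10) (-2933870294 / 10 ^ 10) (51701 / 10 ^ 10) (306888886 / 10 ^ 10) (34501 / 10 ^ 10)
    (-2898880434 / 10 ^ 10) (68901 / 10 ^ 10) (10389158623 / 10 ^ 10) (68901 / 10 ^ 10) (269887402 / 10 ^ 10) (34501 / 10 ^ 10) (-2408485739 / 10 ^ 10) (34501 / 10 ^ 10)

def Tab10 : Prop := TabS 10
    (10735914384 / 10 ^ 10) (365855 / 10 ^ 10) (2866083137 / 10 ^ 10) (274416 / 10 ^ 10) (245873914 / 10 ^ 10) (182978 / 10 ^ 10)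
    (2927682261 / 10 ^ 10) (365855 / 10 ^ 10) (10247654919 / 10 ^ 10) (365855 / 10 ^ 10) (217278476 / 10 ^ 10) (182978 / 10 ^ 10) (2899980424 / 10 ^ 10) (182978 / 10 ^ 10)

def TabO0 : Prop := TabO 0 (37866157071 / 10 ^ 10) (754048 / 10 ^ 10) (37531650885 / 10 ^ 10) (754048 / 10 ^ 10)

def TabO1 : Prop := TabO 1 (20433250604 / 10 ^ 10) (406534 / 10 ^ 10) (20361751107 / 10 ^ 10) (406534 / 10 ^ 10)

def TabO2 : Prop := TabO 2 (18477077216 / 10 ^ 10) (363594 / 10 ^ 10) (18248613912 / 10 ^ 10) (363594 / 10 ^ 10)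

def TabO3 : Prop := TabO 3 (14597535204 / 10 ^ 10) (280865 / 10 ^ 10) (14439484415 / 10 ^ 10) (280865 / 10 ^ 10)

def TabO4 : Prop := TabO 4 (13339650777 / 10 ^ 10) (249034 / 10 ^ 10) (13096422974 / 10 ^ 10) (249034 / 10 ^ 10)

def TabO5 : Prop := TabO 5 (12037268175 / 10 ^ 10) (214712 / 10 ^ 10) (11795268087 / 10 ^ 10) (214712 / 10 ^ 10)

def TabO6 : Prop := TabO 6 (11449044763 / 10 ^ 10) (194901 / 10 ^ 10) (11151091946 / 10 ^ 10) (194901 / 10 ^ 10)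

end Crest.Agent.R347
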