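import Crest.Agent.R347.EDefs

/-! # Row 347, piece E_NORM_R: enclosures of `κ = exp(17/2 (eV - 1)) = exp(-20.412529)` -/

set_option autoImplicit false

namespace Crest.Agent.R347

/-- `κ = exp(17/2 (eV - 1))` -/
noncomputable def kapS : ℝ := Real.exp (-(20412529 / 1000000))

theorem exp1_lo : (2.71828182845904523 : ℝ) ≤ Real.exp 1 := by
  have h := Real.exp_one_near_20
  rw [abs_le] at h
  have h1 := h.1
  norm_num at h1 ⊢
  linarith

theorem exp1_hi : Real.exp 1 ≤ (2.71828182845904524 : ℝ) := by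
  have h := Real.exp_one_near_20
  rw [abs_le] at h
  have h1 := h.2
  norm_num at h1 ⊢
  linarith

theorem exp412_lo : (1.5106333500396 : ℝ) ≤ Real.exp (412529 / 1000000) := by
  refine le_trans ?_ (Real.sum_le_exp_of_nonneg (x := 412529 / 1000000) (by norm_num) 14)
  simp only [Finset.sum_range_succ, Finset.sum_range_zero, Nat.factorial]
  norm_num

theorem exp412_hi : Real.exp (412529 / 1000000) ≤ (1.5106333500397 : ℝ) := by
  refine le_trans (Real.exp_bound' (x := 412529 / 1000000) (by norm_num) (by norm_num)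
    (n := 14) (by norm_num)) ?_
  simp only [Finset.sum_range_succ, Finset.sum_range_zero, Nat.factorial]
  norm_num

theorem kap_pos : 0 < kapS := Real.exp_pos _

theorem kap_inv : kapS * (Real.exp 1 ^ 20 * Real.exp (412529 / 1000000)) = 1 := by
  unfold kapS
  rw [← Real.exp_nat_mul, ← Real.exp_add, ← Real.exp_add, ← Real.exp_zero]
  congr 1
  norm_num

theorem kap_lo : (1364430106342 / 10 ^ 21 : ℝ) ≤ kapS := by
  have h := kap_inv
  have h1 : Real.exp 1 ^ 20 * Real.exp (412529 / 1000000) ≤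
      (2.71828182845904524 : ℝ) ^ 20 * 1.5106333500397 :=
    mul_le_mul (pow_le_pow_left₀ (Real.exp_pos 1).le exp1_hi 20) exp412_hi (Real.exp_pos _).le
      (by positivity)
  have h2 : (1364430106342 / 10 ^ 21 : ℝ) * ((2.71828182845904524 : ℝ) ^ 20 * 1.5106333500397) ≤ 1 := by
    norm_num
  by_contra hlt
  push Not at hlt
  have h3 : kapS * (Real.exp 1 ^ 20 * Real.exp (412529 / 1000000)) <
      (1364430106342 / 10 ^ 21 : ℝ) * ((2.71828182845904524 : ℝ) ^ 20 * 1.5106333500397) :=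
    mul_lt_mul hlt h1 (by positivity) (by positivity)
  rw [h] at h3
  exact absurd h2 (not_le.2 h3)

theorem kap_hi : kapS ≤ (1364430106343 / 10 ^ 21 : ℝ) := by
  have h := kap_inv
  have h1 : (2.71828182845904523 : ℝ) ^ 20 * 1.5106333500396 ≤
      Real.exp 1 ^ 20 * Real.exp (412529 / 1000000) :=
    mul_le_mul (pow_le_pow_left₀ (by norm_num) exp1_lo 20) exp412_lo (by norm_num)
      (by positivity)
  have h2 : 1 ≤ (1364430106343 / 10 ^ 21 : ℝ) * ((2.71828182845904523 : ℝ) ^ 20 * 1.5106333500396) := by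
    norm_num
  by_contra hlt
  push Not at hlt
  have h3 : (1364430106343 / 10 ^ 21 : ℝ) * ((2.71828182845904523 : ℝ) ^ 20 * 1.5106333500396) <
      kapS * (Real.exp 1 ^ 20 * Real.exp (412529 / 1000000)) :=
    mul_lt_mul hlt h1 (by norm_num) kap_pos.le
  rw [h] at h3
  exact absurd h2 (not_le.2 h3)

/-- powers -/
theorem kap_pow (L : ℕ) : (1364430106342 / 10 ^ 21 : ℝ) ^ L ≤ kapS ^ L ∧
    kapS ^ L ≤ (1364430106343 / 10 ^ 21 : ℝ) ^ L :=
  ⟨pow_le_pow_left₀ (by norm_num) kap_lo L, pow_le_pow_left₀ kap_pos.le kap_hi L⟩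

/-- `exp(17/2 L) κ^L = exp(17/2 L eV)` -/
theorem exp_kap (L : ℕ) : Real.exp (17 / 2 * L * eV) = Real.exp (17 / 2 * L) * kapS ^ L := by
  unfold kapS eV
  rw [← Real.exp_nat_mul, ← Real.exp_add]
  congr 1
  ring

theorem Zs_eq (g : Matrix (Fin 3) (Fin 3) ℝ) (w : Matrix (Fin 3) (Fin 3) ℂ) (L : ℕ) :
    Zs (17 / 2) g w L = (Real.exp (17 / 2 * L) * (zRing (L - 1) (17 / 2) g w).re) * kapS ^ L := by
  unfold Zs
  rw [exp_kap]
  ring

/-- the arithmetic check -/
def Chk (δ S0 v e lo hi : ℝ) : Prop :=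
  δ * hi + (S0 * lo - v) ≤ e ∧ δ * hi - (S0 * lo - v) ≤ e ∧
  δ * hi + (S0 * hi - v) ≤ e ∧ δ * hi - (S0 * hi - v) ≤ e

theorem chk_bound {δ S0 v e lo hi S u : ℝ} (hlo : 0 ≤ lo) (h1 : lo ≤ u) (h2 : u ≤ hi)
    (hS1 : S0 - δ ≤ S) (hS2 : S ≤ S0 + δ) (hc : Chk δ S0 v e lo hi) : |S * u - v| ≤ e := by
  obtain ⟨c1, c2, c3, c4⟩ := hc
  have hu : 0 ≤ u := hlo.trans h1
  have hδ : 0 ≤ δ := by linarith
  have hδu : δ * u ≤ δ * hi := mul_le_mul_of_nonneg_left h2 hδ
  have a1 : S * u ≤ S0 * u + δ * u := by nlinarith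
  have a2 : S0 * u - δ * u ≤ S * u := by nlinarith
  rw [abs_le]
  rcases le_total 0 S0 with h | h
  · have b1 : S0 * u ≤ S0 * hi := mul_le_mul_of_nonneg_left h2 h
    have b2 : S0 * lo ≤ S0 * u := mul_le_mul_of_nonneg_left h1 h
    constructor <;> linarith
  · have b1 : S0 * hi ≤ S0 * u := mul_le_mul_of_nonpos_left h2 h
    have b2 : S0 * u ≤ S0 * lo := mul_le_mul_of_nonpos_left h1 h
    constructor <;> linarith

end Crest.Agent.R347
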