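import Crest.Agent.R347.EDefs

/-! # Row 347, piece E_NORM_O: normalised tables of the open chains -/

set_option autoImplicit false

open Crest.MathPhysics.SpinChain Matrix

namespace Crest.Agent.R347

/-! ## enclosures of the two constants -/

private theorem e1_lo : (27182818284590 / 10 ^ 13 : ℝ) ≤ Real.exp 1 := by
  have h := Real.exp_one_near_20
  rw [abs_le] at h
  have h1 := h.1
  norm_num at h1 ⊢
  linarith

private theorem e1_hi : Real.exp 1 ≤ (27182818284591 / 10 ^ 13 : ℝ) := by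
  have h := Real.exp_one_near_20
  rw [abs_le] at h
  have h1 := h.2
  norm_num at h1 ⊢
  linarith

private theorem t1 : |Real.exp (412529 / 1000000) -
    ∑ m ∈ Finset.range 13, (412529 / 1000000 : ℝ) ^ m / (m.factorial : ℝ)| ≤
    |(412529 / 1000000 : ℝ)| ^ 13 * ((Nat.succ 13 : ℕ) / ((Nat.factorial 13 : ℕ) * (13 : ℕ))) :=
  Real.exp_bound (by rw [abs_le]; constructor <;> norm_num) (by norm_num)

private theorem t2 : |Real.exp (4255 / 10000) -
    ∑ m ∈ Finset.range 13, (4255 / 10000 : ℝ) ^ m / (m.factorial : ℝ)| ≤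
    |(4255 / 10000 : ℝ)| ^ 13 * ((Nat.succ 13 : ℕ) / ((Nat.factorial 13 : ℕ) * (13 : ℕ))) :=
  Real.exp_bound (by rw [abs_le]; constructor <;> norm_num) (by norm_num)

private theorem x1_bd : (15106333500395 / 10 ^ 13 : ℝ) ≤ Real.exp (412529 / 1000000) ∧
    Real.exp (412529 / 1000000) ≤ (15106333500397 / 10 ^ 13 : ℝ) := by
  have h := t1
  rw [abs_le] at h
  obtain ⟨h1, h2⟩ := h
  simp only [Finset.sum_range_succ, Finset.sum_range_zero, Nat.factorial] at h1 h2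
  rw [abs_of_nonneg (by norm_num)] at h1 h2
  norm_num at h1 h2 ⊢
  constructor <;> linarith

private theorem x2_bd : (15303554061038 / 10 ^ 13 : ℝ) ≤ Real.exp (4255 / 10000) ∧
    Real.exp (4255 / 10000) ≤ (15303554061040 / 10 ^ 13 : ℝ) := by
  have h := t2
  rw [abs_le] at h
  obtain ⟨h1, h2⟩ := h
  simp only [Finset.sum_range_succ, Finset.sum_range_zero, Nat.factorial] at h1 h2
  rw [abs_of_nonneg (by norm_num)] at h1 h2
  norm_num at h1 h2 ⊢
  constructor <;> linarith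

private theorem exp_split1 : Real.exp (20412529 / 1000000) =
    Real.exp 1 ^ 20 * Real.exp (412529 / 1000000) := by
  rw [← Real.exp_nat_mul, ← Real.exp_add]
  norm_num

private theorem exp_split2 : Real.exp (34255 / 10000) =
    Real.exp 1 ^ 3 * Real.exp (4255 / 10000) := by
  rw [← Real.exp_nat_mul, ← Real.exp_add]
  norm_num

/-- `κ` -/
private noncomputable def kO : ℝ := Real.exp (17 / 2 * (eV - 1))

/-- `κ'` -/
private noncomputable def kO' : ℝ := Real.exp (17 / 2 * (403 / 1000))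

private theorem kO_bd : (13644301063 / 10 ^ 19 : ℝ) ≤ kO ∧ kO ≤ 13644301064 / 10 ^ 19 := by
  have h0 : kO = (Real.exp (20412529 / 1000000))⁻¹ := by
    unfold kO eV
    rw [← Real.exp_neg]
    norm_num
  have hp : 0 < Real.exp 1 ^ 20 := by positivity
  have hlo : (27182818284590 / 10 ^ 13 : ℝ) ^ 20 ≤ Real.exp 1 ^ 20 :=
    pow_le_pow_left₀ (by norm_num) e1_lo 20
  have hhi : Real.exp 1 ^ 20 ≤ (27182818284591 / 10 ^ 13 : ℝ) ^ 20 :=
    pow_le_pow_left₀ (Real.exp_pos 1).le e1_hi 20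
  have hL : (27182818284590 / 10 ^ 13 : ℝ) ^ 20 * (15106333500395 / 10 ^ 13) ≤
      Real.exp (20412529 / 1000000) := by
    rw [exp_split1]
    exact mul_le_mul hlo x1_bd.1 (by norm_num) hp.le
  have hU : Real.exp (20412529 / 1000000) ≤
      (27182818284591 / 10 ^ 13 : ℝ) ^ 20 * (15106333500397 / 10 ^ 13) := by
    rw [exp_split1]
    exact mul_le_mul hhi x1_bd.2 (Real.exp_pos _).le (by positivity)
  rw [h0]
  constructor
  · rw [le_inv_comm₀ (by norm_num) (Real.exp_pos _)]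
    refine hU.trans ?_
    norm_num
  · rw [inv_le_comm₀ (Real.exp_pos _) (by norm_num)]
    refine le_trans ?_ hL
    norm_num

private theorem kO'_bd : (30738010014 / 10 ^ 9 : ℝ) ≤ kO' ∧ kO' ≤ 30738010016 / 10 ^ 9 := by
  have h0 : kO' = Real.exp (34255 / 10000) := by
    unfold kO'
    norm_num
  have hp : 0 < Real.exp 1 ^ 3 := by positivity
  have hlo : (27182818284590 / 10 ^ 13 : ℝ) ^ 3 ≤ Real.exp 1 ^ 3 :=
    pow_le_pow_left₀ (by norm_num) e1_lo 3
  have hhi : Real.exp 1 ^ 3 ≤ (27182818284591 / 10 ^ 13 : ℝ) ^ 3 :=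
    pow_le_pow_left₀ (Real.exp_pos 1).le e1_hi 3
  rw [h0, exp_split2]
  constructor
  · refine le_trans ?_ (mul_le_mul hlo x2_bd.1 (by norm_num) hp.le)
    norm_num
  · refine le_trans (mul_le_mul hhi x2_bd.2 (Real.exp_pos _).le (by positivity)) ?_
    norm_num

/-! ## the general step -/

private theorem key (X d a c clo chi r e : ℝ) (hX : |X - a| ≤ d) (h0 : 0 ≤ a - d) (hc0 : 0 ≤ clo)
    (hc : clo ≤ c) (hc' : c ≤ chi) (h1 : r - e ≤ (a - d) * clo) (h2 : (a + d) * chi ≤ r + e) :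
    |X * c - r| ≤ e := by
  rw [abs_le] at hX ⊢
  obtain ⟨hX1, hX2⟩ := hX
  have hd : a - d ≤ X := by linarith
  have hu : X ≤ a + d := by linarith
  have hX0 : 0 ≤ X := h0.trans hd
  constructor
  · have : (a - d) * clo ≤ X * c := mul_le_mul hd hc hc0 hX0
    linarith
  · have : X * c ≤ (a + d) * chi := mul_le_mul hu hc' (hc0.trans hc) (hX0.trans hu)
    linarith

private theorem Zo_eq (f₀ f₁ : ℝ) (w : Matrix (Fin 3) (Fin 3) ℂ) (n : ℕ) :
    Zo (17 / 2) f₀ f₁ w n = (Real.exp (17 / 2 * ((n + 2 : ℕ) : ℝ)) *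
      (zOpen (n + 2 - 1) (17 / 2) f₀ f₁ w).re) * (kO ^ (n + 2) * kO') := by
  have h1 : Real.exp (17 / 2 * (((n : ℝ) + 2) * eV + 403 / 1000)) =
      Real.exp (17 / 2 * ((n + 2 : ℕ) : ℝ)) * (kO ^ (n + 2) * kO') := by
    unfold kO kO'
    rw [← Real.exp_nat_mul, ← Real.exp_add, ← Real.exp_add]
    congr 1
    push_cast
    ring
  unfold Zo
  rw [h1]
  show (zOpen (n + 1) (17 / 2) f₀ f₁ w).re * _ = _
  have h2 : n + 2 - 1 = n + 1 := rfl
  rw [h2]
  ring

private theorem tabO_of (n : ℕ) (d pp pm qp qm r e p f : ℝ) (h : NumO (n + 2) d pp pm qp qm)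
    (h0 : 0 ≤ (pm + pp) / 2 - d)
    (h1 : r - e ≤ ((pm + pp) / 2 - d) *
      ((13644301063 / 10 ^ 19) ^ (n + 2) * (30738010014 / 10 ^ 9)))
    (h2 : ((pm + pp) / 2 + d) *
      ((13644301064 / 10 ^ 19) ^ (n + 2) * (30738010016 / 10 ^ 9)) ≤ r + e)
    (h0' : 0 ≤ (qm - qp) / 2 - d)
    (h1' : p - f ≤ ((qm - qp) / 2 - d) *
      ((13644301063 / 10 ^ 19) ^ (n + 2) * (30738010014 / 10 ^ 9)))
    (h2' : ((qm - qp) / 2 + d) *
      ((13644301064 / 10 ^ 19) ^ (n + 2) * (30738010016 / 10 ^ 9)) ≤ p + f) :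
    TabO n r e p f := by
  obtain ⟨a1, a2, a3, a4⟩ := h
  have hk := kO_bd
  have hk' := kO'_bd
  have hclo : (13644301063 / 10 ^ 19 : ℝ) ^ (n + 2) * (30738010014 / 10 ^ 9) ≤
      kO ^ (n + 2) * kO' :=
    mul_le_mul (pow_le_pow_left₀ (by norm_num) hk.1 _) hk'.1 (by norm_num)
      (pow_nonneg ((by norm_num : (0 : ℝ) ≤ 13644301063 / 10 ^ 19).trans hk.1) _)
  have hchi : kO ^ (n + 2) * kO' ≤
      (13644301064 / 10 ^ 19 : ℝ) ^ (n + 2) * (30738010016 / 10 ^ 9) :=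
    mul_le_mul (pow_le_pow_left₀ ((by norm_num : (0 : ℝ) ≤ 13644301063 / 10 ^ 19).trans hk.1) hk.2 _)
      hk'.2 ((by norm_num : (0 : ℝ) ≤ 30738010014 / 10 ^ 9).trans hk'.1) (by positivity)
  have hc0 : (0 : ℝ) ≤ (13644301063 / 10 ^ 19 : ℝ) ^ (n + 2) * (30738010014 / 10 ^ 9) := by
    positivity
  constructor
  · have e1 : oR (17 / 2) n = ((Real.exp (17 / 2 * ((n + 2 : ℕ) : ℝ)) *
        (zOpen (n + 2 - 1) (17 / 2) (3 / 5) (-(3 / 5)) 1).re + Real.exp (17 / 2 * ((n + 2 : ℕ) : ℝ)) *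
        (zOpen (n + 2 - 1) (17 / 2) (3 / 5) (3 / 5) 1).re) / 2) * (kO ^ (n + 2) * kO') := by
      unfold oR
      rw [Zo_eq, Zo_eq]
      ring
    rw [e1]
    refine key _ d ((pm + pp) / 2) _ _ _ r e ?_ h0 hc0 hclo hchi h1 h2
    rw [abs_le] at a1 a2 ⊢
    constructor <;> linarith [a1.1, a1.2, a2.1, a2.2]
  · have e1 : oP (17 / 2) n = ((Real.exp (17 / 2 * ((n + 2 : ℕ) : ℝ)) *
        (zOpen (n + 2 - 1) (17 / 2) (3 / 5) (-(3 / 5)) wz).re - Real.exp (17 / 2 * ((n + 2 : ℕ) : ℝ)) *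
        (zOpen (n + 2 - 1) (17 / 2) (3 / 5) (3 / 5) wz).re) / 2) * (kO ^ (n + 2) * kO') := by
      unfold oP
      rw [Zo_eq, Zo_eq]
      ring
    rw [e1]
    refine key _ d ((qm - qp) / 2) _ _ _ p f ?_ h0' hc0 hclo hchi h1' h2'
    rw [abs_le] at a3 a4 ⊢
    constructor <;> linarith [a3.1, a3.2, a4.1, a4.2]

theorem tabO0 (h : NumOpen2) : TabO0 :=
  tabO_of 0 _ _ _ _ _ _ _ _ _ h (by norm_num) (by norm_num) (by norm_num) (by norm_num)
    (by norm_num) (by norm_num)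

theorem tabO1 (h : NumOpen3) : TabO1 :=
  tabO_of 1 _ _ _ _ _ _ _ _ _ h (by norm_num) (by norm_num) (by norm_num) (by norm_num)
    (by norm_num) (by norm_num)

theorem tabO2 (h : NumOpen4) : TabO2 :=
  tabO_of 2 _ _ _ _ _ _ _ _ _ h (by norm_num) (by norm_num) (by norm_num) (by norm_num)
    (by norm_num) (by norm_num)

theorem tabO3 (h : NumOpen5) : TabO3 :=
  tabO_of 3 _ _ _ _ _ _ _ _ _ h (by norm_num) (by norm_num) (by norm_num) (by norm_num)
    (by norm_num) (by norm_num)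

theorem tabO4 (h : NumOpen6) : TabO4 :=
  tabO_of 4 _ _ _ _ _ _ _ _ _ h (by norm_num) (by norm_num) (by norm_num) (by norm_num)
    (by norm_num) (by norm_num)

theorem tabO5 (h : NumOpen7) : TabO5 :=
  tabO_of 5 _ _ _ _ _ _ _ _ _ h (by norm_num) (by norm_num) (by norm_num) (by norm_num)
    (by norm_num) (by norm_num)

theorem tabO6 (h : NumOpen8) : TabO6 :=
  tabO_of 6 _ _ _ _ _ _ _ _ _ h (by norm_num) (by norm_num) (by norm_num) (by norm_num)
    (by norm_num) (by norm_num)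

end Crest.Agent.R347
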