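import Crest.Agent.R347.EKappa

/-! # Row 347, piece E_NORM_R: tables of the ring -/

set_option autoImplicit false

open Crest.MathPhysics.SpinChain Matrix

namespace Crest.Agent.R347

theorem tab_of_num {L : ℕ} {d a0 a1 a2 b0 b1 b2 dd : ℝ} (h : NumL L d a0 a1 a2 b0 b1 b2 dd)
    {v1 e1 v2 e2 v3 e3 p1 f1 p2 f2 p3 f3 p4 f4 : ℝ} {lo hi : ℝ} (hlo : 0 ≤ lo)
    (hk : lo ≤ kapS ^ L ∧ kapS ^ L ≤ hi)
    (c1 : Chk d ((a0 + 5 * a2 + 2 * a1) / 8) v1 e1 lo hi)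
    (c2 : Chk (3 / 4 * d) ((a0 - 3 * a2 + 2 * a1) / 8) v2 e2 lo hi)
    (c3 : Chk (d / 2) ((a0 + a2 - 2 * a1) / 8) v3 e3 lo hi)
    (c4' : Chk d ((b0 + b2 + 2 * b1 + 4 * dd) / 8) p1 f1 lo hi)
    (c5 : Chk d ((b0 + b2 + 2 * b1 - 4 * dd) / 8) p2 f2 lo hi)
    (c6 : Chk (d / 2) ((b0 + b2 - 2 * b1) / 8) p3 f3 lo hi)
    (c7 : Chk (d / 2) ((b0 - b2) / 4) p4 f4 lo hi) :
    TabS L v1 e1 v2 e2 v3 e3 p1 f1 p2 f2 p3 f3 p4 f4 := by
  obtain ⟨h1, h2, h3, h4, h5, h6, h7⟩ := h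
  rw [abs_le] at h1 h2 h3 h4 h5 h6 h7
  refine ⟨?_, ?_, ?_, ?_, ?_, ?_, ?_⟩
  · have := chk_bound (S := (Real.exp (17 / 2 * L) * (zRing (L - 1) (17 / 2) 1 1).re +
      5 * (Real.exp (17 / 2 * L) * (zRing (L - 1) (17 / 2) pz 1).re) +
      2 * (Real.exp (17 / 2 * L) * (zRing (L - 1) (17 / 2) c4 1).re)) / 8) hlo hk.1 hk.2
      (by linarith [h1.1, h2.1, h3.1]) (by linarith [h1.2, h2.2, h3.2]) c1
    unfold sA1
    rw [Zs_eq, Zs_eq, Zs_eq]
    convert this using 2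
    ring
  · have := chk_bound (S := (Real.exp (17 / 2 * L) * (zRing (L - 1) (17 / 2) 1 1).re -
      3 * (Real.exp (17 / 2 * L) * (zRing (L - 1) (17 / 2) pz 1).re) +
      2 * (Real.exp (17 / 2 * L) * (zRing (L - 1) (17 / 2) c4 1).re)) / 8) hlo hk.1 hk.2
      (by linarith [h1.1, h2.1, h3.2]) (by linarith [h1.2, h2.2, h3.1]) c2
    unfold sA2
    rw [Zs_eq, Zs_eq, Zs_eq]
    convert this using 2
    ring
  · have := chk_bound (S := (Real.exp (17 / 2 * L) * (zRing (L - 1) (17 / 2) 1 1).re +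
      (Real.exp (17 / 2 * L) * (zRing (L - 1) (17 / 2) pz 1).re) -
      2 * (Real.exp (17 / 2 * L) * (zRing (L - 1) (17 / 2) c4 1).re)) / 8) hlo hk.1 hk.2
      (by linarith [h1.1, h2.2, h3.1]) (by linarith [h1.2, h2.1, h3.2]) c3
    unfold sB
    rw [Zs_eq, Zs_eq, Zs_eq]
    convert this using 2
    ring
  · have := chk_bound (S := (Real.exp (17 / 2 * L) * (zRing (L - 1) (17 / 2) 1 wz).re +
      (Real.exp (17 / 2 * L) * (zRing (L - 1) (17 / 2) pz wz).re) +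
      2 * (Real.exp (17 / 2 * L) * (zRing (L - 1) (17 / 2) c4 wz).re) +
      4 * (Real.exp (17 / 2 * L) * (zRing (L - 1) (17 / 2) pz wx).re)) / 8) hlo hk.1 hk.2
      (by linarith [h4.1, h5.1, h6.1, h7.1]) (by linarith [h4.2, h5.2, h6.2, h7.2]) c4'
    unfold sPA1
    rw [Zs_eq, Zs_eq, Zs_eq, Zs_eq]
    convert this using 2
    ring
  · have := chk_bound (S := (Real.exp (17 / 2 * L) * (zRing (L - 1) (17 / 2) 1 wz).re +
      (Real.exp (17 / 2 * L) * (zRing (L - 1) (17 / 2) pz wz).re) +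
      2 * (Real.exp (17 / 2 * L) * (zRing (L - 1) (17 / 2) c4 wz).re) -
      4 * (Real.exp (17 / 2 * L) * (zRing (L - 1) (17 / 2) pz wx).re)) / 8) hlo hk.1 hk.2
      (by linarith [h4.1, h5.1, h6.1, h7.2]) (by linarith [h4.2, h5.2, h6.2, h7.1]) c5
    unfold sPA2
    rw [Zs_eq, Zs_eq, Zs_eq, Zs_eq]
    convert this using 2
    ring
  · have := chk_bound (S := (Real.exp (17 / 2 * L) * (zRing (L - 1) (17 / 2) 1 wz).re +
      (Real.exp (17 / 2 * L) * (zRing (L - 1) (17 / 2) pz wz).re) -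
      2 * (Real.exp (17 / 2 * L) * (zRing (L - 1) (17 / 2) c4 wz).re)) / 8) hlo hk.1 hk.2
      (by linarith [h4.1, h5.2, h6.1]) (by linarith [h4.2, h5.1, h6.2]) c6
    unfold sPB
    rw [Zs_eq, Zs_eq, Zs_eq]
    convert this using 2
    ring
  · have := chk_bound (S := (Real.exp (17 / 2 * L) * (zRing (L - 1) (17 / 2) 1 wz).re -
      (Real.exp (17 / 2 * L) * (zRing (L - 1) (17 / 2) pz wz).re)) / 4) hlo hk.1 hk.2
      (by linarith [h4.1, h6.2]) (by linarith [h4.2, h6.1]) c7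
    unfold sPE
    rw [Zs_eq, Zs_eq]
    convert this using 2
    ring

theorem tab6 (h : Num6) : Tab6 := by
  refine tab_of_num h (by positivity) (kap_pow 6) ?_ ?_ ?_ ?_ ?_ ?_ ?_ <;> unfold Chk <;> norm_num

theorem tab7 (h : Num7) : Tab7 := by
  refine tab_of_num h (by positivity) (kap_pow 7) ?_ ?_ ?_ ?_ ?_ ?_ ?_ <;> unfold Chk <;> norm_num

theorem tab8 (h : Num8) : Tab8 := by
  refine tab_of_num h (by positivity) (kap_pow 8) ?_ ?_ ?_ ?_ ?_ ?_ ?_ <;> unfold Chk <;> norm_num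

theorem tab9 (h : Num9) : Tab9 := by
  refine tab_of_num h (by positivity) (kap_pow 9) ?_ ?_ ?_ ?_ ?_ ?_ ?_ <;> unfold Chk <;> norm_num

theorem tab10 (h : Num10) : Tab10 := by
  refine tab_of_num h (by positivity) (kap_pow 10) ?_ ?_ ?_ ?_ ?_ ?_ ?_ <;> unfold Chk <;> norm_num

end Crest.Agent.R347
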