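import Crest.Agent.R347.EDefs
import Crest.Agent.R347.ENormR
import Crest.Agent.R347.ENormO

/-! # Row 347, piece E_NORM (see the header of `EDefs.lean`): `ENormR.lean`, `ENormO.lean` -/
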