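import Crest.Agent.R347.ERing

/-!
# Row 347, piece E_OPEN_LOW: `v4_lower`, `E_open_low` (description in the header of EBase.lean)
-/

set_option autoImplicit false

open Crest.MathPhysics.SpinChain Matrix Filter Topology

namespace Crest.Agent.R347

/-- lower bound for the twisted sum from the levels -/
theorem v4_lower {f fp : ℝ → ℝ} (h : V4Lev f fp) (h1 : ∀ β, 0 < β → 1 ≤ f β) {β₀ U : ℝ}
    (hβ : 0 < β₀) (hU : f β₀ ≤ U) (hU3 : U < 3) : (4 - U) / 3 ≤ fp β₀ := by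
  obtain ⟨k, l, x, y, hx, hy, hf⟩ := h
  -- a level `≥ 1`
  have h2 : (∃ i, 1 ≤ x i) ∨ ∃ j, 1 ≤ y j := by
    by_contra hcon
    push Not at hcon
    obtain ⟨hx1, hy1⟩ := hcon
    have hlim : Tendsto (fun β : ℝ => ∑ i, x i ^ β + 3 * ∑ i, y i ^ β) atTop
        (𝓝 (∑ _i : Fin k, (0 : ℝ) + 3 * ∑ _i : Fin l, (0 : ℝ))) := by
      refine Tendsto.add (tendsto_finsetSum _ fun i _ => ?_)
        (Tendsto.const_mul 3 (tendsto_finsetSum _ fun i _ => ?_))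
      · exact tendsto_rpow_atTop_of_base_lt_one _ (by linarith [hx i]) (hx1 i)
      · exact tendsto_rpow_atTop_of_base_lt_one _ (by linarith [hy i]) (hy1 i)
    have h2 : (1 : ℝ) ≤ ∑ _i : Fin k, (0 : ℝ) + 3 * ∑ _i : Fin l, (0 : ℝ) := by
      refine ge_of_tendsto hlim ?_
      filter_upwards [eventually_gt_atTop (0 : ℝ)] with β hβ
      rw [← (hf β hβ).1]
      exact h1 β hβ
    simp at h2
    linarith
  obtain ⟨hf1, hf2⟩ := hf β₀ hβ
  have hxb : ∀ i, 0 < x i ^ β₀ := fun i => Real.rpow_pos_of_pos (hx i) β₀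
  have hyb : ∀ i, 0 < y i ^ β₀ := fun i => Real.rpow_pos_of_pos (hy i) β₀
  have hX0 : 0 ≤ ∑ i, x i ^ β₀ := Finset.sum_nonneg fun i _ => (hxb i).le
  have hX1 : 1 ≤ ∑ i, x i ^ β₀ := by
    rcases h2 with ⟨i, hi⟩ | ⟨j, hj⟩
    · exact (Real.one_le_rpow hi hβ.le).trans
        (Finset.single_le_sum (f := fun i => x i ^ β₀) (fun i _ => (hxb i).le) (Finset.mem_univ i))
    · exfalso
      have h3 : 1 ≤ y j ^ β₀ := Real.one_le_rpow hj hβ.le
      have h4 : y j ^ β₀ ≤ ∑ i, y i ^ β₀ :=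
        Finset.single_le_sum (f := fun i => y i ^ β₀) (fun i _ => (hyb i).le) (Finset.mem_univ j)
      linarith
  rw [hf2]
  linarith

/-- the polynomial `λ (x + 0.31)² (x - 0.46)² (x² - 0.733²)` -/
noncomputable def pLow (l : ℝ) : Fin 7 → ℝ :=
  ![l * (-(2033476 / 10 ^ 8) * (537289 / 10 ^ 6)), l * (-(4278 / 10 ^ 5) * (537289 / 10 ^ 6)),
    l * (2033476 / 10 ^ 8 + 2627 / 10 ^ 4 * (537289 / 10 ^ 6)),
    l * (4278 / 10 ^ 5 + 3 / 10 * (537289 / 10 ^ 6)),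
    l * (-(2627 / 10 ^ 4) - 537289 / 10 ^ 6), l * (-(3 / 10)), l]

theorem pLow_eq (l x : ℝ) : ∑ k : Fin 7, pLow l k * x ^ (k : ℕ) =
    l * ((x + 31 / 100) ^ 2 * (x - 46 / 100) ^ 2 * (x ^ 2 - (733 / 1000) ^ 2)) := by
  simp only [pLow, Fin.sum_univ_succ, Fin.sum_univ_zero]
  simp
  ring

theorem pLow_sum (l : ℝ) (O : ℕ → ℝ) : ∑ k : Fin 7, pLow l k * O k =
    l * (-(2033476 / 10 ^ 8) * (537289 / 10 ^ 6)) * O 0 +
    l * (-(4278 / 10 ^ 5) * (537289 / 10 ^ 6)) * O 1 +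
    l * (2033476 / 10 ^ 8 + 2627 / 10 ^ 4 * (537289 / 10 ^ 6)) * O 2 +
    l * (4278 / 10 ^ 5 + 3 / 10 * (537289 / 10 ^ 6)) * O 3 +
    l * (-(2627 / 10 ^ 4) - 537289 / 10 ^ 6) * O 4 + l * (-(3 / 10)) * O 5 + l * O 6 := by
  simp only [pLow, Fin.sum_univ_succ, Fin.sum_univ_zero]
  simp
  ring

theorem pLow_small {l x : ℝ} (hl : 0 ≤ l) {n : ℕ} (hn : Even n) (h : |x| ≤ 733 / 1000) :
    ∑ k : Fin 7, pLow l k * x ^ (k : ℕ) ≤ x ^ n := by
  rw [pLow_eq]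
  have h1 : x ^ 2 ≤ (733 / 1000) ^ 2 := by
    rw [← sq_abs x]
    exact pow_le_pow_left₀ (abs_nonneg x) h 2
  have h2 : 0 ≤ (x + 31 / 100) ^ 2 * (x - 46 / 100) ^ 2 := by positivity
  have h3 : (x + 31 / 100) ^ 2 * (x - 46 / 100) ^ 2 * (x ^ 2 - (733 / 1000) ^ 2) ≤ 0 :=
    mul_nonpos_of_nonneg_of_nonpos h2 (by linarith)
  have h4 : l * ((x + 31 / 100) ^ 2 * (x - 46 / 100) ^ 2 * (x ^ 2 - (733 / 1000) ^ 2)) ≤ 0 :=
    mul_nonpos_of_nonneg_of_nonpos hl h3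
  exact h4.trans (hn.pow_nonneg x)

theorem pLow_large {l x : ℝ} (hl : 0 ≤ l) {n : ℕ} (hn : 10 ≤ n)
    (hln : l * ((13081 / 10000) ^ 2 * (5381 / 10000) ^ 2 * ((9981 / 10000) ^ 2 - (733 / 1000) ^ 2)) ≤
      (9981 / 10000 : ℝ) ^ n) (h1 : 9981 / 10000 ≤ x) (h2 : x ≤ 99973 / 100000) :
    ∑ k : Fin 7, pLow l k * x ^ (k : ℕ) ≤ x ^ n := by
  rw [pLow_eq]
  obtain ⟨y, rfl⟩ : ∃ y, x = 9981 / 10000 + y := ⟨x - 9981 / 10000, by ring⟩
  have y0 : 0 ≤ y := by linarith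
  have y1 : y ≤ 163 / 100000 := by linarith
  have e1 : (9981 / 10000 + y + 31 / 100) ^ 2 ≤ (13081 / 10000) ^ 2 * (1 + 153 / 100 * y) := by
    nlinarith
  have e2 : (9981 / 10000 + y - 46 / 100) ^ 2 ≤ (5381 / 10000) ^ 2 * (1 + 373 / 100 * y) := by
    nlinarith
  have e3 : (9981 / 10000 + y) ^ 2 - (733 / 1000) ^ 2 ≤
      ((9981 / 10000) ^ 2 - (733 / 1000) ^ 2) * (1 + 436 / 100 * y) := by
    nlinarith
  have n2 : 0 ≤ (9981 / 10000 + y - 46 / 100) ^ 2 := sq_nonneg _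
  have n3 : 0 ≤ (9981 / 10000 + y) ^ 2 - (733 / 1000) ^ 2 := by nlinarith
  have e4 : (1 + 153 / 100 * y) * (1 + 373 / 100 * y) * (1 + 436 / 100 * y) ≤ 1 + 10 * y := by
    have q2 : y ^ 2 ≤ 163 / 100000 * y := by nlinarith
    have q3 : y ^ 3 ≤ 163 / 100000 * y := by
      have : y ^ 3 = y ^ 2 * y := by ring
      nlinarith
    nlinarith
  have e5 : (9981 / 10000 + y + 31 / 100) ^ 2 * (9981 / 10000 + y - 46 / 100) ^ 2 *
      ((9981 / 10000 + y) ^ 2 - (733 / 1000) ^ 2) ≤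
      ((13081 / 10000) ^ 2 * (5381 / 10000) ^ 2 * ((9981 / 10000) ^ 2 - (733 / 1000) ^ 2)) *
        (1 + 10 * y) := by
    calc _ ≤ ((13081 / 10000) ^ 2 * (1 + 153 / 100 * y)) * ((5381 / 10000) ^ 2 * (1 + 373 / 100 * y)) *
          (((9981 / 10000) ^ 2 - (733 / 1000) ^ 2) * (1 + 436 / 100 * y)) := by
          refine mul_le_mul (mul_le_mul e1 e2 n2 (by positivity)) e3 n3 (by positivity)
      _ = ((13081 / 10000) ^ 2 * (5381 / 10000) ^ 2 * ((9981 / 10000) ^ 2 - (733 / 1000) ^ 2)) *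
          ((1 + 153 / 100 * y) * (1 + 373 / 100 * y) * (1 + 436 / 100 * y)) := by ring
      _ ≤ _ := mul_le_mul_of_nonneg_left e4 (by norm_num)
  -- Bernoulli
  have hB := one_add_mul_le_pow (a := y / (9981 / 10000)) (by
    have : 0 ≤ y / (9981 / 10000) := by positivity
    linarith) n
  have hn' : (10 : ℝ) ≤ n := by exact_mod_cast hn
  have hB2 : 1 + 10 * y ≤ (1 + y / (9981 / 10000)) ^ n := by
    refine le_trans ?_ hB
    have : y ≤ y / (9981 / 10000) := by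
      rw [le_div_iff₀ (by norm_num)]
      nlinarith
    have h3 : 10 * y ≤ n * (y / (9981 / 10000)) := mul_le_mul hn' this y0 (by linarith)
    linarith
  have hsplit : (9981 / 10000 + y) ^ n = (9981 / 10000 : ℝ) ^ n * (1 + y / (9981 / 10000)) ^ n := by
    rw [← mul_pow]
    congr 1
    field_simp
  rw [hsplit]
  calc l * ((9981 / 10000 + y + 31 / 100) ^ 2 * (9981 / 10000 + y - 46 / 100) ^ 2 *
      ((9981 / 10000 + y) ^ 2 - (733 / 1000) ^ 2)) ≤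
      l * (((13081 / 10000) ^ 2 * (5381 / 10000) ^ 2 * ((9981 / 10000) ^ 2 - (733 / 1000) ^ 2)) *
        (1 + 10 * y)) := mul_le_mul_of_nonneg_left e5 hl
    _ = (l * ((13081 / 10000) ^ 2 * (5381 / 10000) ^ 2 * ((9981 / 10000) ^ 2 - (733 / 1000) ^ 2))) *
        (1 + 10 * y) := by ring
    _ ≤ (9981 / 10000 : ℝ) ^ n * (1 + y / (9981 / 10000)) ^ n :=
        mul_le_mul hln hB2 (by linarith) (by positivity)

theorem E_open_low (T : AllTab) (h68 : 8805 / 10000 ≤ Zs (17 / 2) 1 wz 68) :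
    913 / 1000 ≤ oP (17 / 2) 18 ∧ 856 / 1000 ≤ oP (17 / 2) 52 := by
  have hb := base_PA2 T
  have hPS := isPSO_sPA2 (17 / 2) (by norm_num)
  have h10 : sPA2 (17 / 2) 10 ≤ (9981 / 10000) ^ 10 + (732 / 1000) ^ 10 := by
    have h := T.t10.2.2.2.2.1
    rw [abs_le] at h
    have h1 : (10247654919 / 10 ^ 10 : ℝ) + 365855 / 10 ^ 10 ≤
      (9981 / 10000) ^ 10 + (732 / 1000) ^ 10 := by norm_num
    linarith [h.2]
  have hsplit : Zs (17 / 2) 1 wz 68 = sPA1 (17 / 2) 68 + sPA2 (17 / 2) 68 + 2 * sPB (17 / 2) 68 +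
      2 * sPE (17 / 2) 68 := by
    simp only [sPA1, sPA2, sPB, sPE]
    ring
  have hrest := (E_ring T).2.2.2.2
  have h68' : (9981 / 10000 : ℝ) ^ 68 + (732 / 1000) ^ 68 < sPA2 (17 / 2) 68 := by
    have h1 : (9981 / 10000 : ℝ) ^ 68 + (732 / 1000) ^ 68 < 8787 / 10000 := by norm_num
    linarith
  have low : ∀ (l : ℝ) (n : ℕ), 0 ≤ l → Even n → 10 ≤ n →
      l * ((13081 / 10000) ^ 2 * (5381 / 10000) ^ 2 * ((9981 / 10000) ^ 2 - (733 / 1000) ^ 2)) ≤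
      (9981 / 10000 : ℝ) ^ n → ∑ k : Fin 7, pLow l k * oP (17 / 2) k ≤ oP (17 / 2) n := by
    intro l n hl hn hn10 hln
    refine hPS.poly_lower hb (a := 9981 / 10000) (s := 732 / 1000) (s' := 733 / 1000)
      (by norm_num) (by norm_num) (by norm_num) (by norm_num) h10 h68' (pLow l) n ?_
    rintro x (hx | ⟨hx1, hx2⟩)
    · exact pLow_small hl hn hx
    · exact pLow_large hl hn10 hln hx1 hx2
  have l18 := low (4250042 / 1000000) 18 (by norm_num) ⟨9, rfl⟩ (by norm_num) (by norm_num)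
  have l52 := low (3983924 / 1000000) 52 (by norm_num) ⟨26, rfl⟩ (by norm_num) (by norm_num)
  rw [pLow_sum] at l18 l52
  have o0 := abs_le.1 T.o0.2
  have o1 := abs_le.1 T.o1.2
  have o2 := abs_le.1 T.o2.2
  have o3 := abs_le.1 T.o3.2
  have o4 := abs_le.1 T.o4.2
  have o5 := abs_le.1 T.o5.2
  have o6 := abs_le.1 T.o6.2
  constructor
  · refine le_trans ?_ l18
    linarith [o0.1, o0.2, o1.1, o1.2, o2.1, o2.2, o3.1, o3.2, o4.1, o4.2, o5.1, o5.2, o6.1, o6.2]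
  · refine le_trans ?_ l52
    linarith [o0.1, o0.2, o1.1, o1.2, o2.1, o2.2, o3.1, o3.2, o4.1, o4.2, o5.1, o5.2, o6.1, o6.2]

end Crest.Agent.R347
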