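import Crest.Agent.R347.EDefs
import Crest.Agent.R347.RBase
import Crest.Agent.R347.LSecO
import Crest.Agent.R347.RPoly

/-!
# Row 347, piece E_OPEN_UP (helper83): upper bounds for the open-chain sums at `n = 18, 52`
-/

set_option autoImplicit false

open Crest.MathPhysics.SpinChain Matrix

namespace Crest.Agent.R347

/-- `poly_bound` for `A q(x)² + ε`, `q(x) = (x+a)(x-b)(x-c)`, coefficients expanded -/
theorem open_up_gen {z O : ℕ → ℝ} (h : IsPSO z O) {t tn r₁ r₂ r₁' r₂' : ℝ}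
    (hb : BaseHyp z t tn r₁ r₂ r₁' r₂') (A a b c ε : ℝ) (n : ℕ)
    (hp : ∀ x : ℝ, -tn ≤ x → x ≤ t →
      x ^ n ≤ A * ((x + a) ^ 2 * (x - b) ^ 2 * (x - c) ^ 2) + ε) :
    O n ≤ (A * (a * b * c) ^ 2 + ε) * O 0 + A * (2 * (b * c - a * b - a * c) * (a * b * c)) * O 1
      + A * ((b * c - a * b - a * c) ^ 2 + 2 * (a - b - c) * (a * b * c)) * O 2
      + A * (2 * (a * b * c) + 2 * (a - b - c) * (b * c - a * b - a * c)) * O 3
      + A * ((a - b - c) ^ 2 + 2 * (b * c - a * b - a * c)) * O 4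
      + A * (2 * (a - b - c)) * O 5 + A * O 6 := by
  have key := h.poly_bound hb
    ![A * (a * b * c) ^ 2 + ε, A * (2 * (b * c - a * b - a * c) * (a * b * c)),
      A * ((b * c - a * b - a * c) ^ 2 + 2 * (a - b - c) * (a * b * c)),
      A * (2 * (a * b * c) + 2 * (a - b - c) * (b * c - a * b - a * c)),
      A * ((a - b - c) ^ 2 + 2 * (b * c - a * b - a * c)), A * (2 * (a - b - c)), A] n
    (by
      intro x h1 h2
      refine (hp x h1 h2).trans (le_of_eq ?_)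
      simp only [Fin.sum_univ_succ, Matrix.cons_val_zero, Matrix.cons_val_succ, Fin.val_zero,
        Fin.val_succ, Finset.univ_eq_empty, Finset.sum_empty]
      ring)
  refine key.trans (le_of_eq ?_)
  simp only [Fin.sum_univ_succ, Matrix.cons_val_zero, Matrix.cons_val_succ, Fin.val_zero,
    Fin.val_succ, Finset.univ_eq_empty, Finset.sum_empty]
  norm_num
  ring

theorem E_open_up_aux
    (hA : BaseHyp (sA1 (17 / 2)) (100451 / 100000) (6094 / 10000)
      (521 / 1000) (-(383 / 1000)) (976 / 1000) (176 / 1000))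
    (hP : BaseHyp (sPA2 (17 / 2)) (99973 / 100000) (6081 / 10000)
      (520 / 1000) (-(380 / 1000)) (970 / 1000) (176 / 1000))
    (o0 : TabO0) (o1 : TabO1) (o2 : TabO2) (o3 : TabO3) (o4 : TabO4) (o5 : TabO5) (o6 : TabO6) :
    oR (17 / 2) 18 ≤ 10727 / 10000 ∧ oR (17 / 2) 52 ≤ 12487 / 10000 ∧
    oP (17 / 2) 18 ≤ 98615 / 100000 ∧ oP (17 / 2) 52 ≤ 97595 / 100000 := by
  have a0 := abs_le.1 o0.1
  have a1 := abs_le.1 o1.1
  have a2 := abs_le.1 o2.1
  have a3 := abs_le.1 o3.1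
  have a4 := abs_le.1 o4.1
  have a5 := abs_le.1 o5.1
  have a6 := abs_le.1 o6.1
  have p0 := abs_le.1 o0.2
  have p1 := abs_le.1 o1.2
  have p2 := abs_le.1 o2.2
  have p3 := abs_le.1 o3.2
  have p4 := abs_le.1 o4.2
  have p5 := abs_le.1 o5.2
  have p6 := abs_le.1 o6.2
  have ho := isPSO_sA1 (17 / 2) (by norm_num)
  have hp := isPSO_sPA2 (17 / 2) (by norm_num)
  have u1 := open_up_gen ho hA _ _ _ _ _ 18 poly_A18
  have u2 := open_up_gen ho hA _ _ _ _ _ 52 poly_A52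
  have u3 := open_up_gen hp hP _ _ _ _ _ 18 poly_P18
  have u4 := open_up_gen hp hP _ _ _ _ _ 52 poly_P52
  refine ⟨?_, ?_, ?_, ?_⟩
  · clear u2 u3 u4 p0 p1 p2 p3 p4 p5 p6
    norm_num at u1
    linarith
  · clear u1 u3 u4 p0 p1 p2 p3 p4 p5 p6
    norm_num at u2
    linarith
  · clear u1 u2 u4 a0 a1 a2 a3 a4 a5 a6
    norm_num at u3
    linarith
  · clear u1 u2 u3 a0 a1 a2 a3 a4 a5 a6
    norm_num at u4
    linarith

end Crest.Agent.R347
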