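import Crest.Agent.R347.EBase

/-!
# Row 347, piece E_RING (helper49): the ring totals at `L = 34, 68`
-/

set_option autoImplicit false

open Crest.MathPhysics.SpinChain Matrix

namespace Crest.Agent.R347

theorem Zs_eq_sA (β : ℝ) (L : ℕ) : Zs β 1 1 L = sA1 β L + 3 * sA2 β L + 4 * sB β L := by
  unfold sA1 sA2 sB; ring

theorem Zs_eq_sP (β : ℝ) (L : ℕ) :
    Zs β 1 wz L = sPA1 β L + sPA2 β L + 2 * sPB β L + 2 * sPE β L := by
  unfold sPA1 sPA2 sPB sPE; ring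

theorem bd_A1 (T : AllTab) {L : ℕ} (hL : Even L) (h10 : 10 ≤ L) :
    sA1 (17 / 2) L ≤ (100451 / 100000) ^ L + (699 / 1000) ^ L := by
  refine (isPS_sA1 _ (by norm_num)).base_bound (base_A1 T) le_rfl (by norm_num) (by norm_num)
    (by norm_num) ?_ hL h10
  have h := (abs_le.1 T.t10.1).2
  have : (10735914384 / 10 ^ 10 + 365855 / 10 ^ 10 : ℝ) ≤ (100451 / 100000) ^ 10 + (699 / 1000) ^ 10 := by
    norm_num
  linarith

theorem bd_A2 (T : AllTab) {L : ℕ} (hL : Even L) (h10 : 10 ≤ L) :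
    sA2 (17 / 2) L ≤ (8632 / 10000) ^ L + (751 / 1000) ^ L := by
  refine (isPS_sA2 _ (by norm_num)).base_bound (base_A2 T) (by norm_num) le_rfl (by norm_num)
    (by norm_num) ?_ hL h10
  have h := (abs_le.1 T.t10.2.1).2
  have : (2866083137 / 10 ^ 10 + 274416 / 10 ^ 10 : ℝ) ≤ (8632 / 10000) ^ 10 + (751 / 1000) ^ 10 := by
    norm_num
  linarith

theorem bd_B (T : AllTab) {L : ℕ} (hL : Even L) (h10 : 10 ≤ L) :
    sB (17 / 2) L ≤ (67336 / 100000) ^ L + (594 / 1000) ^ L := by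
  refine (isPS_sB _ (by norm_num)).base_bound (base_B T) le_rfl (by norm_num) (by norm_num)
    (by norm_num) ?_ hL h10
  have h := (abs_le.1 T.t10.2.2.1).2
  have : (245873914 / 10 ^ 10 + 182978 / 10 ^ 10 : ℝ) ≤ (67336 / 100000) ^ 10 + (594 / 1000) ^ 10 := by
    norm_num
  linarith

theorem bd_PA1 (T : AllTab) {L : ℕ} (hL : Even L) (h10 : 10 ≤ L) :
    sPA1 (17 / 2) L ≤ (8647 / 10000) ^ L + (754 / 1000) ^ L := by
  refine (isPS_sPA1 _ (by norm_num)).base_bound (base_PA1 T) (by norm_num) le_rfl (by norm_num)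
    (by norm_num) ?_ hL h10
  have h := (abs_le.1 T.t10.2.2.2.1).2
  have : (2927682261 / 10 ^ 10 + 365855 / 10 ^ 10 : ℝ) ≤ (8647 / 10000) ^ 10 + (754 / 1000) ^ 10 := by
    norm_num
  linarith

theorem bd_PA2 (T : AllTab) {L : ℕ} (hL : Even L) (h10 : 10 ≤ L) :
    sPA2 (17 / 2) L ≤ (99973 / 100000) ^ L + (699 / 1000) ^ L := by
  refine (isPS_sPA2 _ (by norm_num)).base_bound (base_PA2 T) le_rfl (by norm_num) (by norm_num)
    (by norm_num) ?_ hL h10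
  have h := (abs_le.1 T.t10.2.2.2.2.1).2
  have : (10247654919 / 10 ^ 10 + 365855 / 10 ^ 10 : ℝ) ≤ (99973 / 100000) ^ 10 + (699 / 1000) ^ 10 := by
    norm_num
  linarith

theorem bd_PB (T : AllTab) {L : ℕ} (hL : Even L) (h10 : 10 ≤ L) :
    sPB (17 / 2) L ≤ (66027 / 100000) ^ L + (6 / 10) ^ L := by
  refine (isPS_sPB _ (by norm_num)).base_bound (base_PB T) le_rfl (by norm_num) (by norm_num)
    (by norm_num) ?_ hL h10
  have h := (abs_le.1 T.t10.2.2.2.2.2.1).2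
  have : (217278476 / 10 ^ 10 + 182978 / 10 ^ 10 : ℝ) ≤ (66027 / 100000) ^ 10 + (6 / 10) ^ 10 := by
    norm_num
  linarith

theorem bd_PE (T : AllTab) {L : ℕ} (hL : Even L) (h10 : 10 ≤ L) :
    sPE (17 / 2) L ≤ (8583 / 10000) ^ L + (77 / 100) ^ L := by
  refine (isPS_sPE _ (by norm_num)).base_bound (base_PE T) (by norm_num) le_rfl (by norm_num)
    (by norm_num) ?_ hL h10
  have h := (abs_le.1 T.t10.2.2.2.2.2.2).2
  have : (2899980424 / 10 ^ 10 + 182978 / 10 ^ 10 : ℝ) ≤ (8583 / 10000) ^ 10 + (77 / 100) ^ 10 := by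
    norm_num
  linarith

theorem E_ring (T : AllTab) :
    Zs (17 / 2) 1 1 34 ≤ 11858 / 10000 ∧ Zs (17 / 2) 1 wz 34 ≤ 10095 / 10000 ∧
    Zs (17 / 2) 1 1 68 ≤ 13582 / 10000 ∧ Zs (17 / 2) 1 wz 68 ≤ 9820 / 10000 ∧
    sPA1 (17 / 2) 68 + 2 * sPB (17 / 2) 68 + 2 * sPE (17 / 2) 68 ≤ 12 / 100000 := by
  have a1 := bd_A1 T (L := 34) (by decide) (by norm_num)
  have a2 := bd_A2 T (L := 34) (by decide) (by norm_num)
  have b := bd_B T (L := 34) (by decide) (by norm_num)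
  have p1 := bd_PA1 T (L := 34) (by decide) (by norm_num)
  have p2 := bd_PA2 T (L := 34) (by decide) (by norm_num)
  have pb := bd_PB T (L := 34) (by decide) (by norm_num)
  have pe := bd_PE T (L := 34) (by decide) (by norm_num)
  have a1' := bd_A1 T (L := 68) (by decide) (by norm_num)
  have a2' := bd_A2 T (L := 68) (by decide) (by norm_num)
  have b' := bd_B T (L := 68) (by decide) (by norm_num)
  have p1' := bd_PA1 T (L := 68) (by decide) (by norm_num)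
  have p2' := bd_PA2 T (L := 68) (by decide) (by norm_num)
  have pb' := bd_PB T (L := 68) (by decide) (by norm_num)
  have pe' := bd_PE T (L := 68) (by decide) (by norm_num)
  have n1 : ((100451 / 100000) ^ 34 + (699 / 1000) ^ 34) + 3 * ((8632 / 10000) ^ 34 + (751 / 1000) ^ 34)
      + 4 * ((67336 / 100000) ^ 34 + (594 / 1000) ^ 34) ≤ (11858 / 10000 : ℝ) := by norm_num
  have n2 : ((8647 / 10000) ^ 34 + (754 / 1000) ^ 34) + ((99973 / 100000) ^ 34 + (699 / 1000) ^ 34)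
      + 2 * ((66027 / 100000) ^ 34 + (6 / 10) ^ 34) + 2 * ((8583 / 10000) ^ 34 + (77 / 100) ^ 34)
      ≤ (10095 / 10000 : ℝ) := by norm_num
  have n3 : ((100451 / 100000) ^ 68 + (699 / 1000) ^ 68) + 3 * ((8632 / 10000) ^ 68 + (751 / 1000) ^ 68)
      + 4 * ((67336 / 100000) ^ 68 + (594 / 1000) ^ 68) ≤ (13582 / 10000 : ℝ) := by norm_num
  have n4 : ((8647 / 10000) ^ 68 + (754 / 1000) ^ 68) + ((99973 / 100000) ^ 68 + (699 / 1000) ^ 68)
      + 2 * ((66027 / 100000) ^ 68 + (6 / 10) ^ 68) + 2 * ((8583 / 10000) ^ 68 + (77 / 100) ^ 68)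
      ≤ (9820 / 10000 : ℝ) := by norm_num
  have n5 : ((8647 / 10000) ^ 68 + (754 / 1000) ^ 68)
      + 2 * ((66027 / 100000) ^ 68 + (6 / 10) ^ 68) + 2 * ((8583 / 10000) ^ 68 + (77 / 100) ^ 68)
      ≤ (12 / 100000 : ℝ) := by norm_num
  rw [Zs_eq_sA, Zs_eq_sP, Zs_eq_sA, Zs_eq_sP]
  refine ⟨?_, ?_, ?_, ?_, ?_⟩ <;> linarith

end Crest.Agent.R347
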