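import Crest.Agent.R347.MpsDat54pm

set_option autoImplicit false
set_option maxRecDepth 100000

namespace Crest.Agent.R347

theorem chk54pm : chk d54pm 53 (3, 0) 3763800 = true := by
  decide +kernel

end Crest.Agent.R347
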