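import Crest.Agent.R347.MpsEval

set_option autoImplicit false
set_option maxRecDepth 100000

namespace Crest.Agent.R347

def d20pm_0 : List (List Col) :=
  [[([(0, 1024)], []),
    ([], []),
    ([], [])],
   [([], []),
    ([(0, 1024)], []),
    ([], [])],
   [([], []),
    ([], []),
    ([(0, 1024)], [])]]

def d20pm_1 : List (List Col) :=
  [[([(0, 1024)], []),
    ([], [(1, 570)]),
    ([(1, 851)], []),
    ([(2, 128)], []),
    ([], [(2, 576)]),
    ([(2, 837)], []),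
    ([], []),
    ([], []),
    ([], [])],
   [([], []),
    ([(0, 851)], []),
    ([(0, 570)], []),
    ([], [(1, 418)]),
    ([(1, 739)], []),
    ([(1, 572)], []),
    ([], [(2, 416)]),
    ([(2, 936)], []),
    ([], [])],
   [([], []),
    ([], []),
    ([], []),
    ([(0, 926)], []),
    ([(0, 413)], []),
    ([(0, 143)], []),
    ([(1, 936)], []),
    ([(1, 416)], []),
    ([(2, 1024)], [])]]

def d20pm_2 : List (List Col) :=
  [[([(1, 981), (2, 109)], []),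
    ([(1, 292)], [(2, 318)]),
    ([(3, 938), (4, 35), (5, 1)], []),
    ([(3, 397), (4, 95), (5, 37)], []),
    ([(3, 13)], [(4, 555), (5, 61)]),
    ([(3, 98), (5, 11)], [(4, 734)]),
    ([(6, 130), (7, 2)], []),
    ([(6, 166)], [(7, 10)]),
    ([(7, 46)], [(6, 777)]),
    ([(6, 578)], [(7, 11)]),
    ([(8, 16)], []),
    ([], [(8, 80)]),
    ([(8, 88)], []),
    ([], [])],
   [([], [(0, 271)]),
    ([(0, 929)], []),
    ([], [(1, 400), (2, 30)]),
    ([(1, 879)], [(2, 26)]),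
    ([(2, 474)], [(1, 187)]),
    ([(1, 275), (2, 166)], []),
    ([(3, 832)], [(4, 96), (5, 8)]),
    ([(3, 552), (4, 5), (5, 63)], []),
    ([(3, 185), (4, 594)], [(5, 39)]),
    ([(4, 553)], [(3, 121), (5, 9)]),
    ([(6, 232)], [(7, 29)]),
    ([(7, 165)], [(6, 531)]),
    ([(6, 821)], [(7, 14)]),
    ([(8, 133)], [])],
   [([], []),
    ([], []),
    ([(0, 77)], []),
    ([], [(0, 328)]),
    ([], [(0, 691)]),
    ([(0, 630)], []),
    ([(2, 55)], [(1, 573)]),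
    ([(1, 817)], [(2, 212)]),
    ([], [(1, 27), (2, 231)]),
    ([], [(1, 194), (2, 597)]),
    ([(3, 945), (5, 75)], [(4, 307)]),
    ([(3, 389), (4, 701)], [(5, 301)]),
    ([(4, 493)], [(3, 16), (5, 352)]),
    ([(6, 986)], [(7, 242)])]]

def d20pm_3 : List (List Col) :=
  [[([(2, 985), (5, 14)], [(3, 205), (4, 59)]),
    ([(2, 277), (3, 690), (4, 242)], [(5, 115)]),
    ([(7, 68)], [(6, 658), (8, 2), (9, 1)]),
    ([(6, 741)], [(7, 238), (8, 78), (9, 19)]),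
    ([(6, 124), (7, 379), (8, 27), (9, 2)], []),
    ([(6, 221), (7, 777), (8, 111), (9, 88)], []),
    ([(10, 110), (11, 3)], []),
    ([(11, 56), (12, 9)], [(10, 426)]),
    ([(10, 789)], [(11, 184), (12, 43)]),
    ([(11, 339), (12, 70)], [(10, 266)]),
    ([(13, 17)], []),
    ([], [(13, 93)]),
    ([(13, 2)], []),
    ([], [])],
   [([(0, 178)], [(1, 13)]),
    ([(1, 114)], [(0, 641)]),
    ([(2, 772), (4, 2)], [(3, 79), (5, 1)]),
    ([(2, 646), (3, 53)], [(4, 64), (5, 8)]),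
    ([(5, 16)], [(2, 78), (3, 580), (4, 31)]),
    ([(2, 170), (4, 156), (5, 20)], [(3, 163)]),
    ([], [(6, 456), (7, 39), (8, 3)]),
    ([(6, 797)], [(7, 10), (8, 129), (9, 14)]),
    ([(6, 369), (8, 66), (9, 4)], [(7, 401)]),
    ([], [(6, 235), (7, 519), (8, 315), (9, 76)]),
    ([(11, 46)], [(10, 347), (12, 15)]),
    ([(10, 720), (12, 33)], [(11, 353)]),
    ([(12, 97)], [(10, 574), (11, 76)]),
    ([], [(13, 99)])],
   [([], []),
    ([], []),
    ([(0, 95), (1, 1)], []),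
    ([(0, 108)], [(1, 7)]),
    ([(0, 738)], [(1, 32)]),
    ([(1, 51)], [(0, 542)]),
    ([(2, 909), (3, 28)], []),
    ([(2, 448), (3, 91)], [(4, 49), (5, 21)]),
    ([(2, 64), (3, 287)], [(4, 44), (5, 1)]),
    ([(3, 619)], [(2, 129), (4, 141), (5, 88)]),
    ([(6, 938), (7, 141), (9, 15)], [(8, 162)]),
    ([(6, 394), (8, 436)], [(7, 220), (9, 48)]),
    ([(8, 802)], [(6, 38), (7, 186), (9, 157)]),
    ([(10, 969), (12, 67)], [(11, 310)])]]

def d20pm_4 : List (List Col) :=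
  [[([(2, 963), (3, 145), (4, 112)], [(5, 15)]),
    ([(2, 343), (5, 93)], [(3, 356), (4, 310)]),
    ([(6, 907), (7, 40), (8, 1)], [(9, 1)]),
    ([(6, 451), (7, 134), (8, 58), (9, 25)], []),
    ([(6, 28)], [(7, 439), (8, 67), (9, 35)]),
    ([(7, 662), (8, 59), (9, 119)], [(6, 141)]),
    ([(10, 124), (11, 3)], []),
    ([(10, 167)], [(11, 16), (12, 3)]),
    ([(10, 764)], [(11, 103), (12, 51)]),
    ([(10, 471)], [(11, 143), (12, 77)]),
    ([(13, 16)], []),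
    ([], [(13, 83)]),
    ([(13, 76)], []),
    ([], [])],
   [([(1, 26)], [(0, 293)]),
    ([(0, 808)], [(1, 213)]),
    ([(4, 1)], [(2, 460), (3, 50), (5, 1)]),
    ([(2, 839), (4, 90), (5, 5)], [(3, 52)]),
    ([(3, 534), (4, 29)], [(2, 193), (5, 31)]),
    ([(4, 183), (5, 30)], [(2, 301), (3, 328)]),
    ([(6, 751), (9, 1)], [(7, 97), (8, 7)]),
    ([(6, 648), (7, 40), (8, 87), (9, 19)], []),
    ([(8, 66)], [(6, 146), (7, 568), (9, 41)]),
    ([(7, 288), (8, 167), (9, 70)], [(6, 201)]),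
    ([(10, 245), (12, 8)], [(11, 31)]),
    ([(11, 226), (12, 2)], [(10, 561)]),
    ([(10, 779)], [(11, 64), (12, 78)]),
    ([(13, 130)], [])],
   [([], []),
    ([], []),
    ([(0, 96), (1, 1)], []),
    ([(1, 27)], [(0, 327)]),
    ([(1, 71)], [(0, 722)]),
    ([(1, 166)], [(0, 559)]),
    ([(3, 72), (4, 3), (5, 1)], [(2, 674)]),
    ([(2, 718), (4, 58), (5, 22)], [(3, 267)]),
    ([(2, 91), (3, 304)], [(4, 19), (5, 10)]),
    ([(4, 118), (5, 127)], [(2, 258), (3, 740)]),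
    ([(6, 947), (8, 103)], [(7, 282), (9, 10)]),
    ([(6, 379), (7, 619), (9, 129)], [(8, 364)]),
    ([(7, 466), (9, 147)], [(6, 17), (8, 432)]),
    ([(10, 970), (12, 18)], [(11, 302)])]]

def d20pm_5 : List (List Col) :=
  [[([(2, 965)], [(3, 241), (4, 94), (5, 17)]),
    ([(2, 339), (3, 641), (4, 302), (5, 141)], []),
    ([(7, 77), (8, 3)], [(6, 708), (9, 1)]),
    ([(6, 680), (8, 79)], [(7, 278), (9, 29)]),
    ([(6, 141), (7, 377), (9, 22)], [(8, 32)]),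
    ([(6, 251), (7, 732), (9, 176)], [(8, 146)]),
    ([(10, 108), (11, 3)], []),
    ([(11, 47), (12, 7)], [(10, 357)]),
    ([(10, 751)], [(11, 149), (12, 35)]),
    ([(10, 408)], [(11, 306), (12, 69)]),
    ([(13, 17)], []),
    ([], [(13, 95)]),
    ([], [(13, 13)]),
    ([], [])],
   [([(0, 223)], [(1, 22)]),
    ([(1, 158)], [(0, 622)]),
    ([(2, 721), (4, 4), (5, 2)], [(3, 93)]),
    ([(2, 684), (3, 65), (5, 13)], [(4, 89)]),
    ([], [(2, 90), (3, 575), (4, 41), (5, 34)]),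
    ([(2, 227), (4, 213)], [(3, 159), (5, 51)]),
    ([(8, 3), (9, 1)], [(6, 483), (7, 57)]),
    ([(6, 808), (8, 130)], [(7, 45), (9, 11)]),
    ([(6, 254)], [(7, 506), (8, 68), (9, 36)]),
    ([(6, 294), (7, 439), (9, 68)], [(8, 295)]),
    ([(11, 45)], [(10, 320), (12, 14)]),
    ([(10, 676), (12, 32)], [(11, 341)]),
    ([(10, 615), (11, 64)], [(12, 82)]),
    ([], [(13, 107)])],
   [([], []),
    ([], []),
    ([(0, 112), (1, 2)], []),
    ([(0, 145)], [(1, 12)]),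
    ([(0, 736)], [(1, 54)]),
    ([(1, 91)], [(0, 515)]),
    ([(2, 894), (3, 39), (4, 1)], [(5, 1)]),
    ([(2, 471), (3, 142), (5, 24)], [(4, 65)]),
    ([(3, 360), (5, 19)], [(2, 1), (4, 66)]),
    ([(2, 165), (4, 150)], [(3, 590), (5, 119)]),
    ([(6, 942), (7, 167), (8, 168), (9, 19)], []),
    ([(6, 386)], [(7, 294), (8, 465), (9, 113)]),
    ([(6, 46), (7, 86), (8, 787), (9, 174)], []),
    ([(10, 963), (12, 65)], [(11, 326)])]]

def d20pm_6 : List (List Col) :=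
  [[([(2, 954), (3, 166), (4, 142)], [(5, 21)]),
    ([(2, 365), (5, 125)], [(3, 383), (4, 372)]),
    ([(6, 890), (7, 45), (9, 1)], []),
    ([(6, 475), (7, 163), (8, 71)], [(9, 28)]),
    ([(6, 47), (9, 38)], [(7, 414), (8, 76)]),
    ([(7, 606), (8, 123)], [(6, 167), (9, 148)]),
    ([], [(10, 122), (11, 3)]),
    ([(10, 173), (12, 1)], [(11, 18)]),
    ([(10, 749), (12, 50)], [(11, 106)]),
    ([(10, 467), (12, 67)], [(11, 160)]),
    ([(13, 15)], []),
    ([], [(13, 81)]),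
    ([(13, 66)], []),
    ([], [])],
   [([(1, 33)], [(0, 297)]),
    ([(0, 744)], [(1, 249)]),
    ([(4, 2)], [(2, 490), (3, 63), (5, 1)]),
    ([(2, 821), (4, 112), (5, 7)], [(3, 67)]),
    ([(3, 555), (4, 41)], [(2, 175), (5, 47)]),
    ([(4, 249), (5, 54)], [(2, 315), (3, 348)]),
    ([(7, 99), (8, 5), (9, 2)], [(6, 707)]),
    ([(6, 688), (7, 59), (8, 102)], [(9, 19)]),
    ([(8, 62), (9, 51)], [(6, 121), (7, 564)]),
    ([(7, 217), (8, 222)], [(6, 241), (9, 71)]),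
    ([(10, 251)], [(11, 31), (12, 9)]),
    ([(11, 234)], [(10, 584), (12, 1)]),
    ([(10, 758), (12, 79)], [(11, 67)]),
    ([(13, 121)], [])],
   [([], []),
    ([], []),
    ([(0, 104), (1, 2)], []),
    ([(1, 33)], [(0, 313)]),
    ([(1, 88)], [(0, 719)]),
    ([(1, 208)], [(0, 536)]),
    ([(2, 720)], [(3, 77), (4, 4), (5, 1)]),
    ([(2, 666), (4, 72), (5, 29)], [(3, 286)]),
    ([(2, 122), (3, 343)], [(4, 31), (5, 23)]),
    ([(4, 157), (5, 178)], [(2, 265), (3, 717)]),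
    ([(6, 948), (8, 117), (9, 17)], [(7, 268)]),
    ([(6, 377), (7, 587)], [(8, 363), (9, 163)]),
    ([(7, 465)], [(6, 13), (8, 451), (9, 198)]),
    ([(10, 971)], [(11, 302), (12, 22)])]]

def d20pm_7 : List (List Col) :=
  [[([(2, 956)], [(3, 251), (4, 112), (5, 20)]),
    ([(2, 362), (3, 613), (4, 328), (5, 161)], []),
    ([(6, 735), (7, 80), (8, 4)], [(9, 2)]),
    ([(8, 81)], [(6, 647), (7, 291), (9, 33)]),
    ([(6, 148), (8, 38)], [(7, 381), (9, 32)]),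
    ([(6, 257), (8, 164)], [(7, 703), (9, 205)]),
    ([(10, 108), (11, 3)], []),
    ([(10, 324)], [(11, 42), (12, 7)]),
    ([(10, 733)], [(11, 127), (12, 31)]),
    ([(10, 465)], [(11, 276), (12, 67)]),
    ([], [(13, 16)]),
    ([], [(13, 92)]),
    ([], [(13, 10)]),
    ([], [])],
   [([(0, 242)], [(1, 26)]),
    ([(1, 182)], [(0, 613)]),
    ([(2, 691), (4, 4), (5, 2)], [(3, 98)]),
    ([(2, 704), (3, 72), (5, 14)], [(4, 102)]),
    ([(2, 91), (3, 573), (4, 46), (5, 47)], []),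
    ([(3, 157), (5, 62)], [(2, 255), (4, 239)]),
    ([(6, 501), (8, 3), (9, 1)], [(7, 66)]),
    ([(6, 807), (7, 64), (9, 11)], [(8, 129)]),
    ([], [(6, 201), (7, 542), (8, 63), (9, 51)]),
    ([(7, 390), (9, 71)], [(6, 312), (8, 291)]),
    ([(10, 308), (12, 13)], [(11, 43)]),
    ([(10, 673), (12, 30)], [(11, 316)]),
    ([(10, 597), (11, 84)], [(12, 74)]),
    ([], [(13, 107)])],
   [([], []),
    ([], []),
    ([(0, 117), (1, 2)], []),
    ([(0, 164)], [(1, 16)]),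
    ([(1, 67)], [(0, 731)]),
    ([(0, 505)], [(1, 116)]),
    ([(2, 883), (3, 45), (4, 1)], [(5, 1)]),
    ([(4, 74)], [(2, 484), (3, 169), (5, 26)]),
    ([(3, 383), (5, 29)], [(2, 35), (4, 74)]),
    ([(2, 180), (4, 162)], [(3, 578), (5, 140)]),
    ([(6, 944)], [(7, 178), (8, 167), (9, 22)]),
    ([], [(6, 384), (7, 342), (8, 450), (9, 140)]),
    ([(7, 9), (8, 802), (9, 186)], [(6, 42)]),
    ([(10, 966), (12, 62)], [(11, 316)])]]

def d20pm_8 : List (List Col) :=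
  [[([(2, 951), (3, 176), (5, 23)], [(4, 153)]),
    ([(2, 373), (4, 387)], [(3, 398), (5, 140)]),
    ([(6, 880), (9, 1)], [(7, 47), (8, 1)]),
    ([(6, 487), (8, 78)], [(7, 180), (9, 28)]),
    ([(6, 59), (7, 408), (9, 40)], [(8, 79)]),
    ([(6, 180), (7, 588), (9, 158)], [(8, 150)]),
    ([(10, 122)], [(11, 3)]),
    ([], [(10, 178), (11, 19)]),
    ([(10, 741), (11, 102)], [(12, 50)]),
    ([(10, 474), (11, 161)], [(12, 61)]),
    ([(13, 15)], []),
    ([(13, 79)], []),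
    ([], [(13, 61)]),
    ([], [])],
   [([(1, 36)], [(0, 296)]),
    ([(0, 718)], [(1, 258)]),
    ([(5, 1)], [(2, 506), (3, 69), (4, 2)]),
    ([(2, 811)], [(3, 75), (4, 121), (5, 8)]),
    ([(3, 564), (5, 55)], [(2, 162), (4, 47)]),
    ([(2, 321), (3, 340), (4, 269), (5, 63)], []),
    ([(8, 5), (9, 2)], [(6, 684), (7, 101)]),
    ([(6, 706), (8, 109)], [(7, 68), (9, 18)]),
    ([(6, 109)], [(7, 564), (8, 58), (9, 56)]),
    ([(6, 260), (7, 195), (9, 70)], [(8, 242)]),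
    ([], [(10, 256), (11, 31), (12, 9)]),
    ([(12, 6)], [(10, 594), (11, 233)]),
    ([(10, 750), (11, 62)], [(12, 78)]),
    ([], [(13, 116)])],
   [([], []),
    ([], []),
    ([(0, 106), (1, 2)], []),
    ([(1, 35)], [(0, 303)]),
    ([(1, 93)], [(0, 716)]),
    ([(0, 529)], [(1, 219)]),
    ([(2, 741), (4, 4), (5, 2)], [(3, 80)]),
    ([(2, 639)], [(3, 293), (4, 79), (5, 32)]),
    ([], [(2, 135), (3, 360), (4, 38), (5, 30)]),
    ([(2, 264), (3, 697), (4, 171), (5, 200)], []),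
    ([(6, 947), (7, 263), (8, 124), (9, 20)], []),
    ([(7, 575), (8, 361), (9, 174)], [(6, 380)]),
    ([(6, 12), (7, 463), (8, 459), (9, 216)], []),
    ([(10, 973), (11, 296), (12, 17)], [])]]

def d20pm_9 : List (List Col) :=
  [[([(2, 952), (5, 21)], [(3, 255), (4, 120)]),
    ([(2, 372), (3, 600), (4, 337)], [(5, 171)]),
    ([(6, 748), (7, 81), (9, 2)], [(8, 4)]),
    ([(9, 35)], [(6, 630), (7, 296), (8, 82)]),
    ([(6, 151), (9, 36)], [(7, 383), (8, 41)]),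
    ([(6, 259), (9, 214)], [(7, 690), (8, 171)]),
    ([(10, 108)], [(11, 3)]),
    ([(10, 312), (11, 41), (12, 7)], []),
    ([(10, 727), (11, 119), (12, 29)], []),
    ([(10, 482), (11, 262), (12, 66)], []),
    ([(13, 16)], []),
    ([(13, 91)], []),
    ([], [(13, 7)]),
    ([], [])],
   [([(0, 250)], [(1, 27)]),
    ([(1, 192)], [(0, 609)]),
    ([(2, 677), (4, 4)], [(3, 101), (5, 2)]),
    ([(2, 713), (3, 75)], [(4, 108), (5, 15)]),
    ([(2, 92), (3, 573), (4, 47)], [(5, 53)]),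
    ([(3, 157)], [(2, 268), (4, 248), (5, 65)]),
    ([(6, 511)], [(7, 70), (8, 2), (9, 1)]),
    ([(6, 804), (7, 71), (8, 129)], [(9, 10)]),
    ([(8, 63), (9, 56)], [(6, 182), (7, 552)]),
    ([(7, 371), (8, 290)], [(6, 318), (9, 73)]),
    ([(10, 302), (11, 42)], [(12, 12)]),
    ([(10, 673), (11, 304)], [(12, 29)]),
    ([(11, 95)], [(10, 582), (12, 71)]),
    ([(13, 107)], [])],
   [([], []),
    ([], []),
    ([(0, 120), (1, 2)], []),
    ([(0, 173)], [(1, 18)]),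
    ([(1, 73)], [(0, 728)]),
    ([(0, 502)], [(1, 128)]),
    ([(2, 876), (3, 47), (4, 1), (5, 1)], []),
    ([(4, 79), (5, 27)], [(2, 492), (3, 181)]),
    ([(3, 389)], [(2, 48), (4, 77), (5, 33)]),
    ([(2, 187), (4, 168), (5, 151)], [(3, 574)]),
    ([(6, 945), (8, 167), (9, 24)], [(7, 182)]),
    ([(8, 442), (9, 150)], [(6, 382), (7, 361)]),
    ([(6, 39), (7, 28), (8, 810), (9, 190)], []),
    ([(10, 968), (11, 311)], [(12, 61)])]]

def d20pm_10 : List (List Col) :=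
  [[([], []),
    ([(13, 1)], []),
    ([], []),
    ([], []),
    ([(10, 73)], [(11, 2)]),
    ([(10, 14), (11, 2)], []),
    ([], [(10, 13), (11, 2), (12, 1)]),
    ([(10, 2), (11, 1)], []),
    ([(6, 689), (9, 1)], [(7, 37), (8, 1)]),
    ([(7, 14), (9, 2)], [(6, 37), (8, 6)]),
    ([(8, 1)], [(6, 1), (7, 6), (9, 1)]),
    ([(6, 1), (7, 2), (9, 1)], [(8, 1)]),
    ([(2, 71), (3, 13), (5, 2)], [(4, 12)]),
    ([(3, 1)], [(2, 1), (4, 1)])],
   [([], []),
    ([(12, 1)], [(10, 23), (11, 3)]),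
    ([(10, 3), (11, 1)], []),
    ([], [(10, 1)]),
    ([(8, 3), (9, 1)], [(6, 402), (7, 61)]),
    ([(7, 5), (9, 1)], [(6, 55), (8, 9)]),
    ([(7, 10), (8, 1), (9, 1)], [(6, 2)]),
    ([(6, 1), (7, 1)], [(8, 1)]),
    ([(5, 1)], [(2, 403), (3, 55), (4, 2)]),
    ([(3, 6), (4, 9), (5, 1)], [(2, 60)]),
    ([(2, 2), (4, 1)], [(3, 8), (5, 1)]),
    ([(2, 1), (3, 1), (4, 1)], []),
    ([(1, 3)], [(0, 22)]),
    ([(1, 1)], [(0, 2)])],
   [([(10, 1)], []),
    ([(6, 85), (7, 24), (8, 11), (9, 2)], []),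
    ([(6, 2)], [(7, 3), (8, 2), (9, 1)]),
    ([], [(7, 1)]),
    ([(2, 446), (4, 2), (5, 1)], [(3, 49)]),
    ([(3, 23), (4, 6), (5, 3)], [(2, 48)]),
    ([(2, 2), (3, 6), (4, 1), (5, 1)], []),
    ([(2, 1), (3, 3), (4, 1), (5, 1)], []),
    ([(0, 84), (1, 2)], []),
    ([(0, 22)], [(1, 3)]),
    ([(0, 11)], [(1, 2)]),
    ([(0, 2)], [(1, 1)]),
    ([], []),
    ([], [])]]

def d20pm_11 : List (List Col) :=
  [[([], []),
    ([(0, 973)], []),
    ([], [(0, 296)]),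
    ([], [(0, 17)]),
    ([(1, 947), (2, 380)], [(3, 12)]),
    ([(2, 575), (3, 463)], [(1, 263)]),
    ([(2, 361), (3, 459)], [(1, 124)]),
    ([(2, 174), (3, 216)], [(1, 20)]),
    ([(4, 741), (6, 135), (7, 264)], [(5, 639)]),
    ([(4, 80)], [(5, 293), (6, 360), (7, 697)]),
    ([(4, 4), (5, 79), (6, 38), (7, 171)], []),
    ([], [(4, 2), (5, 32), (6, 30), (7, 200)]),
    ([(8, 106), (9, 303), (10, 716), (11, 529)], []),
    ([(8, 2)], [(9, 35), (10, 93), (11, 219)])],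
   [([(0, 116)], []),
    ([(1, 256), (3, 750)], [(2, 594)]),
    ([(2, 233)], [(1, 31), (3, 62)]),
    ([(3, 78)], [(1, 9), (2, 6)]),
    ([(4, 684), (5, 706), (6, 109)], [(7, 260)]),
    ([(5, 68), (6, 564), (7, 195)], [(4, 101)]),
    ([(4, 5), (6, 58)], [(5, 109), (7, 242)]),
    ([(4, 2), (5, 18), (6, 56), (7, 70)], []),
    ([(8, 506), (9, 811)], [(10, 162), (11, 321)]),
    ([(9, 75), (11, 340)], [(8, 69), (10, 564)]),
    ([(8, 2)], [(9, 121), (10, 47), (11, 269)]),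
    ([(8, 1), (9, 8), (11, 63)], [(10, 55)]),
    ([(12, 296), (13, 718)], []),
    ([], [(12, 36), (13, 258)])],
   [([(1, 15), (3, 61)], [(2, 79)]),
    ([(4, 122), (5, 178), (7, 474)], [(6, 741)]),
    ([(4, 3), (6, 102)], [(5, 19), (7, 161)]),
    ([(7, 61)], [(6, 50)]),
    ([(8, 880), (11, 180)], [(9, 487), (10, 59)]),
    ([(8, 47), (10, 408)], [(9, 180), (11, 588)]),
    ([(8, 1), (9, 78), (11, 150)], [(10, 79)]),
    ([(10, 40)], [(8, 1), (9, 28), (11, 158)]),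
    ([(12, 951)], [(13, 373)]),
    ([], [(12, 176), (13, 398)]),
    ([], [(12, 153), (13, 387)]),
    ([], [(12, 23), (13, 140)]),
    ([], []),
    ([], [])]]

def d20pm_12 : List (List Col) :=
  [[([], []),
    ([(0, 966)], []),
    ([], [(0, 316)]),
    ([(0, 62)], []),
    ([(1, 944), (2, 384), (3, 42)], []),
    ([(1, 178), (3, 9)], [(2, 342)]),
    ([(1, 167), (3, 802)], [(2, 450)]),
    ([(2, 140)], [(1, 22), (3, 186)]),
    ([(4, 883), (5, 484), (6, 35)], [(7, 180)]),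
    ([(4, 45), (5, 169), (7, 578)], [(6, 383)]),
    ([(5, 74), (7, 162)], [(4, 1), (6, 74)]),
    ([(4, 1), (6, 29)], [(5, 26), (7, 140)]),
    ([(9, 164), (10, 731), (11, 505)], [(8, 117)]),
    ([], [(8, 2), (9, 16), (10, 67), (11, 116)])],
   [([], [(0, 107)]),
    ([(2, 673), (3, 597)], [(1, 308)]),
    ([(1, 43), (3, 84)], [(2, 316)]),
    ([(2, 30)], [(1, 13), (3, 74)]),
    ([(5, 807)], [(4, 501), (6, 201), (7, 312)]),
    ([(6, 542)], [(4, 66), (5, 64), (7, 390)]),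
    ([(4, 3), (5, 129), (6, 63), (7, 291)], []),
    ([(5, 11), (7, 71)], [(4, 1), (6, 51)]),
    ([(9, 704)], [(8, 691), (10, 91), (11, 255)]),
    ([(8, 98), (9, 72), (11, 157)], [(10, 573)]),
    ([(8, 4), (9, 102), (10, 46), (11, 239)], []),
    ([(8, 2), (10, 47)], [(9, 14), (11, 62)]),
    ([(12, 242)], [(13, 613)]),
    ([(13, 182)], [(12, 26)])],
   [([(1, 16)], [(2, 92), (3, 10)]),
    ([(4, 108)], [(5, 324), (6, 733), (7, 465)]),
    ([(4, 3), (5, 42), (6, 127), (7, 276)], []),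
    ([(5, 7), (6, 31), (7, 67)], []),
    ([(8, 735), (9, 647), (10, 148)], [(11, 257)]),
    ([(10, 381)], [(8, 80), (9, 291), (11, 703)]),
    ([(9, 81), (11, 164)], [(8, 4), (10, 38)]),
    ([(9, 33), (11, 205)], [(8, 2), (10, 32)]),
    ([(12, 956), (13, 362)], []),
    ([(13, 613)], [(12, 251)]),
    ([(12, 112)], [(13, 328)]),
    ([(12, 20)], [(13, 161)]),
    ([], []),
    ([], [])]]

def d20pm_13 : List (List Col) :=
  [[([], []),
    ([(0, 971)], []),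
    ([], [(0, 302)]),
    ([], [(0, 22)]),
    ([(1, 948), (2, 377)], [(3, 13)]),
    ([(2, 587), (3, 465)], [(1, 268)]),
    ([(2, 363), (3, 451)], [(1, 117)]),
    ([(2, 163), (3, 198)], [(1, 17)]),
    ([(5, 666), (6, 122), (7, 265)], [(4, 720)]),
    ([(4, 77), (6, 343), (7, 717)], [(5, 286)]),
    ([(4, 4), (5, 72)], [(6, 31), (7, 157)]),
    ([(4, 1), (5, 29)], [(6, 23), (7, 178)]),
    ([(8, 104), (10, 719), (11, 536)], [(9, 313)]),
    ([(8, 2), (9, 33)], [(10, 88), (11, 208)])],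
   [([(0, 121)], []),
    ([(1, 251), (3, 758)], [(2, 584)]),
    ([(2, 234)], [(1, 31), (3, 67)]),
    ([(3, 79)], [(1, 9), (2, 1)]),
    ([(4, 707), (5, 688), (7, 241)], [(6, 121)]),
    ([(5, 59)], [(4, 99), (6, 564), (7, 217)]),
    ([(4, 5), (7, 222)], [(5, 102), (6, 62)]),
    ([(4, 2), (5, 19)], [(6, 51), (7, 71)]),
    ([(9, 821), (10, 175), (11, 315)], [(8, 490)]),
    ([(11, 348)], [(8, 63), (9, 67), (10, 555)]),
    ([(8, 2), (9, 112)], [(10, 41), (11, 249)]),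
    ([(9, 7), (10, 47)], [(8, 1), (11, 54)]),
    ([(13, 744)], [(12, 297)]),
    ([(12, 33)], [(13, 249)])],
   [([(1, 15), (3, 66)], [(2, 81)]),
    ([(4, 122), (5, 173), (6, 749)], [(7, 467)]),
    ([(4, 3), (7, 160)], [(5, 18), (6, 106)]),
    ([(5, 1), (6, 50)], [(7, 67)]),
    ([(8, 890), (9, 475), (11, 167)], [(10, 47)]),
    ([(8, 45), (9, 163), (10, 414)], [(11, 606)]),
    ([(11, 123)], [(9, 71), (10, 76)]),
    ([(9, 28), (10, 38)], [(8, 1), (11, 148)]),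
    ([(12, 954), (13, 365)], []),
    ([(12, 166)], [(13, 383)]),
    ([(12, 142)], [(13, 372)]),
    ([(13, 125)], [(12, 21)]),
    ([], []),
    ([], [])]]

def d20pm_14 : List (List Col) :=
  [[([], []),
    ([(0, 963)], []),
    ([], [(0, 326)]),
    ([(0, 65)], []),
    ([(1, 942), (2, 386), (3, 46)], []),
    ([(1, 167), (3, 86)], [(2, 294)]),
    ([(1, 168), (3, 787)], [(2, 465)]),
    ([(2, 113)], [(1, 19), (3, 174)]),
    ([(4, 894), (5, 471), (6, 1)], [(7, 165)]),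
    ([(4, 39), (5, 142), (7, 590)], [(6, 360)]),
    ([(5, 65), (7, 150)], [(4, 1), (6, 66)]),
    ([(4, 1), (6, 19)], [(5, 24), (7, 119)]),
    ([(8, 112), (9, 145), (10, 736)], [(11, 515)]),
    ([(8, 2), (11, 91)], [(9, 12), (10, 54)])],
   [([], [(0, 107)]),
    ([(2, 676), (3, 615)], [(1, 320)]),
    ([(1, 45), (3, 64)], [(2, 341)]),
    ([(2, 32)], [(1, 14), (3, 82)]),
    ([(5, 808)], [(4, 483), (6, 254), (7, 294)]),
    ([(6, 506)], [(4, 57), (5, 45), (7, 439)]),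
    ([(4, 3), (5, 130), (6, 68), (7, 295)], []),
    ([(5, 11), (7, 68)], [(4, 1), (6, 36)]),
    ([(8, 721), (9, 684), (11, 227)], [(10, 90)]),
    ([(9, 65)], [(8, 93), (10, 575), (11, 159)]),
    ([(9, 89), (10, 41)], [(8, 4), (11, 213)]),
    ([(10, 34), (11, 51)], [(8, 2), (9, 13)]),
    ([(12, 223)], [(13, 622)]),
    ([(13, 158)], [(12, 22)])],
   [([(1, 17)], [(2, 95), (3, 13)]),
    ([(4, 108)], [(5, 357), (6, 751), (7, 408)]),
    ([(4, 3), (5, 47), (6, 149), (7, 306)], []),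
    ([(5, 7), (6, 35), (7, 69)], []),
    ([(9, 680), (10, 141), (11, 251)], [(8, 708)]),
    ([(8, 77), (10, 377), (11, 732)], [(9, 278)]),
    ([(8, 3), (9, 79)], [(10, 32), (11, 146)]),
    ([(8, 1), (9, 29)], [(10, 22), (11, 176)]),
    ([(12, 965), (13, 339)], []),
    ([(13, 641)], [(12, 241)]),
    ([(12, 94)], [(13, 302)]),
    ([(12, 17)], [(13, 141)]),
    ([], []),
    ([], [])]]

def d20pm_15 : List (List Col) :=
  [[([], []),
    ([(0, 970)], []),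
    ([], [(0, 302)]),
    ([], [(0, 18)]),
    ([(1, 947), (2, 379)], [(3, 17)]),
    ([(2, 619), (3, 466)], [(1, 282)]),
    ([(1, 103)], [(2, 364), (3, 432)]),
    ([(2, 129), (3, 147)], [(1, 10)]),
    ([(5, 718), (6, 91), (7, 258)], [(4, 674)]),
    ([(4, 72), (6, 304), (7, 740)], [(5, 267)]),
    ([(4, 3), (5, 58)], [(6, 19), (7, 118)]),
    ([(4, 1), (5, 22)], [(6, 10), (7, 127)]),
    ([(8, 96), (10, 722), (11, 559)], [(9, 327)]),
    ([(8, 1), (9, 27)], [(10, 71), (11, 166)])],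
   [([(0, 130)], []),
    ([(1, 245), (3, 779)], [(2, 561)]),
    ([(2, 226)], [(1, 31), (3, 64)]),
    ([(3, 78)], [(1, 8), (2, 2)]),
    ([(4, 751), (5, 648), (7, 201)], [(6, 146)]),
    ([(5, 40)], [(4, 97), (6, 568), (7, 288)]),
    ([(5, 87), (6, 66)], [(4, 7), (7, 167)]),
    ([(4, 1), (5, 19)], [(6, 41), (7, 70)]),
    ([(9, 839), (10, 193), (11, 301)], [(8, 460)]),
    ([(11, 328)], [(8, 50), (9, 52), (10, 534)]),
    ([(8, 1), (9, 90)], [(10, 29), (11, 183)]),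
    ([(9, 5), (10, 31)], [(8, 1), (11, 30)]),
    ([(13, 808)], [(12, 293)]),
    ([(12, 26)], [(13, 213)])],
   [([(1, 16), (3, 76)], [(2, 83)]),
    ([(4, 124), (5, 167), (6, 764)], [(7, 471)]),
    ([(4, 3), (7, 143)], [(5, 16), (6, 103)]),
    ([(5, 3), (6, 51)], [(7, 77)]),
    ([(8, 907), (9, 451), (11, 141)], [(10, 28)]),
    ([(8, 40), (9, 134), (10, 439)], [(11, 662)]),
    ([(8, 1), (9, 58), (10, 67)], [(11, 59)]),
    ([(9, 25), (10, 35)], [(8, 1), (11, 119)]),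
    ([(12, 963), (13, 343)], []),
    ([(12, 145)], [(13, 356)]),
    ([(12, 112)], [(13, 310)]),
    ([(13, 93)], [(12, 15)]),
    ([], []),
    ([], [])]]

def d20pm_16 : List (List Col) :=
  [[([], []),
    ([(0, 969)], []),
    ([], [(0, 310)]),
    ([(0, 67)], []),
    ([(1, 938), (2, 394), (3, 38)], []),
    ([(1, 141), (3, 186)], [(2, 220)]),
    ([(1, 162), (3, 802)], [(2, 436)]),
    ([(2, 48)], [(1, 15), (3, 157)]),
    ([(4, 909), (5, 448), (6, 64)], [(7, 129)]),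
    ([(4, 28), (5, 91), (6, 287), (7, 619)], []),
    ([(5, 49), (6, 44), (7, 141)], []),
    ([(5, 21), (6, 1), (7, 88)], []),
    ([(8, 95), (9, 108), (10, 738)], [(11, 542)]),
    ([(8, 1), (11, 51)], [(9, 7), (10, 32)])],
   [([], [(0, 99)]),
    ([(2, 720), (3, 574)], [(1, 347)]),
    ([(1, 46), (3, 76)], [(2, 353)]),
    ([(2, 33)], [(1, 15), (3, 97)]),
    ([(5, 797), (6, 369)], [(4, 456), (7, 235)]),
    ([], [(4, 39), (5, 10), (6, 401), (7, 519)]),
    ([(4, 3), (5, 129), (7, 315)], [(6, 66)]),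
    ([(5, 14), (7, 76)], [(6, 4)]),
    ([(8, 772), (9, 646), (11, 170)], [(10, 78)]),
    ([(9, 53)], [(8, 79), (10, 580), (11, 163)]),
    ([(9, 64), (10, 31)], [(8, 2), (11, 156)]),
    ([(8, 1), (9, 8)], [(10, 16), (11, 20)]),
    ([(12, 178)], [(13, 641)]),
    ([(13, 114)], [(12, 13)])],
   [([(1, 17)], [(2, 93), (3, 2)]),
    ([(4, 110), (6, 789)], [(5, 426), (7, 266)]),
    ([(4, 3), (5, 56), (7, 339)], [(6, 184)]),
    ([(5, 9), (7, 70)], [(6, 43)]),
    ([(9, 741), (10, 124), (11, 221)], [(8, 658)]),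
    ([(8, 68), (10, 379), (11, 777)], [(9, 238)]),
    ([(8, 2), (9, 78)], [(10, 27), (11, 111)]),
    ([(8, 1), (9, 19)], [(10, 2), (11, 88)]),
    ([(12, 985), (13, 277)], []),
    ([(13, 690)], [(12, 205)]),
    ([(12, 59)], [(13, 242)]),
    ([(13, 115)], [(12, 14)]),
    ([], []),
    ([], [])]]

def d20pm_17 : List (List Col) :=
  [[([], []),
    ([(0, 986)], []),
    ([], [(0, 242)]),
    ([(1, 945), (2, 389)], [(3, 16)]),
    ([(2, 701), (3, 493)], [(1, 307)]),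
    ([(1, 75)], [(2, 301), (3, 352)]),
    ([(5, 817), (6, 27), (7, 194)], [(4, 573)]),
    ([(4, 55), (6, 231), (7, 597)], [(5, 212)]),
    ([(8, 77), (10, 691)], [(9, 328), (11, 630)])],
   [([(0, 133)], []),
    ([(1, 232), (3, 821)], [(2, 531)]),
    ([(2, 165)], [(1, 29), (3, 14)]),
    ([(4, 832), (5, 552), (7, 121)], [(6, 185)]),
    ([(5, 5)], [(4, 96), (6, 594), (7, 553)]),
    ([(5, 63), (6, 39), (7, 9)], [(4, 8)]),
    ([(9, 879), (10, 187)], [(8, 400), (11, 275)]),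
    ([], [(8, 30), (9, 26), (10, 474), (11, 166)]),
    ([(13, 929)], [(12, 271)])],
   [([(1, 16), (3, 88)], [(2, 80)]),
    ([(4, 130), (5, 166), (6, 777)], [(7, 578)]),
    ([(4, 2), (7, 11)], [(5, 10), (6, 46)]),
    ([(8, 938), (9, 397)], [(10, 13), (11, 98)]),
    ([(8, 35), (9, 95), (10, 555), (11, 734)], []),
    ([(8, 1), (9, 37), (10, 61)], [(11, 11)]),
    ([(12, 981), (13, 292)], []),
    ([(12, 109)], [(13, 318)]),
    ([], [])]]

def d20pm_18 : List (List Col) :=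
  [[([(0, 1024)], []),
    ([(1, 936), (2, 416)], []),
    ([(3, 926), (4, 413), (5, 143)], [])],
   [([(2, 936)], [(1, 416)]),
    ([(4, 739), (5, 572)], [(3, 418)]),
    ([(6, 851), (7, 570)], [])],
   [([(3, 128), (5, 837)], [(4, 576)]),
    ([(7, 851)], [(6, 570)]),
    ([(8, 1024)], [])]]

def d20pm_19 : List (List Col) :=
  [[([(0, 1024)], [])],
   [([(1, 1024)], [])],
   [([(2, 1024)], [])]]

def d20pm : List (List (List Col)) :=
  [d20pm_0, d20pm_1, d20pm_2, d20pm_3, d20pm_4, d20pm_5, d20pm_6, d20pm_7, d20pm_8, d20pm_9, d20pm_10, d20pm_11, d20pm_12, d20pm_13, d20pm_14, d20pm_15, d20pm_16, d20pm_17, d20pm_18, d20pm_19]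

end Crest.Agent.R347
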