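import Crest.Agent.R347.MpsEval

set_option autoImplicit false
set_option maxRecDepth 100000

namespace Crest.Agent.R347

def d20pp_0 : List (List Col) :=
  [[([(0, 1024)], []),
    ([], []),
    ([], [])],
   [([], []),
    ([(0, 1024)], []),
    ([], [])],
   [([], []),
    ([], []),
    ([(0, 1024)], [])]]

def d20pp_1 : List (List Col) :=
  [[([(0, 1024)], []),
    ([], [(1, 578)]),
    ([(1, 845)], []),
    ([(2, 130)], []),
    ([], [(2, 572)]),
    ([(2, 839)], []),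
    ([], []),
    ([], []),
    ([], [])],
   [([], []),
    ([(0, 845)], []),
    ([(0, 578)], []),
    ([], [(1, 423)]),
    ([(1, 739)], []),
    ([(1, 569)], []),
    ([], [(2, 416)]),
    ([(2, 935)], []),
    ([], [])],
   [([], []),
    ([], []),
    ([], []),
    ([(0, 924)], []),
    ([(0, 419)], []),
    ([(0, 142)], []),
    ([(1, 935)], []),
    ([(1, 416)], []),
    ([(2, 1024)], [])]]

def d20pp_2 : List (List Col) :=
  [[([(1, 981), (2, 117)], []),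
    ([(1, 294)], [(2, 342)]),
    ([(3, 936), (4, 38), (5, 1)], []),
    ([(3, 402), (4, 103), (5, 39)], []),
    ([(3, 20)], [(4, 558), (5, 60)]),
    ([(3, 101), (5, 13)], [(4, 733)]),
    ([(6, 130), (7, 2)], []),
    ([(6, 176)], [(7, 11)]),
    ([(6, 777)], [(7, 46)]),
    ([(6, 576)], [(7, 13)]),
    ([(8, 17)], []),
    ([], [(8, 81)]),
    ([(8, 87)], []),
    ([], [])],
   [([], [(0, 270)]),
    ([(0, 919)], []),
    ([], [(1, 406), (2, 33)]),
    ([(1, 879)], [(2, 25)]),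
    ([(2, 478)], [(1, 177)]),
    ([(1, 274), (2, 154)], []),
    ([(3, 823)], [(4, 95), (5, 8)]),
    ([(3, 562), (4, 2), (5, 64)], []),
    ([(5, 39)], [(3, 191), (4, 591)]),
    ([(4, 556)], [(3, 124), (5, 7)]),
    ([(6, 236)], [(7, 30)]),
    ([(7, 166)], [(6, 537)]),
    ([(6, 815)], [(7, 11)]),
    ([(8, 133)], [])],
   [([], []),
    ([], []),
    ([(0, 78)], []),
    ([], [(0, 319)]),
    ([], [(0, 688)]),
    ([(0, 633)], []),
    ([(2, 55)], [(1, 585)]),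
    ([(1, 809)], [(2, 206)]),
    ([(1, 21), (2, 233)], []),
    ([], [(1, 192), (2, 596)]),
    ([(3, 944), (5, 78)], [(4, 308)]),
    ([(3, 393), (4, 693)], [(5, 302)]),
    ([(4, 496)], [(3, 14), (5, 360)]),
    ([(6, 986)], [(7, 242)])]]

def d20pp_3 : List (List Col) :=
  [[([(2, 985), (5, 15)], [(3, 203), (4, 63)]),
    ([(2, 279), (3, 677), (4, 246)], [(5, 114)]),
    ([(7, 67), (8, 2)], [(6, 677), (9, 1)]),
    ([(6, 727), (8, 79)], [(7, 231), (9, 19)]),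
    ([(6, 118), (7, 383), (9, 2)], [(8, 31)]),
    ([(6, 214), (7, 772), (9, 84)], [(8, 106)]),
    ([(10, 114), (11, 3)], []),
    ([(11, 52), (12, 9)], [(10, 414)]),
    ([(10, 791)], [(11, 178), (12, 44)]),
    ([(11, 328), (12, 73)], [(10, 282)]),
    ([(13, 17)], []),
    ([], [(13, 93)]),
    ([], [(13, 5)]),
    ([], [])],
   [([(0, 181)], [(1, 14)]),
    ([(1, 115)], [(0, 652)]),
    ([(2, 756), (4, 2)], [(3, 78), (5, 1)]),
    ([(2, 663), (3, 53)], [(4, 66), (5, 7)]),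
    ([(5, 16)], [(2, 79), (3, 579), (4, 34)]),
    ([(2, 174), (4, 156), (5, 18)], [(3, 174)]),
    ([(8, 4), (9, 1)], [(6, 466), (7, 44)]),
    ([(6, 797), (8, 128)], [(7, 9), (9, 15)]),
    ([(6, 358), (9, 4)], [(7, 409), (8, 66)]),
    ([(8, 306)], [(6, 237), (7, 509), (9, 77)]),
    ([(11, 45)], [(10, 346), (12, 15)]),
    ([(10, 714), (12, 31)], [(11, 347)]),
    ([(10, 582), (11, 67)], [(12, 97)]),
    ([], [(13, 100)])],
   [([], []),
    ([], []),
    ([(0, 95), (1, 1)], []),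
    ([(0, 116)], [(1, 7)]),
    ([(0, 737)], [(1, 33)]),
    ([(1, 54)], [(0, 548)]),
    ([(2, 903), (3, 31)], []),
    ([(2, 459), (3, 100)], [(4, 50), (5, 21)]),
    ([(2, 56), (3, 292)], [(4, 42), (5, 1)]),
    ([(3, 629)], [(2, 136), (4, 139), (5, 89)]),
    ([(6, 936), (7, 153), (8, 160), (9, 15)], []),
    ([(6, 397)], [(7, 239), (8, 437), (9, 51)]),
    ([(6, 37), (7, 219), (8, 788), (9, 159)], []),
    ([(10, 969), (12, 65)], [(11, 308)])]]

def d20pp_4 : List (List Col) :=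
  [[([(2, 961), (3, 162), (4, 111)], [(5, 16)]),
    ([(2, 349), (5, 99)], [(3, 398), (4, 310)]),
    ([(6, 899), (7, 46)], [(9, 1)]),
    ([(6, 464), (7, 150), (8, 60), (9, 25)], []),
    ([(6, 43)], [(7, 440), (8, 63), (9, 33)]),
    ([(6, 149)], [(7, 672), (8, 57), (9, 121)]),
    ([(10, 124), (11, 3)], []),
    ([(10, 184), (12, 4)], [(11, 18)]),
    ([(10, 763), (12, 50)], [(11, 103)]),
    ([(10, 475), (12, 79)], [(11, 152)]),
    ([(13, 17)], []),
    ([], [(13, 85)]),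
    ([(13, 72)], []),
    ([], [])],
   [([(1, 25)], [(0, 291)]),
    ([(0, 788)], [(1, 206)]),
    ([(4, 2)], [(2, 474), (3, 58), (5, 1)]),
    ([(2, 836), (4, 89), (5, 6)], [(3, 52)]),
    ([(3, 538), (4, 30)], [(2, 178), (5, 30)]),
    ([(2, 297), (3, 305)], [(4, 182), (5, 28)]),
    ([(6, 730), (9, 1)], [(7, 94), (8, 6)]),
    ([(6, 667), (7, 37), (8, 91), (9, 18)], []),
    ([(8, 70)], [(6, 155), (7, 565), (9, 39)]),
    ([(7, 308), (8, 170), (9, 69)], [(6, 208)]),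
    ([(10, 251)], [(11, 33), (12, 9)]),
    ([(11, 230), (12, 1)], [(10, 573)]),
    ([(10, 769), (12, 77)], [(11, 57)]),
    ([(13, 130)], [])],
   [([], []),
    ([], []),
    ([(0, 100), (1, 1)], []),
    ([(1, 25)], [(0, 310)]),
    ([(1, 68)], [(0, 722)]),
    ([(0, 562)], [(1, 159)]),
    ([(3, 69), (4, 3), (5, 1)], [(2, 698)]),
    ([(2, 701), (4, 58), (5, 22)], [(3, 253)]),
    ([(2, 80), (3, 310)], [(4, 22), (5, 10)]),
    ([(4, 118), (5, 121)], [(2, 248), (3, 729)]),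
    ([(6, 946), (8, 111)], [(7, 278), (9, 11)]),
    ([(6, 383), (7, 601), (9, 128)], [(8, 370)]),
    ([(7, 464), (9, 154)], [(6, 15), (8, 452)]),
    ([(10, 970)], [(11, 302), (12, 23)])]]

def d20pp_5 : List (List Col) :=
  [[([(2, 964), (5, 19)], [(3, 233), (4, 103)]),
    ([(2, 341), (3, 616), (4, 313)], [(5, 138)]),
    ([(6, 737), (9, 1)], [(7, 72), (8, 3)]),
    ([(6, 657), (8, 79)], [(7, 260), (9, 29)]),
    ([(8, 39)], [(6, 127), (7, 383), (9, 21)]),
    ([(8, 143)], [(6, 237), (7, 719), (9, 166)]),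
    ([(10, 113), (11, 3)], []),
    ([(11, 42), (12, 7)], [(10, 332)]),
    ([(10, 753)], [(11, 142), (12, 36)]),
    ([(10, 423)], [(11, 287), (12, 72)]),
    ([(13, 17)], []),
    ([], [(13, 93)]),
    ([], [(13, 20)]),
    ([], [])],
   [([(0, 229)], [(1, 23)]),
    ([(1, 162)], [(0, 640)]),
    ([(3, 90), (5, 2)], [(2, 692), (4, 3)]),
    ([(2, 709), (3, 65)], [(4, 93), (5, 12)]),
    ([(2, 96), (3, 573), (4, 47)], [(5, 34)]),
    ([(3, 189)], [(2, 237), (4, 216), (5, 50)]),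
    ([(8, 4), (9, 1)], [(6, 503), (7, 67)]),
    ([(6, 805), (8, 127)], [(7, 44), (9, 12)]),
    ([(6, 234)], [(7, 512), (8, 68), (9, 36)]),
    ([(6, 291), (7, 409), (9, 67)], [(8, 286)]),
    ([(11, 43)], [(10, 317), (12, 13)]),
    ([(10, 664), (12, 29)], [(11, 327)]),
    ([(10, 638), (11, 38)], [(12, 84)]),
    ([], [(13, 109)])],
   [([], []),
    ([], []),
    ([], [(0, 111), (1, 2)]),
    ([(0, 164)], [(1, 14)]),
    ([(1, 56)], [(0, 735)]),
    ([(0, 525)], [(1, 102)]),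
    ([(2, 881), (3, 46), (4, 1), (5, 1)], []),
    ([(2, 489), (3, 162)], [(4, 67), (5, 25)]),
    ([(3, 364)], [(2, 21), (4, 60), (5, 18)]),
    ([(2, 177), (4, 148), (5, 125)], [(3, 612)]),
    ([(6, 939), (7, 190), (8, 164), (9, 19)], []),
    ([(6, 392)], [(7, 338), (8, 456), (9, 120)]),
    ([(6, 41), (7, 181), (8, 751), (9, 187)], []),
    ([(10, 964), (12, 61)], [(11, 323)])]]

def d20pp_6 : List (List Col) :=
  [[([(2, 951), (4, 138)], [(3, 195), (5, 21)]),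
    ([(4, 369)], [(2, 374), (3, 442), (5, 137)]),
    ([(6, 873), (7, 55), (9, 1)], [(8, 1)]),
    ([(9, 29)], [(6, 497), (7, 191), (8, 74)]),
    ([(6, 72), (9, 36)], [(7, 412), (8, 66)]),
    ([(6, 181), (9, 158)], [(7, 632), (8, 123)]),
    ([(10, 120), (11, 3)], []),
    ([(10, 199), (12, 3)], [(11, 22)]),
    ([(10, 746), (12, 46)], [(11, 106)]),
    ([(10, 479), (12, 71)], [(11, 177)]),
    ([(13, 16)], []),
    ([], [(13, 84)]),
    ([(13, 59)], []),
    ([], [])],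
   [([(0, 293)], [(1, 31)]),
    ([(0, 710)], [(1, 234)]),
    ([(2, 515), (5, 1)], [(3, 75), (4, 2)]),
    ([(2, 813), (3, 66), (4, 110), (5, 8)], []),
    ([(2, 156), (3, 558), (5, 46)], [(4, 43)]),
    ([(3, 307), (4, 248), (5, 51)], [(2, 307)]),
    ([(6, 671)], [(7, 94), (8, 5), (9, 2)]),
    ([(6, 717), (7, 58), (8, 107)], [(9, 17)]),
    ([(8, 69), (9, 49)], [(6, 132), (7, 562)]),
    ([(7, 255), (8, 228)], [(6, 253), (9, 71)]),
    ([(10, 260)], [(11, 34), (12, 10)]),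
    ([(11, 241), (12, 4)], [(10, 605)]),
    ([(10, 739), (12, 79)], [(11, 53)]),
    ([(13, 121)], [])],
   [([], []),
    ([], []),
    ([(0, 109), (1, 2)], []),
    ([(0, 284)], [(1, 29)]),
    ([(1, 83)], [(0, 722)]),
    ([(0, 535)], [(1, 191)]),
    ([(2, 755), (3, 70)], [(4, 3), (5, 1)]),
    ([], [(2, 637), (3, 261), (4, 73), (5, 28)]),
    ([(3, 354), (4, 39), (5, 22)], [(2, 103)]),
    ([(2, 246)], [(3, 696), (4, 156), (5, 165)]),
    ([(6, 947), (8, 131), (9, 19)], [(7, 256)]),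
    ([(6, 381), (7, 554)], [(8, 375), (9, 158)]),
    ([(7, 454)], [(6, 10), (8, 491), (9, 207)]),
    ([(10, 971)], [(11, 301), (12, 31)])]]

def d20pp_7 : List (List Col) :=
  [[([(2, 955), (3, 235), (5, 22)], [(4, 128)]),
    ([(2, 365), (4, 349)], [(3, 567), (5, 154)]),
    ([(6, 777), (9, 1)], [(7, 70), (8, 3)]),
    ([(6, 611), (8, 82)], [(7, 259), (9, 31)]),
    ([(6, 121), (7, 388), (9, 30)], [(8, 48)]),
    ([(6, 235), (7, 679), (9, 186)], [(8, 163)]),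
    ([(10, 115), (11, 3)], []),
    ([(11, 35), (12, 7)], [(10, 284)]),
    ([(10, 735)], [(11, 117), (12, 33)]),
    ([(10, 479)], [(11, 243), (12, 70)]),
    ([(13, 16)], []),
    ([(13, 88)], []),
    ([], [(13, 27)]),
    ([], [])],
   [([], [(0, 253), (1, 29)]),
    ([(0, 641), (1, 194)], []),
    ([(5, 2)], [(2, 647), (3, 92), (4, 3)]),
    ([(2, 738)], [(3, 72), (4, 108), (5, 12)]),
    ([(3, 571), (5, 47)], [(2, 106), (4, 56)]),
    ([(2, 270), (3, 213), (4, 249), (5, 62)], []),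
    ([(8, 3), (9, 2)], [(6, 534), (7, 82)]),
    ([(6, 797), (8, 124)], [(7, 63), (9, 12)]),
    ([(6, 171)], [(7, 548), (8, 62), (9, 50)]),
    ([(6, 304), (7, 333), (9, 68)], [(8, 278)]),
    ([(11, 40)], [(10, 302), (12, 12)]),
    ([(11, 290)], [(10, 653), (12, 24)]),
    ([(10, 661), (11, 20)], [(12, 79)]),
    ([], [(13, 108)])],
   [([], []),
    ([], []),
    ([(0, 114)], [(1, 2)]),
    ([], [(0, 196), (1, 21)]),
    ([], [(0, 730), (1, 72)]),
    ([(0, 517), (1, 140)], []),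
    ([(2, 860), (4, 2), (5, 1)], [(3, 57)]),
    ([(2, 513)], [(3, 205), (4, 77), (5, 28)]),
    ([], [(2, 69), (3, 385), (4, 63), (5, 29)]),
    ([(2, 199), (3, 617), (4, 160), (5, 155)], []),
    ([(6, 940), (7, 213), (8, 159), (9, 22)], []),
    ([(7, 417), (8, 424), (9, 151)], [(6, 393)]),
    ([(6, 29), (7, 259), (8, 699), (9, 220)], []),
    ([(10, 969), (12, 54)], [(11, 309)])]]

def d20pp_8 : List (List Col) :=
  [[([(2, 946), (5, 23)], [(3, 218), (4, 146)]),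
    ([(5, 157)], [(2, 385), (3, 474), (4, 386)]),
    ([(6, 851), (7, 63), (9, 1)], [(8, 2)]),
    ([(9, 30)], [(6, 523), (7, 223), (8, 80)]),
    ([(6, 95), (9, 36)], [(7, 400), (8, 62)]),
    ([(6, 204), (9, 176)], [(7, 631), (8, 153)]),
    ([(10, 117)], [(11, 3)]),
    ([(10, 217), (11, 26), (12, 5)], []),
    ([(10, 732), (11, 99), (12, 40)], []),
    ([(10, 496), (11, 185), (12, 68)], []),
    ([(13, 16)], []),
    ([], [(13, 83)]),
    ([(13, 52)], []),
    ([], [])],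
   [([(0, 290)], [(1, 33)]),
    ([(0, 667)], [(1, 238)]),
    ([(2, 548), (4, 3)], [(3, 87), (5, 2)]),
    ([(2, 794), (3, 72)], [(4, 117), (5, 11)]),
    ([(2, 138), (3, 564), (4, 51)], [(5, 53)]),
    ([(3, 279)], [(2, 307), (4, 269), (5, 59)]),
    ([(6, 629)], [(7, 92), (8, 4), (9, 2)]),
    ([(6, 746), (7, 70), (8, 116)], [(9, 14)]),
    ([(8, 66), (9, 53)], [(6, 123), (7, 565)]),
    ([(7, 248), (8, 252)], [(6, 280), (9, 71)]),
    ([(10, 267), (11, 35)], [(12, 10)]),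
    ([(12, 9)], [(10, 630), (11, 242)]),
    ([(10, 716), (11, 39), (12, 75)], []),
    ([(13, 114)], [])],
   [([], []),
    ([], []),
    ([(0, 115), (1, 3)], []),
    ([(0, 260)], [(1, 28)]),
    ([(1, 88)], [(0, 724)]),
    ([(0, 519)], [(1, 192)]),
    ([(2, 791), (3, 67), (4, 3), (5, 1)], []),
    ([(4, 80), (5, 30)], [(2, 595), (3, 254)]),
    ([(3, 380)], [(2, 107), (4, 52), (5, 31)]),
    ([(2, 234), (4, 169), (5, 180)], [(3, 663)]),
    ([(6, 947), (8, 144), (9, 23)], [(7, 238)]),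
    ([(6, 381), (7, 523)], [(8, 376), (9, 162)]),
    ([(7, 445)], [(6, 7), (8, 525), (9, 229)]),
    ([(10, 974), (11, 293)], [(12, 37)])]]

def d20pp_9 : List (List Col) :=
  [[([(0, 991), (1, 259)], []),
    ([(2, 951), (3, 227), (5, 23)], [(4, 144)]),
    ([(2, 375), (4, 380)], [(3, 519), (5, 159)]),
    ([(6, 806), (9, 1)], [(7, 65), (8, 3)]),
    ([(6, 579), (8, 84)], [(7, 246), (9, 31)]),
    ([(6, 106), (7, 389), (9, 33)], [(8, 56)]),
    ([(6, 227), (7, 648), (9, 185)], [(8, 171)]),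
    ([(10, 118), (11, 3)], []),
    ([(11, 30), (12, 6)], [(10, 252)]),
    ([(10, 727)], [(11, 103), (12, 32)]),
    ([(10, 499)], [(11, 210), (12, 68)]),
    ([(13, 15)], []),
    ([(13, 82)], []),
    ([], [])],
   [([], []),
    ([], [(0, 267), (1, 32)]),
    ([(0, 649), (1, 219)], []),
    ([(5, 2)], [(2, 611), (3, 89), (4, 3)]),
    ([(2, 758)], [(3, 74), (4, 117), (5, 12)]),
    ([(3, 568), (5, 53)], [(2, 120), (4, 63)]),
    ([(2, 289), (3, 252), (4, 266), (5, 67)], []),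
    ([(8, 3), (9, 2)], [(6, 564), (7, 91)]),
    ([(6, 784), (8, 122)], [(7, 71), (9, 13)]),
    ([(6, 138)], [(7, 561), (8, 56), (9, 55)]),
    ([(6, 304), (7, 275), (9, 67)], [(8, 270)]),
    ([(11, 37)], [(10, 290), (12, 11)]),
    ([(11, 260)], [(10, 639), (12, 19)]),
    ([], [(13, 106)])],
   [([], []),
    ([], []),
    ([], []),
    ([(0, 114)], [(1, 2)]),
    ([], [(0, 225), (1, 26)]),
    ([], [(0, 729), (1, 83)]),
    ([(0, 512), (1, 171)], []),
    ([(2, 839), (4, 2), (5, 1)], [(3, 66)]),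
    ([(2, 536)], [(3, 235), (4, 81), (5, 30)]),
    ([], [(2, 100), (3, 391), (4, 60), (5, 34)]),
    ([(2, 215), (3, 633), (4, 166), (5, 177)], []),
    ([(6, 941), (7, 230), (8, 152), (9, 24)], []),
    ([(7, 477), (8, 394), (9, 167)], [(6, 393)]),
    ([(10, 974), (12, 46)], [(11, 293)])]]

def d20pp_10 : List (List Col) :=
  [[([(13, 1)], []),
    ([], []),
    ([(12, 2)], [(11, 81)]),
    ([], [(11, 19), (12, 2)]),
    ([(11, 12), (12, 2)], []),
    ([], [(11, 2), (12, 1)]),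
    ([(7, 562), (8, 48), (10, 1)], [(9, 2)]),
    ([(10, 3)], [(7, 45), (8, 20), (9, 7)]),
    ([(8, 7), (9, 1)], [(7, 2), (10, 1)]),
    ([(7, 1), (10, 1)], [(8, 3), (9, 1)]),
    ([(4, 21), (5, 13)], [(3, 82), (6, 2)]),
    ([(6, 1)], [(3, 2), (4, 2), (5, 2)]),
    ([], [(4, 1), (5, 1)]),
    ([(1, 1)], [])],
   [([(11, 23), (12, 3)], []),
    ([(11, 3), (12, 1)], []),
    ([(8, 62), (9, 2), (10, 1)], [(7, 426)]),
    ([(10, 1)], [(7, 62), (8, 6), (9, 10)]),
    ([(9, 1), (10, 1)], [(7, 2), (8, 10)]),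
    ([(7, 1)], [(8, 1), (9, 1)]),
    ([(3, 393), (5, 2)], [(4, 64), (6, 1)]),
    ([(3, 64), (4, 6)], [(5, 10), (6, 1)]),
    ([(6, 1)], [(3, 2), (4, 10), (5, 1)]),
    ([(4, 1)], [(3, 1), (5, 1)]),
    ([(2, 3)], [(1, 25)]),
    ([(1, 3)], [(2, 1)]),
    ([], [(1, 1)]),
    ([], [])],
   [([(7, 80), (9, 13), (10, 2)], [(8, 19)]),
    ([(9, 1), (10, 1)], [(7, 2), (8, 2)]),
    ([], [(3, 585), (4, 44), (5, 2), (6, 1)]),
    ([(3, 46), (4, 19)], [(5, 7), (6, 3)]),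
    ([(4, 7)], [(3, 2), (5, 1), (6, 1)]),
    ([(4, 2)], [(3, 1), (5, 1), (6, 1)]),
    ([(1, 81), (2, 2)], []),
    ([(1, 20)], [(2, 2)]),
    ([(1, 13)], [(2, 2)]),
    ([(1, 2)], [(2, 1)]),
    ([], [(0, 1)]),
    ([], []),
    ([], []),
    ([], [])]]

def d20pp_11 : List (List Col) :=
  [[([], []),
    ([], []),
    ([(0, 946)], [(1, 385)]),
    ([], [(0, 218), (1, 474)]),
    ([], [(0, 146), (1, 386)]),
    ([(0, 23), (1, 157)], []),
    ([(2, 851), (4, 95), (5, 204)], [(3, 523)]),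
    ([(2, 63)], [(3, 223), (4, 400), (5, 631)]),
    ([], [(2, 2), (3, 80), (4, 62), (5, 153)]),
    ([(2, 1), (3, 30), (4, 36), (5, 176)], []),
    ([(6, 117), (7, 217), (8, 732), (9, 496)], []),
    ([(7, 26), (8, 99), (9, 185)], [(6, 3)]),
    ([(7, 5), (8, 40), (9, 68)], []),
    ([(10, 16), (12, 52)], [(11, 83)])],
   [([(0, 290), (1, 667)], []),
    ([], [(0, 33), (1, 238)]),
    ([(2, 548), (3, 794), (4, 138)], [(5, 307)]),
    ([(3, 72), (4, 564), (5, 279)], [(2, 87)]),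
    ([(2, 3), (4, 51)], [(3, 117), (5, 269)]),
    ([], [(2, 2), (3, 11), (4, 53), (5, 59)]),
    ([(6, 629), (7, 746)], [(8, 123), (9, 280)]),
    ([(7, 70), (9, 248)], [(6, 92), (8, 565)]),
    ([(7, 116), (8, 66), (9, 252)], [(6, 4)]),
    ([(8, 53)], [(6, 2), (7, 14), (9, 71)]),
    ([(10, 267), (12, 716)], [(11, 630)]),
    ([(10, 35), (12, 39)], [(11, 242)]),
    ([(11, 9), (12, 75)], [(10, 10)]),
    ([(13, 114)], [])],
   [([(2, 115), (3, 260), (5, 519)], [(4, 724)]),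
    ([(2, 3), (4, 88)], [(3, 28), (5, 192)]),
    ([(6, 791), (9, 234)], [(7, 595), (8, 107)]),
    ([(6, 67), (8, 380)], [(7, 254), (9, 663)]),
    ([(6, 3), (7, 80), (9, 169)], [(8, 52)]),
    ([(6, 1), (7, 30), (9, 180)], [(8, 31)]),
    ([(10, 947), (11, 381)], [(12, 7)]),
    ([(11, 523), (12, 445)], [(10, 238)]),
    ([(10, 144)], [(11, 376), (12, 525)]),
    ([(10, 23)], [(11, 162), (12, 229)]),
    ([(13, 974)], []),
    ([(13, 293)], []),
    ([], [(13, 37)]),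
    ([], [])]]

def d20pp_12 : List (List Col) :=
  [[([], []),
    ([], []),
    ([(0, 955), (1, 365)], []),
    ([(0, 235)], [(1, 567)]),
    ([(1, 349)], [(0, 128)]),
    ([(0, 22)], [(1, 154)]),
    ([(2, 777), (3, 611), (4, 121), (5, 235)], []),
    ([(4, 388), (5, 679)], [(2, 70), (3, 259)]),
    ([(3, 82)], [(2, 3), (4, 48), (5, 163)]),
    ([(2, 1), (4, 30), (5, 186)], [(3, 31)]),
    ([(6, 115), (8, 735), (9, 479)], [(7, 284)]),
    ([(6, 3), (7, 35)], [(8, 117), (9, 243)]),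
    ([(7, 7)], [(8, 33), (9, 70)]),
    ([(10, 16), (11, 88)], [(12, 27)])],
   [([(1, 641)], [(0, 253)]),
    ([(1, 194)], [(0, 29)]),
    ([(3, 738), (5, 270)], [(2, 647), (4, 106)]),
    ([(4, 571), (5, 213)], [(2, 92), (3, 72)]),
    ([(5, 249)], [(2, 3), (3, 108), (4, 56)]),
    ([(2, 2), (4, 47), (5, 62)], [(3, 12)]),
    ([(7, 797), (8, 171), (9, 304)], [(6, 534)]),
    ([(9, 333)], [(6, 82), (7, 63), (8, 548)]),
    ([(6, 3), (7, 124)], [(8, 62), (9, 278)]),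
    ([(6, 2), (9, 68)], [(7, 12), (8, 50)]),
    ([(12, 661)], [(10, 302), (11, 653)]),
    ([(10, 40), (11, 290), (12, 20)], []),
    ([], [(10, 12), (11, 24), (12, 79)]),
    ([], [(13, 108)])],
   [([(2, 114), (5, 517)], [(3, 196), (4, 730)]),
    ([(5, 140)], [(2, 2), (3, 21), (4, 72)]),
    ([(6, 860), (7, 513), (9, 199)], [(8, 69)]),
    ([(9, 617)], [(6, 57), (7, 205), (8, 385)]),
    ([(6, 2), (9, 160)], [(7, 77), (8, 63)]),
    ([(6, 1), (9, 155)], [(7, 28), (8, 29)]),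
    ([(10, 940), (12, 29)], [(11, 393)]),
    ([(10, 213), (11, 417), (12, 259)], []),
    ([(10, 159), (11, 424), (12, 699)], []),
    ([(10, 22), (11, 151), (12, 220)], []),
    ([(13, 969)], []),
    ([], [(13, 309)]),
    ([(13, 54)], []),
    ([], [])]]

def d20pp_13 : List (List Col) :=
  [[([], []),
    ([], []),
    ([(0, 951)], [(1, 374)]),
    ([], [(0, 195), (1, 442)]),
    ([(0, 138), (1, 369)], []),
    ([], [(0, 21), (1, 137)]),
    ([(2, 873), (4, 72), (5, 181)], [(3, 497)]),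
    ([(2, 55)], [(3, 191), (4, 412), (5, 632)]),
    ([], [(2, 1), (3, 74), (4, 66), (5, 123)]),
    ([(2, 1), (3, 29), (4, 36), (5, 158)], []),
    ([(6, 120), (7, 199), (8, 746), (9, 479)], []),
    ([(6, 3)], [(7, 22), (8, 106), (9, 177)]),
    ([(7, 3), (8, 46), (9, 71)], []),
    ([(10, 16), (12, 59)], [(11, 84)])],
   [([(0, 293), (1, 710)], []),
    ([], [(0, 31), (1, 234)]),
    ([(2, 515), (3, 813), (4, 156)], [(5, 307)]),
    ([(3, 66), (4, 558), (5, 307)], [(2, 75)]),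
    ([(3, 110), (5, 248)], [(2, 2), (4, 43)]),
    ([(2, 1), (3, 8), (4, 46), (5, 51)], []),
    ([(6, 671), (7, 717)], [(8, 132), (9, 253)]),
    ([(7, 58), (9, 255)], [(6, 94), (8, 562)]),
    ([(7, 107), (8, 69), (9, 228)], [(6, 5)]),
    ([(8, 49)], [(6, 2), (7, 17), (9, 71)]),
    ([(10, 260), (12, 739)], [(11, 605)]),
    ([(11, 241)], [(10, 34), (12, 53)]),
    ([(11, 4), (12, 79)], [(10, 10)]),
    ([(13, 121)], [])],
   [([(2, 109), (3, 284), (5, 535)], [(4, 722)]),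
    ([(2, 2), (4, 83)], [(3, 29), (5, 191)]),
    ([(6, 755), (9, 246)], [(7, 637), (8, 103)]),
    ([(6, 70), (8, 354)], [(7, 261), (9, 696)]),
    ([(8, 39)], [(6, 3), (7, 73), (9, 156)]),
    ([(8, 22)], [(6, 1), (7, 28), (9, 165)]),
    ([(10, 947), (11, 381)], [(12, 10)]),
    ([(11, 554), (12, 454)], [(10, 256)]),
    ([(10, 131)], [(11, 375), (12, 491)]),
    ([(10, 19)], [(11, 158), (12, 207)]),
    ([(13, 971)], []),
    ([], [(13, 301)]),
    ([], [(13, 31)]),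
    ([], [])]]

def d20pp_14 : List (List Col) :=
  [[([], []),
    ([], []),
    ([(0, 964), (1, 341)], []),
    ([(1, 616)], [(0, 233)]),
    ([(1, 313)], [(0, 103)]),
    ([(0, 19)], [(1, 138)]),
    ([(2, 737), (3, 657)], [(4, 127), (5, 237)]),
    ([], [(2, 72), (3, 260), (4, 383), (5, 719)]),
    ([(3, 79), (4, 39), (5, 143)], [(2, 3)]),
    ([(2, 1)], [(3, 29), (4, 21), (5, 166)]),
    ([(6, 113), (8, 753), (9, 423)], [(7, 332)]),
    ([(6, 3), (7, 42)], [(8, 142), (9, 287)]),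
    ([(7, 7)], [(8, 36), (9, 72)]),
    ([(10, 17)], [(11, 93), (12, 20)])],
   [([(0, 229)], [(1, 640)]),
    ([(1, 162)], [(0, 23)]),
    ([(3, 709), (4, 96)], [(2, 692), (5, 237)]),
    ([(2, 90), (3, 65), (4, 573), (5, 189)], []),
    ([(4, 47)], [(2, 3), (3, 93), (5, 216)]),
    ([(2, 2)], [(3, 12), (4, 34), (5, 50)]),
    ([(7, 805), (8, 234), (9, 291)], [(6, 503)]),
    ([(9, 409)], [(6, 67), (7, 44), (8, 512)]),
    ([(6, 4), (7, 127)], [(8, 68), (9, 286)]),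
    ([(6, 1), (9, 67)], [(7, 12), (8, 36)]),
    ([(11, 664), (12, 638)], [(10, 317)]),
    ([(10, 43), (12, 38)], [(11, 327)]),
    ([(11, 29)], [(10, 13), (12, 84)]),
    ([], [(13, 109)])],
   [([(3, 164), (5, 525)], [(2, 111), (4, 735)]),
    ([(4, 56)], [(2, 2), (3, 14), (5, 102)]),
    ([(6, 881), (7, 489), (9, 177)], [(8, 21)]),
    ([(6, 46), (7, 162), (8, 364)], [(9, 612)]),
    ([(6, 1), (9, 148)], [(7, 67), (8, 60)]),
    ([(6, 1), (9, 125)], [(7, 25), (8, 18)]),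
    ([(10, 939), (11, 392), (12, 41)], []),
    ([(10, 190), (12, 181)], [(11, 338)]),
    ([(10, 164), (12, 751)], [(11, 456)]),
    ([(10, 19), (12, 187)], [(11, 120)]),
    ([(13, 964)], []),
    ([], [(13, 323)]),
    ([(13, 61)], []),
    ([], [])]]

def d20pp_15 : List (List Col) :=
  [[([], []),
    ([], []),
    ([(0, 961), (1, 349)], []),
    ([(0, 162)], [(1, 398)]),
    ([(0, 111)], [(1, 310)]),
    ([(1, 99)], [(0, 16)]),
    ([(2, 899), (3, 464), (4, 43), (5, 149)], []),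
    ([(2, 46), (3, 150)], [(4, 440), (5, 672)]),
    ([(3, 60)], [(4, 63), (5, 57)]),
    ([(3, 25)], [(2, 1), (4, 33), (5, 121)]),
    ([(6, 124), (7, 184), (8, 763), (9, 475)], []),
    ([(6, 3)], [(7, 18), (8, 103), (9, 152)]),
    ([(7, 4), (8, 50), (9, 79)], []),
    ([(10, 17), (12, 72)], [(11, 85)])],
   [([(1, 788)], [(0, 291)]),
    ([(0, 25)], [(1, 206)]),
    ([(3, 836), (5, 297)], [(2, 474), (4, 178)]),
    ([(4, 538), (5, 305)], [(2, 58), (3, 52)]),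
    ([(2, 2), (3, 89), (4, 30)], [(5, 182)]),
    ([(3, 6)], [(2, 1), (4, 30), (5, 28)]),
    ([(6, 730), (7, 667)], [(8, 155), (9, 208)]),
    ([(7, 37), (9, 308)], [(6, 94), (8, 565)]),
    ([(7, 91), (8, 70), (9, 170)], [(6, 6)]),
    ([(6, 1), (7, 18), (9, 69)], [(8, 39)]),
    ([(10, 251), (12, 769)], [(11, 573)]),
    ([(11, 230)], [(10, 33), (12, 57)]),
    ([(11, 1), (12, 77)], [(10, 9)]),
    ([(13, 130)], [])],
   [([(2, 100), (5, 562)], [(3, 310), (4, 722)]),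
    ([(2, 1), (3, 25), (4, 68)], [(5, 159)]),
    ([(7, 701), (8, 80)], [(6, 698), (9, 248)]),
    ([(6, 69), (8, 310)], [(7, 253), (9, 729)]),
    ([(6, 3), (7, 58), (9, 118)], [(8, 22)]),
    ([(6, 1), (7, 22), (9, 121)], [(8, 10)]),
    ([(10, 946), (11, 383)], [(12, 15)]),
    ([(11, 601), (12, 464)], [(10, 278)]),
    ([(10, 111)], [(11, 370), (12, 452)]),
    ([(11, 128), (12, 154)], [(10, 11)]),
    ([(13, 970)], []),
    ([], [(13, 302)]),
    ([], [(13, 23)]),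
    ([], [])]]

def d20pp_16 : List (List Col) :=
  [[([], []),
    ([], []),
    ([(0, 985), (1, 279)], []),
    ([(1, 677)], [(0, 203)]),
    ([(1, 246)], [(0, 63)]),
    ([(0, 15)], [(1, 114)]),
    ([(3, 727), (4, 118), (5, 214)], [(2, 677)]),
    ([(2, 67), (4, 383), (5, 772)], [(3, 231)]),
    ([(2, 2), (3, 79)], [(4, 31), (5, 106)]),
    ([(4, 2), (5, 84)], [(2, 1), (3, 19)]),
    ([(6, 114), (8, 791)], [(7, 414), (9, 282)]),
    ([(6, 3), (7, 52), (9, 328)], [(8, 178)]),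
    ([(7, 9), (9, 73)], [(8, 44)]),
    ([(10, 17)], [(11, 93), (12, 5)])],
   [([(0, 181)], [(1, 652)]),
    ([(1, 115)], [(0, 14)]),
    ([(2, 756), (3, 663), (5, 174)], [(4, 79)]),
    ([(3, 53)], [(2, 78), (4, 579), (5, 174)]),
    ([(2, 2), (5, 156)], [(3, 66), (4, 34)]),
    ([(4, 16), (5, 18)], [(2, 1), (3, 7)]),
    ([(7, 797), (8, 358)], [(6, 466), (9, 237)]),
    ([], [(6, 44), (7, 9), (8, 409), (9, 509)]),
    ([(6, 4), (7, 128), (9, 306)], [(8, 66)]),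
    ([(6, 1), (8, 4)], [(7, 15), (9, 77)]),
    ([(11, 714), (12, 582)], [(10, 346)]),
    ([(10, 45), (12, 67)], [(11, 347)]),
    ([(11, 31)], [(10, 15), (12, 97)]),
    ([], [(13, 100)])],
   [([(2, 95), (3, 116), (4, 737)], [(5, 548)]),
    ([(2, 1), (5, 54)], [(3, 7), (4, 33)]),
    ([(6, 903), (7, 459), (8, 56)], [(9, 136)]),
    ([(6, 31), (7, 100), (8, 292), (9, 629)], []),
    ([], [(7, 50), (8, 42), (9, 139)]),
    ([], [(7, 21), (8, 1), (9, 89)]),
    ([(10, 936), (11, 397), (12, 37)], []),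
    ([(10, 153), (12, 219)], [(11, 239)]),
    ([(10, 160), (12, 788)], [(11, 437)]),
    ([(10, 15), (12, 159)], [(11, 51)]),
    ([(13, 969)], []),
    ([], [(13, 308)]),
    ([(13, 65)], []),
    ([], [])]]

def d20pp_17 : List (List Col) :=
  [[([], []),
    ([(0, 981), (1, 294)], []),
    ([(0, 117)], [(1, 342)]),
    ([(2, 936), (3, 402), (4, 20), (5, 101)], []),
    ([(2, 38), (3, 103)], [(4, 558), (5, 733)]),
    ([(2, 1), (3, 39), (5, 13)], [(4, 60)]),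
    ([(6, 130), (7, 176), (8, 777), (9, 576)], []),
    ([(6, 2)], [(7, 11), (8, 46), (9, 13)]),
    ([(10, 17), (12, 87)], [(11, 81)])],
   [([(1, 919)], [(0, 270)]),
    ([(3, 879), (5, 274)], [(2, 406), (4, 177)]),
    ([(4, 478), (5, 154)], [(2, 33), (3, 25)]),
    ([(6, 823), (7, 562)], [(8, 191), (9, 124)]),
    ([(7, 2), (9, 556)], [(6, 95), (8, 591)]),
    ([(7, 64), (8, 39)], [(6, 8), (9, 7)]),
    ([(10, 236), (12, 815)], [(11, 537)]),
    ([(11, 166)], [(10, 30), (12, 11)]),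
    ([(13, 133)], [])],
   [([(2, 78), (5, 633)], [(3, 319), (4, 688)]),
    ([(7, 809), (8, 21)], [(6, 585), (9, 192)]),
    ([(6, 55), (8, 233)], [(7, 206), (9, 596)]),
    ([(10, 944), (11, 393)], [(12, 14)]),
    ([(11, 693), (12, 496)], [(10, 308)]),
    ([(10, 78)], [(11, 302), (12, 360)]),
    ([(13, 986)], []),
    ([], [(13, 242)]),
    ([], [])]]

def d20pp_18 : List (List Col) :=
  [[([(0, 1024)], []),
    ([(2, 845)], [(1, 578)]),
    ([(3, 130), (5, 839)], [(4, 572)])],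
   [([(1, 845), (2, 578)], []),
    ([(4, 739), (5, 569)], [(3, 423)]),
    ([(7, 935)], [(6, 416)])],
   [([(3, 924), (4, 419), (5, 142)], []),
    ([(6, 935), (7, 416)], []),
    ([(8, 1024)], [])]]

def d20pp_19 : List (List Col) :=
  [[([(0, 1024)], [])],
   [([(1, 1024)], [])],
   [([(2, 1024)], [])]]

def d20pp : List (List (List Col)) :=
  [d20pp_0, d20pp_1, d20pp_2, d20pp_3, d20pp_4, d20pp_5, d20pp_6, d20pp_7, d20pp_8, d20pp_9, d20pp_10, d20pp_11, d20pp_12, d20pp_13, d20pp_14, d20pp_15, d20pp_16, d20pp_17, d20pp_18, d20pp_19]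

end Crest.Agent.R347
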