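import Crest.Agent.R347.MpsEval

set_option autoImplicit false
set_option maxRecDepth 100000

namespace Crest.Agent.R347

def d54pm_0 : List (List Col) :=
  [[([(0, 512)], []),
    ([], []),
    ([], [])],
   [([], []),
    ([(0, 512)], []),
    ([], [])],
   [([], []),
    ([], []),
    ([(0, 512)], [])]]

def d54pm_1 : List (List Col) :=
  [[([(0, 512)], []),
    ([], [(1, 287)]),
    ([(1, 424)], []),
    ([(2, 64)], []),
    ([], [(2, 288)]),
    ([(2, 419)], []),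
    ([], []),
    ([], []),
    ([], [])],
   [([], []),
    ([(0, 424)], []),
    ([(0, 287)], []),
    ([], [(1, 210)]),
    ([(1, 369)], []),
    ([(1, 286)], []),
    ([], [(2, 208)]),
    ([(2, 468)], []),
    ([], [])],
   [([], []),
    ([], []),
    ([], []),
    ([(0, 462)], []),
    ([(0, 208)], []),
    ([(0, 72)], []),
    ([(1, 468)], []),
    ([(1, 208)], []),
    ([(2, 512)], [])]]

def d54pm_2 : List (List Col) :=
  [[([(0, 512)], []),
    ([(1, 490), (2, 57)], []),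
    ([(1, 147)], [(2, 165)]),
    ([(2, 481)], [(1, 7)]),
    ([(3, 469), (4, 18), (5, 1)], []),
    ([(3, 200), (4, 50), (5, 19)], []),
    ([(3, 8)], [(4, 280), (5, 30)]),
    ([(3, 50), (5, 6)], [(4, 366)]),
    ([(3, 11), (4, 210)], [(5, 160)]),
    ([(4, 55), (5, 485)], [(3, 5)]),
    ([(6, 65), (7, 1)], []),
    ([(6, 86)], [(7, 5)]),
    ([(6, 388)], [(7, 23)]),
    ([(7, 7)], [(6, 288)]),
    ([(6, 123), (7, 97)], []),
    ([(7, 233)], [(6, 43)]),
    ([(8, 8)], []),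
    ([], [(8, 40)]),
    ([(8, 44)], []),
    ([(8, 104)], []),
    ([(8, 347)], []),
    ([], [])],
   [([], []),
    ([], [(0, 136)]),
    ([(0, 462)], []),
    ([(0, 174)], []),
    ([], [(1, 201), (2, 16)]),
    ([(1, 439)], [(2, 13)]),
    ([(2, 238)], [(1, 91)]),
    ([(1, 138), (2, 79)], []),
    ([(1, 36), (2, 419)], []),
    ([(2, 153)], [(1, 13)]),
    ([(3, 414)], [(4, 48), (5, 4)]),
    ([(3, 278), (4, 2), (5, 32)], []),
    ([(5, 20)], [(3, 94), (4, 297)]),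
    ([(3, 62), (5, 1)], [(4, 274)]),
    ([(3, 27), (4, 256)], [(5, 251)]),
    ([], [(3, 8), (4, 175), (5, 368)]),
    ([(6, 117)], [(7, 15)]),
    ([(7, 83)], [(6, 265)]),
    ([(6, 410)], [(7, 6)]),
    ([(6, 22)], [(7, 198)]),
    ([], [(6, 97), (7, 297)]),
    ([(8, 67)], [])],
   [([], []),
    ([], []),
    ([], []),
    ([], []),
    ([(0, 39)], []),
    ([], [(0, 162)]),
    ([], [(0, 343)]),
    ([(0, 317)], []),
    ([(0, 124)], []),
    ([(0, 22)], []),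
    ([(2, 28)], [(1, 289)]),
    ([(1, 407)], [(2, 105)]),
    ([(1, 12), (2, 116)], []),
    ([(1, 97), (2, 302)], []),
    ([(1, 59), (2, 324)], []),
    ([], [(1, 5), (2, 200)]),
    ([(3, 472), (5, 38)], [(4, 154)]),
    ([(3, 196), (4, 349)], [(5, 152)]),
    ([(4, 244)], [(3, 9), (5, 179)]),
    ([(3, 30), (4, 232), (5, 396)], []),
    ([(3, 7)], [(4, 55), (5, 202)]),
    ([(6, 493)], [(7, 122)])]]

def d54pm_3 : List (List Col) :=
  [[([(1, 503)], [(2, 86), (3, 8)]),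
    ([(4, 492), (7, 7), (8, 1)], [(5, 103), (6, 31)]),
    ([(4, 140), (5, 340), (6, 122), (9, 1)], [(7, 59), (8, 11)]),
    ([(4, 2), (5, 296), (6, 143)], [(7, 87), (8, 23), (9, 1)]),
    ([(11, 34), (12, 1)], [(10, 334)]),
    ([(10, 367), (12, 40), (13, 10), (14, 5)], [(11, 118), (15, 1)]),
    ([(10, 61), (11, 191)], [(12, 14), (13, 2), (14, 6)]),
    ([(10, 110), (11, 385), (15, 7)], [(12, 56), (13, 50), (14, 46)]),
    ([(11, 20), (12, 388), (13, 129), (14, 10)], [(10, 16), (15, 16)]),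
    ([(10, 2), (11, 224), (12, 175), (13, 11), (15, 4)], [(14, 45)]),
    ([(16, 56), (17, 2)], []),
    ([(17, 28), (18, 5), (19, 1)], [(16, 211)]),
    ([(16, 392), (19, 8)], [(17, 97), (18, 26), (20, 1)]),
    ([(17, 176), (18, 39)], [(16, 126), (19, 1), (20, 1)]),
    ([(16, 179), (17, 154), (20, 2)], [(18, 16), (19, 3)]),
    ([(17, 69), (18, 35), (19, 6)], [(16, 35), (20, 2)]),
    ([(16, 86), (17, 352), (18, 81), (20, 2)], [(19, 62)]),
    ([(21, 9)], []),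
    ([], [(21, 47)]),
    ([], [(21, 3)]),
    ([], [(21, 18)]),
    ([], [])],
   [([(0, 39)], []),
    ([(1, 90)], [(2, 7), (3, 1)]),
    ([(2, 62), (3, 6)], [(1, 322)]),
    ([(1, 381), (3, 14)], [(2, 6)]),
    ([(4, 382), (6, 1)], [(5, 39), (7, 1)]),
    ([(4, 327), (5, 27)], [(6, 33), (7, 4), (8, 3)]),
    ([(7, 8), (8, 4)], [(4, 39), (5, 289), (6, 16), (9, 2)]),
    ([(4, 87), (6, 83), (7, 7), (8, 27)], [(5, 79)]),
    ([], [(4, 17), (5, 150), (6, 229), (7, 54), (8, 5), (9, 7)]),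
    ([(5, 368), (6, 7), (9, 1)], [(4, 4), (7, 103), (8, 2)]),
    ([(12, 2)], [(10, 230), (11, 21)]),
    ([(10, 398), (12, 65), (13, 7), (15, 1)], [(11, 4), (14, 4)]),
    ([(10, 183), (14, 24), (15, 6)], [(11, 202), (12, 36), (13, 3)]),
    ([(12, 164), (13, 40)], [(10, 116), (11, 254), (14, 18), (15, 2)]),
    ([(10, 28), (11, 154), (12, 389), (13, 10)], [(14, 32), (15, 11)]),
    ([(10, 8), (12, 11), (13, 74), (14, 30)], [(11, 342), (15, 5)]),
    ([(10, 50), (11, 12)], [(12, 97), (13, 86), (14, 73), (15, 33)]),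
    ([(17, 23)], [(16, 174), (18, 8)]),
    ([(16, 352), (18, 13), (19, 12), (20, 3)], [(17, 182)]),
    ([(16, 292), (17, 32), (19, 6), (20, 3)], [(18, 50)]),
    ([(16, 32), (20, 4)], [(17, 105), (18, 10), (19, 11)]),
    ([], [(21, 51)])],
   [([], []),
    ([(0, 4)], []),
    ([], [(0, 26)]),
    ([(0, 21)], []),
    ([(1, 47)], []),
    ([(1, 56), (3, 3)], [(2, 4)]),
    ([(1, 369), (3, 2)], [(2, 17)]),
    ([(2, 29)], [(1, 268), (3, 19)]),
    ([(3, 9)], [(1, 122), (2, 30)]),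
    ([(1, 181), (2, 9), (3, 23)], []),
    ([(4, 453), (5, 15)], []),
    ([(4, 226), (5, 48), (8, 2)], [(6, 25), (7, 11)]),
    ([(4, 31), (5, 143), (7, 1), (9, 4)], [(6, 21), (8, 7)]),
    ([(5, 309), (9, 5)], [(4, 66), (6, 73), (7, 46), (8, 1)]),
    ([(4, 1), (8, 20)], [(5, 118), (6, 97), (7, 72), (9, 8)]),
    ([(4, 4), (7, 33)], [(5, 356), (6, 54), (8, 19), (9, 9)]),
    ([(4, 14), (6, 275), (7, 136), (8, 10)], [(9, 15)]),
    ([(10, 468), (11, 74), (12, 81), (14, 2)], [(13, 8)]),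
    ([(10, 197), (13, 23), (14, 25), (15, 13)], [(11, 115), (12, 222)]),
    ([(10, 21), (11, 97), (12, 396), (14, 12)], [(13, 80), (15, 8)]),
    ([(11, 473)], [(10, 33), (12, 143), (13, 62), (14, 8), (15, 10)]),
    ([(16, 482), (18, 33), (19, 15), (20, 10)], [(17, 159)])]]

def d54pm_4 : List (List Col) :=
  [[([(1, 499), (3, 20)], [(2, 108)]),
    ([(4, 481), (5, 77), (6, 57), (9, 2)], [(7, 8), (8, 1)]),
    ([(4, 173), (7, 52)], [(5, 186), (6, 164), (8, 8), (9, 1)]),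
    ([(4, 5), (5, 199), (6, 361), (9, 30)], [(7, 116), (8, 11)]),
    ([(4, 13), (6, 267), (7, 12)], [(5, 417), (8, 21), (9, 16)]),
    ([(10, 452), (11, 22)], []),
    ([(10, 228), (11, 71), (12, 30), (13, 13)], [(14, 2), (15, 3)]),
    ([(10, 17), (16, 7)], [(11, 221), (12, 32), (13, 19), (14, 12), (15, 3)]),
    ([(11, 329), (12, 27), (13, 69), (14, 26)], [(10, 73), (15, 10), (16, 15)]),
    ([(10, 10), (11, 277), (14, 60), (15, 1), (16, 6)], [(12, 201), (13, 42)]),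
    ([(11, 111), (12, 109), (13, 115)], [(10, 2), (14, 24), (15, 47), (16, 8)]),
    ([(17, 62), (18, 1)], []),
    ([(17, 87), (19, 2), (20, 4)], [(18, 9)]),
    ([(17, 379), (19, 31)], [(18, 57), (20, 5)]),
    ([(17, 229), (19, 43), (20, 13)], [(18, 80)]),
    ([(17, 216), (18, 73), (19, 26), (20, 3)], []),
    ([(18, 203)], [(17, 7), (19, 77), (20, 19)]),
    ([(21, 8)], []),
    ([], [(21, 42)]),
    ([(21, 38)], []),
    ([(21, 60)], []),
    ([], [])],
   [([], [(0, 34)]),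
    ([(2, 14)], [(1, 147), (3, 4)]),
    ([(1, 392), (3, 10)], [(2, 114)]),
    ([(1, 273), (2, 46)], [(3, 37)]),
    ([(2, 107)], [(1, 61), (3, 2)]),
    ([(6, 1)], [(4, 233), (5, 27)]),
    ([(4, 419), (6, 45), (7, 3), (8, 2)], [(5, 26), (9, 3)]),
    ([(5, 268), (6, 16), (8, 16)], [(4, 93), (7, 16), (9, 1)]),
    ([(6, 94), (7, 16)], [(4, 150), (5, 156), (8, 13), (9, 27)]),
    ([(4, 19), (5, 268), (9, 4)], [(6, 228), (7, 73), (8, 12)]),
    ([(4, 7), (5, 278), (6, 331), (8, 25)], [(7, 51), (9, 17)]),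
    ([(10, 370), (13, 1)], [(11, 48), (12, 3)]),
    ([(10, 329), (11, 20), (12, 46), (13, 10), (15, 3)], [(14, 2)]),
    ([(12, 37), (16, 1)], [(10, 74), (11, 284), (13, 25), (14, 28), (15, 1)]),
    ([(11, 142), (12, 92), (13, 35), (15, 19)], [(10, 103), (14, 13), (16, 15)]),
    ([(10, 7), (11, 312), (13, 51), (14, 41), (16, 16)], [(12, 270), (15, 3)]),
    ([(14, 77), (15, 10), (16, 29)], [(10, 13), (11, 222), (12, 279), (13, 37)]),
    ([(17, 124)], [(18, 16), (19, 5)]),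
    ([(18, 119), (20, 11)], [(17, 276), (19, 5)]),
    ([(17, 389), (19, 43), (20, 3)], [(18, 34)]),
    ([(17, 22), (20, 21)], [(18, 162), (19, 17)]),
    ([(21, 66)], [])],
   [([], []),
    ([(0, 5)], []),
    ([], [(0, 32)]),
    ([(0, 3)], []),
    ([(0, 20)], []),
    ([(1, 49), (2, 1)], []),
    ([(2, 14), (3, 3)], [(1, 160)]),
    ([(2, 38), (3, 9)], [(1, 359)]),
    ([(2, 89), (3, 24)], [(1, 277)]),
    ([(1, 26)], [(2, 95), (3, 18)]),
    ([(1, 150), (2, 96)], [(3, 14)]),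
    ([(5, 35), (6, 1), (7, 1)], [(4, 343)]),
    ([(4, 354), (6, 29), (7, 12), (8, 1), (9, 2)], [(5, 132)]),
    ([(4, 43), (5, 153), (8, 16), (9, 6)], [(6, 9), (7, 5)]),
    ([(6, 61), (7, 71), (9, 5)], [(4, 128), (5, 366), (8, 29)]),
    ([(4, 20), (5, 140)], [(6, 92), (7, 72), (8, 17), (9, 22)]),
    ([(9, 7)], [(4, 6), (5, 235), (6, 146), (7, 1), (8, 52)]),
    ([(10, 473), (12, 54), (14, 3)], [(11, 141), (13, 5)]),
    ([(10, 190), (11, 303), (13, 74), (14, 28), (15, 7), (16, 16)], [(12, 189)]),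
    ([(11, 222), (13, 78), (15, 14), (16, 18)], [(10, 11), (12, 223), (14, 12)]),
    ([(10, 36), (11, 303), (12, 368), (15, 12)], [(13, 2), (14, 9), (16, 49)]),
    ([(17, 483)], [(18, 156), (19, 10), (20, 10)])]]

def d54pm_5 : List (List Col) :=
  [[([(1, 495), (4, 17)], [(2, 119), (3, 7)]),
    ([(5, 482), (10, 1)], [(6, 120), (7, 50), (8, 9)]),
    ([(5, 171), (6, 310), (7, 154), (8, 76), (10, 10)], [(9, 21)]),
    ([(6, 268), (7, 187), (8, 104)], [(5, 1), (9, 19), (10, 16)]),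
    ([(7, 417), (8, 22), (9, 34), (10, 3)], [(5, 13), (6, 260)]),
    ([(12, 38), (13, 2)], [(11, 361), (14, 1)]),
    ([(11, 334), (13, 40), (15, 2)], [(12, 137), (14, 16), (16, 2)]),
    ([(11, 68), (12, 189), (14, 13)], [(13, 17), (15, 9), (16, 5)]),
    ([(11, 123), (12, 357), (14, 98), (16, 7)], [(13, 73), (15, 33)]),
    ([(13, 249)], [(11, 6), (12, 36), (14, 121), (15, 10), (16, 32)]),
    ([(11, 2), (12, 248), (13, 274)], [(14, 27), (15, 57), (16, 6)]),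
    ([(17, 55), (18, 2)], []),
    ([(18, 24), (19, 4), (20, 3)], [(17, 173)]),
    ([(17, 372), (20, 13)], [(18, 82), (19, 23)]),
    ([(17, 194)], [(18, 161), (19, 42)]),
    ([(17, 186), (18, 140)], [(19, 13), (20, 2)]),
    ([(17, 78)], [(18, 45), (19, 31), (20, 16)]),
    ([(21, 9)], []),
    ([], [(21, 47)]),
    ([], [(21, 9)]),
    ([], [(21, 24)]),
    ([], [])],
   [([(0, 50)], []),
    ([(1, 114)], [(2, 12), (3, 3)]),
    ([(2, 90)], [(1, 311), (3, 2), (4, 18)]),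
    ([(1, 376), (3, 33), (4, 1)], [(2, 20)]),
    ([(2, 126), (3, 9), (4, 34)], [(1, 18)]),
    ([(5, 354), (7, 2), (8, 1)], [(6, 46)]),
    ([(5, 348), (6, 33), (8, 6)], [(7, 46), (9, 3), (10, 3)]),
    ([(9, 15)], [(5, 45), (6, 286), (7, 22), (8, 19), (10, 13)]),
    ([(5, 117), (7, 112), (9, 27), (10, 17)], [(6, 83), (8, 26)]),
    ([(9, 11)], [(5, 7), (6, 277), (7, 252), (8, 2), (10, 20)]),
    ([(6, 277), (8, 130), (9, 4), (10, 1)], [(5, 5), (7, 128)]),
    ([(13, 2), (14, 1)], [(11, 246), (12, 31)]),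
    ([(11, 403), (13, 66), (16, 2)], [(12, 23), (14, 6), (15, 5)]),
    ([(11, 122), (15, 25), (16, 10)], [(12, 255), (13, 38), (14, 22)]),
    ([(11, 145), (12, 208), (14, 35), (15, 29)], [(13, 156), (16, 5)]),
    ([(11, 23), (12, 97), (13, 392), (14, 16)], [(15, 42), (16, 26)]),
    ([(12, 349), (13, 8), (14, 107), (16, 4)], [(11, 2), (15, 17)]),
    ([(18, 23)], [(17, 160), (19, 7)]),
    ([(17, 323), (19, 11), (20, 19)], [(18, 177)]),
    ([(17, 318), (18, 18), (20, 7)], [(19, 47)]),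
    ([(17, 87)], [(18, 113), (19, 11), (20, 19)]),
    ([], [(21, 56)])],
   [([], []),
    ([(0, 6)], []),
    ([], [(0, 34)]),
    ([(0, 26)], []),
    ([], [(0, 35)]),
    ([(1, 56), (2, 1)], []),
    ([(1, 77), (3, 2)], [(2, 7), (4, 4)]),
    ([(1, 367), (3, 19), (4, 13)], [(2, 33)]),
    ([(2, 57), (4, 9)], [(1, 254), (3, 31)]),
    ([], [(1, 201), (2, 34), (3, 23), (4, 12)]),
    ([(1, 96), (3, 23)], [(2, 29), (4, 33)]),
    ([(5, 444), (6, 21)], []),
    ([(5, 239), (6, 76), (8, 13), (9, 4), (10, 1)], [(7, 34)]),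
    ([(6, 180), (8, 9), (10, 5)], [(5, 4), (7, 32), (9, 13)]),
    ([(5, 86), (7, 80), (9, 3)], [(6, 295), (8, 69), (10, 17)]),
    ([(5, 1), (8, 70), (9, 45)], [(6, 131), (7, 130), (10, 13)]),
    ([(6, 335), (7, 57), (8, 46), (9, 15), (10, 36)], [(5, 3)]),
    ([(11, 470), (12, 89), (13, 85), (14, 10), (15, 4)], []),
    ([(11, 194), (15, 21), (16, 23)], [(12, 156), (13, 239), (14, 65)]),
    ([(11, 26), (12, 47), (13, 382), (14, 92), (15, 28)], [(16, 19)]),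
    ([(12, 462), (14, 74), (15, 9)], [(11, 28), (13, 143), (16, 22)]),
    ([(17, 478), (19, 31), (20, 18)], [(18, 171)])]]

def d54pm_6 : List (List Col) :=
  [[([(1, 490), (3, 25)], [(2, 137), (4, 15)]),
    ([(5, 475), (6, 91), (7, 73), (10, 1)], [(8, 11), (9, 3)]),
    ([(5, 185), (8, 74)], [(6, 201), (7, 196), (9, 7), (10, 8)]),
    ([(5, 16), (7, 419), (10, 7)], [(6, 12), (8, 100), (9, 34)]),
    ([(6, 447), (10, 38)], [(5, 11), (7, 106), (8, 77), (9, 3)]),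
    ([(11, 441), (12, 25), (14, 1)], []),
    ([(11, 242), (12, 89), (13, 38), (16, 4)], [(14, 15), (15, 2)]),
    ([(11, 30), (14, 22), (16, 4)], [(12, 207), (13, 35), (15, 13)]),
    ([(11, 87), (14, 89)], [(12, 300), (13, 63), (15, 20), (16, 15)]),
    ([(13, 210)], [(11, 4), (12, 285), (14, 39), (15, 61), (16, 2)]),
    ([(12, 163), (13, 82), (16, 51)], [(11, 1), (14, 104), (15, 14)]),
    ([], [(17, 61), (18, 1)]),
    ([(17, 92), (19, 1), (20, 6)], [(18, 10)]),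
    ([(17, 370), (19, 31)], [(18, 60), (20, 8)]),
    ([(17, 228), (19, 38), (20, 19)], [(18, 92)]),
    ([(17, 226), (18, 46), (19, 35), (20, 6)], []),
    ([(17, 18), (19, 19), (20, 45)], [(18, 104)]),
    ([(21, 8)], []),
    ([], [(21, 41)]),
    ([(21, 33)], []),
    ([(21, 44)], []),
    ([], [])],
   [([], [(0, 46)]),
    ([(2, 18)], [(1, 149), (3, 5)]),
    ([(1, 351), (3, 11)], [(2, 135), (4, 18)]),
    ([(1, 264), (2, 62)], [(3, 39), (4, 15)]),
    ([(1, 180), (4, 18)], [(2, 98), (3, 16)]),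
    ([(7, 1)], [(5, 250), (6, 34), (8, 1)]),
    ([(5, 408), (7, 57), (8, 4), (9, 4)], [(6, 34), (10, 3)]),
    ([(6, 278), (7, 22), (9, 19), (10, 7)], [(5, 82), (8, 27)]),
    ([(5, 157), (6, 161), (10, 32)], [(7, 132), (8, 30), (9, 7)]),
    ([(7, 291), (8, 69), (9, 18), (10, 5)], [(5, 2), (6, 171)]),
    ([(5, 8), (6, 329), (7, 255), (9, 26)], [(8, 85), (10, 5)]),
    ([(12, 49), (13, 3), (14, 1)], [(11, 345)]),
    ([(11, 351), (12, 31), (13, 54)], [(14, 10), (15, 2), (16, 4)]),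
    ([(13, 36), (14, 33)], [(11, 61), (12, 282), (15, 29)]),
    ([(12, 108), (13, 121)], [(11, 125), (14, 38), (15, 11), (16, 28)]),
    ([(11, 1), (12, 312), (15, 37), (16, 7)], [(13, 265), (14, 60)]),
    ([(11, 6), (12, 221), (13, 251), (16, 5)], [(14, 108), (15, 33)]),
    ([(17, 128)], [(18, 17), (19, 5), (20, 1)]),
    ([(18, 127), (20, 18)], [(17, 287), (19, 5)]),
    ([(17, 378), (19, 45), (20, 6)], [(18, 37)]),
    ([(17, 27), (20, 32)], [(18, 141), (19, 23)]),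
    ([(21, 63)], [])],
   [([], []),
    ([(0, 7)], []),
    ([], [(0, 39)]),
    ([(0, 2)], []),
    ([], [(0, 24)]),
    ([(1, 53), (2, 1)], []),
    ([(2, 17), (3, 4)], [(1, 150), (4, 2)]),
    ([(2, 49), (3, 14), (4, 15)], [(1, 357)]),
    ([(1, 261), (4, 1)], [(2, 113), (3, 33)]),
    ([(1, 40), (2, 103), (3, 10)], [(4, 19)]),
    ([(1, 176), (2, 50), (4, 3)], [(3, 27)]),
    ([(5, 369)], [(6, 37), (7, 2), (8, 1)]),
    ([(5, 325), (7, 37), (8, 15), (10, 3)], [(6, 140)]),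
    ([(5, 58), (6, 175), (9, 14), (10, 12)], [(7, 17), (8, 14)]),
    ([(7, 83), (8, 100)], [(5, 129), (6, 348), (9, 29)]),
    ([(5, 8), (6, 90)], [(7, 130), (8, 91), (9, 11), (10, 34)]),
    ([(5, 5), (6, 264), (7, 227), (8, 22), (9, 47)], [(10, 2)]),
    ([(11, 473), (13, 63), (14, 9), (15, 3), (16, 1)], [(12, 133)]),
    ([(11, 189), (12, 284), (15, 29)], [(13, 189), (14, 92), (16, 7)]),
    ([(12, 219)], [(11, 9), (13, 235), (14, 106), (15, 14), (16, 20)]),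
    ([(11, 26), (12, 316), (13, 369), (15, 9)], [(14, 13), (16, 26)]),
    ([(17, 482)], [(18, 160), (19, 12), (20, 19)])]]

def d54pm_7 : List (List Col) :=
  [[([(1, 490)], [(2, 137), (3, 3), (4, 25)]),
    ([(5, 477), (8, 11), (9, 1), (10, 2)], [(6, 123), (7, 62)]),
    ([(8, 90)], [(5, 183), (6, 291), (7, 170), (9, 23), (10, 6)]),
    ([(6, 248), (7, 211), (9, 9)], [(5, 4), (8, 116), (10, 27)]),
    ([(7, 396), (10, 7)], [(5, 14), (6, 291), (8, 5), (9, 37)]),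
    ([(11, 378), (12, 38), (13, 2)], [(14, 1)]),
    ([(13, 42), (15, 1), (16, 3)], [(11, 313), (12, 141), (14, 18)]),
    ([(11, 70), (13, 21), (15, 11)], [(12, 192), (14, 20), (16, 10)]),
    ([(11, 124), (13, 86), (15, 30), (16, 2)], [(12, 337), (14, 114)]),
    ([(12, 42), (14, 116), (15, 8)], [(11, 1), (13, 206), (16, 36)]),
    ([(12, 271), (13, 245), (16, 1)], [(11, 4), (14, 17), (15, 53)]),
    ([(17, 56), (18, 2)], []),
    ([(17, 153)], [(18, 21), (19, 4), (20, 3)]),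
    ([(17, 362), (20, 17)], [(18, 68), (19, 21)]),
    ([(17, 227)], [(18, 142), (19, 40), (20, 4)]),
    ([(17, 166), (18, 122), (20, 11)], [(19, 13)]),
    ([(17, 118)], [(18, 30), (19, 32), (20, 20)]),
    ([], [(21, 8)]),
    ([(21, 46)], []),
    ([], [(21, 7)]),
    ([], [(21, 28)]),
    ([], [])],
   [([(0, 55)], []),
    ([(1, 125)], [(2, 15), (3, 4), (4, 2)]),
    ([(1, 305), (3, 10)], [(2, 107), (4, 21)]),
    ([(1, 372), (3, 37), (4, 14)], [(2, 29)]),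
    ([(2, 126), (3, 29)], [(1, 21), (4, 30)]),
    ([(5, 335), (7, 2)], [(6, 48), (8, 1)]),
    ([(5, 360), (6, 38), (9, 2)], [(7, 54), (8, 7), (10, 4)]),
    ([(5, 46), (6, 285), (7, 26), (9, 21), (10, 13)], [(8, 29)]),
    ([(6, 85), (9, 21)], [(5, 133), (7, 129), (8, 35), (10, 24)]),
    ([(5, 1), (6, 294), (7, 258), (9, 16), (10, 20)], [(8, 29)]),
    ([(6, 255)], [(5, 1), (7, 188), (8, 127), (9, 9)]),
    ([(11, 258), (13, 1), (14, 1)], [(12, 37)]),
    ([(11, 401), (12, 33), (14, 6), (15, 5), (16, 3)], [(13, 66)]),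
    ([(15, 22)], [(11, 90), (12, 274), (13, 34), (14, 31), (16, 12)]),
    ([(12, 174), (14, 37), (15, 24), (16, 20)], [(11, 156), (13, 155)]),
    ([(12, 50), (13, 386), (14, 2), (16, 16)], [(11, 16), (15, 33)]),
    ([(12, 360), (13, 44), (14, 118)], [(15, 16), (16, 3)]),
    ([(17, 153), (19, 7)], [(18, 22)]),
    ([(18, 161)], [(17, 319), (19, 11), (20, 22)]),
    ([(17, 306), (18, 30), (20, 14)], [(19, 45)]),
    ([(17, 146)], [(18, 115), (19, 14), (20, 24)]),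
    ([], [(21, 56)])],
   [([], []),
    ([(0, 7)], []),
    ([(0, 37)], []),
    ([(0, 28)], []),
    ([], [(0, 34)]),
    ([(1, 58), (2, 1)], []),
    ([(1, 89), (4, 6)], [(2, 10)]),
    ([(2, 43), (4, 7)], [(1, 362), (3, 27)]),
    ([(1, 248), (3, 27), (4, 23)], [(2, 76)]),
    ([(1, 215), (2, 29), (3, 35), (4, 5)], []),
    ([(1, 60), (4, 48)], [(2, 54)]),
    ([(5, 437), (6, 25), (7, 1), (8, 1)], []),
    ([(7, 39), (8, 15), (9, 5)], [(5, 248), (6, 95), (10, 2)]),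
    ([(6, 194), (9, 15), (10, 5)], [(5, 27), (7, 35), (8, 17)]),
    ([(5, 95), (7, 87), (8, 86)], [(6, 289), (9, 6), (10, 22)]),
    ([(5, 1)], [(6, 168), (7, 176), (8, 66), (9, 52), (10, 13)]),
    ([(6, 305), (7, 30), (10, 44)], [(5, 2), (8, 65), (9, 17)]),
    ([(11, 470)], [(12, 98), (13, 84), (14, 12), (15, 4)]),
    ([(11, 194), (12, 188), (13, 227), (14, 83), (16, 17)], [(15, 12)]),
    ([(12, 3), (13, 393), (14, 96), (15, 35), (16, 5)], [(11, 24)]),
    ([(11, 19), (12, 448), (14, 84), (15, 13), (16, 35)], [(13, 130)]),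
    ([(17, 480), (19, 29), (20, 20)], [(18, 166)])]]

def d54pm_8 : List (List Col) :=
  [[([(1, 486), (2, 149), (3, 27)], [(4, 20)]),
    ([(5, 473), (6, 99), (8, 13), (9, 3), (10, 1)], [(7, 79)]),
    ([(5, 191), (7, 203), (9, 6)], [(6, 213), (8, 87), (10, 13)]),
    ([(6, 93), (7, 424), (10, 6)], [(5, 18), (8, 86), (9, 36)]),
    ([(6, 426), (7, 45), (8, 100), (9, 15), (10, 40)], [(5, 7)]),
    ([(11, 434), (14, 1)], [(12, 27), (13, 1)]),
    ([(11, 250), (13, 41), (16, 4)], [(12, 103), (14, 16), (15, 3)]),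
    ([(11, 40), (12, 204), (14, 24), (16, 2)], [(13, 37), (15, 15)]),
    ([(11, 96), (12, 290), (14, 99)], [(13, 83), (15, 17), (16, 20)]),
    ([(12, 278), (13, 212)], [(14, 39), (15, 56), (16, 8)]),
    ([(12, 187), (14, 103), (15, 16)], [(13, 78), (16, 51)]),
    ([(17, 60), (18, 1)], []),
    ([(18, 12), (20, 6)], [(17, 97)]),
    ([(17, 363), (20, 9)], [(18, 57), (19, 31)]),
    ([(17, 235)], [(18, 94), (19, 32), (20, 23)]),
    ([(17, 225), (18, 31)], [(19, 39), (20, 9)]),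
    ([(18, 83), (19, 2), (20, 50)], [(17, 25)]),
    ([(21, 8)], []),
    ([(21, 41)], []),
    ([], [(21, 30)]),
    ([(21, 37)], []),
    ([], [])],
   [([], [(0, 51)]),
    ([], [(1, 148), (2, 19), (3, 6)]),
    ([(1, 331), (2, 139), (3, 12)], [(4, 23)]),
    ([(2, 69), (3, 37), (4, 23)], [(1, 240)]),
    ([(1, 236), (2, 98), (4, 18)], [(3, 24)]),
    ([(8, 1)], [(5, 262), (6, 39), (7, 1)]),
    ([(5, 402)], [(6, 39), (7, 62), (8, 5), (9, 5), (10, 3)]),
    ([(6, 283), (8, 33), (10, 11)], [(5, 71), (7, 25), (9, 19)]),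
    ([(5, 160), (6, 149), (7, 147), (8, 36), (9, 13), (10, 30)], []),
    ([(5, 6), (10, 7)], [(6, 121), (7, 317), (8, 63), (9, 17)]),
    ([(7, 203), (9, 23), (10, 3)], [(5, 6), (6, 349), (8, 98)]),
    ([(13, 2), (14, 1)], [(11, 328), (12, 49)]),
    ([(11, 363), (13, 58)], [(12, 37), (14, 9), (15, 1), (16, 5)]),
    ([(11, 53), (15, 28), (16, 2)], [(12, 283), (13, 33), (14, 36)]),
    ([(11, 138), (12, 97), (14, 39), (15, 3), (16, 31)], [(13, 135)]),
    ([(11, 2), (12, 307), (13, 264), (14, 56)], [(15, 29), (16, 11)]),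
    ([(11, 5), (13, 238), (16, 3)], [(12, 232), (14, 116), (15, 18)]),
    ([(18, 17)], [(17, 132), (19, 5), (20, 2)]),
    ([(18, 126), (19, 7)], [(17, 294), (20, 23)]),
    ([(17, 371)], [(18, 34), (19, 44), (20, 10)]),
    ([(18, 132), (20, 34)], [(17, 33), (19, 28)]),
    ([], [(21, 61)])],
   [([], []),
    ([(0, 7)], []),
    ([], [(0, 42)]),
    ([], [(0, 3)]),
    ([], [(0, 28)]),
    ([(1, 55)], [(2, 1)]),
    ([(3, 4)], [(1, 141), (2, 18), (4, 3)]),
    ([(3, 16), (4, 19)], [(1, 355), (2, 53)]),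
    ([(1, 254), (2, 118), (4, 2)], [(3, 36)]),
    ([(1, 71), (3, 4)], [(2, 100), (4, 26)]),
    ([(2, 20), (3, 34)], [(1, 182), (4, 6)]),
    ([(5, 383), (7, 2), (8, 1)], [(6, 37)]),
    ([(5, 307), (10, 4)], [(6, 142), (7, 41), (8, 17)]),
    ([(9, 14)], [(5, 65), (6, 187), (7, 23), (8, 20), (10, 12)]),
    ([(5, 126), (6, 330), (7, 94), (8, 113)], [(9, 29), (10, 1)]),
    ([(10, 38)], [(5, 1), (6, 64), (7, 159), (8, 103), (9, 8)]),
    ([(5, 6), (6, 281)], [(7, 215), (8, 12), (9, 47), (10, 3)]),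
    ([(11, 473), (12, 128), (13, 69), (14, 12), (15, 3), (16, 2)], []),
    ([(12, 275), (13, 187), (14, 99), (16, 6)], [(11, 191), (15, 27)]),
    ([(11, 8), (12, 216), (13, 243), (14, 118), (15, 14), (16, 26)], []),
    ([(11, 20), (13, 366), (15, 22)], [(12, 324), (14, 15), (16, 27)]),
    ([(17, 483), (19, 10), (20, 26)], [(18, 157)])]]

def d54pm_9 : List (List Col) :=
  [[([(1, 487)], [(2, 146), (3, 1), (4, 29)]),
    ([(5, 474), (8, 13), (9, 1)], [(6, 123), (7, 69), (10, 3)]),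
    ([(8, 97), (10, 2)], [(5, 189), (6, 278), (7, 178), (9, 23)]),
    ([(6, 233), (7, 228), (9, 2), (10, 32)], [(5, 6), (8, 124)]),
    ([(7, 380), (8, 5)], [(5, 14), (6, 311), (9, 39), (10, 10)]),
    ([(11, 389), (12, 37), (14, 1)], [(13, 2)]),
    ([(14, 18), (16, 4)], [(11, 300), (12, 142), (13, 43), (15, 1)]),
    ([(11, 70), (14, 24)], [(12, 195), (13, 25), (15, 12), (16, 11)]),
    ([(11, 122), (14, 120), (16, 2)], [(12, 322), (13, 96), (15, 30)]),
    ([(11, 3), (12, 35), (13, 198)], [(14, 114), (15, 8), (16, 39)]),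
    ([(12, 287), (14, 4), (15, 50)], [(11, 5), (13, 211), (16, 3)]),
    ([(17, 56)], [(18, 2)]),
    ([(17, 140), (18, 19), (19, 4)], [(20, 4)]),
    ([(17, 356), (18, 61), (19, 20), (20, 20)], []),
    ([(17, 241), (18, 129), (19, 38)], [(20, 5)]),
    ([(18, 106)], [(17, 141), (19, 11), (20, 22)]),
    ([(17, 150), (18, 21), (19, 35)], [(20, 19)]),
    ([(21, 8)], []),
    ([], [(21, 44)]),
    ([(21, 3)], []),
    ([(21, 32)], []),
    ([], [])],
   [([(0, 57)], []),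
    ([(1, 131), (3, 4)], [(2, 16), (4, 3)]),
    ([(1, 303)], [(2, 116), (3, 15), (4, 23)]),
    ([(1, 369), (4, 21)], [(2, 31), (3, 37)]),
    ([(2, 126)], [(1, 25), (3, 35), (4, 25)]),
    ([(5, 322), (7, 2)], [(6, 49), (8, 1)]),
    ([(5, 368), (6, 41), (9, 2), (10, 5)], [(7, 59), (8, 8)]),
    ([(5, 46), (6, 285), (7, 27), (9, 23)], [(8, 35), (10, 12)]),
    ([(6, 88), (9, 18), (10, 27)], [(5, 143), (7, 139), (8, 38)]),
    ([(6, 292), (7, 265), (9, 16)], [(5, 3), (8, 40), (10, 19)]),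
    ([(5, 2), (6, 255)], [(7, 208), (8, 122), (9, 10), (10, 1)]),
    ([(11, 267)], [(12, 41), (13, 1), (14, 1)]),
    ([(11, 398), (12, 40), (13, 66), (16, 3)], [(14, 6), (15, 5)]),
    ([(13, 30), (14, 36)], [(11, 73), (12, 281), (15, 21), (16, 14)]),
    ([(12, 150), (13, 155), (16, 25)], [(11, 160), (14, 39), (15, 20)]),
    ([(11, 13), (13, 370)], [(12, 1), (14, 22), (15, 25), (16, 11)]),
    ([(12, 368), (15, 17)], [(11, 2), (13, 84), (14, 118), (16, 3)]),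
    ([(17, 150), (18, 21)], [(19, 7)]),
    ([(19, 11)], [(17, 316), (18, 150), (20, 25)]),
    ([(17, 277), (19, 42), (20, 21)], [(18, 48)]),
    ([(17, 205), (18, 113), (19, 19)], [(20, 24)]),
    ([(21, 56)], [])],
   [([], []),
    ([(0, 7)], []),
    ([(0, 39)], []),
    ([(0, 28)], []),
    ([], [(0, 32)]),
    ([(1, 59), (2, 1)], []),
    ([(1, 97), (3, 1), (4, 6)], [(2, 12)]),
    ([(2, 48), (3, 30), (4, 3)], [(1, 359)]),
    ([(1, 246), (4, 29)], [(2, 87), (3, 23)]),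
    ([(1, 218), (2, 25), (4, 14)], [(3, 37)]),
    ([(1, 47), (3, 12), (4, 48)], [(2, 67)]),
    ([(5, 431), (6, 28), (7, 1), (8, 1)], []),
    ([(7, 42), (8, 16), (9, 5), (10, 3)], [(5, 254), (6, 107)]),
    ([(6, 199), (9, 16)], [(5, 41), (7, 37), (8, 22), (10, 5)]),
    ([(5, 101), (7, 95), (8, 99), (10, 25)], [(6, 286), (9, 7)]),
    ([(6, 209), (7, 205), (8, 59), (9, 51)], [(5, 3), (10, 17)]),
    ([(6, 267)], [(5, 1), (7, 12), (8, 83), (9, 22), (10, 45)]),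
    ([(11, 470), (13, 84), (14, 14), (15, 4)], [(12, 104)]),
    ([(11, 195), (12, 210), (15, 8), (16, 17)], [(13, 215), (14, 92)]),
    ([], [(11, 21), (12, 54), (13, 410), (14, 91), (15, 37), (16, 5)]),
    ([(11, 11), (12, 431), (13, 92), (16, 40)], [(14, 96), (15, 17)]),
    ([(17, 481), (18, 162), (20, 23)], [(19, 28)])]]

def d54pm_10 : List (List Col) :=
  [[([(1, 484), (2, 154), (3, 27)], [(4, 23)]),
    ([(5, 472), (6, 105), (8, 14), (9, 4), (10, 1)], [(7, 81)]),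
    ([(5, 193), (7, 203), (9, 5)], [(6, 223), (8, 95), (10, 16)]),
    ([(6, 146), (7, 426), (10, 15)], [(5, 18), (8, 72), (9, 35)]),
    ([(6, 401), (8, 114), (9, 22), (10, 40)], [(5, 3)]),
    ([(11, 428), (14, 1)], [(12, 29), (13, 1)]),
    ([(11, 256), (13, 44), (15, 4), (16, 4)], [(12, 112), (14, 16)]),
    ([(11, 48), (12, 203), (14, 26), (15, 16)], [(13, 37), (16, 1)]),
    ([(11, 102), (12, 286), (14, 106), (15, 14)], [(13, 95), (16, 23)]),
    ([(11, 3), (12, 271), (13, 216), (15, 51)], [(14, 39), (16, 16)]),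
    ([(12, 194), (14, 103)], [(11, 1), (13, 80), (15, 21), (16, 49)]),
    ([(17, 59), (18, 1)], []),
    ([(18, 13), (20, 7)], [(17, 101), (19, 1)]),
    ([(17, 359), (20, 7)], [(18, 54), (19, 31)]),
    ([(17, 241)], [(18, 96), (19, 27), (20, 27)]),
    ([(19, 39), (20, 13)], [(17, 222), (18, 25)]),
    ([(18, 79), (20, 50)], [(17, 30), (19, 8)]),
    ([(21, 8)], []),
    ([(21, 41)], []),
    ([], [(21, 28)]),
    ([(21, 34)], []),
    ([], [])],
   [([], [(0, 54)]),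
    ([], [(1, 147), (2, 20), (3, 6)]),
    ([(1, 320), (2, 139), (3, 11)], [(4, 27)]),
    ([(2, 78), (3, 34), (4, 29)], [(1, 210)]),
    ([(1, 274), (2, 95), (4, 17)], [(3, 28)]),
    ([(8, 1)], [(5, 270), (6, 42), (7, 1)]),
    ([(5, 397)], [(6, 43), (7, 64), (8, 5), (9, 5), (10, 4)]),
    ([(6, 285), (8, 37), (10, 13)], [(5, 63), (7, 26), (9, 20)]),
    ([(5, 161), (6, 136), (7, 153), (8, 39), (9, 15), (10, 30)], []),
    ([(5, 9), (10, 8)], [(6, 97), (7, 327), (8, 60), (9, 16)]),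
    ([(7, 172), (9, 20), (10, 3)], [(5, 5), (6, 358), (8, 103)]),
    ([(13, 2), (14, 1)], [(11, 317), (12, 49)]),
    ([(11, 370), (13, 61)], [(12, 41), (14, 8), (16, 6)]),
    ([(11, 48), (16, 5)], [(12, 284), (13, 30), (14, 38), (15, 27)]),
    ([(11, 146), (12, 93), (14, 41), (15, 5), (16, 32)], [(13, 143)]),
    ([(16, 14)], [(11, 4), (12, 297), (13, 267), (14, 52), (15, 22)]),
    ([(11, 5), (13, 229), (15, 13), (16, 3)], [(12, 244), (14, 116)]),
    ([(18, 18)], [(17, 134), (19, 5), (20, 3)]),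
    ([(18, 125), (19, 11)], [(17, 298), (20, 26)]),
    ([(17, 367)], [(18, 31), (19, 43), (20, 16)]),
    ([(18, 129), (20, 30)], [(17, 38), (19, 32)]),
    ([], [(21, 59)])],
   [([], []),
    ([(0, 8)], []),
    ([], [(0, 42)]),
    ([], [(0, 6)]),
    ([], [(0, 31)]),
    ([(1, 56)], [(2, 1)]),
    ([(3, 4)], [(1, 134), (2, 17), (4, 4)]),
    ([(3, 17), (4, 22)], [(1, 353), (2, 54)]),
    ([(1, 252), (2, 118), (4, 4)], [(3, 36)]),
    ([(1, 85)], [(2, 96), (4, 31)]),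
    ([(2, 3), (3, 37)], [(1, 185), (4, 9)]),
    ([(5, 393), (7, 2), (8, 1)], [(6, 37)]),
    ([(5, 295), (10, 4)], [(6, 141), (7, 43), (8, 18)]),
    ([(9, 14)], [(5, 68), (6, 194), (7, 27), (8, 24), (10, 12)]),
    ([(5, 123), (6, 317), (7, 101), (8, 120)], [(9, 29), (10, 3)]),
    ([(6, 45), (7, 179), (8, 108), (9, 9)], [(5, 3), (10, 40)]),
    ([(5, 6), (6, 293)], [(7, 196), (8, 1), (9, 47), (10, 5)]),
    ([(11, 472), (12, 124), (13, 73), (14, 13), (16, 2)], [(15, 2)]),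
    ([(12, 269), (13, 187), (14, 102), (15, 24), (16, 5)], [(11, 192)]),
    ([(11, 8), (12, 210), (13, 251), (14, 125), (16, 32)], [(15, 12)]),
    ([(11, 16), (13, 359)], [(12, 332), (14, 17), (15, 32), (16, 23)]),
    ([(17, 483), (19, 5), (20, 31)], [(18, 155)])]]

def d54pm_11 : List (List Col) :=
  [[([(1, 485)], [(2, 151), (3, 4), (4, 32)]),
    ([(5, 473), (8, 14), (9, 1)], [(6, 122), (7, 73), (10, 3)]),
    ([(8, 102)], [(5, 192), (6, 269), (7, 183), (9, 23), (10, 1)]),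
    ([(6, 218), (7, 244), (10, 36)], [(5, 7), (8, 128), (9, 2)]),
    ([(7, 366), (8, 12)], [(5, 13), (6, 326), (9, 40), (10, 12)]),
    ([(11, 396), (12, 36), (14, 1)], [(13, 2)]),
    ([(14, 18), (15, 1), (16, 4)], [(11, 291), (12, 141), (13, 44)]),
    ([(11, 70), (14, 26), (15, 13)], [(12, 198), (13, 29), (16, 12)]),
    ([(11, 120), (14, 123), (15, 29), (16, 3)], [(12, 311), (13, 102)]),
    ([(11, 5), (12, 24), (13, 200), (15, 9)], [(14, 113), (16, 41)]),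
    ([(12, 298)], [(11, 5), (13, 186), (14, 7), (15, 48), (16, 7)]),
    ([(17, 57)], [(18, 2)]),
    ([(17, 132), (18, 18), (19, 4)], [(20, 5)]),
    ([(17, 354), (18, 57), (19, 19), (20, 22)], []),
    ([(17, 246), (18, 121), (19, 37)], [(20, 6)]),
    ([(18, 96)], [(17, 121), (19, 9), (20, 30)]),
    ([(17, 170), (18, 18), (19, 38)], [(20, 17)]),
    ([(21, 8)], []),
    ([], [(21, 43)]),
    ([], [(21, 2)]),
    ([(21, 33)], []),
    ([], [])],
   [([(0, 58)], []),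
    ([(1, 134), (3, 3)], [(2, 17), (4, 4)]),
    ([(1, 302)], [(2, 121), (3, 18), (4, 24)]),
    ([(1, 365), (4, 26)], [(2, 30), (3, 36)]),
    ([(2, 127)], [(1, 34), (3, 38), (4, 21)]),
    ([(5, 313), (7, 2)], [(6, 49), (8, 1)]),
    ([(5, 373), (6, 43), (9, 2), (10, 5)], [(7, 61), (8, 7)]),
    ([(5, 45), (6, 285), (7, 27), (9, 24)], [(8, 38), (10, 11)]),
    ([(6, 90), (9, 17), (10, 28)], [(5, 148), (7, 145), (8, 40)]),
    ([(6, 284), (7, 272), (9, 15)], [(5, 5), (8, 43), (10, 18)]),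
    ([(5, 4), (6, 261)], [(7, 210), (8, 119), (9, 9), (10, 2)]),
    ([(11, 273)], [(12, 43), (13, 1), (14, 1)]),
    ([(11, 395), (12, 43), (13, 66), (15, 5), (16, 4)], [(14, 6)]),
    ([(13, 28), (14, 39), (15, 20)], [(11, 63), (12, 284), (16, 14)]),
    ([(12, 134), (13, 156), (15, 18), (16, 28)], [(11, 161), (14, 41)]),
    ([(11, 12), (12, 33), (13, 354), (15, 20)], [(14, 40), (16, 9)]),
    ([(12, 370)], [(11, 3), (13, 109), (14, 114), (15, 18), (16, 3)]),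
    ([(17, 147), (18, 20), (20, 1)], [(19, 6)]),
    ([(19, 10)], [(17, 314), (18, 143), (20, 28)]),
    ([(17, 236), (19, 39), (20, 27)], [(18, 66)]),
    ([(17, 257), (18, 105), (19, 25)], [(20, 21)]),
    ([(21, 56)], [])],
   [([], []),
    ([(0, 8)], []),
    ([(0, 40)], []),
    ([(0, 27)], []),
    ([], [(0, 31)]),
    ([(1, 59), (2, 1)], []),
    ([(1, 102), (3, 2), (4, 6)], [(2, 13)]),
    ([(2, 50), (3, 31)], [(1, 356)]),
    ([(1, 246), (4, 32)], [(2, 93), (3, 19)]),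
    ([(1, 218), (2, 24), (4, 19)], [(3, 36)]),
    ([(1, 43), (3, 19), (4, 46)], [(2, 73)]),
    ([(5, 426), (6, 30), (7, 1), (8, 1)], []),
    ([(7, 44), (8, 16), (9, 5), (10, 3)], [(5, 258), (6, 116)]),
    ([(6, 201), (9, 16)], [(5, 49), (7, 37), (8, 25), (10, 5)]),
    ([(5, 104), (7, 100), (8, 107), (10, 26)], [(6, 285), (9, 8)]),
    ([(6, 236), (7, 217), (8, 51), (9, 48)], [(5, 4), (10, 21)]),
    ([(6, 236)], [(7, 44), (8, 95), (9, 26), (10, 45)]),
    ([(11, 471), (13, 83), (14, 15)], [(12, 107), (15, 4)]),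
    ([(11, 195), (12, 223), (16, 18)], [(13, 207), (14, 98), (15, 6)]),
    ([(15, 36)], [(11, 20), (12, 116), (13, 422), (14, 79), (16, 13)]),
    ([(11, 5), (12, 409), (13, 37), (15, 22), (16, 41)], [(14, 110)]),
    ([(17, 482), (18, 159), (20, 25)], [(19, 27)])]]

def d54pm_12 : List (List Col) :=
  [[([(1, 483), (2, 155), (3, 27)], [(4, 25)]),
    ([(5, 471), (6, 108), (8, 15), (9, 4), (10, 1)], [(7, 82)]),
    ([(5, 195), (7, 200), (9, 5)], [(6, 231), (8, 99), (10, 18)]),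
    ([(6, 179), (7, 426), (10, 20)], [(5, 18), (8, 62), (9, 33)]),
    ([(6, 380), (8, 122), (9, 25), (10, 40)], [(5, 1), (7, 32)]),
    ([(11, 424), (14, 1)], [(12, 30), (13, 1)]),
    ([(11, 260), (13, 45), (15, 4), (16, 4)], [(12, 119), (14, 17)]),
    ([(11, 53), (12, 203), (14, 27), (15, 17)], [(13, 38), (16, 3)]),
    ([(11, 105), (12, 285), (14, 111), (15, 12)], [(13, 101), (16, 25)]),
    ([(11, 5), (12, 266), (13, 220), (15, 47)], [(14, 40), (16, 21)]),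
    ([(12, 196), (14, 104)], [(11, 1), (13, 81), (15, 25), (16, 46)]),
    ([(17, 59), (18, 1)], []),
    ([(18, 14), (20, 7)], [(17, 105), (19, 2)]),
    ([(17, 356), (20, 3)], [(18, 53), (19, 32)]),
    ([(17, 244)], [(18, 98), (19, 22), (20, 30)]),
    ([(19, 38), (20, 17)], [(17, 220), (18, 24)]),
    ([(18, 78), (20, 47)], [(17, 36), (19, 16)]),
    ([(21, 8)], []),
    ([(21, 41)], []),
    ([], [(21, 26)]),
    ([(21, 32)], []),
    ([], [])],
   [([], [(0, 56)]),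
    ([(4, 1)], [(1, 146), (2, 20), (3, 6)]),
    ([(1, 315), (2, 137), (3, 10)], [(4, 29)]),
    ([(2, 85), (3, 33), (4, 32)], [(1, 183)]),
    ([(1, 298), (2, 91), (4, 16)], [(3, 31)]),
    ([(8, 1)], [(5, 276), (6, 44), (7, 1)]),
    ([(5, 394)], [(6, 44), (7, 65), (8, 6), (9, 5), (10, 4)]),
    ([(6, 286), (8, 39), (10, 14)], [(5, 57), (7, 26), (9, 20)]),
    ([(5, 161), (6, 126), (7, 156), (8, 41), (9, 14), (10, 30)], []),
    ([(5, 10), (10, 7)], [(6, 84), (7, 332), (8, 60), (9, 15)]),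
    ([(7, 152), (9, 19), (10, 4)], [(5, 5), (6, 364), (8, 105)]),
    ([(13, 2), (14, 1)], [(11, 310), (12, 49)]),
    ([(11, 374), (13, 63)], [(12, 44), (14, 7), (16, 6)]),
    ([(11, 46), (16, 7)], [(12, 285), (13, 28), (14, 40), (15, 26)]),
    ([(11, 150), (12, 93), (14, 41), (15, 10), (16, 31)], [(13, 148)]),
    ([(16, 15)], [(11, 6), (12, 285), (13, 274), (14, 48), (15, 18)]),
    ([(11, 6), (13, 218), (15, 10), (16, 3)], [(12, 257), (14, 117)]),
    ([(18, 18)], [(17, 136), (19, 4), (20, 4)]),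
    ([(18, 126), (19, 16)], [(17, 300), (20, 26)]),
    ([(17, 363)], [(18, 27), (19, 40), (20, 23)]),
    ([(18, 128), (20, 25)], [(17, 47), (19, 35)]),
    ([], [(21, 59)])],
   [([], []),
    ([(0, 8)], []),
    ([], [(0, 43)]),
    ([], [(0, 8)]),
    ([], [(0, 32)]),
    ([(1, 57)], [(2, 1)]),
    ([(3, 4)], [(1, 129), (2, 17), (4, 5)]),
    ([(3, 18), (4, 23)], [(1, 352), (2, 54)]),
    ([(1, 251), (2, 116), (4, 5)], [(3, 36)]),
    ([(1, 91)], [(2, 91), (3, 3), (4, 34)]),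
    ([(3, 39)], [(1, 187), (2, 8), (4, 11)]),
    ([(5, 399), (7, 2), (8, 1)], [(6, 36)]),
    ([(5, 288), (10, 5)], [(6, 140), (7, 45), (8, 18)]),
    ([(9, 14)], [(5, 69), (6, 197), (7, 30), (8, 27), (10, 11)]),
    ([(5, 120), (6, 307), (7, 105), (8, 123)], [(9, 29), (10, 5)]),
    ([(6, 27), (7, 193), (8, 111), (9, 10)], [(5, 5), (10, 42)]),
    ([(5, 5), (6, 302), (8, 9)], [(7, 177), (9, 47), (10, 9)]),
    ([(11, 472), (12, 122), (13, 75), (14, 14), (16, 3)], [(15, 2)]),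
    ([(12, 264), (13, 187), (14, 104), (15, 23), (16, 5)], [(11, 193)]),
    ([(11, 8), (12, 200), (13, 262), (14, 129), (16, 35)], [(15, 11)]),
    ([(11, 14), (13, 349)], [(12, 341), (14, 21), (15, 37), (16, 20)]),
    ([(17, 483), (20, 33)], [(18, 155), (19, 1)])]]

def d54pm_13 : List (List Col) :=
  [[([(1, 484)], [(2, 153), (3, 7), (4, 33)]),
    ([(5, 472), (8, 14), (9, 2)], [(6, 120), (7, 76), (10, 3)]),
    ([(8, 104)], [(5, 193), (6, 264), (7, 185), (9, 22), (10, 3)]),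
    ([(6, 200), (7, 263), (10, 38)], [(5, 8), (8, 131), (9, 6)]),
    ([(7, 349), (8, 20)], [(5, 12), (6, 341), (9, 41), (10, 14)]),
    ([(11, 401), (12, 36), (14, 1)], [(13, 2)]),
    ([(14, 18), (16, 5)], [(11, 285), (12, 140), (13, 45)]),
    ([(11, 70), (14, 28), (15, 14)], [(12, 199), (13, 31), (16, 11)]),
    ([(11, 118), (14, 124), (15, 29), (16, 5)], [(12, 304), (13, 106)]),
    ([(11, 6), (12, 9), (13, 206), (15, 12)], [(14, 113), (16, 42)]),
    ([(12, 305)], [(11, 5), (13, 166), (14, 16), (15, 47), (16, 11)]),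
    ([(17, 57)], [(18, 2)]),
    ([(17, 127), (18, 17), (19, 3)], [(20, 5)]),
    ([(17, 352), (18, 55), (19, 20), (20, 22)], []),
    ([(17, 249), (18, 117), (19, 36)], [(20, 7)]),
    ([(18, 90)], [(17, 110), (19, 9), (20, 34)]),
    ([(20, 16)], [(17, 180), (18, 19), (19, 39)]),
    ([(21, 8)], []),
    ([], [(21, 43)]),
    ([(21, 7)], []),
    ([(21, 34)], []),
    ([], [])],
   [([(0, 58)], []),
    ([(1, 136), (3, 3)], [(2, 18), (4, 5)]),
    ([(1, 303)], [(2, 124), (3, 21), (4, 23)]),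
    ([(1, 362), (4, 30)], [(2, 25), (3, 35)]),
    ([(2, 127)], [(1, 49), (3, 38), (4, 18)]),
    ([(5, 307), (7, 2)], [(6, 49), (8, 1)]),
    ([(5, 376), (6, 45), (9, 1), (10, 6)], [(7, 63), (8, 7)]),
    ([(5, 45), (6, 285), (7, 27), (9, 24)], [(8, 40), (10, 10)]),
    ([(6, 92), (9, 16), (10, 28)], [(5, 152), (7, 149), (8, 42)]),
    ([(6, 272), (7, 282), (9, 14)], [(5, 7), (8, 41), (10, 17)]),
    ([(5, 5), (6, 271)], [(7, 203), (8, 119), (9, 8), (10, 3)]),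
    ([(11, 278)], [(12, 45), (13, 1), (14, 1)]),
    ([(11, 392), (12, 45), (13, 66), (15, 5), (16, 4)], [(14, 6)]),
    ([(13, 27), (14, 40), (15, 21)], [(11, 56), (12, 286), (16, 14)]),
    ([(12, 124), (13, 157), (15, 16), (16, 29)], [(11, 161), (14, 42)]),
    ([(11, 12), (12, 49), (13, 345), (15, 17)], [(14, 50), (16, 8)]),
    ([(11, 3), (13, 118), (14, 110), (15, 17), (16, 4)], [(12, 371)]),
    ([(17, 145), (18, 20), (20, 1)], [(19, 6)]),
    ([(19, 9)], [(17, 312), (18, 138), (20, 30)]),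
    ([(18, 80)], [(17, 197), (19, 36), (20, 31)]),
    ([(17, 292), (18, 97), (19, 29)], [(20, 19)]),
    ([(21, 57)], [])],
   [([], []),
    ([(0, 8)], []),
    ([(0, 41)], []),
    ([(0, 25)], []),
    ([], [(0, 32)]),
    ([(1, 59), (2, 1)], []),
    ([(1, 105), (3, 3), (4, 6)], [(2, 14)]),
    ([(2, 51), (3, 32)], [(1, 354), (4, 2)]),
    ([(1, 247), (4, 33)], [(2, 97), (3, 16)]),
    ([(1, 217), (2, 26), (4, 21)], [(3, 35)]),
    ([(1, 47), (3, 23), (4, 44)], [(2, 75)]),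
    ([(5, 423), (6, 31), (7, 1), (8, 1)], []),
    ([(7, 45), (8, 17), (9, 5), (10, 3)], [(5, 262), (6, 121)]),
    ([(6, 202), (9, 17)], [(5, 55), (7, 38), (8, 27), (10, 6)]),
    ([(5, 107), (7, 104), (8, 112), (10, 27)], [(6, 285), (9, 9)]),
    ([(6, 248), (7, 223), (8, 48), (9, 45)], [(5, 5), (10, 24)]),
    ([(7, 62), (8, 100), (9, 27), (10, 44)], [(5, 1), (6, 218)]),
    ([(11, 471), (13, 82), (14, 15)], [(12, 109), (15, 4), (16, 1)]),
    ([(11, 195), (12, 232), (16, 19)], [(13, 201), (14, 101), (15, 5)]),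
    ([(11, 18), (12, 163), (13, 426), (14, 66), (16, 19)], [(15, 34)]),
    ([(11, 1), (12, 385), (15, 25), (16, 40)], [(13, 12), (14, 120)]),
    ([(17, 482), (18, 158), (20, 26)], [(19, 26)])]]

def d54pm_14 : List (List Col) :=
  [[([(1, 483), (2, 156), (3, 25)], [(4, 27)]),
    ([(5, 471), (6, 110), (8, 15), (9, 4), (10, 1)], [(7, 82)]),
    ([(5, 195), (7, 198), (9, 6)], [(6, 236), (8, 102), (10, 19)]),
    ([(6, 198), (7, 425), (10, 22)], [(5, 17), (8, 55), (9, 33)]),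
    ([(5, 1), (6, 366), (8, 126), (9, 26), (10, 39)], [(7, 51)]),
    ([(11, 421), (14, 1)], [(12, 31), (13, 1)]),
    ([(11, 263), (13, 45), (15, 4)], [(12, 123), (14, 17), (16, 4)]),
    ([(11, 57), (12, 203), (14, 28), (15, 17), (16, 4)], [(13, 38)]),
    ([(11, 107), (12, 285), (14, 115), (15, 11), (16, 27)], [(13, 105)]),
    ([(11, 6), (12, 261), (13, 224), (15, 45), (16, 23)], [(14, 42)]),
    ([(12, 199), (14, 105), (16, 45)], [(11, 2), (13, 80), (15, 26)]),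
    ([(17, 59), (18, 1)], []),
    ([(18, 14), (19, 3), (20, 6)], [(17, 107)]),
    ([(17, 354), (19, 32)], [(18, 52), (20, 1)]),
    ([(17, 246), (19, 17)], [(18, 100), (20, 33)]),
    ([(17, 217), (18, 26), (19, 36)], [(20, 20)]),
    ([(18, 77), (19, 21), (20, 45)], [(17, 45)]),
    ([(21, 8)], []),
    ([(21, 41)], []),
    ([], [(21, 24)]),
    ([(21, 32)], []),
    ([], [])],
   [([], [(0, 57)]),
    ([(4, 1)], [(1, 144), (2, 20), (3, 6)]),
    ([(1, 312), (2, 136), (3, 9)], [(4, 30)]),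
    ([(2, 90), (3, 32), (4, 33)], [(1, 165)]),
    ([(1, 312), (2, 88), (4, 15)], [(3, 33)]),
    ([(8, 1)], [(5, 280), (6, 45), (7, 1)]),
    ([(5, 391)], [(6, 46), (7, 66), (8, 6), (9, 5), (10, 4)]),
    ([(6, 286), (8, 41), (10, 14)], [(5, 54), (7, 26), (9, 21)]),
    ([(5, 161), (6, 119), (7, 157), (8, 42), (9, 13), (10, 31)], []),
    ([(5, 11), (10, 7)], [(6, 72), (7, 335), (8, 59), (9, 15)]),
    ([(7, 136), (9, 17), (10, 5)], [(5, 4), (6, 368), (8, 106)]),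
    ([(13, 2), (14, 1)], [(11, 304), (12, 49)]),
    ([(11, 377), (13, 64), (16, 6)], [(12, 45), (14, 7), (15, 1)]),
    ([(11, 45)], [(12, 285), (13, 27), (14, 41), (15, 25), (16, 8)]),
    ([(11, 153), (12, 94), (14, 42), (15, 13)], [(13, 151), (16, 30)]),
    ([(11, 8), (12, 269), (13, 285), (14, 42), (15, 16), (16, 16)], []),
    ([(11, 6), (13, 203), (15, 8)], [(12, 272), (14, 118), (16, 4)]),
    ([(18, 18), (19, 3)], [(17, 137), (20, 5)]),
    ([(18, 126)], [(17, 302), (19, 20), (20, 25)]),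
    ([(17, 359), (19, 38)], [(18, 21), (20, 27)]),
    ([(18, 128), (19, 36), (20, 21)], [(17, 64)]),
    ([], [(21, 58)])],
   [([], []),
    ([(0, 8)], []),
    ([], [(0, 42)]),
    ([], [(0, 10)]),
    ([], [(0, 33)]),
    ([(1, 57)], [(2, 1)]),
    ([(3, 3)], [(1, 125), (2, 17), (4, 5)]),
    ([(3, 19), (4, 23)], [(1, 351), (2, 53)]),
    ([(1, 251), (2, 114), (4, 7)], [(3, 36)]),
    ([(1, 96)], [(2, 88), (3, 6), (4, 37)]),
    ([(3, 40)], [(1, 188), (2, 15), (4, 13)]),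
    ([(5, 403), (7, 2), (8, 1)], [(6, 35)]),
    ([(5, 283), (10, 5)], [(6, 139), (7, 45), (8, 18)]),
    ([(9, 15)], [(5, 69), (6, 199), (7, 32), (8, 28), (10, 11)]),
    ([(5, 118), (6, 301), (7, 107), (8, 124)], [(9, 29), (10, 7)]),
    ([(5, 6), (10, 43)], [(6, 7), (7, 205), (8, 111), (9, 14)]),
    ([(5, 5), (6, 307), (8, 19)], [(7, 159), (9, 46), (10, 13)]),
    ([(11, 471), (12, 120), (13, 77), (14, 15)], [(15, 2), (16, 3)]),
    ([(12, 261), (13, 187), (14, 105), (15, 22)], [(11, 194), (16, 6)]),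
    ([(11, 9), (12, 182), (13, 280), (14, 130)], [(15, 12), (16, 37)]),
    ([(11, 12), (13, 334), (16, 19)], [(12, 353), (14, 27), (15, 39)]),
    ([(17, 483), (19, 6), (20, 34)], [(18, 155)])]]

def d54pm_15 : List (List Col) :=
  [[([(1, 484)], [(2, 154), (3, 10), (4, 34)]),
    ([(5, 472), (8, 15), (9, 2)], [(6, 119), (7, 77), (10, 3)]),
    ([(8, 105)], [(5, 194), (6, 260), (7, 187), (9, 22), (10, 5)]),
    ([(6, 174), (7, 289), (10, 38)], [(5, 9), (8, 131), (9, 10)]),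
    ([(7, 326), (8, 30)], [(5, 11), (6, 358), (9, 40), (10, 17)]),
    ([(11, 404), (12, 35), (14, 1)], [(13, 2)]),
    ([(14, 18), (16, 5)], [(11, 281), (12, 138), (13, 46)]),
    ([(11, 69), (14, 29)], [(12, 200), (13, 33), (15, 15), (16, 10)]),
    ([(11, 117), (14, 124), (16, 7)], [(12, 299), (13, 108), (15, 29)]),
    ([(11, 7), (13, 215)], [(12, 10), (14, 111), (15, 16), (16, 42)]),
    ([(12, 309), (15, 45)], [(11, 5), (13, 146), (14, 26), (16, 16)]),
    ([(17, 58)], [(18, 2)]),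
    ([(17, 123), (18, 17), (19, 3)], [(20, 6)]),
    ([(17, 351), (18, 54), (19, 21), (20, 22)], []),
    ([(17, 250), (18, 113), (19, 36)], [(20, 9)]),
    ([(18, 86)], [(17, 107), (19, 10), (20, 36)]),
    ([(20, 17)], [(17, 184), (18, 22), (19, 39)]),
    ([(21, 8)], []),
    ([], [(21, 43)]),
    ([(21, 10)], []),
    ([(21, 34)], []),
    ([], [])],
   [([(0, 58)], []),
    ([(1, 138), (3, 3)], [(2, 18), (4, 5)]),
    ([(1, 303)], [(2, 126), (3, 22), (4, 23)]),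
    ([(1, 356), (4, 31)], [(2, 17), (3, 36)]),
    ([(2, 128)], [(1, 73), (3, 37), (4, 18)]),
    ([(5, 302), (7, 1)], [(6, 49), (8, 1)]),
    ([(5, 379), (6, 46), (9, 1), (10, 6)], [(7, 64), (8, 7)]),
    ([(5, 45), (6, 286), (7, 27), (9, 25)], [(8, 41), (10, 9)]),
    ([(6, 94), (9, 16), (10, 29)], [(5, 155), (7, 151), (8, 42)]),
    ([(6, 254), (7, 295), (9, 14)], [(5, 8), (8, 36), (10, 16)]),
    ([(5, 5), (6, 286)], [(7, 187), (8, 120), (9, 7), (10, 4)]),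
    ([(11, 282)], [(12, 46), (13, 1), (14, 1)]),
    ([(11, 390), (12, 46), (13, 66), (16, 4)], [(14, 6), (15, 5)]),
    ([(13, 26), (14, 41)], [(11, 53), (12, 286), (15, 21), (16, 14)]),
    ([(12, 117), (13, 157), (16, 30)], [(11, 161), (14, 43), (15, 13)]),
    ([(11, 12), (12, 51), (13, 342)], [(14, 54), (15, 16), (16, 7)]),
    ([(11, 3), (13, 115), (14, 109), (16, 5)], [(12, 372), (15, 16)]),
    ([(17, 144), (18, 20), (20, 1)], [(19, 6)]),
    ([(19, 7)], [(17, 310), (18, 136), (20, 31)]),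
    ([(18, 88)], [(17, 171), (19, 35), (20, 32)]),
    ([(17, 310), (18, 91), (19, 31)], [(20, 18)]),
    ([(21, 57)], [])],
   [([], []),
    ([(0, 8)], []),
    ([(0, 41)], []),
    ([(0, 23)], []),
    ([], [(0, 32)]),
    ([(1, 59), (2, 1)], []),
    ([(1, 108), (3, 3), (4, 6)], [(2, 14)]),
    ([(2, 52), (3, 32)], [(1, 353), (4, 3)]),
    ([(1, 248), (4, 34)], [(2, 100), (3, 14)]),
    ([(1, 213), (2, 29), (4, 21)], [(3, 35)]),
    ([(1, 56), (3, 24), (4, 43)], [(2, 75)]),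
    ([(5, 420), (6, 32), (7, 2), (8, 1)], []),
    ([(7, 46), (8, 17), (9, 4), (10, 3)], [(5, 264), (6, 125)]),
    ([(6, 203), (9, 17)], [(5, 58), (7, 37), (8, 28), (10, 6)]),
    ([(5, 108), (7, 106), (8, 116), (10, 27)], [(6, 285), (9, 9)]),
    ([(6, 250), (7, 228), (8, 47), (9, 44)], [(5, 6), (10, 24)]),
    ([(7, 68), (8, 102), (9, 27), (10, 44)], [(5, 2), (6, 211)]),
    ([(11, 471), (13, 82), (14, 15), (15, 4)], [(12, 111), (16, 1)]),
    ([(11, 195), (12, 238), (15, 6), (16, 19)], [(13, 198), (14, 103)]),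
    ([(11, 17), (12, 190), (13, 426), (14, 57), (15, 34), (16, 22)], []),
    ([(12, 368), (16, 40)], [(13, 41), (14, 125), (15, 25)]),
    ([(17, 483), (18, 157), (20, 28)], [(19, 24)])]]

def d54pm_16 : List (List Col) :=
  [[([(1, 483), (2, 156), (3, 23)], [(4, 29)]),
    ([(5, 471), (6, 112), (8, 15), (9, 4), (10, 1)], [(7, 82)]),
    ([(5, 195), (7, 196), (9, 7)], [(6, 240), (8, 104), (10, 19)]),
    ([(6, 206), (7, 425), (10, 22)], [(5, 16), (8, 52), (9, 34)]),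
    ([(5, 1), (6, 357), (8, 128), (9, 25), (10, 40)], [(7, 61)]),
    ([(11, 419), (14, 1)], [(12, 32), (13, 2)]),
    ([(11, 265), (13, 46), (15, 4)], [(12, 126), (14, 17), (16, 3)]),
    ([(11, 60), (12, 203), (14, 29), (15, 17), (16, 5)], [(13, 37)]),
    ([(11, 109), (12, 285), (14, 117), (15, 11), (16, 27)], [(13, 107)]),
    ([(11, 6), (12, 255), (13, 229), (15, 44), (16, 23)], [(14, 45)]),
    ([(12, 203), (14, 104), (16, 44)], [(11, 2), (13, 76), (15, 25)]),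
    ([(17, 59), (18, 1)], []),
    ([(18, 14), (19, 3), (20, 6)], [(17, 109)]),
    ([(17, 353), (19, 32)], [(18, 52), (20, 3)]),
    ([(17, 248), (19, 14)], [(18, 102), (20, 34)]),
    ([(17, 212), (18, 31), (19, 36)], [(20, 20)]),
    ([(18, 75), (19, 23), (20, 44)], [(17, 59)]),
    ([(21, 8)], []),
    ([(21, 41)], []),
    ([], [(21, 21)]),
    ([(21, 33)], []),
    ([], [])],
   [([], [(0, 57)]),
    ([(4, 1)], [(1, 144), (2, 19), (3, 6)]),
    ([(1, 310), (2, 134), (3, 7)], [(4, 32)]),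
    ([(2, 93), (3, 34), (4, 33)], [(1, 154)]),
    ([(1, 320), (2, 86), (4, 17)], [(3, 32)]),
    ([(8, 1)], [(5, 283), (6, 46), (7, 1)]),
    ([(5, 389)], [(6, 46), (7, 66), (8, 6), (9, 4), (10, 5)]),
    ([(6, 287), (8, 42), (10, 13)], [(5, 51), (7, 26), (9, 22)]),
    ([(5, 161), (6, 114), (7, 157), (8, 43), (9, 11), (10, 31)], []),
    ([(5, 11), (10, 6)], [(6, 60), (7, 338), (8, 58), (9, 15)]),
    ([(7, 121), (9, 16), (10, 6)], [(5, 4), (6, 371), (8, 107)]),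
    ([(13, 1), (14, 1)], [(11, 301), (12, 49)]),
    ([(11, 379), (13, 64), (16, 6)], [(12, 46), (14, 7), (15, 1)]),
    ([(11, 45)], [(12, 286), (13, 27), (14, 41), (15, 25), (16, 8)]),
    ([(11, 155), (12, 95), (14, 43), (15, 14)], [(13, 152), (16, 29)]),
    ([(11, 9), (12, 248), (13, 300), (14, 35), (15, 15), (16, 15)], []),
    ([(11, 5), (13, 182), (15, 7)], [(12, 291), (14, 120), (16, 5)]),
    ([(18, 18), (19, 3)], [(17, 138), (20, 5)]),
    ([(18, 127)], [(17, 303), (19, 22), (20, 24)]),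
    ([(17, 351), (19, 38)], [(18, 10), (20, 29)]),
    ([(18, 129), (19, 34), (20, 20)], [(17, 91)]),
    ([], [(21, 58)])],
   [([], []),
    ([(0, 8)], []),
    ([], [(0, 42)]),
    ([], [(0, 12)]),
    ([], [(0, 33)]),
    ([(1, 58)], [(2, 1)]),
    ([(3, 3)], [(1, 122), (2, 16), (4, 6)]),
    ([(3, 21), (4, 22)], [(1, 351), (2, 53)]),
    ([(1, 250), (2, 112), (4, 10)], [(3, 35)]),
    ([(1, 101)], [(2, 85), (3, 11), (4, 37)]),
    ([(3, 39)], [(1, 187), (2, 21), (4, 17)]),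
    ([(5, 406), (7, 2), (8, 1)], [(6, 35)]),
    ([(5, 280), (10, 5)], [(6, 138), (7, 46), (8, 18)]),
    ([(9, 16)], [(5, 68), (6, 201), (7, 33), (8, 29), (10, 10)]),
    ([(5, 116), (6, 297), (7, 109), (8, 124)], [(9, 28), (10, 9)]),
    ([(5, 7), (6, 17), (10, 42)], [(7, 216), (8, 110), (9, 19)]),
    ([(5, 5), (6, 310), (8, 29)], [(7, 138), (9, 44), (10, 19)]),
    ([(11, 471), (12, 119), (13, 78), (14, 15)], [(15, 2), (16, 3)]),
    ([(12, 258), (13, 188), (14, 106), (15, 21)], [(11, 194), (16, 6)]),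
    ([(11, 10), (12, 152), (13, 307), (14, 129)], [(15, 15), (16, 37)]),
    ([(11, 11), (13, 308), (16, 21)], [(12, 369), (14, 38), (15, 39)]),
    ([(17, 483), (19, 9), (20, 35)], [(18, 155)])]]

def d54pm_17 : List (List Col) :=
  [[([(1, 483)], [(2, 155), (3, 11), (4, 34)]),
    ([(5, 471), (8, 15), (9, 2)], [(6, 118), (7, 78), (10, 3)]),
    ([(8, 106)], [(5, 194), (6, 257), (7, 188), (9, 21), (10, 6)]),
    ([(6, 133), (7, 323), (10, 37)], [(5, 10), (8, 128), (9, 16)]),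
    ([(7, 291), (8, 45)], [(5, 10), (6, 377), (9, 39), (10, 22)]),
    ([(11, 407), (12, 35), (14, 1)], [(13, 2)]),
    ([(14, 18), (16, 5)], [(11, 279), (12, 137), (13, 46)]),
    ([(11, 68), (14, 29)], [(12, 201), (13, 34), (15, 16), (16, 9)]),
    ([(11, 116), (14, 124), (16, 9)], [(12, 296), (13, 109), (15, 28)]),
    ([(11, 7), (13, 224)], [(12, 34), (14, 109), (15, 22), (16, 40)]),
    ([(12, 310), (15, 42)], [(11, 4), (13, 125), (14, 36), (16, 23)]),
    ([(17, 58)], [(18, 2)]),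
    ([(17, 121), (18, 16), (19, 3)], [(20, 6)]),
    ([(17, 351), (18, 53), (19, 22), (20, 21)], []),
    ([(17, 250), (18, 111), (19, 35)], [(20, 12)]),
    ([(18, 83)], [(17, 108), (19, 14), (20, 37)]),
    ([(17, 184), (18, 25), (19, 38)], [(20, 21)]),
    ([(21, 8)], []),
    ([], [(21, 42)]),
    ([(21, 11)], []),
    ([(21, 34)], []),
    ([], [])],
   [([(0, 58)], []),
    ([(1, 139), (3, 3)], [(2, 19), (4, 5)]),
    ([(1, 304)], [(2, 127), (3, 23), (4, 23)]),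
    ([(1, 345), (4, 30)], [(2, 3), (3, 38)]),
    ([(2, 129)], [(1, 110), (3, 33), (4, 20)]),
    ([(5, 299), (7, 1)], [(6, 48), (8, 1)]),
    ([(5, 380), (6, 46), (9, 1), (10, 6)], [(7, 64), (8, 7)]),
    ([(5, 45), (6, 286), (7, 26), (9, 25)], [(8, 42), (10, 8)]),
    ([(6, 96), (9, 16), (10, 29)], [(5, 156), (7, 153), (8, 43)]),
    ([(6, 232), (7, 309), (9, 14)], [(5, 9), (8, 28), (10, 15)]),
    ([(5, 5), (6, 303)], [(7, 165), (8, 121), (9, 6), (10, 6)]),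
    ([(11, 284)], [(12, 46), (13, 1), (14, 1)]),
    ([(11, 389), (12, 46), (13, 66), (16, 5)], [(14, 6), (15, 4)]),
    ([(13, 26), (14, 42)], [(11, 51), (12, 287), (15, 22), (16, 13)]),
    ([(12, 112), (13, 157), (16, 31)], [(11, 161), (14, 43), (15, 11)]),
    ([(11, 12), (12, 45), (13, 342)], [(14, 55), (15, 15), (16, 5)]),
    ([(12, 374), (15, 15)], [(11, 3), (13, 106), (14, 109), (16, 6)]),
    ([(17, 143), (18, 19), (20, 2)], [(19, 6)]),
    ([(19, 5)], [(17, 309), (18, 134), (20, 32)]),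
    ([(18, 92)], [(17, 157), (19, 36), (20, 31)]),
    ([(17, 319), (18, 88), (19, 31)], [(20, 19)]),
    ([(21, 57)], [])],
   [([], []),
    ([(0, 8)], []),
    ([(0, 41)], []),
    ([(0, 19)], []),
    ([], [(0, 34)]),
    ([(1, 59), (2, 1)], []),
    ([(1, 110), (3, 4), (4, 6)], [(2, 15)]),
    ([(2, 52), (3, 32)], [(1, 352), (4, 4)]),
    ([(1, 248), (4, 34)], [(2, 102), (3, 13)]),
    ([(1, 209), (2, 35), (4, 20)], [(3, 36)]),
    ([(1, 69), (3, 23), (4, 43)], [(2, 74)]),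
    ([(5, 418), (6, 32), (7, 2), (8, 1)], []),
    ([(7, 46), (8, 17), (9, 4), (10, 3)], [(5, 266), (6, 127)]),
    ([(6, 203), (9, 17)], [(5, 61), (7, 37), (8, 29), (10, 5)]),
    ([(5, 109), (7, 108), (8, 118), (10, 27)], [(6, 285), (9, 10)]),
    ([(6, 247), (7, 232), (8, 49), (9, 44)], [(5, 7), (10, 22)]),
    ([(5, 2), (6, 212)], [(7, 67), (8, 103), (9, 25), (10, 44)]),
    ([(11, 471), (13, 82), (14, 15), (15, 4)], [(12, 112), (16, 1)]),
    ([(11, 195), (12, 241), (15, 7), (16, 19)], [(13, 196), (14, 104)]),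
    ([(11, 16), (12, 201), (13, 426), (14, 53), (15, 34), (16, 22)], []),
    ([(12, 359), (16, 41)], [(11, 1), (13, 55), (14, 128), (15, 24)]),
    ([(17, 483), (18, 157), (20, 30)], [(19, 22)])]]

def d54pm_18 : List (List Col) :=
  [[([(1, 483), (2, 156), (3, 20)], [(4, 32)]),
    ([(5, 471), (6, 113), (8, 16), (9, 4), (10, 1)], [(7, 81)]),
    ([(5, 195), (7, 195), (9, 8)], [(6, 243), (8, 105), (10, 19)]),
    ([(6, 208), (7, 425), (10, 21)], [(5, 15), (8, 50), (9, 35)]),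
    ([(5, 2), (6, 354), (8, 129), (9, 22), (10, 41)], [(7, 63)]),
    ([(11, 417), (14, 1)], [(12, 32), (13, 2)]),
    ([(11, 267), (13, 46), (15, 4), (16, 4)], [(12, 128), (14, 18)]),
    ([(11, 62), (12, 203), (14, 29), (15, 17)], [(13, 37), (16, 5)]),
    ([(11, 110), (12, 286), (14, 119), (15, 11)], [(13, 108), (16, 27)]),
    ([(11, 7), (12, 247), (13, 233), (15, 44)], [(14, 49), (16, 21)]),
    ([(12, 210), (14, 103)], [(11, 2), (13, 69), (15, 23), (16, 45)]),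
    ([(17, 59), (18, 1)], []),
    ([(18, 15), (19, 3), (20, 6)], [(17, 111)]),
    ([(17, 352), (19, 32)], [(18, 52), (20, 4)]),
    ([(17, 248), (19, 13)], [(18, 103), (20, 34)]),
    ([(17, 207), (18, 37), (19, 37)], [(20, 18)]),
    ([(18, 73), (19, 21), (20, 44)], [(17, 75)]),
    ([(21, 8)], []),
    ([(21, 42)], []),
    ([], [(21, 16)]),
    ([(21, 35)], []),
    ([], [])],
   [([], [(0, 57)]),
    ([(4, 2)], [(1, 143), (2, 19), (3, 6)]),
    ([(1, 309), (2, 133), (3, 3)], [(4, 33)]),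
    ([(2, 94), (3, 37), (4, 30)], [(1, 149)]),
    ([(1, 323), (2, 86), (4, 20)], [(3, 31)]),
    ([(8, 1)], [(5, 285), (6, 46), (7, 1)]),
    ([(5, 388)], [(6, 47), (7, 66), (8, 6), (9, 4), (10, 5)]),
    ([(6, 287), (8, 42), (10, 11)], [(5, 50), (7, 26), (9, 23)]),
    ([(5, 161), (6, 110), (7, 157), (8, 43), (9, 9), (10, 32)], []),
    ([(5, 12), (10, 4)], [(6, 46), (7, 341), (8, 56), (9, 15)]),
    ([(7, 105), (9, 15), (10, 7)], [(5, 3), (6, 374), (8, 109)]),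
    ([(13, 1), (14, 1)], [(11, 298), (12, 48)]),
    ([(11, 381), (13, 65)], [(12, 46), (14, 7), (15, 1), (16, 6)]),
    ([(11, 45), (16, 7)], [(12, 286), (13, 26), (14, 42), (15, 25)]),
    ([(11, 157), (12, 96), (14, 43), (15, 15), (16, 29)], [(13, 154)]),
    ([(11, 10), (12, 222), (13, 314), (14, 25), (15, 15)], [(16, 15)]),
    ([(11, 5), (13, 156), (15, 5), (16, 7)], [(12, 310), (14, 122)]),
    ([(18, 19), (19, 3)], [(17, 139), (20, 5)]),
    ([(18, 128)], [(17, 304), (19, 23), (20, 23)]),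
    ([(17, 337), (18, 6), (19, 40)], [(20, 29)]),
    ([(18, 129), (19, 30), (20, 22)], [(17, 132)]),
    ([], [(21, 58)])],
   [([], []),
    ([(0, 8)], []),
    ([], [(0, 42)]),
    ([], [(0, 12)]),
    ([], [(0, 34)]),
    ([(1, 58)], [(2, 1)]),
    ([(3, 2)], [(1, 120), (2, 16), (4, 6)]),
    ([(3, 23), (4, 20)], [(1, 351), (2, 53)]),
    ([(1, 250), (2, 110), (4, 14)], [(3, 34)]),
    ([(1, 108)], [(2, 82), (3, 16), (4, 36)]),
    ([(3, 37)], [(1, 185), (2, 25), (4, 23)]),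
    ([(5, 408), (7, 2), (8, 1)], [(6, 35)]),
    ([(5, 278), (10, 5)], [(6, 137), (7, 46), (8, 18), (9, 1)]),
    ([(9, 16)], [(5, 68), (6, 201), (7, 34), (8, 29), (10, 8)]),
    ([(5, 115), (6, 294), (7, 109), (8, 124)], [(9, 28), (10, 11)]),
    ([(5, 8), (6, 44), (10, 39)], [(7, 227), (8, 107), (9, 25)]),
    ([(5, 4), (6, 310), (8, 40)], [(7, 116), (9, 40), (10, 26)]),
    ([(11, 471), (12, 118), (13, 79), (14, 15), (16, 3)], [(15, 2)]),
    ([(12, 256), (13, 189), (14, 106), (15, 21), (16, 7)], [(11, 194)]),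
    ([(11, 11), (12, 106), (13, 342), (14, 125), (16, 35)], [(15, 20)]),
    ([(11, 9), (13, 267)], [(12, 386), (14, 54), (15, 37), (16, 26)]),
    ([(17, 483), (19, 10), (20, 35)], [(18, 155)])]]

def d54pm_19 : List (List Col) :=
  [[([(1, 483)], [(2, 155), (3, 11), (4, 35)]),
    ([(5, 471), (8, 15), (9, 2)], [(6, 117), (7, 79), (10, 3)]),
    ([(8, 106)], [(5, 195), (6, 255), (7, 189), (9, 20), (10, 7)]),
    ([(6, 78), (7, 361), (10, 33)], [(5, 12), (8, 121), (9, 23)]),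
    ([(7, 241), (8, 63)], [(5, 8), (6, 393), (9, 35), (10, 28)]),
    ([(11, 408), (12, 35), (14, 1)], [(13, 2)]),
    ([(14, 18), (15, 1), (16, 5)], [(11, 277), (12, 136), (13, 46)]),
    ([(11, 68), (14, 30)], [(12, 202), (13, 35), (15, 16), (16, 8)]),
    ([(11, 115), (14, 124), (16, 12)], [(12, 293), (13, 110), (15, 27)]),
    ([(11, 8), (13, 233)], [(12, 60), (14, 105), (15, 28), (16, 37)]),
    ([(12, 308), (15, 38)], [(11, 3), (13, 104), (14, 46), (16, 29)]),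
    ([(17, 58)], [(18, 1)]),
    ([(17, 120), (18, 16), (19, 2)], [(20, 6)]),
    ([(17, 351), (18, 53), (19, 25), (20, 19)], []),
    ([(17, 250), (18, 110), (19, 33)], [(20, 16)]),
    ([(18, 81)], [(17, 113), (19, 20), (20, 35)]),
    ([(17, 183), (18, 28), (19, 35)], [(20, 27)]),
    ([(21, 8)], []),
    ([], [(21, 42)]),
    ([(21, 12)], []),
    ([(21, 34)], []),
    ([], [])],
   [([(0, 58)], []),
    ([(1, 139), (3, 3)], [(2, 19), (4, 5)]),
    ([(1, 304)], [(2, 128), (3, 24), (4, 23)]),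
    ([(1, 326), (2, 15), (4, 28)], [(3, 42)]),
    ([(2, 128)], [(1, 156), (3, 28), (4, 23)]),
    ([(5, 297), (7, 1)], [(6, 48), (8, 1)]),
    ([(5, 381), (6, 47), (9, 1), (10, 6)], [(7, 65), (8, 7)]),
    ([(5, 45), (6, 286), (7, 26), (9, 25)], [(8, 42), (10, 7)]),
    ([(6, 97), (9, 15), (10, 29)], [(5, 157), (7, 154), (8, 43)]),
    ([(6, 206), (7, 322), (9, 15)], [(5, 10), (8, 19), (10, 14)]),
    ([(5, 4), (6, 321)], [(7, 140), (8, 123), (9, 4), (10, 7)]),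
    ([(11, 286)], [(12, 46), (13, 1), (14, 1)]),
    ([(11, 388), (12, 47), (13, 66), (16, 5)], [(14, 6), (15, 4)]),
    ([(13, 26), (14, 42)], [(11, 49), (12, 287), (15, 23), (16, 11)]),
    ([(12, 109), (13, 157), (16, 32)], [(11, 161), (14, 43), (15, 8)]),
    ([(11, 12), (12, 35), (13, 344)], [(14, 53), (15, 16), (16, 4)]),
    ([(12, 376), (15, 14)], [(11, 3), (13, 95), (14, 110), (16, 8)]),
    ([(17, 143), (18, 19), (20, 2)], [(19, 6)]),
    ([(19, 1)], [(17, 308), (18, 133), (20, 33)]),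
    ([(18, 93)], [(17, 152), (19, 39), (20, 28)]),
    ([(17, 323), (18, 87), (19, 29)], [(20, 22)]),
    ([(21, 57)], [])],
   [([], []),
    ([(0, 8)], []),
    ([(0, 42)], []),
    ([(0, 14)], []),
    ([], [(0, 36)]),
    ([(1, 58), (2, 1)], []),
    ([(1, 111), (3, 4), (4, 6)], [(2, 15)]),
    ([(2, 52), (3, 32)], [(1, 352), (4, 4)]),
    ([(1, 249), (4, 34)], [(2, 103), (3, 12)]),
    ([(1, 202), (2, 41), (4, 17)], [(3, 38)]),
    ([(1, 84), (3, 20), (4, 44)], [(2, 71)]),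
    ([(5, 417), (6, 33), (7, 2), (8, 1)], []),
    ([(7, 46), (8, 18), (9, 4), (10, 3)], [(5, 268), (6, 129)]),
    ([(6, 203), (9, 17)], [(5, 62), (7, 37), (8, 29), (10, 5)]),
    ([(5, 110), (7, 109), (8, 120), (10, 27)], [(6, 286), (9, 11)]),
    ([(6, 241), (7, 236), (8, 52), (9, 44)], [(5, 7), (10, 20)]),
    ([(5, 2), (6, 216)], [(7, 62), (8, 102), (9, 22), (10, 45)]),
    ([(11, 471), (13, 81), (14, 16), (15, 4)], [(12, 113), (16, 1)]),
    ([(11, 195), (12, 244), (15, 9), (16, 19)], [(13, 194), (14, 105)]),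
    ([(11, 15), (12, 205), (13, 426), (14, 51), (15, 36), (16, 20)], []),
    ([(12, 355), (16, 42)], [(11, 2), (13, 59), (14, 129), (15, 21)]),
    ([(17, 483), (18, 156), (20, 33)], [(19, 18)])]]

def d54pm_20 : List (List Col) :=
  [[([(1, 483), (2, 156), (3, 15)], [(4, 34)]),
    ([(5, 471), (6, 113), (8, 16), (9, 3), (10, 1)], [(7, 81)]),
    ([(5, 195), (7, 194), (9, 10)], [(6, 245), (8, 105), (10, 18)]),
    ([(6, 206), (7, 426), (10, 18)], [(5, 15), (8, 51), (9, 37)]),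
    ([(5, 2), (6, 353), (8, 129), (9, 19), (10, 43)], [(7, 61)]),
    ([(11, 416), (14, 1)], [(12, 33), (13, 2)]),
    ([(11, 268), (13, 46), (15, 4), (16, 4)], [(12, 130), (14, 18)]),
    ([(11, 63), (12, 203), (14, 30), (15, 17)], [(13, 37), (16, 4)]),
    ([(11, 110), (12, 286), (14, 120), (15, 12)], [(13, 109), (16, 27)]),
    ([(11, 7), (12, 239), (13, 237), (15, 45)], [(14, 53), (16, 18)]),
    ([(11, 2), (13, 61), (15, 20), (16, 46)], [(12, 217), (14, 102)]),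
    ([(17, 58), (18, 1)], []),
    ([(18, 15), (19, 4), (20, 6)], [(17, 112)]),
    ([(17, 352), (19, 32)], [(18, 52), (20, 4)]),
    ([(17, 249), (19, 12)], [(18, 103), (20, 34)]),
    ([(17, 200), (18, 43), (19, 38)], [(20, 15)]),
    ([(18, 70), (19, 19), (20, 45)], [(17, 90)]),
    ([(21, 8)], []),
    ([(21, 42)], []),
    ([], [(21, 11)]),
    ([(21, 37)], []),
    ([], [])],
   [([], [(0, 57)]),
    ([(4, 3)], [(1, 142), (2, 19), (3, 6)]),
    ([(1, 308), (2, 132)], [(3, 2), (4, 33)]),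
    ([(2, 94), (3, 41), (4, 25)], [(1, 149)]),
    ([(1, 324), (2, 86), (4, 24)], [(3, 28)]),
    ([(8, 1)], [(5, 287), (6, 47), (7, 1)]),
    ([(5, 387)], [(6, 47), (7, 66), (8, 6), (9, 4), (10, 5)]),
    ([(6, 287), (8, 42), (10, 10)], [(5, 49), (7, 26), (9, 24)]),
    ([(5, 160), (6, 108), (7, 157), (8, 43), (9, 6), (10, 33)], []),
    ([(5, 12), (10, 3)], [(6, 32), (7, 344), (8, 53), (9, 16)]),
    ([(5, 3), (6, 376), (8, 111)], [(7, 91), (9, 13), (10, 8)]),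
    ([(13, 1), (14, 1)], [(11, 297), (12, 48)]),
    ([(11, 382), (13, 65)], [(12, 47), (14, 7), (15, 1), (16, 6)]),
    ([(11, 45), (16, 7)], [(12, 286), (13, 26), (14, 42), (15, 25)]),
    ([(11, 157), (12, 97), (14, 43), (15, 14), (16, 30)], [(13, 154)]),
    ([(11, 10), (12, 196), (13, 326), (14, 16), (15, 15)], [(16, 14)]),
    ([(11, 4), (13, 129), (15, 4), (16, 8)], [(12, 327), (14, 123)]),
    ([(18, 19), (19, 3)], [(17, 140), (20, 5)]),
    ([(18, 128)], [(17, 304), (19, 23), (20, 23)]),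
    ([(17, 315), (18, 24), (19, 44)], [(20, 26)]),
    ([(18, 127), (19, 25), (20, 25)], [(17, 178)]),
    ([], [(21, 58)])],
   [([], []),
    ([(0, 8)], []),
    ([], [(0, 42)]),
    ([], [(0, 12)]),
    ([], [(0, 34)]),
    ([(1, 58)], [(2, 1)]),
    ([(3, 1)], [(1, 119), (2, 16), (4, 6)]),
    ([(3, 26), (4, 17)], [(1, 351), (2, 53)]),
    ([(1, 250), (2, 109), (4, 18)], [(3, 32)]),
    ([(1, 114)], [(2, 80), (3, 23), (4, 34)]),
    ([(1, 182), (2, 29), (4, 29)], [(3, 33)]),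
    ([(5, 409), (7, 2), (8, 1)], [(6, 34)]),
    ([(5, 276), (10, 5)], [(6, 136), (7, 46), (8, 18), (9, 1)]),
    ([(9, 17)], [(5, 68), (6, 202), (7, 35), (8, 30), (10, 7)]),
    ([(5, 115), (6, 293), (7, 110), (8, 124)], [(9, 27), (10, 13)]),
    ([(5, 8), (6, 70), (10, 35)], [(7, 235), (8, 104), (9, 31)]),
    ([(5, 3), (6, 307), (8, 50)], [(7, 95), (9, 36), (10, 32)]),
    ([(11, 471), (12, 117), (13, 79), (14, 15), (16, 3)], [(15, 2)]),
    ([(12, 255), (13, 189), (14, 106), (15, 20), (16, 8)], [(11, 195)]),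
    ([(11, 12), (12, 50), (13, 377), (14, 116), (16, 31)], [(15, 26)]),
    ([(11, 7), (13, 215)], [(12, 398), (14, 71), (15, 33), (16, 32)]),
    ([(17, 483), (19, 11), (20, 35)], [(18, 155)])]]

def d54pm_21 : List (List Col) :=
  [[([(1, 483)], [(2, 155), (3, 11), (4, 35)]),
    ([(5, 471), (8, 15), (9, 2), (10, 3)], [(6, 117), (7, 79)]),
    ([(8, 106), (10, 8)], [(5, 195), (6, 254), (7, 189), (9, 20)]),
    ([(6, 22), (7, 391)], [(5, 13), (8, 111), (9, 28), (10, 28)]),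
    ([(5, 6), (6, 401), (9, 31)], [(7, 188), (8, 79), (10, 34)]),
    ([(11, 409), (12, 34), (14, 1)], [(13, 2)]),
    ([(14, 18), (15, 1), (16, 5)], [(11, 275), (12, 136), (13, 46)]),
    ([(11, 67), (14, 30)], [(12, 202), (13, 35), (15, 17), (16, 7)]),
    ([(11, 114), (14, 124), (16, 14)], [(12, 292), (13, 110), (15, 26)]),
    ([(11, 8), (13, 239)], [(12, 82), (14, 102), (15, 34), (16, 33)]),
    ([(12, 304), (15, 33)], [(11, 3), (13, 85), (14, 54), (16, 35)]),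
    ([(17, 58)], [(18, 1)]),
    ([(17, 118), (18, 16), (19, 1)], [(20, 7)]),
    ([(17, 351), (18, 52), (19, 27), (20, 15)], []),
    ([(17, 250), (18, 109), (19, 30)], [(20, 20)]),
    ([(18, 79)], [(17, 118), (19, 26), (20, 32)]),
    ([(17, 180), (18, 31), (19, 30)], [(20, 32)]),
    ([(21, 8)], []),
    ([], [(21, 42)]),
    ([(21, 12)], []),
    ([(21, 34)], []),
    ([], [])],
   [([(0, 58)], []),
    ([(1, 140), (3, 3)], [(2, 19), (4, 5)]),
    ([(1, 305)], [(2, 128), (3, 24), (4, 23)]),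
    ([(1, 302), (2, 32), (4, 25)], [(3, 45)]),
    ([(1, 198), (3, 22), (4, 27)], [(2, 125)]),
    ([(5, 296), (7, 1)], [(6, 48), (8, 1)]),
    ([(5, 382), (6, 47), (9, 1)], [(7, 65), (8, 7), (10, 6)]),
    ([(5, 45), (6, 286), (7, 26), (9, 25), (10, 6)], [(8, 42)]),
    ([(6, 98), (9, 14)], [(5, 158), (7, 155), (8, 43), (10, 30)]),
    ([(6, 182), (7, 331), (9, 15), (10, 13)], [(5, 11), (8, 11)]),
    ([(5, 4), (6, 334), (10, 8)], [(7, 116), (8, 124), (9, 3)]),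
    ([(11, 288)], [(12, 47), (13, 1), (14, 1)]),
    ([(11, 387), (12, 47), (13, 66), (16, 5)], [(14, 6), (15, 3)]),
    ([(13, 26), (14, 42)], [(11, 48), (12, 287), (15, 24), (16, 9)]),
    ([(12, 107), (13, 157), (16, 33)], [(11, 160), (14, 43), (15, 5)]),
    ([(11, 12), (12, 23), (13, 346)], [(14, 51), (15, 16), (16, 2)]),
    ([(12, 377), (15, 13)], [(11, 3), (13, 83), (14, 112), (16, 9)]),
    ([(17, 142), (18, 19), (20, 3)], [(19, 5)]),
    ([], [(17, 308), (18, 132), (19, 4), (20, 33)]),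
    ([(18, 94)], [(17, 151), (19, 43), (20, 22)]),
    ([(17, 324), (18, 87), (19, 26)], [(20, 26)]),
    ([(21, 57)], [])],
   [([], []),
    ([(0, 8)], []),
    ([(0, 42)], []),
    ([(0, 9)], []),
    ([(0, 37)], []),
    ([(1, 58), (2, 1)], []),
    ([(1, 112), (3, 4), (4, 6)], [(2, 15)]),
    ([(2, 52), (3, 32)], [(1, 352), (4, 4)]),
    ([(1, 249), (4, 34)], [(2, 104), (3, 12)]),
    ([(1, 196), (2, 46), (4, 14)], [(3, 39)]),
    ([(1, 98), (3, 18), (4, 45)], [(2, 68)]),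
    ([(5, 416), (6, 33), (7, 2), (8, 1)], []),
    ([(7, 46), (8, 18), (9, 4)], [(5, 269), (6, 130), (10, 4)]),
    ([(6, 203), (9, 18), (10, 4)], [(5, 63), (7, 37), (8, 30)]),
    ([(5, 111), (7, 109), (8, 120)], [(6, 286), (9, 12), (10, 27)]),
    ([(6, 234), (7, 239), (8, 55), (9, 45), (10, 17)], [(5, 8)]),
    ([(5, 2), (6, 222), (10, 46)], [(7, 56), (8, 100), (9, 19)]),
    ([(11, 471), (13, 81), (14, 16), (15, 3)], [(12, 113), (16, 2)]),
    ([(11, 195), (12, 245), (15, 10), (16, 18)], [(13, 193), (14, 105)]),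
    ([(11, 15), (12, 204), (13, 427), (14, 51), (15, 38), (16, 17)], []),
    ([(12, 354), (16, 44)], [(11, 2), (13, 58), (14, 129), (15, 17)]),
    ([(17, 483), (18, 156), (20, 35)], [(19, 13)])]]

def d54pm_22 : List (List Col) :=
  [[([(1, 483), (2, 156), (3, 10), (4, 36)], []),
    ([(5, 471), (6, 114), (8, 16), (9, 3), (10, 2)], [(7, 81)]),
    ([(5, 195), (7, 193), (9, 11)], [(6, 246), (8, 106), (10, 18)]),
    ([(6, 204), (7, 427), (10, 16)], [(5, 15), (8, 51), (9, 38)]),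
    ([(5, 2), (6, 353), (8, 129), (9, 15), (10, 44)], [(7, 58)]),
    ([(11, 415), (14, 1)], [(12, 33), (13, 2)]),
    ([(11, 269), (13, 46), (15, 4), (16, 4)], [(12, 130), (14, 18)]),
    ([(11, 63), (12, 203), (14, 30), (15, 18)], [(13, 37), (16, 4)]),
    ([(11, 111), (12, 286), (14, 121), (15, 13)], [(13, 110), (16, 27)]),
    ([(11, 8), (12, 232), (13, 240), (15, 46)], [(14, 56), (16, 16)]),
    ([(11, 2), (13, 54), (15, 18), (16, 47)], [(12, 223), (14, 100)]),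
    ([(17, 58), (18, 1)], []),
    ([(18, 15), (19, 4), (20, 6)], [(17, 113)]),
    ([(17, 351), (19, 32)], [(18, 52), (20, 4)]),
    ([(17, 249), (19, 12)], [(18, 104), (20, 34)]),
    ([(17, 193), (18, 48), (19, 39)], [(20, 13)]),
    ([(18, 67), (19, 16), (20, 45)], [(17, 102)]),
    ([(21, 8)], []),
    ([(21, 42)], []),
    ([], [(21, 7)]),
    ([(21, 38)], []),
    ([], [])],
   [([], [(0, 57)]),
    ([], [(1, 142), (2, 19), (3, 5), (4, 3)]),
    ([(1, 308), (2, 132), (4, 32)], [(3, 7)]),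
    ([(2, 94), (3, 44)], [(1, 150), (4, 20)]),
    ([(1, 324), (2, 87)], [(3, 24), (4, 27)]),
    ([(8, 1)], [(5, 288), (6, 47), (7, 1)]),
    ([(5, 387)], [(6, 47), (7, 66), (8, 6), (9, 3), (10, 6)]),
    ([(6, 287), (8, 42), (10, 8)], [(5, 48), (7, 26), (9, 24)]),
    ([(5, 160), (6, 107), (7, 157), (8, 43), (9, 4), (10, 33)], []),
    ([(5, 12), (10, 1)], [(6, 20), (7, 346), (8, 50), (9, 16)]),
    ([(5, 3), (6, 377), (8, 112)], [(7, 79), (9, 12), (10, 9)]),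
    ([(13, 1), (14, 1)], [(11, 295), (12, 48)]),
    ([(11, 382), (13, 65)], [(12, 47), (14, 7), (16, 6)]),
    ([(11, 45), (16, 6)], [(12, 286), (13, 26), (14, 42), (15, 25)]),
    ([(11, 158), (12, 98), (14, 43), (15, 13), (16, 30)], [(13, 155)]),
    ([(11, 11), (12, 174), (13, 335), (14, 8), (15, 15)], [(16, 13)]),
    ([(11, 3), (13, 107), (15, 2), (16, 9)], [(12, 339), (14, 124)]),
    ([(18, 19), (19, 3)], [(17, 140), (20, 5)]),
    ([(18, 129)], [(17, 305), (19, 23), (20, 23)]),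
    ([(17, 291), (18, 39), (19, 46)], [(20, 23)]),
    ([(18, 123), (19, 19), (20, 28)], [(17, 214)]),
    ([], [(21, 58)])],
   [([], []),
    ([(0, 8)], []),
    ([], [(0, 42)]),
    ([], [(0, 12)]),
    ([], [(0, 34)]),
    ([(1, 58)], [(2, 1)]),
    ([(4, 7)], [(1, 118), (2, 16)]),
    ([(3, 28)], [(1, 351), (2, 52), (4, 13)]),
    ([(1, 250), (2, 109)], [(3, 29), (4, 22)]),
    ([(1, 119), (4, 30)], [(2, 78), (3, 28)]),
    ([(1, 180), (2, 32)], [(3, 28), (4, 35)]),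
    ([(5, 410), (7, 2), (8, 1)], [(6, 34)]),
    ([(5, 275), (10, 5)], [(6, 135), (7, 46), (8, 18), (9, 1)]),
    ([(9, 17)], [(5, 67), (6, 202), (7, 35), (8, 30), (10, 6)]),
    ([(5, 114), (6, 292), (7, 110), (8, 124)], [(9, 26), (10, 15)]),
    ([(5, 8), (6, 90), (10, 31)], [(7, 240), (8, 100), (9, 36)]),
    ([(5, 3), (6, 302), (8, 57)], [(7, 78), (9, 31), (10, 37)]),
    ([(11, 471), (12, 117), (13, 79), (14, 15), (16, 3)], [(15, 2)]),
    ([(12, 254), (13, 189), (14, 106), (15, 20), (16, 9)], [(11, 195)]),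
    ([(11, 13), (12, 1), (13, 400), (14, 107), (16, 26)], [(15, 31)]),
    ([(11, 6), (13, 167)], [(12, 402), (14, 85), (15, 29), (16, 36)]),
    ([(17, 483), (19, 11), (20, 35)], [(18, 155)])]]

def d54pm_23 : List (List Col) :=
  [[([(1, 483)], [(2, 155), (3, 11), (4, 35)]),
    ([(5, 471), (8, 15), (9, 2), (10, 3)], [(6, 117), (7, 79)]),
    ([(8, 106), (10, 9)], [(5, 195), (6, 253), (7, 189), (9, 19)]),
    ([(7, 407)], [(5, 13), (6, 17), (8, 103), (9, 32), (10, 24)]),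
    ([(5, 5), (6, 402), (9, 27)], [(7, 149), (8, 90), (10, 37)]),
    ([(11, 410), (12, 34), (14, 1)], [(13, 2)]),
    ([(14, 18), (15, 2), (16, 5)], [(11, 275), (12, 135), (13, 46)]),
    ([(11, 67), (14, 30)], [(12, 202), (13, 35), (15, 17), (16, 5)]),
    ([(11, 114), (14, 124), (16, 16)], [(12, 291), (13, 110), (15, 25)]),
    ([(11, 8), (13, 242)], [(12, 98), (14, 99), (15, 37), (16, 29)]),
    ([(12, 300), (15, 29)], [(11, 2), (13, 72), (14, 60), (16, 39)]),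
    ([(17, 58)], [(18, 1)]),
    ([(17, 118), (18, 16)], [(20, 7)]),
    ([(17, 351), (18, 52), (19, 29), (20, 12)], []),
    ([(17, 250), (18, 108), (19, 28)], [(20, 24)]),
    ([(18, 78)], [(17, 121), (19, 30), (20, 28)]),
    ([(17, 178), (18, 34), (19, 26)], [(20, 36)]),
    ([(21, 8)], []),
    ([], [(21, 42)]),
    ([(21, 12)], []),
    ([(21, 35)], []),
    ([], [])],
   [([(0, 58)], []),
    ([(1, 140), (3, 3)], [(2, 19), (4, 5)]),
    ([(1, 305)], [(2, 129), (3, 23), (4, 23)]),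
    ([(1, 281), (2, 44), (4, 22)], [(3, 47)]),
    ([(1, 226), (3, 17), (4, 29)], [(2, 121)]),
    ([(5, 295), (7, 1)], [(6, 48), (8, 1)]),
    ([(5, 383), (6, 47)], [(7, 65), (8, 7), (10, 6)]),
    ([(5, 45), (6, 286), (7, 26), (9, 25), (10, 6)], [(8, 42)]),
    ([(6, 99), (9, 13)], [(5, 158), (7, 155), (8, 43), (10, 30)]),
    ([(6, 164), (7, 337), (9, 15), (10, 12)], [(5, 11), (8, 5)]),
    ([(5, 3), (6, 343), (10, 9)], [(7, 98), (8, 124), (9, 2)]),
    ([(11, 289)], [(12, 47), (13, 1), (14, 1)]),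
    ([(11, 386), (12, 47), (13, 66), (16, 6)], [(14, 6), (15, 3)]),
    ([(13, 26), (14, 42)], [(11, 48), (12, 287), (15, 24), (16, 8)]),
    ([(12, 106), (13, 157), (16, 33)], [(11, 160), (14, 43), (15, 3)]),
    ([(11, 12), (12, 14), (13, 347)], [(14, 49), (15, 16), (16, 1)]),
    ([(12, 378), (15, 12)], [(11, 2), (13, 74), (14, 113), (16, 10)]),
    ([(17, 142), (18, 19), (20, 4)], [(19, 5)]),
    ([], [(17, 307), (18, 132), (19, 8), (20, 32)]),
    ([(18, 93)], [(17, 152), (19, 46), (20, 17)]),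
    ([(17, 324), (18, 87), (19, 22)], [(20, 29)]),
    ([(21, 57)], [])],
   [([], []),
    ([(0, 8)], []),
    ([(0, 42)], []),
    ([(0, 5)], []),
    ([(0, 38)], []),
    ([(1, 58), (2, 1)], []),
    ([(1, 113), (3, 4), (4, 6)], [(2, 15)]),
    ([(2, 52), (3, 32)], [(1, 351), (4, 4)]),
    ([(1, 249), (4, 34)], [(2, 104), (3, 12)]),
    ([(1, 190), (2, 50), (4, 11)], [(3, 40)]),
    ([(1, 107), (3, 15), (4, 45)], [(2, 66)]),
    ([(5, 415), (6, 33), (7, 2), (8, 1)], []),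
    ([(7, 46), (8, 18), (9, 4)], [(5, 269), (6, 131), (10, 4)]),
    ([(6, 203), (9, 18), (10, 4)], [(5, 64), (7, 37), (8, 30)]),
    ([(5, 111), (7, 110), (8, 121)], [(6, 287), (9, 13), (10, 26)]),
    ([(6, 229), (7, 241), (8, 58), (9, 46), (10, 15)], [(5, 8)]),
    ([(5, 2), (6, 226), (10, 47)], [(7, 51), (8, 99), (9, 16)]),
    ([(11, 471), (13, 81), (14, 16), (15, 3)], [(12, 114), (16, 2)]),
    ([(11, 195), (12, 246), (15, 11), (16, 17)], [(13, 193), (14, 106)]),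
    ([(11, 15), (12, 202), (13, 427), (14, 52), (15, 39), (16, 15)], []),
    ([(12, 354), (16, 45)], [(11, 2), (13, 56), (14, 128), (15, 14)]),
    ([(17, 483), (18, 156), (20, 36)], [(19, 8)])]]

def d54pm_24 : List (List Col) :=
  [[([(1, 483), (2, 156), (3, 7), (4, 37)], []),
    ([(5, 471), (6, 114), (8, 16), (9, 3), (10, 2)], [(7, 81)]),
    ([(5, 195), (7, 193), (9, 12)], [(6, 246), (8, 106), (10, 17)]),
    ([(6, 201), (7, 428), (10, 14)], [(5, 15), (8, 52), (9, 39)]),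
    ([(5, 2), (6, 354), (8, 128), (9, 13), (10, 45)], [(7, 55)]),
    ([(11, 415), (14, 1)], [(12, 33), (13, 2)]),
    ([(11, 270), (13, 46), (15, 4), (16, 4)], [(12, 131), (14, 18)]),
    ([(11, 64), (12, 203), (14, 30), (15, 18)], [(13, 37), (16, 4)]),
    ([(11, 111), (12, 287), (14, 121), (15, 14)], [(13, 110), (16, 26)]),
    ([(11, 8), (12, 227), (13, 242), (15, 46)], [(14, 59), (16, 14)]),
    ([(11, 2), (13, 49), (15, 16), (16, 47)], [(12, 227), (14, 99)]),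
    ([(17, 58), (18, 1)], []),
    ([(18, 15), (19, 3), (20, 6)], [(17, 113)]),
    ([(17, 351), (19, 32)], [(18, 52), (20, 4)]),
    ([(17, 249), (19, 12)], [(18, 104), (20, 34)]),
    ([(17, 189), (18, 51), (19, 40)], [(20, 11)]),
    ([(18, 65), (19, 14), (20, 46)], [(17, 110)]),
    ([(21, 8)], []),
    ([(21, 42)], []),
    ([], [(21, 4)]),
    ([(21, 38)], []),
    ([], [])],
   [([], [(0, 57)]),
    ([], [(1, 142), (2, 19), (3, 5), (4, 4)]),
    ([(1, 307), (2, 131), (4, 32)], [(3, 10)]),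
    ([(2, 93), (3, 46)], [(1, 152), (4, 15)]),
    ([(1, 324), (2, 87)], [(3, 21), (4, 30)]),
    ([(8, 1)], [(5, 289), (6, 47), (7, 1)]),
    ([(5, 386)], [(6, 47), (7, 66), (8, 6), (9, 3), (10, 6)]),
    ([(6, 287), (8, 42), (10, 7)], [(5, 48), (7, 26), (9, 25)]),
    ([(5, 160), (6, 106), (7, 157), (8, 43), (9, 2), (10, 33)], []),
    ([(5, 12), (10, 1)], [(6, 12), (7, 347), (8, 48), (9, 16)]),
    ([(5, 2), (6, 378), (8, 113)], [(7, 72), (9, 11), (10, 10)]),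
    ([(13, 1), (14, 1)], [(11, 295), (12, 48)]),
    ([(11, 383), (13, 65)], [(12, 47), (14, 7), (16, 6)]),
    ([(11, 45), (16, 5)], [(12, 286), (13, 26), (14, 42), (15, 25)]),
    ([(11, 158), (12, 99), (14, 43), (15, 13), (16, 30)], [(13, 155)]),
    ([(11, 11), (12, 159), (13, 339), (14, 3), (15, 16)], [(16, 12)]),
    ([(11, 3), (13, 93), (15, 1), (16, 9)], [(12, 346), (14, 124)]),
    ([(18, 19), (19, 3)], [(17, 140), (20, 5)]),
    ([(18, 129)], [(17, 305), (19, 23), (20, 24)]),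
    ([(17, 274), (18, 48), (19, 47)], [(20, 21)]),
    ([(18, 120), (19, 16), (20, 30)], [(17, 234)]),
    ([], [(21, 58)])],
   [([], []),
    ([(0, 8)], []),
    ([], [(0, 42)]),
    ([], [(0, 12)]),
    ([], [(0, 35)]),
    ([(1, 58)], [(2, 1)]),
    ([(4, 7)], [(1, 118), (2, 16)]),
    ([(3, 29)], [(1, 351), (2, 52), (4, 10)]),
    ([(1, 250), (2, 108)], [(3, 26), (4, 25)]),
    ([(1, 123), (4, 26)], [(2, 77), (3, 32)]),
    ([(1, 178), (2, 34)], [(3, 24), (4, 38)]),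
    ([(5, 410), (7, 2), (8, 1)], [(6, 34)]),
    ([(5, 274), (10, 5)], [(6, 135), (7, 46), (8, 18), (9, 2)]),
    ([(9, 18)], [(5, 67), (6, 202), (7, 35), (8, 30), (10, 5)]),
    ([(5, 114), (6, 291), (7, 110), (8, 124)], [(9, 25), (10, 17)]),
    ([(5, 8), (6, 103), (10, 27)], [(7, 243), (8, 98), (9, 38)]),
    ([(5, 2), (6, 299), (8, 61)], [(7, 68), (9, 27), (10, 40)]),
    ([(11, 471), (12, 117), (13, 79), (14, 15), (16, 3)], [(15, 2)]),
    ([(12, 253), (13, 190), (14, 107), (15, 19), (16, 9)], [(11, 195)]),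
    ([(11, 14), (13, 411), (14, 101), (16, 23)], [(12, 29), (15, 33)]),
    ([(11, 5), (13, 137)], [(12, 401), (14, 93), (15, 26), (16, 38)]),
    ([(17, 483), (19, 11), (20, 35)], [(18, 155)])]]

def d54pm_25 : List (List Col) :=
  [[([(1, 483)], [(2, 155), (3, 11), (4, 35)]),
    ([(5, 471), (8, 15), (9, 2), (10, 3)], [(6, 117), (7, 79)]),
    ([(8, 107), (10, 10)], [(5, 195), (6, 253), (7, 190), (9, 19)]),
    ([(7, 414)], [(5, 14), (6, 37), (8, 99), (9, 34), (10, 22)]),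
    ([(5, 4), (6, 401), (9, 25)], [(7, 129), (8, 95), (10, 39)]),
    ([(11, 410), (12, 34), (14, 1)], [(13, 2)]),
    ([(14, 18), (15, 2), (16, 5)], [(11, 274), (12, 135), (13, 46)]),
    ([(11, 67), (14, 30)], [(12, 202), (13, 35), (15, 18), (16, 5)]),
    ([(11, 114), (14, 124), (16, 17)], [(12, 291), (13, 110), (15, 24)]),
    ([(11, 8), (13, 244)], [(12, 106), (14, 97), (15, 39), (16, 26)]),
    ([(12, 298), (15, 26)], [(11, 2), (13, 65), (14, 62), (16, 40)]),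
    ([(17, 58)], [(18, 1)]),
    ([(17, 117), (18, 16)], [(20, 7)]),
    ([(17, 351), (18, 52), (19, 30), (20, 10)], []),
    ([(17, 250), (18, 108), (19, 26)], [(20, 26)]),
    ([(18, 77)], [(17, 124), (19, 33), (20, 25)]),
    ([(17, 177), (18, 35), (19, 22)], [(20, 39)]),
    ([(21, 8)], []),
    ([], [(21, 42)]),
    ([(21, 12)], []),
    ([(21, 35)], []),
    ([], [])],
   [([(0, 58)], []),
    ([(1, 140), (3, 3)], [(2, 19), (4, 5)]),
    ([(1, 305)], [(2, 129), (3, 23), (4, 24)]),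
    ([(1, 270), (2, 50), (4, 20)], [(3, 48)]),
    ([(1, 239), (3, 15), (4, 30)], [(2, 119)]),
    ([(5, 295), (7, 1)], [(6, 48), (8, 1)]),
    ([(5, 383), (6, 47)], [(7, 65), (8, 7), (10, 6)]),
    ([(5, 45), (6, 286), (7, 26), (9, 25), (10, 5)], [(8, 42)]),
    ([(6, 99), (9, 13)], [(5, 158), (7, 155), (8, 43), (10, 30)]),
    ([(6, 155), (7, 340), (9, 16), (10, 12)], [(5, 11), (8, 2)]),
    ([(5, 3), (6, 347), (10, 10)], [(7, 89), (8, 124), (9, 1)]),
    ([(11, 289)], [(12, 47), (13, 1), (14, 1)]),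
    ([(11, 386), (12, 47), (13, 66), (16, 6)], [(14, 6), (15, 3)]),
    ([(13, 26), (14, 42)], [(11, 48), (12, 287), (15, 25), (16, 7)]),
    ([(12, 106), (13, 157), (16, 33)], [(11, 160), (14, 43), (15, 2)]),
    ([(11, 12), (12, 9), (13, 348)], [(14, 48), (15, 16)]),
    ([(12, 378), (15, 11)], [(11, 2), (13, 69), (14, 113), (16, 10)]),
    ([(17, 142), (18, 19), (20, 4)], [(19, 5)]),
    ([], [(17, 307), (18, 131), (19, 11), (20, 31)]),
    ([(18, 93)], [(17, 152), (19, 47), (20, 14)]),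
    ([(17, 324), (18, 87), (19, 20)], [(20, 30)]),
    ([(21, 58)], [])],
   [([], []),
    ([(0, 8)], []),
    ([(0, 42)], []),
    ([(0, 3)], []),
    ([(0, 38)], []),
    ([(1, 58), (2, 1)], []),
    ([(1, 113), (3, 3), (4, 6)], [(2, 15)]),
    ([(2, 52), (3, 32)], [(1, 351), (4, 4)]),
    ([(1, 249), (4, 34)], [(2, 105), (3, 12)]),
    ([(1, 187), (2, 51), (4, 10)], [(3, 40)]),
    ([(1, 112), (3, 14), (4, 46)], [(2, 64)]),
    ([(5, 415), (6, 33), (7, 2), (8, 1)], []),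
    ([(7, 46), (8, 18), (9, 4)], [(5, 270), (6, 131), (10, 4)]),
    ([(6, 203), (9, 18), (10, 3)], [(5, 64), (7, 37), (8, 30)]),
    ([(5, 111), (7, 110), (8, 121)], [(6, 287), (9, 14), (10, 26)]),
    ([(6, 226), (7, 242), (8, 59), (9, 46), (10, 13)], [(5, 8)]),
    ([(5, 1), (6, 229), (10, 48)], [(7, 47), (8, 99), (9, 15)]),
    ([(11, 471), (13, 81), (14, 16), (15, 3)], [(12, 114), (16, 2)]),
    ([(11, 195), (12, 247), (15, 12), (16, 17)], [(13, 193), (14, 106)]),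
    ([(11, 15), (12, 200), (13, 428), (14, 52), (15, 39), (16, 13)], []),
    ([(12, 355), (16, 45)], [(11, 2), (13, 54), (14, 128), (15, 12)]),
    ([(17, 483), (18, 156), (20, 37)], [(19, 5)])]]

def d54pm_26 : List (List Col) :=
  [[([(1, 483), (2, 156), (3, 5), (4, 37)], []),
    ([(5, 471), (6, 114), (8, 16), (9, 3), (10, 2)], [(7, 81)]),
    ([(5, 195), (7, 193), (9, 12)], [(6, 247), (8, 106), (10, 17)]),
    ([(6, 200), (7, 428), (10, 13)], [(5, 15), (8, 52), (9, 39)]),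
    ([(5, 2), (6, 354), (8, 128), (9, 12), (10, 45)], [(7, 54)]),
    ([(11, 415), (14, 1)], [(12, 33), (13, 2)]),
    ([(11, 270), (13, 46), (15, 4), (16, 4)], [(12, 131), (14, 18)]),
    ([(11, 64), (12, 203), (14, 30), (15, 18)], [(13, 37), (16, 3)]),
    ([(11, 111), (12, 287), (14, 121), (15, 14)], [(13, 110), (16, 26)]),
    ([(11, 8), (12, 226), (13, 242), (15, 46)], [(14, 59), (16, 13)]),
    ([(11, 1), (13, 47), (15, 15), (16, 48)], [(12, 229), (14, 98)]),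
    ([(17, 58), (18, 1)], []),
    ([(18, 15), (19, 3), (20, 6)], [(17, 113)]),
    ([(17, 351), (19, 32)], [(18, 52), (20, 4)]),
    ([(17, 249), (19, 12)], [(18, 105), (20, 34)]),
    ([(17, 187), (18, 52), (19, 40)], [(20, 10)]),
    ([(18, 64), (19, 14), (20, 46)], [(17, 112)]),
    ([(21, 8)], []),
    ([(21, 42)], []),
    ([], [(21, 3)]),
    ([(21, 38)], []),
    ([], [])],
   [([], [(0, 58)]),
    ([], [(1, 142), (2, 19), (3, 5), (4, 4)]),
    ([(1, 307), (2, 131), (4, 31)], [(3, 11)]),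
    ([(2, 93), (3, 47)], [(1, 152), (4, 13)]),
    ([(1, 324), (2, 87)], [(3, 20), (4, 31)]),
    ([(8, 1)], [(5, 289), (6, 47), (7, 1)]),
    ([(5, 386)], [(6, 47), (7, 66), (8, 6), (9, 3), (10, 6)]),
    ([(6, 287), (8, 42), (10, 6)], [(5, 48), (7, 26), (9, 25)]),
    ([(5, 160), (6, 106), (7, 157), (8, 43), (9, 1), (10, 33)], []),
    ([(5, 12)], [(6, 9), (7, 348), (8, 48), (9, 16)]),
    ([(5, 2), (6, 378), (8, 113)], [(7, 69), (9, 11), (10, 10)]),
    ([(13, 1), (14, 1)], [(11, 294), (12, 48)]),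
    ([(11, 383), (13, 65)], [(12, 47), (14, 7), (16, 6)]),
    ([(11, 45), (16, 5)], [(12, 286), (13, 26), (14, 42), (15, 25)]),
    ([(11, 158), (12, 99), (14, 43), (15, 12), (16, 31)], [(13, 155)]),
    ([(11, 11), (12, 154), (13, 340), (14, 2), (15, 16)], [(16, 12)]),
    ([(11, 3), (13, 88), (15, 1), (16, 10)], [(12, 348), (14, 124)]),
    ([(18, 19), (19, 3)], [(17, 140), (20, 5)]),
    ([(18, 129)], [(17, 305), (19, 23), (20, 24)]),
    ([(17, 269), (18, 51), (19, 48)], [(20, 20)]),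
    ([(18, 118), (19, 14), (20, 30)], [(17, 240)]),
    ([], [(21, 58)])],
   [([], []),
    ([(0, 8)], []),
    ([], [(0, 42)]),
    ([], [(0, 12)]),
    ([], [(0, 35)]),
    ([(1, 58)], [(2, 1)]),
    ([(4, 7)], [(1, 117), (2, 16), (3, 1)]),
    ([(3, 30)], [(1, 351), (2, 52), (4, 9)]),
    ([(1, 250), (2, 108)], [(3, 25), (4, 26)]),
    ([(1, 124), (4, 25)], [(2, 77), (3, 33)]),
    ([(1, 177), (2, 35)], [(3, 22), (4, 39)]),
    ([(5, 411), (7, 2), (8, 1)], [(6, 34)]),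
    ([(5, 274), (10, 5)], [(6, 135), (7, 46), (8, 18), (9, 2)]),
    ([(9, 18)], [(5, 67), (6, 202), (7, 35), (8, 30), (10, 5)]),
    ([(5, 114), (6, 291), (7, 110), (8, 124)], [(9, 24), (10, 17)]),
    ([(5, 8), (6, 107), (10, 26)], [(7, 244), (8, 97), (9, 39)]),
    ([(5, 2), (6, 298), (8, 63)], [(7, 64), (9, 26), (10, 41)]),
    ([(11, 471), (12, 117), (13, 79), (14, 15), (16, 3)], [(15, 2)]),
    ([(12, 253), (13, 190), (14, 107), (15, 19), (16, 10)], [(11, 195)]),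
    ([(11, 14), (13, 414), (14, 99), (16, 22)], [(12, 39), (15, 34)]),
    ([(11, 4), (13, 127)], [(12, 401), (14, 96), (15, 24), (16, 39)]),
    ([(17, 483), (19, 11), (20, 35)], [(18, 155)])]]

def d54pm_27 : List (List Col) :=
  [[([], []),
    ([], [(21, 1)]),
    ([], []),
    ([], []),
    ([], []),
    ([(18, 1)], [(17, 41)]),
    ([(17, 10), (18, 1)], [(20, 1)]),
    ([(17, 7), (18, 1), (19, 1)], []),
    ([], [(17, 1), (18, 1)]),
    ([], []),
    ([], []),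
    ([(13, 1)], [(11, 283), (12, 24), (14, 1)]),
    ([(14, 2)], [(11, 24), (12, 12), (13, 4)]),
    ([(11, 1), (14, 1)], [(12, 4), (13, 1)]),
    ([(12, 2), (13, 1)], [(11, 1), (14, 1)]),
    ([], []),
    ([], []),
    ([(6, 10), (7, 7)], [(5, 41), (8, 1)]),
    ([(5, 1), (6, 1), (7, 1)], [(8, 1)]),
    ([(7, 1)], []),
    ([], [(6, 1)]),
    ([], [(1, 1)])],
   [([], []),
    ([], [(17, 12), (18, 2)]),
    ([(17, 2), (18, 1)], []),
    ([], []),
    ([], []),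
    ([(12, 33), (13, 1), (14, 1)], [(11, 203)]),
    ([(11, 33), (12, 4), (13, 6)], [(14, 1)]),
    ([(13, 1), (14, 1)], [(11, 1), (12, 6)]),
    ([(11, 1)], [(12, 1), (13, 1)]),
    ([(13, 1)], []),
    ([], [(12, 1)]),
    ([(6, 33), (8, 1)], [(5, 203), (7, 1)]),
    ([(5, 33), (6, 4)], [(7, 6), (8, 1), (10, 1)]),
    ([(5, 1), (6, 6), (7, 1), (9, 1)], [(8, 1)]),
    ([(5, 1), (7, 1)], [(6, 1)]),
    ([], []),
    ([], []),
    ([(2, 2)], [(1, 12)]),
    ([(2, 1)], [(1, 2)]),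
    ([], []),
    ([], []),
    ([], [])],
   [([], [(17, 1)]),
    ([(12, 10)], [(11, 40), (13, 7), (14, 1)]),
    ([(13, 1), (14, 1)], [(11, 1), (12, 1)]),
    ([(13, 1)], []),
    ([(12, 1)], []),
    ([], [(5, 291), (6, 23), (7, 1), (8, 1)]),
    ([(7, 4), (8, 2)], [(5, 23), (6, 11)]),
    ([(6, 4)], [(5, 1), (7, 1), (8, 1)]),
    ([(6, 2)], [(5, 1), (7, 1), (8, 1)]),
    ([], []),
    ([], []),
    ([], [(1, 40), (2, 1)]),
    ([(1, 10), (4, 1)], [(2, 1)]),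
    ([(2, 1), (3, 1)], [(1, 7)]),
    ([(2, 1)], [(1, 1)]),
    ([], []),
    ([], []),
    ([], [(0, 1)]),
    ([], []),
    ([], []),
    ([], []),
    ([], [])]]

def d54pm_28 : List (List Col) :=
  [[([], []),
    ([(0, 483)], []),
    ([(0, 156)], []),
    ([(0, 5)], []),
    ([(0, 37)], []),
    ([(1, 471), (2, 195), (4, 2)], [(3, 15)]),
    ([(1, 114), (3, 200), (4, 355)], [(2, 247)]),
    ([(2, 193), (3, 428)], [(1, 81), (4, 54)]),
    ([(1, 16), (4, 128)], [(2, 106), (3, 52)]),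
    ([(1, 3), (2, 12), (4, 12)], [(3, 39)]),
    ([(1, 2), (3, 13), (4, 45)], [(2, 17)]),
    ([(5, 415), (6, 270), (7, 64), (8, 111), (9, 8), (10, 1)], []),
    ([(7, 203), (8, 287), (9, 226)], [(5, 33), (6, 131), (10, 229)]),
    ([(6, 46), (9, 242), (10, 47)], [(5, 2), (7, 37), (8, 110)]),
    ([(5, 1), (7, 30), (8, 121)], [(6, 18), (9, 59), (10, 99)]),
    ([(6, 4), (7, 18), (8, 14), (9, 46), (10, 15)], []),
    ([(6, 4), (10, 48)], [(7, 3), (8, 26), (9, 13)]),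
    ([(11, 58), (13, 351), (14, 249), (15, 187)], [(12, 113), (16, 112)]),
    ([(11, 1), (12, 15), (15, 51), (16, 64)], [(13, 52), (14, 105)]),
    ([(12, 3), (13, 32), (14, 12), (15, 40), (16, 14)], []),
    ([(12, 6), (16, 46)], [(13, 4), (14, 34), (15, 10)]),
    ([(17, 8), (18, 42), (20, 38)], [(19, 3)])],
   [([], [(0, 58)]),
    ([(2, 307), (4, 324)], [(1, 142), (3, 152)]),
    ([(2, 131), (3, 93), (4, 87)], [(1, 19)]),
    ([(3, 47)], [(1, 5), (2, 11), (4, 20)]),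
    ([(2, 31)], [(1, 4), (3, 14), (4, 30)]),
    ([(6, 386), (8, 160), (9, 12), (10, 2)], [(5, 289), (7, 48)]),
    ([(7, 287), (8, 106), (10, 378)], [(5, 47), (6, 47), (9, 9)]),
    ([(8, 157)], [(5, 1), (6, 66), (7, 26), (9, 348), (10, 69)]),
    ([(5, 1), (7, 42), (8, 43), (10, 113)], [(6, 6), (9, 48)]),
    ([(8, 2)], [(6, 3), (7, 25), (9, 16), (10, 11)]),
    ([(7, 7), (8, 33)], [(6, 6), (10, 10)]),
    ([(12, 383), (13, 45), (14, 158), (15, 11), (16, 3)], [(11, 295)]),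
    ([(14, 99), (15, 155)], [(11, 48), (12, 47), (13, 286), (16, 347)]),
    ([(11, 1), (12, 65), (15, 340), (16, 89)], [(13, 26), (14, 155)]),
    ([(11, 1), (14, 43), (15, 2)], [(12, 7), (13, 42), (16, 124)]),
    ([(14, 13), (15, 16), (16, 1)], [(13, 25)]),
    ([(13, 5), (14, 30), (16, 10)], [(12, 6), (15, 12)]),
    ([(19, 270)], [(17, 140), (18, 305), (20, 239)]),
    ([(17, 19), (18, 129), (19, 50), (20, 119)], []),
    ([(17, 3), (19, 48), (20, 15)], [(18, 23)]),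
    ([(20, 30)], [(17, 5), (18, 24), (19, 20)]),
    ([], [(21, 58)])],
   [([(1, 8)], [(2, 42), (3, 12), (4, 35)]),
    ([(5, 58), (8, 250), (9, 124), (10, 177)], [(6, 117), (7, 351)]),
    ([(8, 108), (10, 35)], [(5, 1), (6, 16), (7, 52), (9, 77)]),
    ([(7, 30)], [(8, 26), (9, 33), (10, 22)]),
    ([(6, 7), (9, 25)], [(7, 10), (8, 26), (10, 39)]),
    ([(11, 410), (12, 274), (14, 114), (15, 8), (16, 2)], [(13, 67)]),
    ([(14, 291), (15, 106), (16, 298)], [(11, 34), (12, 135), (13, 202)]),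
    ([(11, 2), (14, 110)], [(12, 46), (13, 35), (15, 244), (16, 65)]),
    ([(11, 1), (14, 124), (16, 62)], [(12, 18), (13, 30), (15, 97)]),
    ([(13, 18)], [(12, 2), (14, 24), (15, 39), (16, 26)]),
    ([(12, 5), (15, 26)], [(13, 5), (14, 17), (16, 40)]),
    ([(17, 471), (19, 14), (20, 4)], [(18, 195)]),
    ([(17, 117), (18, 253)], [(19, 37), (20, 401)]),
    ([(17, 79), (18, 190), (19, 414), (20, 129)], []),
    ([(17, 15), (18, 107), (19, 99)], [(20, 95)]),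
    ([(18, 19)], [(17, 2), (19, 34), (20, 25)]),
    ([(17, 3), (18, 10), (19, 22)], [(20, 39)]),
    ([(21, 483)], []),
    ([], [(21, 155)]),
    ([(21, 11)], []),
    ([(21, 35)], []),
    ([], [])]]

def d54pm_29 : List (List Col) :=
  [[([], []),
    ([(0, 483)], []),
    ([], [(0, 155)]),
    ([], [(0, 11)]),
    ([], [(0, 35)]),
    ([(1, 471), (4, 5)], [(2, 195), (3, 14)]),
    ([(4, 401)], [(1, 117), (2, 253), (3, 29)]),
    ([(3, 411)], [(1, 79), (2, 190), (4, 137)]),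
    ([(1, 15), (2, 107)], [(3, 101), (4, 93)]),
    ([(1, 2), (4, 26)], [(2, 19), (3, 33)]),
    ([(1, 3), (2, 9)], [(3, 23), (4, 38)]),
    ([(5, 410), (7, 67), (8, 114), (9, 8)], [(6, 274), (10, 2)]),
    ([(5, 34), (10, 299)], [(6, 135), (7, 202), (8, 291), (9, 103)]),
    ([(9, 243)], [(5, 2), (6, 46), (7, 35), (8, 110), (10, 68)]),
    ([(5, 1), (6, 18), (7, 30), (8, 124)], [(9, 98), (10, 61)]),
    ([(6, 2), (10, 27)], [(7, 18), (8, 25), (9, 38)]),
    ([(6, 5), (8, 17)], [(7, 5), (9, 27), (10, 40)]),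
    ([(11, 58), (12, 118), (13, 351), (14, 250), (16, 178)], [(15, 123)]),
    ([(12, 16), (13, 52), (14, 108), (15, 77), (16, 34)], [(11, 1)]),
    ([(13, 29), (14, 26), (16, 24)], [(15, 32)]),
    ([(13, 10)], [(12, 7), (14, 25), (15, 26), (16, 38)]),
    ([(17, 8), (19, 12), (20, 35)], [(18, 42)])],
   [([(0, 58)], []),
    ([(1, 140), (2, 305), (3, 274), (4, 234)], []),
    ([(3, 48)], [(1, 19), (2, 129), (4, 120)]),
    ([(1, 3), (4, 16)], [(2, 23), (3, 47)]),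
    ([(3, 21), (4, 30)], [(1, 5), (2, 24)]),
    ([(5, 295), (6, 383), (7, 45), (10, 3)], [(8, 158), (9, 11)]),
    ([(6, 47), (7, 286), (8, 99), (9, 159), (10, 346)], [(5, 48)]),
    ([(5, 1), (7, 26), (9, 339)], [(6, 65), (8, 155), (10, 93)]),
    ([], [(5, 1), (6, 7), (7, 42), (8, 43), (9, 3), (10, 124)]),
    ([(7, 25), (8, 13), (9, 16)], [(10, 1)]),
    ([(7, 5), (9, 12), (10, 9)], [(6, 6), (8, 30)]),
    ([(11, 289), (12, 386), (15, 12)], [(13, 48), (14, 160), (16, 2)]),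
    ([(12, 47), (14, 106), (15, 12), (16, 378)], [(11, 47), (13, 287)]),
    ([(12, 66), (13, 26), (14, 157), (15, 347)], [(11, 1), (16, 72)]),
    ([(13, 42)], [(11, 1), (12, 6), (14, 43), (15, 48), (16, 113)]),
    ([(16, 11)], [(12, 3), (13, 25), (14, 2), (15, 16)]),
    ([(12, 6), (14, 33)], [(13, 7), (15, 1), (16, 10)]),
    ([(17, 142), (20, 324)], [(18, 307), (19, 152)]),
    ([(17, 19), (19, 93), (20, 87)], [(18, 131)]),
    ([(20, 21)], [(17, 5), (18, 10), (19, 46)]),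
    ([(17, 4)], [(18, 32), (19, 15), (20, 30)]),
    ([(21, 57)], [])],
   [([(1, 8), (2, 42), (3, 4), (4, 38)], []),
    ([(5, 58), (6, 113), (8, 249), (9, 189), (10, 110)], [(7, 351)]),
    ([(5, 1), (7, 52), (9, 51)], [(6, 15), (8, 104), (10, 65)]),
    ([(6, 3), (7, 32), (10, 14)], [(8, 12), (9, 40)]),
    ([(6, 6), (8, 34), (9, 11), (10, 46)], [(7, 4)]),
    ([(11, 415), (14, 111), (16, 2)], [(12, 270), (13, 64), (15, 8)]),
    ([(11, 33), (13, 203), (15, 227), (16, 227)], [(12, 131), (14, 287)]),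
    ([(11, 2), (12, 46), (14, 110), (15, 242)], [(13, 37), (16, 49)]),
    ([(11, 1), (12, 18), (14, 121), (15, 59)], [(13, 30), (16, 99)]),
    ([(12, 4), (13, 18), (15, 46)], [(14, 14), (16, 16)]),
    ([(13, 4), (15, 14), (16, 47)], [(12, 4), (14, 26)]),
    ([(17, 471), (18, 195), (19, 15)], [(20, 2)]),
    ([(18, 246), (19, 201), (20, 354)], [(17, 114)]),
    ([(17, 81), (19, 428)], [(18, 193), (20, 55)]),
    ([(17, 16), (19, 52)], [(18, 106), (20, 128)]),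
    ([(17, 3), (18, 12), (19, 39)], [(20, 13)]),
    ([(18, 17), (19, 14), (20, 45)], [(17, 2)]),
    ([(21, 483)], []),
    ([(21, 156)], []),
    ([], [(21, 7)]),
    ([(21, 37)], []),
    ([], [])]]

def d54pm_30 : List (List Col) :=
  [[([], []),
    ([(0, 483)], []),
    ([(0, 156)], []),
    ([(0, 8)], []),
    ([(0, 36)], []),
    ([(1, 471), (2, 195), (4, 2)], [(3, 15)]),
    ([(1, 114), (3, 202), (4, 354)], [(2, 246)]),
    ([(2, 193), (3, 427)], [(1, 81), (4, 56)]),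
    ([(1, 16), (4, 128)], [(2, 106), (3, 52)]),
    ([(1, 3), (2, 11), (4, 14)], [(3, 39)]),
    ([(1, 2), (3, 15), (4, 45)], [(2, 17)]),
    ([(5, 415), (6, 269), (7, 64), (8, 111), (9, 8), (10, 2)], []),
    ([(7, 203), (8, 287), (9, 229)], [(5, 33), (6, 131), (10, 226)]),
    ([(6, 46), (9, 241), (10, 51)], [(5, 2), (7, 37), (8, 110)]),
    ([(5, 1), (7, 30), (8, 121)], [(6, 18), (9, 58), (10, 99)]),
    ([(6, 4), (7, 18), (8, 13), (9, 46), (10, 16)], []),
    ([(6, 4), (10, 47)], [(7, 4), (8, 26), (9, 15)]),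
    ([(11, 58), (13, 351), (14, 249), (15, 190)], [(12, 113), (16, 107)]),
    ([(11, 1), (12, 15), (15, 50), (16, 66)], [(13, 52), (14, 104)]),
    ([(12, 4), (13, 32), (14, 12), (15, 40), (16, 15)], []),
    ([(12, 6), (16, 45)], [(13, 4), (14, 34), (15, 11)]),
    ([(17, 8), (18, 42), (20, 38)], [(19, 5)])],
   [([], [(0, 57)]),
    ([(2, 307), (4, 324)], [(1, 142), (3, 152)]),
    ([(2, 132), (3, 93), (4, 87)], [(1, 19)]),
    ([(3, 46)], [(1, 5), (2, 8), (4, 22)]),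
    ([(2, 32)], [(1, 4), (3, 17), (4, 29)]),
    ([(6, 386), (8, 160), (9, 12), (10, 2)], [(5, 289), (7, 48)]),
    ([(7, 287), (8, 106), (10, 378)], [(5, 47), (6, 47), (9, 14)]),
    ([(8, 157)], [(5, 1), (6, 66), (7, 26), (9, 347), (10, 74)]),
    ([(5, 1), (7, 42), (8, 43), (10, 113)], [(6, 6), (9, 49)]),
    ([(8, 3)], [(6, 3), (7, 24), (9, 16), (10, 12)]),
    ([(7, 8), (8, 33), (9, 1)], [(6, 6), (10, 10)]),
    ([(12, 383), (13, 45), (14, 158), (15, 11), (16, 3)], [(11, 295)]),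
    ([(14, 99), (15, 164)], [(11, 48), (12, 47), (13, 286), (16, 343)]),
    ([(11, 1), (12, 65), (15, 337), (16, 98)], [(13, 26), (14, 155)]),
    ([(11, 1), (14, 43), (15, 5)], [(12, 7), (13, 42), (16, 124)]),
    ([(14, 13), (15, 15), (16, 2)], [(13, 25)]),
    ([(13, 6), (14, 30), (16, 9)], [(12, 6), (15, 12)]),
    ([(19, 281)], [(17, 140), (18, 305), (20, 226)]),
    ([(17, 19), (18, 129), (19, 44), (20, 121)], []),
    ([(17, 3), (19, 47), (20, 17)], [(18, 23)]),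
    ([(20, 29)], [(17, 5), (18, 23), (19, 22)]),
    ([], [(21, 58)])],
   [([(1, 8)], [(2, 42), (3, 12), (4, 35)]),
    ([(5, 58), (8, 250), (9, 121), (10, 178)], [(6, 118), (7, 351)]),
    ([(8, 108), (10, 34)], [(5, 1), (6, 16), (7, 52), (9, 78)]),
    ([(7, 29)], [(8, 28), (9, 30), (10, 26)]),
    ([(6, 7), (9, 28)], [(7, 12), (8, 24), (10, 36)]),
    ([(11, 410), (12, 275), (14, 114), (15, 8), (16, 2)], [(13, 67)]),
    ([(14, 291), (15, 98), (16, 300)], [(11, 34), (12, 135), (13, 202)]),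
    ([(11, 2), (14, 110)], [(12, 46), (13, 35), (15, 242), (16, 72)]),
    ([(11, 1), (14, 124), (16, 60)], [(12, 18), (13, 30), (15, 99)]),
    ([(13, 17)], [(12, 2), (14, 25), (15, 37), (16, 29)]),
    ([(12, 5), (15, 29)], [(13, 5), (14, 16), (16, 39)]),
    ([(17, 471), (19, 13), (20, 5)], [(18, 195)]),
    ([(17, 117), (18, 253)], [(19, 17), (20, 402)]),
    ([(17, 79), (18, 189), (19, 407), (20, 149)], []),
    ([(17, 15), (18, 106), (19, 103)], [(20, 90)]),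
    ([(18, 19)], [(17, 2), (19, 32), (20, 27)]),
    ([(17, 3), (18, 9), (19, 24)], [(20, 37)]),
    ([(21, 483)], []),
    ([], [(21, 155)]),
    ([(21, 11)], []),
    ([(21, 35)], []),
    ([], [])]]

def d54pm_31 : List (List Col) :=
  [[([], []),
    ([(0, 483)], []),
    ([], [(0, 155)]),
    ([], [(0, 11)]),
    ([], [(0, 35)]),
    ([(1, 471), (4, 6)], [(2, 195), (3, 13)]),
    ([(3, 1), (4, 402)], [(1, 117), (2, 254)]),
    ([(3, 400)], [(1, 79), (2, 189), (4, 167)]),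
    ([(1, 15), (2, 106)], [(3, 107), (4, 85)]),
    ([(1, 2), (4, 29)], [(2, 20), (3, 31)]),
    ([(1, 3), (2, 9)], [(3, 26), (4, 36)]),
    ([(5, 410), (7, 67), (8, 114), (9, 8)], [(6, 275), (10, 3)]),
    ([(5, 34), (10, 302)], [(6, 135), (7, 202), (8, 292), (9, 90)]),
    ([(9, 240)], [(5, 2), (6, 46), (7, 35), (8, 110), (10, 78)]),
    ([(5, 1), (6, 18), (7, 30), (8, 124)], [(9, 100), (10, 57)]),
    ([(6, 1), (10, 31)], [(7, 17), (8, 26), (9, 36)]),
    ([(6, 5), (8, 15)], [(7, 6), (9, 31), (10, 37)]),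
    ([(11, 58), (12, 118), (13, 351), (14, 250), (16, 180)], [(15, 119)]),
    ([(12, 16), (13, 52), (14, 109), (15, 78), (16, 32)], [(11, 1)]),
    ([(13, 28), (14, 29), (16, 28)], [(15, 28)]),
    ([(13, 13)], [(12, 7), (14, 22), (15, 30), (16, 35)]),
    ([(17, 8), (19, 12), (20, 34)], [(18, 42)])],
   [([(0, 58)], []),
    ([(1, 140), (2, 305), (3, 291), (4, 214)], []),
    ([(3, 39)], [(1, 19), (2, 129), (4, 123)]),
    ([(1, 3), (4, 19)], [(2, 23), (3, 46)]),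
    ([(3, 23), (4, 28)], [(1, 5), (2, 23)]),
    ([(5, 295), (6, 382), (7, 45), (10, 3)], [(8, 158), (9, 11)]),
    ([(6, 47), (7, 286), (8, 98), (9, 174), (10, 339)], [(5, 48)]),
    ([(5, 1), (7, 26), (9, 335)], [(6, 65), (8, 155), (10, 107)]),
    ([], [(5, 1), (6, 7), (7, 42), (8, 43), (9, 8), (10, 124)]),
    ([(7, 25), (8, 13), (9, 15)], [(10, 2)]),
    ([(7, 6), (9, 13), (10, 9)], [(6, 6), (8, 30)]),
    ([(11, 288), (12, 387), (15, 12)], [(13, 48), (14, 160), (16, 3)]),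
    ([(12, 47), (14, 107), (15, 20), (16, 377)], [(11, 47), (13, 287)]),
    ([(12, 66), (13, 26), (14, 157), (15, 346)], [(11, 1), (16, 79)]),
    ([(13, 42)], [(11, 1), (12, 6), (14, 43), (15, 50), (16, 112)]),
    ([(16, 12)], [(12, 3), (13, 24), (14, 4), (15, 16)]),
    ([(12, 6), (14, 33)], [(13, 8), (15, 1), (16, 9)]),
    ([(17, 142), (20, 324)], [(18, 308), (19, 150)]),
    ([(17, 19), (19, 94), (20, 87)], [(18, 132)]),
    ([(20, 24)], [(17, 5), (18, 7), (19, 44)]),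
    ([(17, 3)], [(18, 32), (19, 20), (20, 27)]),
    ([(21, 57)], [])],
   [([(1, 8), (2, 42), (3, 7), (4, 38)], []),
    ([(5, 58), (6, 113), (8, 249), (9, 193), (10, 102)], [(7, 351)]),
    ([(5, 1), (7, 52), (9, 48)], [(6, 15), (8, 104), (10, 67)]),
    ([(6, 4), (7, 32), (10, 16)], [(8, 12), (9, 39)]),
    ([(6, 6), (8, 34), (9, 13), (10, 45)], [(7, 4)]),
    ([(11, 415), (14, 111), (16, 2)], [(12, 269), (13, 63), (15, 8)]),
    ([(11, 33), (13, 203), (15, 232), (16, 223)], [(12, 130), (14, 286)]),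
    ([(11, 2), (12, 46), (14, 110), (15, 240)], [(13, 37), (16, 54)]),
    ([(11, 1), (12, 18), (14, 121), (15, 56)], [(13, 30), (16, 100)]),
    ([(12, 4), (13, 18), (15, 46)], [(14, 13), (16, 18)]),
    ([(13, 4), (15, 16), (16, 47)], [(12, 4), (14, 27)]),
    ([(17, 471), (18, 195), (19, 15)], [(20, 2)]),
    ([(18, 246), (19, 204), (20, 353)], [(17, 114)]),
    ([(17, 81), (19, 427)], [(18, 193), (20, 58)]),
    ([(17, 16), (19, 51)], [(18, 106), (20, 129)]),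
    ([(17, 3), (18, 11), (19, 38)], [(20, 15)]),
    ([(18, 18), (19, 16), (20, 44)], [(17, 2)]),
    ([(21, 483)], []),
    ([(21, 156)], []),
    ([], [(21, 10)]),
    ([(21, 36)], []),
    ([], [])]]

def d54pm_32 : List (List Col) :=
  [[([], []),
    ([(0, 483)], []),
    ([(0, 156)], []),
    ([(0, 13)], []),
    ([], [(0, 35)]),
    ([(1, 471), (2, 195), (4, 2)], [(3, 15)]),
    ([(1, 113), (3, 204), (4, 354)], [(2, 245)]),
    ([(2, 193), (3, 427)], [(1, 81), (4, 58)]),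
    ([(1, 16), (4, 129)], [(2, 105), (3, 51)]),
    ([(1, 3), (2, 10), (4, 17)], [(3, 38)]),
    ([(1, 2), (3, 17), (4, 44)], [(2, 18)]),
    ([(5, 416), (6, 269), (7, 63), (8, 111), (9, 8), (10, 2)], []),
    ([(7, 203), (8, 286), (9, 234)], [(5, 33), (6, 130), (10, 222)]),
    ([(6, 46), (9, 239), (10, 56)], [(5, 2), (7, 37), (8, 109)]),
    ([(5, 1), (7, 30), (8, 120)], [(6, 18), (9, 55), (10, 100)]),
    ([(6, 4), (7, 18), (8, 12), (9, 45), (10, 19)], []),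
    ([(6, 4), (10, 46)], [(7, 4), (8, 27), (9, 17)]),
    ([(11, 58), (13, 352), (14, 249), (15, 196)], [(12, 112), (16, 98)]),
    ([(11, 1), (12, 15), (15, 46), (16, 68)], [(13, 52), (14, 104)]),
    ([(12, 4), (13, 32), (14, 12), (15, 39), (16, 18)], []),
    ([(12, 6), (16, 45)], [(13, 4), (14, 34), (15, 14)]),
    ([(17, 8), (18, 42), (20, 37)], [(19, 9)])],
   [([], [(0, 57)]),
    ([(2, 308), (4, 324)], [(1, 142), (3, 151)]),
    ([(2, 132), (3, 94), (4, 87)], [(1, 19)]),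
    ([(3, 43)], [(1, 5), (2, 4), (4, 26)]),
    ([(1, 3), (3, 22), (4, 26)], [(2, 33)]),
    ([(6, 387), (8, 160), (9, 12), (10, 3)], [(5, 288), (7, 48)]),
    ([(7, 287), (8, 107), (10, 377)], [(5, 47), (6, 47), (9, 23)]),
    ([(8, 157)], [(5, 1), (6, 66), (7, 26), (9, 346), (10, 83)]),
    ([(5, 1), (7, 42), (8, 43), (10, 112)], [(6, 6), (9, 51)]),
    ([(8, 5)], [(6, 3), (7, 24), (9, 16), (10, 13)]),
    ([(7, 9), (8, 33), (9, 2)], [(6, 5), (10, 9)]),
    ([(12, 382), (13, 45), (14, 158), (15, 11), (16, 4)], [(11, 296)]),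
    ([(14, 98), (15, 182)], [(11, 48), (12, 47), (13, 286), (16, 334)]),
    ([(11, 1), (12, 65), (15, 331), (16, 116)], [(13, 26), (14, 155)]),
    ([(11, 1), (14, 43), (15, 11)], [(12, 7), (13, 42), (16, 124)]),
    ([(14, 14), (15, 15), (16, 3)], [(12, 1), (13, 25)]),
    ([(13, 6), (14, 30), (16, 8)], [(12, 6), (15, 13)]),
    ([(19, 302)], [(17, 140), (18, 305), (20, 198)]),
    ([(17, 19), (18, 128), (19, 32), (20, 125)], []),
    ([(17, 3), (19, 45), (20, 22)], [(18, 24)]),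
    ([(20, 27)], [(17, 5), (18, 23), (19, 25)]),
    ([], [(21, 58)])],
   [([(1, 8)], [(2, 42), (3, 12), (4, 34)]),
    ([(5, 58), (8, 250), (9, 118), (10, 180)], [(6, 118), (7, 351)]),
    ([(8, 109), (10, 31)], [(5, 1), (6, 16), (7, 52), (9, 79)]),
    ([(6, 1), (7, 27)], [(8, 30), (9, 26), (10, 30)]),
    ([(7, 15), (8, 20), (10, 32)], [(6, 7), (9, 32)]),
    ([(11, 409), (12, 275), (14, 114), (15, 8), (16, 3)], [(13, 67)]),
    ([(14, 292), (15, 82), (16, 304)], [(11, 34), (12, 136), (13, 202)]),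
    ([(11, 2), (14, 110)], [(12, 46), (13, 35), (15, 239), (16, 85)]),
    ([(11, 1), (14, 124), (16, 54)], [(12, 18), (13, 30), (15, 102)]),
    ([(13, 17)], [(12, 1), (14, 26), (15, 34), (16, 33)]),
    ([(12, 5), (15, 33)], [(13, 7), (14, 14), (16, 35)]),
    ([(17, 471), (19, 13), (20, 6)], [(18, 195)]),
    ([(17, 117), (18, 254), (19, 22)], [(20, 401)]),
    ([(17, 79), (18, 189), (19, 391), (20, 188)], []),
    ([(17, 15), (18, 106), (19, 111)], [(20, 79)]),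
    ([(18, 20)], [(17, 2), (19, 28), (20, 31)]),
    ([(17, 3), (18, 8), (19, 28)], [(20, 34)]),
    ([(21, 483)], []),
    ([], [(21, 155)]),
    ([(21, 11)], []),
    ([(21, 35)], []),
    ([], [])]]

def d54pm_33 : List (List Col) :=
  [[([], []),
    ([(0, 483)], []),
    ([], [(0, 155)]),
    ([], [(0, 11)]),
    ([], [(0, 35)]),
    ([(1, 471)], [(2, 195), (3, 12), (4, 7)]),
    ([(3, 50)], [(1, 117), (2, 255), (4, 398)]),
    ([(3, 377), (4, 215)], [(1, 79), (2, 189)]),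
    ([(1, 15), (2, 106), (4, 71)], [(3, 116)]),
    ([(1, 2)], [(2, 20), (3, 26), (4, 33)]),
    ([(3, 31)], [(1, 3), (2, 8), (4, 32)]),
    ([(5, 409), (7, 68), (8, 115), (9, 8)], [(6, 276), (10, 3)]),
    ([(5, 34), (10, 307)], [(6, 136), (7, 202), (8, 293), (9, 70)]),
    ([(9, 235)], [(5, 2), (6, 46), (7, 35), (8, 110), (10, 95)]),
    ([(5, 1), (6, 18), (7, 30), (8, 124)], [(9, 104), (10, 50)]),
    ([(6, 1), (10, 36)], [(7, 17), (8, 27), (9, 31)]),
    ([(6, 5), (8, 13)], [(7, 7), (9, 35), (10, 32)]),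
    ([(11, 58), (12, 119), (13, 351), (14, 250), (16, 182)], [(15, 114)]),
    ([(12, 16), (13, 53), (14, 109), (15, 80), (16, 29)], [(11, 1)]),
    ([(12, 1), (13, 26), (14, 32), (16, 33)], [(15, 23)]),
    ([(13, 17)], [(12, 6), (14, 18), (15, 34), (16, 29)]),
    ([(17, 8), (19, 12), (20, 34)], [(18, 42)])],
   [([(0, 58)], []),
    ([(1, 140), (2, 304), (3, 315)], [(4, 178)]),
    ([(3, 24), (4, 127)], [(1, 19), (2, 128)]),
    ([(1, 3)], [(2, 23), (3, 44), (4, 25)]),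
    ([(3, 26)], [(1, 5), (2, 23), (4, 25)]),
    ([(5, 297), (6, 382), (7, 45), (10, 4)], [(8, 157), (9, 10)]),
    ([(6, 47), (7, 286), (8, 97), (9, 196), (10, 327)], [(5, 48)]),
    ([(5, 1), (7, 26), (9, 326)], [(6, 65), (8, 154), (10, 129)]),
    ([], [(5, 1), (6, 7), (7, 42), (8, 43), (9, 16), (10, 123)]),
    ([(6, 1), (7, 25), (8, 14), (9, 15)], [(10, 4)]),
    ([(6, 6), (8, 30)], [(7, 7), (9, 14), (10, 8)]),
    ([(11, 287), (12, 387), (15, 12)], [(13, 49), (14, 160), (16, 3)]),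
    ([(12, 47), (14, 108), (15, 32), (16, 376)], [(11, 47), (13, 287)]),
    ([(12, 66), (13, 26), (14, 157), (15, 344)], [(11, 1), (16, 91)]),
    ([(13, 42)], [(11, 1), (12, 6), (14, 43), (15, 53), (16, 111)]),
    ([(16, 13)], [(12, 4), (13, 24), (14, 6), (15, 16)]),
    ([(12, 5), (14, 33)], [(13, 10), (15, 3), (16, 8)]),
    ([(17, 142), (20, 324)], [(18, 308), (19, 149)]),
    ([(17, 19), (19, 94), (20, 86)], [(18, 132)]),
    ([(20, 28)], [(17, 6), (18, 2), (19, 41)]),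
    ([(17, 3)], [(18, 33), (19, 25), (20, 24)]),
    ([(21, 57)], [])],
   [([(1, 8), (2, 42), (3, 11)], [(4, 37)]),
    ([(5, 58), (6, 112), (8, 249), (9, 200), (10, 90)], [(7, 352)]),
    ([(5, 1), (7, 52), (9, 43)], [(6, 15), (8, 103), (10, 70)]),
    ([(6, 4), (7, 32), (10, 19)], [(8, 12), (9, 38)]),
    ([(6, 6), (8, 34), (9, 15), (10, 45)], [(7, 4)]),
    ([(11, 416), (14, 110), (16, 2)], [(12, 268), (13, 63), (15, 7)]),
    ([(11, 33), (13, 203), (15, 239), (16, 217)], [(12, 130), (14, 286)]),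
    ([(11, 2), (12, 46), (14, 109), (15, 237)], [(13, 37), (16, 61)]),
    ([(11, 1), (12, 18), (14, 120), (15, 53)], [(13, 30), (16, 102)]),
    ([(12, 4), (13, 17), (15, 45)], [(14, 12), (16, 20)]),
    ([(12, 4), (14, 27)], [(13, 4), (15, 18), (16, 46)]),
    ([(17, 471), (18, 195), (19, 15)], [(20, 2)]),
    ([(18, 245), (19, 206), (20, 353)], [(17, 113)]),
    ([(17, 81), (19, 426)], [(18, 194), (20, 61)]),
    ([(17, 16), (19, 51)], [(18, 105), (20, 129)]),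
    ([(17, 3), (18, 10), (19, 37)], [(20, 19)]),
    ([(18, 18), (19, 18), (20, 43)], [(17, 1)]),
    ([(21, 483)], []),
    ([(21, 156)], []),
    ([], [(21, 15)]),
    ([(21, 34)], []),
    ([], [])]]

def d54pm_34 : List (List Col) :=
  [[([], []),
    ([(0, 483)], []),
    ([(0, 156)], []),
    ([(0, 18)], []),
    ([], [(0, 33)]),
    ([(1, 471), (2, 195), (4, 2)], [(3, 15)]),
    ([(1, 113), (3, 205), (4, 355)], [(2, 244)]),
    ([(2, 194), (3, 426)], [(1, 81), (4, 59)]),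
    ([(1, 16), (4, 129)], [(2, 105), (3, 51)]),
    ([(1, 4), (2, 9), (4, 21)], [(3, 36)]),
    ([(1, 1), (3, 20), (4, 42)], [(2, 19)]),
    ([(5, 417), (6, 268), (7, 62), (8, 110), (9, 7)], [(10, 2)]),
    ([(7, 203), (8, 286), (9, 241), (10, 216)], [(5, 33), (6, 129)]),
    ([(6, 46), (9, 236)], [(5, 2), (7, 37), (8, 109), (10, 62)]),
    ([(5, 1), (7, 29), (8, 120), (10, 102)], [(6, 18), (9, 52)]),
    ([(6, 4), (7, 17), (8, 11), (9, 44)], [(10, 22)]),
    ([(6, 3)], [(7, 5), (8, 27), (9, 20), (10, 45)]),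
    ([(11, 58), (13, 352), (14, 249), (15, 202)], [(12, 111), (16, 84)]),
    ([(11, 1), (12, 15), (15, 41), (16, 71)], [(13, 52), (14, 103)]),
    ([(12, 4), (13, 32), (14, 12), (15, 38), (16, 20)], []),
    ([(12, 6), (16, 44)], [(13, 4), (14, 34), (15, 17)]),
    ([(17, 8), (18, 42), (20, 36)], [(19, 14)])],
   [([], [(0, 57)]),
    ([(2, 308), (4, 323)], [(1, 143), (3, 152)]),
    ([(2, 133), (3, 93), (4, 87)], [(1, 19)]),
    ([(2, 1), (3, 39)], [(1, 6), (4, 29)]),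
    ([(1, 2), (3, 28), (4, 22)], [(2, 33)]),
    ([(6, 388), (8, 161), (9, 12)], [(5, 286), (7, 49), (10, 3)]),
    ([(7, 287), (8, 109)], [(5, 46), (6, 47), (9, 35), (10, 376)]),
    ([(8, 157), (10, 95)], [(5, 1), (6, 66), (7, 26), (9, 344)]),
    ([(5, 1), (7, 42), (8, 43)], [(6, 6), (9, 53), (10, 110)]),
    ([(8, 8), (10, 14)], [(6, 4), (7, 23), (9, 16)]),
    ([(7, 11), (8, 32), (9, 4), (10, 8)], [(6, 5)]),
    ([(12, 381), (13, 45), (14, 157), (15, 10), (16, 4)], [(11, 297)]),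
    ([(14, 97), (15, 206)], [(11, 48), (12, 47), (13, 286), (16, 321)]),
    ([(11, 1), (12, 65), (15, 322), (16, 140)], [(13, 26), (14, 154)]),
    ([(11, 1), (14, 43), (15, 19)], [(12, 7), (13, 42), (16, 123)]),
    ([(14, 15), (15, 15), (16, 4)], [(12, 1), (13, 25)]),
    ([(13, 7), (14, 29), (16, 7)], [(12, 6), (15, 14)]),
    ([(19, 326)], [(17, 139), (18, 304), (20, 156)]),
    ([(17, 19), (18, 128), (19, 15), (20, 128)], []),
    ([(17, 3), (19, 42), (20, 28)], [(18, 24)]),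
    ([(20, 23)], [(17, 5), (18, 23), (19, 28)]),
    ([], [(21, 58)])],
   [([(1, 8)], [(2, 42), (3, 12), (4, 34)]),
    ([(5, 58), (8, 250), (9, 113)], [(6, 120), (7, 351), (10, 183)]),
    ([(8, 110)], [(5, 1), (6, 16), (7, 53), (9, 81), (10, 28)]),
    ([(6, 2), (7, 25), (10, 35)], [(8, 33), (9, 20)]),
    ([(7, 19), (8, 16)], [(6, 6), (9, 35), (10, 27)]),
    ([(11, 408), (12, 277), (14, 115), (15, 8), (16, 3)], [(13, 68)]),
    ([(14, 293), (15, 60), (16, 308)], [(11, 35), (12, 136), (13, 202)]),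
    ([(11, 2), (14, 110)], [(12, 46), (13, 35), (15, 233), (16, 104)]),
    ([(11, 1), (14, 124), (16, 46)], [(12, 18), (13, 30), (15, 105)]),
    ([(13, 16)], [(12, 1), (14, 27), (15, 28), (16, 38)]),
    ([(12, 5), (15, 37)], [(13, 8), (14, 12), (16, 29)]),
    ([(17, 471), (19, 12), (20, 8)], [(18, 195)]),
    ([(17, 117), (18, 255), (19, 78)], [(20, 393)]),
    ([(17, 79), (18, 189), (19, 361), (20, 241)], []),
    ([(17, 15), (18, 106), (19, 121)], [(20, 63)]),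
    ([(18, 20)], [(17, 2), (19, 23), (20, 35)]),
    ([(17, 3), (18, 7), (19, 33)], [(20, 28)]),
    ([(21, 483)], []),
    ([], [(21, 155)]),
    ([(21, 11)], []),
    ([(21, 35)], []),
    ([], [])]]

def d54pm_35 : List (List Col) :=
  [[([], []),
    ([(0, 483)], []),
    ([], [(0, 155)]),
    ([], [(0, 10)]),
    ([], [(0, 35)]),
    ([(1, 471)], [(2, 194), (3, 11), (4, 9)]),
    ([(3, 106)], [(1, 118), (2, 256), (4, 386)]),
    ([(3, 342), (4, 267)], [(1, 79), (2, 189)]),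
    ([(1, 15), (2, 106), (4, 54)], [(3, 125)]),
    ([(1, 2)], [(2, 21), (3, 20), (4, 37)]),
    ([(3, 35)], [(1, 3), (2, 7), (4, 26)]),
    ([(5, 408), (7, 68), (8, 115), (9, 8)], [(6, 278), (10, 4)]),
    ([(5, 35), (10, 310)], [(6, 137), (7, 201), (8, 294), (9, 44)]),
    ([(9, 227)], [(5, 2), (6, 46), (7, 34), (8, 109), (10, 116)]),
    ([(5, 1), (6, 18), (7, 29), (8, 124)], [(9, 107), (10, 40)]),
    ([(6, 1), (10, 40)], [(7, 16), (8, 28), (9, 25)]),
    ([(6, 5), (8, 11)], [(7, 8), (9, 39), (10, 26)]),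
    ([(11, 58), (12, 120), (13, 351), (14, 250), (16, 185)], [(15, 108)]),
    ([(12, 16), (13, 53), (14, 110), (15, 82), (16, 25)], [(11, 1)]),
    ([(12, 2), (13, 23), (14, 34), (16, 37)], [(15, 16)]),
    ([(13, 20)], [(12, 6), (14, 14), (15, 36), (16, 23)]),
    ([(17, 8), (19, 12), (20, 34)], [(18, 42)])],
   [([(0, 58)], []),
    ([(1, 139), (2, 304), (3, 337)], [(4, 132)]),
    ([(3, 6), (4, 129)], [(1, 19), (2, 128)]),
    ([(1, 3)], [(2, 23), (3, 40), (4, 30)]),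
    ([(3, 29)], [(1, 5), (2, 23), (4, 22)]),
    ([(5, 298), (6, 381), (7, 45), (10, 5)], [(8, 157), (9, 10)]),
    ([(6, 46), (7, 286), (8, 96), (9, 222), (10, 310)], [(5, 48)]),
    ([(5, 1), (7, 26), (9, 314)], [(6, 65), (8, 154), (10, 156)]),
    ([], [(5, 1), (6, 7), (7, 42), (8, 43), (9, 25), (10, 122)]),
    ([(6, 1), (7, 25), (8, 15), (9, 15)], [(10, 5)]),
    ([(6, 6), (8, 29)], [(7, 7), (9, 15), (10, 7)]),
    ([(11, 285), (12, 388), (15, 12)], [(13, 50), (14, 161), (16, 3)]),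
    ([(12, 47), (14, 110), (15, 46), (16, 374)], [(11, 46), (13, 287)]),
    ([(12, 66), (13, 26), (14, 157), (15, 341)], [(11, 1), (16, 105)]),
    ([(13, 42)], [(11, 1), (12, 6), (14, 43), (15, 56), (16, 109)]),
    ([(16, 15)], [(12, 4), (13, 23), (14, 9), (15, 15)]),
    ([(12, 5), (14, 32)], [(13, 11), (15, 4), (16, 7)]),
    ([(17, 143), (20, 323)], [(18, 309), (19, 149)]),
    ([(17, 19), (19, 94), (20, 86)], [(18, 133)]),
    ([(18, 3), (20, 31)], [(17, 6), (19, 37)]),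
    ([(17, 2)], [(18, 33), (19, 30), (20, 20)]),
    ([(21, 57)], [])],
   [([(1, 8), (2, 42), (3, 16)], [(4, 35)]),
    ([(5, 59), (6, 111), (8, 248), (9, 207), (10, 75)], [(7, 352)]),
    ([(5, 1), (7, 52), (9, 37)], [(6, 15), (8, 103), (10, 73)]),
    ([(6, 3), (7, 32), (10, 21)], [(8, 13), (9, 37)]),
    ([(6, 6), (8, 34), (9, 18), (10, 44)], [(7, 4)]),
    ([(11, 417), (14, 110), (16, 2)], [(12, 267), (13, 62), (15, 7)]),
    ([(11, 32), (13, 203), (15, 247), (16, 210)], [(12, 128), (14, 286)]),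
    ([(11, 2), (12, 46), (14, 108), (15, 233)], [(13, 37), (16, 69)]),
    ([(11, 1), (12, 18), (14, 119), (15, 49)], [(13, 29), (16, 103)]),
    ([(12, 4), (13, 17), (15, 44)], [(14, 11), (16, 23)]),
    ([(12, 4), (14, 27)], [(13, 5), (15, 21), (16, 45)]),
    ([(17, 471), (18, 195), (19, 15)], [(20, 2)]),
    ([(18, 243), (19, 208), (20, 354)], [(17, 113)]),
    ([(17, 81), (19, 425)], [(18, 195), (20, 63)]),
    ([(17, 16), (19, 50)], [(18, 105), (20, 129)]),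
    ([(17, 4), (18, 8), (19, 35)], [(20, 22)]),
    ([(18, 19), (19, 21), (20, 41)], [(17, 1)]),
    ([(21, 483)], []),
    ([(21, 156)], []),
    ([], [(21, 20)]),
    ([(21, 32)], []),
    ([], [])]]

def d54pm_36 : List (List Col) :=
  [[([], []),
    ([(0, 483)], []),
    ([(0, 157)], []),
    ([(0, 22)], []),
    ([], [(0, 30)]),
    ([(1, 471), (2, 195), (4, 1)], [(3, 16)]),
    ([(1, 112), (3, 201), (4, 359)], [(2, 241)]),
    ([(2, 196), (3, 426)], [(1, 82), (4, 55)]),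
    ([(1, 15), (4, 128)], [(2, 104), (3, 53)]),
    ([(1, 4), (2, 7), (4, 24)], [(3, 34)]),
    ([(1, 1), (3, 22), (4, 41)], [(2, 19)]),
    ([(5, 418), (6, 266), (7, 61), (8, 109), (9, 7)], [(10, 2)]),
    ([(7, 203), (8, 285), (9, 247), (10, 212)], [(5, 32), (6, 127)]),
    ([(6, 46), (9, 232)], [(5, 2), (7, 37), (8, 108), (10, 67)]),
    ([(5, 1), (7, 29), (8, 118), (10, 103)], [(6, 17), (9, 49)]),
    ([(6, 4), (7, 17), (8, 10), (9, 44)], [(10, 25)]),
    ([(6, 3)], [(7, 5), (8, 27), (9, 22), (10, 44)]),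
    ([(11, 59), (13, 352), (14, 248), (15, 209)], [(12, 110), (16, 69)]),
    ([(11, 1), (12, 15), (15, 35), (16, 74)], [(13, 52), (14, 102)]),
    ([(12, 4), (13, 32), (14, 13), (15, 36), (16, 23)], []),
    ([(12, 6), (16, 43)], [(13, 4), (14, 34), (15, 20)]),
    ([(17, 8), (18, 41), (20, 34)], [(19, 19)])],
   [([], [(0, 57)]),
    ([(2, 309), (4, 319)], [(1, 143), (3, 157)]),
    ([(2, 134), (3, 92), (4, 88)], [(1, 19)]),
    ([(2, 5), (3, 36)], [(1, 6), (4, 31)]),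
    ([(1, 2), (3, 31), (4, 19)], [(2, 32)]),
    ([(6, 389), (8, 161), (9, 12)], [(5, 284), (7, 51), (10, 3)]),
    ([(7, 287), (8, 112)], [(5, 46), (6, 46), (9, 45), (10, 374)]),
    ([(8, 157), (10, 106)], [(5, 1), (6, 66), (7, 26), (9, 342)]),
    ([(5, 1), (7, 42), (8, 43)], [(6, 6), (9, 55), (10, 109)]),
    ([(8, 11), (10, 15)], [(6, 4), (7, 22), (9, 15)]),
    ([(7, 13), (8, 31), (9, 5), (10, 6)], [(6, 5)]),
    ([(12, 380), (13, 45), (14, 156), (15, 9), (16, 5)], [(11, 299)]),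
    ([(14, 96), (15, 232)], [(11, 48), (12, 46), (13, 286), (16, 303)]),
    ([(11, 1), (12, 64), (15, 309), (16, 165)], [(13, 26), (14, 153)]),
    ([(11, 1), (14, 43), (15, 28)], [(12, 7), (13, 42), (16, 121)]),
    ([(14, 16), (15, 14), (16, 6)], [(12, 1), (13, 25)]),
    ([(13, 8), (14, 29), (16, 6)], [(12, 6), (15, 15)]),
    ([(19, 345)], [(17, 139), (18, 304), (20, 110)]),
    ([(17, 19), (18, 127), (20, 129)], [(19, 3)]),
    ([(17, 3), (19, 38), (20, 33)], [(18, 23)]),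
    ([(20, 20)], [(17, 5), (18, 23), (19, 30)]),
    ([], [(21, 58)])],
   [([(1, 8)], [(2, 42), (3, 11), (4, 34)]),
    ([(5, 58), (8, 250), (9, 108)], [(6, 121), (7, 351), (10, 184)]),
    ([(8, 111)], [(5, 2), (6, 16), (7, 53), (9, 83), (10, 25)]),
    ([(6, 3), (7, 22), (10, 38)], [(8, 35), (9, 14)]),
    ([(7, 21), (8, 12)], [(6, 6), (9, 37), (10, 21)]),
    ([(11, 407), (12, 279), (14, 116), (15, 7), (16, 4)], [(13, 68)]),
    ([(14, 296), (15, 34), (16, 310)], [(11, 35), (12, 137), (13, 201)]),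
    ([(11, 2), (14, 109)], [(12, 46), (13, 34), (15, 224), (16, 125)]),
    ([(11, 1), (14, 124), (16, 36)], [(12, 18), (13, 29), (15, 109)]),
    ([(13, 16)], [(14, 28), (15, 22), (16, 42)]),
    ([(12, 5), (15, 40)], [(13, 9), (14, 9), (16, 23)]),
    ([(17, 471), (19, 10), (20, 10)], [(18, 194)]),
    ([(17, 118), (18, 257), (19, 133)], [(20, 377)]),
    ([(17, 78), (18, 188), (19, 323), (20, 291)], []),
    ([(17, 15), (18, 106), (19, 128)], [(20, 45)]),
    ([(18, 21)], [(17, 2), (19, 16), (20, 39)]),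
    ([(17, 3), (18, 6), (19, 37)], [(20, 22)]),
    ([(21, 483)], []),
    ([], [(21, 155)]),
    ([(21, 11)], []),
    ([(21, 34)], []),
    ([], [])]]

def d54pm_37 : List (List Col) :=
  [[([], []),
    ([(0, 483)], []),
    ([], [(0, 155)]),
    ([], [(0, 9)]),
    ([], [(0, 35)]),
    ([(1, 471)], [(2, 194), (3, 10), (4, 11)]),
    ([(3, 152)], [(1, 119), (2, 258), (4, 369)]),
    ([(3, 307), (4, 308)], [(1, 78), (2, 188)]),
    ([(1, 15), (2, 106), (4, 38)], [(3, 129)]),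
    ([(1, 2)], [(2, 21), (3, 15), (4, 39)]),
    ([(3, 37)], [(1, 3), (2, 6), (4, 21)]),
    ([(5, 406), (7, 68), (8, 116), (9, 7)], [(6, 280), (10, 5)]),
    ([(5, 35), (10, 310)], [(6, 138), (7, 201), (8, 297), (9, 17)]),
    ([(9, 216)], [(5, 2), (6, 46), (7, 33), (8, 109), (10, 138)]),
    ([(5, 1), (6, 18), (7, 29), (8, 124)], [(9, 110), (10, 29)]),
    ([(10, 44)], [(7, 16), (8, 28), (9, 19)]),
    ([(6, 5), (8, 9)], [(7, 10), (9, 42), (10, 19)]),
    ([(11, 58), (12, 122), (13, 351), (14, 250), (16, 187)], [(15, 101)]),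
    ([(12, 16), (13, 53), (14, 112), (15, 85), (16, 21)], [(11, 1)]),
    ([(12, 3), (13, 21), (14, 35), (16, 39)], [(15, 11)]),
    ([(13, 22)], [(12, 6), (14, 10), (15, 37), (16, 17)]),
    ([(17, 8), (19, 12), (20, 33)], [(18, 42)])],
   [([(0, 58)], []),
    ([(1, 138), (2, 303), (3, 351)], [(4, 91)]),
    ([(4, 129)], [(1, 18), (2, 127), (3, 10)]),
    ([(1, 3)], [(2, 22), (3, 38), (4, 34)]),
    ([(3, 29)], [(1, 5), (2, 24), (4, 20)]),
    ([(5, 301), (6, 379), (7, 45), (10, 5)], [(8, 155), (9, 9)]),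
    ([(6, 46), (7, 286), (8, 95), (9, 248), (10, 291)], [(5, 49)]),
    ([(5, 1), (7, 27), (9, 300)], [(6, 64), (8, 152), (10, 182)]),
    ([], [(5, 1), (6, 7), (7, 41), (8, 43), (9, 35), (10, 120)]),
    ([(6, 1), (7, 25), (8, 14), (9, 15)], [(10, 7)]),
    ([(6, 6), (8, 29)], [(7, 8), (9, 15), (10, 5)]),
    ([(11, 283), (12, 389), (15, 11)], [(13, 51), (14, 161), (16, 4)]),
    ([(12, 46), (14, 114), (15, 60), (16, 371)], [(11, 46), (13, 287)]),
    ([(12, 66), (13, 26), (14, 157), (15, 338)], [(11, 1), (16, 121)]),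
    ([(13, 42)], [(11, 1), (12, 6), (14, 43), (15, 58), (16, 107)]),
    ([(16, 16)], [(12, 4), (13, 22), (14, 11), (15, 15)]),
    ([(12, 5), (14, 31)], [(13, 13), (15, 6), (16, 6)]),
    ([(17, 144), (20, 320)], [(18, 310), (19, 154)]),
    ([(17, 19), (19, 93), (20, 86)], [(18, 134)]),
    ([(18, 7), (20, 32)], [(17, 6), (19, 34)]),
    ([(17, 1)], [(18, 32), (19, 33), (20, 17)]),
    ([(21, 57)], [])],
   [([(1, 8), (2, 41), (3, 21)], [(4, 33)]),
    ([(5, 59), (6, 109), (8, 248), (9, 212), (10, 59)], [(7, 353)]),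
    ([(5, 1), (7, 52), (9, 31)], [(6, 14), (8, 102), (10, 75)]),
    ([(6, 3), (7, 32), (10, 23)], [(8, 14), (9, 36)]),
    ([(6, 6), (8, 34), (9, 20), (10, 44)], [(7, 3)]),
    ([(11, 419), (14, 109), (16, 2)], [(12, 265), (13, 60), (15, 6)]),
    ([(11, 32), (13, 203), (15, 255), (16, 203)], [(12, 126), (14, 285)]),
    ([(11, 2), (12, 46), (14, 107), (15, 229)], [(13, 37), (16, 76)]),
    ([(11, 1), (12, 17), (14, 117), (15, 45)], [(13, 29), (16, 104)]),
    ([(12, 4), (13, 17), (15, 44)], [(14, 11), (16, 25)]),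
    ([(12, 3), (14, 27)], [(13, 5), (15, 23), (16, 44)]),
    ([(17, 471), (18, 195), (19, 16)], [(20, 1)]),
    ([(18, 240), (19, 206), (20, 357)], [(17, 112)]),
    ([(17, 82), (19, 425)], [(18, 196), (20, 61)]),
    ([(17, 15), (19, 52)], [(18, 104), (20, 128)]),
    ([(17, 4), (18, 7), (19, 34)], [(20, 25)]),
    ([(18, 19), (19, 22), (20, 40)], [(17, 1)]),
    ([(21, 483)], []),
    ([(21, 156)], []),
    ([], [(21, 23)]),
    ([(21, 29)], []),
    ([], [])]]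

def d54pm_38 : List (List Col) :=
  [[([], []),
    ([(0, 483)], []),
    ([(0, 157)], []),
    ([(0, 24)], []),
    ([], [(0, 28)]),
    ([(1, 471), (2, 195)], [(3, 17)]),
    ([(1, 111), (3, 190), (4, 368)], [(2, 238)]),
    ([(2, 198), (3, 426)], [(1, 82), (4, 41)]),
    ([(1, 15), (4, 125)], [(2, 103), (3, 57)]),
    ([(1, 4), (2, 6), (4, 25)], [(3, 34)]),
    ([(1, 1), (3, 22), (4, 40)], [(2, 19)]),
    ([(5, 420), (6, 264), (7, 58), (8, 108), (9, 6)], [(10, 2)]),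
    ([(7, 203), (8, 285), (9, 250), (10, 211)], [(5, 32), (6, 125)]),
    ([(6, 46), (9, 228)], [(5, 2), (7, 37), (8, 106), (10, 68)]),
    ([(5, 1), (7, 28), (8, 116), (10, 102)], [(6, 17), (9, 47)]),
    ([(6, 4), (7, 17), (8, 9), (9, 44)], [(10, 27)]),
    ([(7, 6), (8, 27), (9, 24), (10, 44)], [(6, 3)]),
    ([(11, 59), (13, 353), (14, 248), (15, 213)], [(12, 108), (16, 56)]),
    ([(11, 1), (12, 14), (15, 29), (16, 75)], [(13, 52), (14, 100)]),
    ([(12, 3), (13, 32), (14, 14), (15, 35), (16, 24)], []),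
    ([(12, 6), (16, 43)], [(13, 3), (14, 34), (15, 21)]),
    ([(17, 8), (18, 41), (20, 32)], [(19, 23)])],
   [([], [(0, 57)]),
    ([(2, 310), (4, 310)], [(1, 144), (3, 171)]),
    ([(2, 136), (3, 88), (4, 91)], [(1, 20)]),
    ([(2, 7), (3, 35)], [(1, 6), (4, 31)]),
    ([(1, 1), (3, 32), (4, 18)], [(2, 31)]),
    ([(6, 390), (8, 161), (9, 12)], [(5, 282), (7, 53), (10, 3)]),
    ([(7, 286), (8, 117)], [(5, 46), (6, 46), (9, 51), (10, 372)]),
    ([(8, 157), (10, 115)], [(5, 1), (6, 66), (7, 26), (9, 342)]),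
    ([(5, 1), (7, 41), (8, 43)], [(6, 6), (9, 54), (10, 109)]),
    ([(8, 13), (10, 16)], [(6, 5), (7, 21), (9, 16)]),
    ([(7, 14), (8, 30), (9, 7), (10, 5)], [(6, 4)]),
    ([(12, 379), (13, 45), (14, 155), (15, 8), (16, 5)], [(11, 302)]),
    ([(14, 94), (15, 254)], [(11, 49), (12, 46), (13, 286), (16, 286)]),
    ([(11, 1), (12, 64), (15, 295), (16, 187)], [(13, 27), (14, 151)]),
    ([(11, 1), (14, 42), (15, 36)], [(12, 7), (13, 41), (16, 120)]),
    ([(14, 16), (15, 14), (16, 7)], [(12, 1), (13, 25)]),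
    ([(12, 6), (15, 16)], [(13, 9), (14, 29), (16, 4)]),
    ([(19, 356)], [(17, 138), (18, 303), (20, 73)]),
    ([(17, 18), (18, 126), (20, 128)], [(19, 17)]),
    ([(17, 3), (19, 36), (20, 37)], [(18, 22)]),
    ([(20, 18)], [(17, 5), (18, 23), (19, 31)]),
    ([], [(21, 58)])],
   [([(1, 8)], [(2, 43), (3, 10), (4, 34)]),
    ([(5, 58), (8, 250), (9, 107)], [(6, 123), (7, 351), (10, 184)]),
    ([(8, 113)], [(5, 2), (6, 17), (7, 54), (9, 86), (10, 22)]),
    ([(6, 3), (7, 21), (10, 39)], [(8, 36), (9, 10)]),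
    ([(7, 22), (8, 9)], [(6, 6), (9, 36), (10, 17)]),
    ([(11, 404), (12, 281), (14, 117), (15, 7), (16, 5)], [(13, 69)]),
    ([(14, 299), (15, 10), (16, 309)], [(11, 35), (12, 138), (13, 200)]),
    ([(11, 2), (14, 108)], [(12, 46), (13, 33), (15, 215), (16, 146)]),
    ([(11, 1), (14, 124), (16, 26)], [(12, 18), (13, 29), (15, 111)]),
    ([(13, 15)], [(14, 29), (15, 16), (16, 45)]),
    ([(12, 5), (15, 42)], [(13, 10), (14, 7), (16, 16)]),
    ([(17, 472), (19, 9), (20, 11)], [(18, 194)]),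
    ([(17, 119), (18, 260), (19, 174)], [(20, 358)]),
    ([(17, 77), (18, 187), (19, 289), (20, 326)], []),
    ([(17, 15), (18, 105), (19, 131)], [(20, 30)]),
    ([(18, 22)], [(17, 2), (19, 10), (20, 40)]),
    ([(20, 17)], [(17, 3), (18, 5), (19, 38)]),
    ([(21, 484)], []),
    ([], [(21, 154)]),
    ([(21, 10)], []),
    ([(21, 34)], []),
    ([], [])]]

def d54pm_39 : List (List Col) :=
  [[([], []),
    ([(0, 483)], []),
    ([], [(0, 155)]),
    ([], [(0, 6)]),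
    ([], [(0, 34)]),
    ([(1, 471)], [(2, 194), (3, 9), (4, 12)]),
    ([(3, 182)], [(1, 120), (2, 261), (4, 353)]),
    ([(3, 280), (4, 334)], [(1, 77), (2, 187)]),
    ([(1, 15), (2, 105), (4, 27)], [(3, 130)]),
    ([(1, 2)], [(2, 22), (3, 12), (4, 39)]),
    ([(3, 37)], [(1, 3), (2, 6), (4, 19)]),
    ([(5, 403), (7, 69), (8, 118), (9, 6)], [(6, 283), (10, 5)]),
    ([(5, 35), (9, 7), (10, 307)], [(6, 139), (7, 199), (8, 301)]),
    ([(9, 205)], [(5, 2), (6, 45), (7, 32), (8, 107), (10, 159)]),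
    ([(5, 1), (6, 18), (7, 28), (8, 124)], [(9, 111), (10, 19)]),
    ([(10, 46)], [(7, 15), (8, 29), (9, 14)]),
    ([(6, 5), (8, 7)], [(7, 11), (9, 43), (10, 13)]),
    ([(11, 57), (12, 125), (13, 351), (14, 251)], [(15, 96), (16, 188)]),
    ([(12, 17), (13, 53), (14, 114), (15, 88)], [(11, 1), (16, 15)]),
    ([(12, 3), (13, 19), (14, 36)], [(15, 6), (16, 40)]),
    ([(13, 23), (16, 13)], [(12, 5), (14, 7), (15, 37)]),
    ([(17, 8), (19, 10), (20, 33)], [(18, 42)])],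
   [([(0, 58)], []),
    ([(1, 137), (2, 302), (3, 359)], [(4, 64)]),
    ([(4, 128)], [(1, 18), (2, 126), (3, 21)]),
    ([(1, 3)], [(2, 20), (3, 38), (4, 36)]),
    ([(3, 27)], [(1, 5), (2, 25), (4, 21)]),
    ([(5, 304), (6, 377), (7, 45), (10, 6)], [(8, 153), (9, 8)]),
    ([(6, 45), (7, 285), (8, 94), (9, 269), (10, 272)], [(5, 49)]),
    ([(5, 2), (7, 27), (9, 285)], [(6, 64), (8, 151), (10, 203)]),
    ([], [(5, 1), (6, 7), (7, 41), (8, 42), (9, 42), (10, 118)]),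
    ([(6, 1), (7, 25), (8, 13), (9, 16)], [(10, 8)]),
    ([(6, 6), (8, 30)], [(7, 8), (9, 16), (10, 4)]),
    ([(11, 280), (12, 391), (15, 11), (16, 4)], [(13, 54), (14, 161)]),
    ([(12, 46), (14, 119), (15, 72)], [(11, 45), (13, 286), (16, 368)]),
    ([(12, 66), (13, 26), (14, 157), (15, 335), (16, 136)], [(11, 1)]),
    ([(13, 41), (16, 106)], [(11, 1), (12, 6), (14, 42), (15, 59)]),
    ([], [(12, 5), (13, 21), (14, 13), (15, 15), (16, 17)]),
    ([(12, 4), (14, 31), (16, 5)], [(13, 14), (15, 7)]),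
    ([(17, 144), (20, 312)], [(18, 312), (19, 165)]),
    ([(17, 20), (19, 90), (20, 88)], [(18, 136)]),
    ([(18, 9), (20, 33)], [(17, 6), (19, 32)]),
    ([(17, 1)], [(18, 30), (19, 33), (20, 15)]),
    ([(21, 57)], [])],
   [([(1, 8), (2, 41), (3, 24)], [(4, 32)]),
    ([(5, 59), (6, 107), (8, 246), (9, 217), (10, 45)], [(7, 354)]),
    ([(5, 1), (7, 52), (9, 26)], [(6, 14), (8, 100), (10, 77)]),
    ([(6, 3), (7, 32), (10, 21)], [(8, 17), (9, 36)]),
    ([(6, 6), (8, 33), (9, 20), (10, 45)], [(7, 1)]),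
    ([(11, 421), (14, 107)], [(12, 263), (13, 57), (15, 6), (16, 2)]),
    ([(11, 31), (13, 203), (15, 261)], [(12, 123), (14, 285), (16, 199)]),
    ([(11, 1), (12, 45), (14, 105), (15, 224), (16, 80)], [(13, 38)]),
    ([(11, 1), (12, 17), (14, 115), (15, 42), (16, 105)], [(13, 28)]),
    ([(12, 4), (13, 17), (15, 45), (16, 26)], [(14, 11)]),
    ([(12, 4), (14, 27), (16, 45)], [(13, 4), (15, 23)]),
    ([(17, 471), (18, 195), (19, 17)], [(20, 1)]),
    ([(18, 236), (19, 198), (20, 366)], [(17, 110)]),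
    ([(17, 82), (19, 425)], [(18, 198), (20, 51)]),
    ([(17, 15), (19, 55)], [(18, 102), (20, 126)]),
    ([(17, 4), (18, 6), (19, 33)], [(20, 26)]),
    ([(18, 19), (19, 22), (20, 39)], [(17, 1)]),
    ([(21, 483)], []),
    ([(21, 156)], []),
    ([], [(21, 25)]),
    ([(21, 27)], []),
    ([], [])]]

def d54pm_40 : List (List Col) :=
  [[([], []),
    ([(0, 482)], []),
    ([(0, 158)], []),
    ([(0, 26)], []),
    ([], [(0, 26)]),
    ([(1, 471), (2, 195)], [(3, 18), (4, 1)]),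
    ([(1, 109), (3, 163), (4, 385)], [(2, 232)]),
    ([(2, 201), (3, 426)], [(1, 82), (4, 12)]),
    ([(1, 15), (4, 120)], [(2, 101), (3, 66)]),
    ([(1, 4), (2, 5), (4, 25)], [(3, 34)]),
    ([(1, 1), (3, 19), (4, 40)], [(2, 19)]),
    ([(5, 423), (6, 262), (7, 55), (8, 107), (9, 5)], [(10, 1)]),
    ([(7, 202), (8, 285), (9, 248), (10, 218)], [(5, 31), (6, 121)]),
    ([(6, 45), (9, 223)], [(5, 1), (7, 38), (8, 104), (10, 62)]),
    ([(5, 1), (7, 27), (8, 112), (10, 100)], [(6, 17), (9, 48)]),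
    ([(6, 5), (7, 17), (8, 9), (9, 45)], [(10, 27)]),
    ([(7, 6), (8, 27), (9, 24), (10, 44)], [(6, 3)]),
    ([(11, 59), (13, 354), (14, 247), (15, 217)], [(12, 105), (16, 47)]),
    ([(11, 1), (12, 14), (15, 26), (16, 75)], [(13, 51), (14, 97)]),
    ([(12, 3), (13, 32), (14, 16), (15, 35), (16, 23)], []),
    ([(12, 6), (16, 44)], [(13, 2), (14, 33), (15, 21)]),
    ([(17, 8), (18, 41), (20, 32)], [(19, 25)])],
   [([], [(0, 57)]),
    ([(2, 312), (4, 292)], [(1, 145), (3, 197)]),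
    ([(2, 138), (3, 80), (4, 97)], [(1, 20)]),
    ([(2, 9), (3, 36)], [(1, 6), (4, 29)]),
    ([(1, 1), (3, 31), (4, 19)], [(2, 30)]),
    ([(6, 392), (8, 161), (9, 12)], [(5, 278), (7, 56), (10, 3)]),
    ([(7, 286), (8, 124)], [(5, 45), (6, 45), (9, 49), (10, 371)]),
    ([(8, 157), (10, 118)], [(5, 1), (6, 66), (7, 27), (9, 345)]),
    ([(5, 1), (7, 40), (8, 42)], [(6, 6), (9, 50), (10, 110)]),
    ([(8, 16), (10, 17)], [(6, 5), (7, 21), (9, 17)]),
    ([(7, 14), (8, 29), (9, 8), (10, 4)], [(6, 4)]),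
    ([(12, 376), (13, 45), (14, 152), (15, 7), (16, 5)], [(11, 307)]),
    ([(14, 92), (15, 272)], [(11, 49), (12, 45), (13, 285), (16, 271)]),
    ([(11, 2), (12, 63), (15, 282), (16, 203)], [(13, 27), (14, 149)]),
    ([(11, 1), (14, 42), (15, 41)], [(12, 7), (13, 40), (16, 119)]),
    ([(14, 16), (15, 14), (16, 8)], [(12, 1), (13, 24)]),
    ([(12, 6), (15, 17)], [(13, 10), (14, 28), (16, 3)]),
    ([(19, 362)], [(17, 136), (18, 303), (20, 49)]),
    ([(17, 18), (18, 124), (20, 127)], [(19, 25)]),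
    ([(17, 3), (19, 35), (20, 38)], [(18, 21)]),
    ([(20, 18)], [(17, 5), (18, 23), (19, 30)]),
    ([], [(21, 58)])],
   [([(1, 8)], [(2, 43), (3, 7), (4, 34)]),
    ([(5, 57), (8, 249), (9, 110)], [(6, 127), (7, 352), (10, 180)]),
    ([(8, 117)], [(5, 2), (6, 17), (7, 55), (9, 90), (10, 19)]),
    ([(6, 3), (7, 20), (10, 39)], [(8, 36), (9, 9)]),
    ([(7, 22), (8, 7)], [(6, 5), (9, 34), (10, 16)]),
    ([(11, 401), (12, 285), (14, 118), (15, 6), (16, 5)], [(13, 70)]),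
    ([(14, 304), (16, 305)], [(11, 36), (12, 140), (13, 199), (15, 9)]),
    ([(11, 2), (14, 106)], [(12, 45), (13, 31), (15, 206), (16, 166)]),
    ([(11, 1), (14, 124), (16, 16)], [(12, 18), (13, 28), (15, 113)]),
    ([(13, 14)], [(14, 29), (15, 12), (16, 47)]),
    ([(12, 5), (15, 42)], [(13, 11), (14, 5), (16, 11)]),
    ([(17, 472), (19, 8), (20, 12)], [(18, 193)]),
    ([(17, 120), (18, 264), (19, 200)], [(20, 341)]),
    ([(17, 76), (18, 185), (19, 263), (20, 349)], []),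
    ([(17, 14), (18, 104), (19, 131)], [(20, 20)]),
    ([(18, 22)], [(17, 2), (19, 6), (20, 41)]),
    ([(20, 14)], [(17, 3), (18, 3), (19, 38)]),
    ([(21, 484)], []),
    ([], [(21, 153)]),
    ([(21, 7)], []),
    ([(21, 33)], []),
    ([], [])]]

def d54pm_41 : List (List Col) :=
  [[([], []),
    ([(0, 483)], []),
    ([], [(0, 155)]),
    ([], [(0, 1)]),
    ([], [(0, 33)]),
    ([(1, 472)], [(2, 193), (3, 8), (4, 14)]),
    ([(3, 200)], [(1, 122), (2, 264), (4, 341)]),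
    ([(3, 262), (4, 349)], [(1, 75), (2, 187)]),
    ([(1, 14), (2, 104), (4, 21)], [(3, 129)]),
    ([(1, 2)], [(2, 23), (3, 11), (4, 37)]),
    ([(3, 35)], [(1, 3), (2, 5), (4, 20)]),
    ([(5, 399), (7, 69), (8, 120), (9, 5)], [(6, 288), (10, 5)]),
    ([(5, 36), (9, 27), (10, 302)], [(6, 140), (7, 197), (8, 307)]),
    ([(9, 193)], [(5, 2), (6, 45), (7, 30), (8, 105), (10, 177)]),
    ([(5, 1), (6, 18), (7, 27), (8, 123)], [(9, 111), (10, 9)]),
    ([(10, 47)], [(7, 14), (8, 29), (9, 10)]),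
    ([(6, 5), (8, 5)], [(7, 11), (9, 42), (10, 9)]),
    ([(11, 57), (12, 129), (13, 352), (14, 251)], [(15, 91), (16, 187)]),
    ([(12, 17), (13, 54), (14, 116), (15, 91)], [(11, 1), (16, 8)]),
    ([(12, 4), (13, 18), (14, 36)], [(15, 3), (16, 39)]),
    ([(13, 23), (16, 11)], [(12, 5), (14, 5), (15, 34)]),
    ([(17, 8), (19, 8), (20, 32)], [(18, 43)])],
   [([(0, 59)], []),
    ([(1, 136), (2, 300), (3, 363)], [(4, 47)]),
    ([(4, 128)], [(1, 18), (2, 126), (3, 27)]),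
    ([(1, 4)], [(2, 16), (3, 40), (4, 35)]),
    ([(3, 23)], [(1, 4), (2, 26), (4, 25)]),
    ([(5, 310), (6, 374), (7, 46), (10, 6)], [(8, 150), (9, 6)]),
    ([(6, 44), (7, 285), (8, 93), (9, 285), (10, 257)], [(5, 49)]),
    ([(5, 2), (7, 28), (9, 274)], [(6, 63), (8, 148), (10, 218)]),
    ([], [(5, 1), (6, 7), (7, 40), (8, 41), (9, 48), (10, 117)]),
    ([(7, 26), (8, 10), (9, 18)], [(10, 10)]),
    ([(6, 6), (8, 31)], [(7, 7), (9, 15), (10, 3)]),
    ([(11, 276), (12, 394), (15, 10), (16, 5)], [(13, 57), (14, 161)]),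
    ([(12, 44), (14, 126), (15, 84)], [(11, 44), (13, 286), (16, 364)]),
    ([(12, 65), (13, 26), (14, 156), (15, 332), (16, 152)], [(11, 1)]),
    ([(13, 39), (16, 105)], [(11, 1), (12, 6), (14, 41), (15, 60)]),
    ([], [(12, 5), (13, 20), (14, 14), (15, 15), (16, 19)]),
    ([(12, 4), (14, 30), (16, 4)], [(13, 14), (15, 7)]),
    ([(17, 146), (20, 298)], [(18, 315), (19, 183)]),
    ([(17, 20), (19, 85), (20, 91)], [(18, 137)]),
    ([(18, 10), (20, 31)], [(17, 6), (19, 33)]),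
    ([(17, 1)], [(18, 29), (19, 32), (20, 16)]),
    ([(21, 56)], [])],
   [([(1, 8), (2, 41), (3, 26)], [(4, 32)]),
    ([(5, 59), (6, 105), (8, 244), (9, 220), (10, 36)], [(7, 356)]),
    ([(5, 1), (7, 53), (9, 24)], [(6, 14), (8, 98), (10, 78)]),
    ([(6, 2), (7, 32), (10, 16)], [(8, 22), (9, 38)]),
    ([(6, 7), (7, 3), (8, 30), (9, 17), (10, 47)], []),
    ([(11, 424), (14, 105)], [(12, 260), (13, 53), (15, 5), (16, 1)]),
    ([(11, 30), (13, 203), (15, 266)], [(12, 119), (14, 285), (16, 196)]),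
    ([(11, 1), (12, 45), (14, 101), (15, 220), (16, 81)], [(13, 38)]),
    ([(11, 1), (12, 17), (14, 111), (15, 40), (16, 104)], [(13, 27)]),
    ([(12, 4), (13, 17), (15, 47), (16, 25)], [(14, 12)]),
    ([(12, 4), (14, 25), (16, 46)], [(13, 3), (15, 21)]),
    ([(17, 471), (18, 195), (19, 18), (20, 1)], []),
    ([(18, 231), (19, 179), (20, 380)], [(17, 108)]),
    ([(17, 82), (19, 426)], [(18, 200), (20, 32)]),
    ([(17, 15), (19, 62)], [(18, 99), (20, 122)]),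
    ([(17, 4), (18, 5), (19, 33)], [(20, 25)]),
    ([(18, 18), (19, 20), (20, 40)], [(17, 1)]),
    ([(21, 483)], []),
    ([(21, 155)], []),
    ([], [(21, 27)]),
    ([(21, 25)], []),
    ([], [])]]

def d54pm_42 : List (List Col) :=
  [[([], []),
    ([(0, 482)], []),
    ([(0, 159)], []),
    ([(0, 27)], []),
    ([], [(0, 25)]),
    ([(1, 471), (2, 195)], [(3, 20), (4, 5)]),
    ([(1, 107), (3, 116), (4, 409)], [(2, 223)]),
    ([(2, 207), (3, 422), (4, 37)], [(1, 83)]),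
    ([(1, 15), (4, 110)], [(2, 98), (3, 79)]),
    ([(1, 4), (2, 6), (4, 22)], [(3, 36)]),
    ([(3, 13), (4, 41)], [(2, 18)]),
    ([(5, 426), (6, 258), (7, 49), (8, 104), (9, 4)], []),
    ([(7, 201), (8, 285), (9, 236), (10, 236)], [(5, 30), (6, 116)]),
    ([(6, 44), (9, 217)], [(5, 1), (7, 37), (8, 100), (10, 44)]),
    ([(5, 1), (7, 25), (8, 107), (10, 95)], [(6, 16), (9, 51)]),
    ([(6, 5), (7, 16), (8, 8), (9, 48)], [(10, 26)]),
    ([(6, 3)], [(7, 5), (8, 26), (9, 21), (10, 45)]),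
    ([(11, 59), (13, 356), (14, 246), (15, 218)], [(12, 102), (16, 43)]),
    ([(11, 1), (12, 13), (15, 24), (16, 73)], [(13, 50), (14, 93)]),
    ([(12, 2), (13, 31), (14, 19), (15, 36), (16, 19)], []),
    ([(12, 6), (16, 46)], [(14, 32), (15, 19)]),
    ([(17, 8), (18, 40), (20, 31)], [(19, 27)])],
   [([], [(0, 56)]),
    ([(2, 314), (4, 257)], [(1, 147), (3, 236)]),
    ([(2, 143), (3, 66), (4, 105)], [(1, 20)]),
    ([(2, 10), (3, 39)], [(1, 6), (4, 25)]),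
    ([(1, 1), (3, 27), (4, 21)], [(2, 28)]),
    ([(6, 395), (8, 161), (9, 12)], [(5, 273), (7, 63), (10, 3)]),
    ([(7, 284), (8, 134)], [(5, 43), (6, 43), (9, 33), (10, 370)]),
    ([(8, 156), (10, 109)], [(5, 1), (6, 66), (7, 28), (9, 354)]),
    ([(5, 1), (7, 39), (8, 41)], [(6, 6), (9, 40), (10, 114)]),
    ([(8, 18), (10, 18)], [(6, 5), (7, 20), (9, 20)]),
    ([(7, 14), (8, 28), (9, 9), (10, 3)], [(6, 4)]),
    ([(12, 373), (13, 45), (14, 148), (15, 5), (16, 4)], [(11, 313)]),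
    ([(14, 90), (15, 284)], [(11, 49), (12, 43), (13, 285), (16, 261)]),
    ([(11, 2), (12, 61), (15, 272), (16, 210)], [(13, 27), (14, 145)]),
    ([(11, 1), (14, 40), (15, 43)], [(12, 7), (13, 38), (16, 119)]),
    ([(14, 17), (15, 15), (16, 9)], [(12, 2), (13, 24)]),
    ([(13, 11), (14, 28), (16, 2)], [(12, 5), (15, 18)]),
    ([(19, 365)], [(17, 134), (18, 302), (20, 34)]),
    ([(17, 17), (18, 121), (20, 127)], [(19, 30)]),
    ([(17, 3), (19, 36), (20, 38)], [(18, 18)]),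
    ([(20, 21)], [(17, 4), (18, 24), (19, 26)]),
    ([], [(21, 58)])],
   [([(1, 8)], [(2, 43), (3, 2), (4, 33)]),
    ([(5, 57), (8, 246), (9, 121)], [(6, 132), (7, 354), (10, 170)]),
    ([(8, 121)], [(5, 2), (6, 18), (7, 57), (9, 96), (10, 18)]),
    ([(6, 4), (7, 19), (10, 38)], [(8, 37), (9, 9)]),
    ([(7, 22), (8, 6)], [(6, 5), (9, 30), (10, 17)]),
    ([(11, 396), (12, 291), (14, 120), (15, 5), (16, 5)], [(13, 70)]),
    ([(14, 311), (16, 298)], [(11, 36), (12, 141), (13, 198), (15, 24)]),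
    ([(11, 2), (14, 102)], [(12, 44), (13, 29), (15, 200), (16, 186)]),
    ([(11, 1), (14, 123), (16, 7)], [(12, 18), (13, 26), (15, 113)]),
    ([(12, 1), (13, 13)], [(14, 29), (15, 9), (16, 48)]),
    ([(12, 4), (15, 41)], [(13, 12), (14, 3), (16, 7)]),
    ([(17, 473), (19, 7), (20, 13)], [(18, 192)]),
    ([(17, 122), (18, 269), (19, 218)], [(20, 326)]),
    ([(17, 73), (18, 183), (19, 244), (20, 366)], []),
    ([(17, 14), (18, 102), (19, 128)], [(20, 12)]),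
    ([(18, 23)], [(17, 1), (19, 2), (20, 40)]),
    ([(17, 3), (18, 1), (19, 36)], [(20, 12)]),
    ([(21, 485)], []),
    ([], [(21, 151)]),
    ([(21, 4)], []),
    ([(21, 32)], []),
    ([], [])]]

def d54pm_43 : List (List Col) :=
  [[([], []),
    ([(0, 483)], []),
    ([], [(0, 155)]),
    ([(0, 5)], []),
    ([], [(0, 31)]),
    ([(1, 472)], [(2, 192), (3, 8), (4, 16)]),
    ([(3, 210)], [(1, 124), (2, 269), (4, 332)]),
    ([(3, 251), (4, 359)], [(1, 73), (2, 187)]),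
    ([(1, 13), (2, 102), (4, 17)], [(3, 125)]),
    ([(1, 2)], [(2, 24), (3, 12), (4, 32)]),
    ([(3, 32)], [(1, 2), (2, 5), (4, 23)]),
    ([(5, 393), (7, 68), (8, 123), (9, 3)], [(6, 295), (10, 6)]),
    ([(5, 37), (9, 45), (10, 293)], [(6, 141), (7, 194), (8, 317)]),
    ([(9, 179)], [(5, 2), (6, 43), (7, 27), (8, 101), (10, 196)]),
    ([(5, 1), (6, 18), (7, 24), (8, 120), (10, 1)], [(9, 108)]),
    ([(7, 14), (8, 29), (9, 9)], [(10, 47)]),
    ([(6, 4), (8, 3)], [(7, 12), (9, 40), (10, 5)]),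
    ([(11, 56), (12, 134), (13, 353), (14, 252), (16, 185)], [(15, 85)]),
    ([(12, 17), (13, 54), (14, 118), (15, 96)], [(11, 1), (16, 3)]),
    ([(12, 4), (13, 17), (14, 36), (16, 37)], []),
    ([(13, 22)], [(12, 4), (14, 4), (15, 31), (16, 9)]),
    ([(17, 8), (19, 6), (20, 31)], [(18, 42)])],
   [([(0, 59)], []),
    ([(1, 134), (2, 298), (3, 367)], [(4, 38)]),
    ([(4, 129)], [(1, 18), (2, 125), (3, 31)]),
    ([(1, 5)], [(2, 11), (3, 43), (4, 32)]),
    ([(3, 16)], [(1, 3), (2, 26), (4, 30)]),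
    ([(5, 317), (6, 370), (7, 48), (10, 5)], [(8, 146), (9, 4)]),
    ([(6, 41), (7, 284), (8, 93), (9, 297), (10, 244)], [(5, 49)]),
    ([(5, 2), (7, 30), (9, 267)], [(6, 61), (8, 143), (10, 229)]),
    ([], [(5, 1), (6, 8), (7, 38), (8, 41), (9, 52), (10, 116)]),
    ([(7, 27), (8, 5), (9, 22)], [(10, 13)]),
    ([(6, 6), (8, 32)], [(7, 5), (9, 14), (10, 3)]),
    ([(11, 270), (12, 397), (15, 9)], [(13, 63), (14, 161), (16, 5)]),
    ([(12, 43), (14, 136), (15, 97), (16, 358)], [(11, 42), (13, 285)]),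
    ([(12, 64), (13, 26), (14, 153), (15, 327)], [(11, 1), (16, 172)]),
    ([(13, 37)], [(11, 1), (12, 5), (14, 39), (15, 60), (16, 103)]),
    ([(12, 5), (13, 20), (14, 15), (15, 16)], [(16, 20)]),
    ([(12, 4), (14, 30)], [(13, 13), (15, 8), (16, 3)]),
    ([(17, 147), (20, 274)], [(18, 320), (19, 210)]),
    ([(17, 20), (19, 78), (20, 95)], [(18, 139)]),
    ([(18, 11), (20, 28)], [(17, 6), (19, 34)]),
    ([], [(18, 27), (19, 29), (20, 17)]),
    ([(21, 54)], [])],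
   [([(1, 8), (2, 41), (3, 28)], [(4, 34)]),
    ([(5, 59), (6, 101), (8, 241), (9, 222), (10, 30)], [(7, 359)]),
    ([(5, 1), (7, 54), (9, 25)], [(6, 13), (8, 96), (10, 79)]),
    ([(6, 1), (7, 31), (10, 8)], [(8, 27), (9, 39)]),
    ([(6, 7), (7, 7), (8, 27), (9, 13), (10, 50)], []),
    ([(11, 428), (14, 102), (16, 1)], [(12, 256), (13, 48), (15, 3)]),
    ([(11, 29), (13, 203), (15, 271), (16, 194)], [(12, 112), (14, 286)]),
    ([(11, 1), (12, 44), (14, 95), (15, 216)], [(13, 37), (16, 80)]),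
    ([(11, 1), (12, 16), (14, 106), (15, 39)], [(13, 26), (16, 103)]),
    ([(12, 4), (13, 16), (15, 51)], [(14, 14), (16, 21)]),
    ([(12, 4), (14, 23)], [(13, 1), (15, 16), (16, 49)]),
    ([(17, 472), (18, 193), (19, 18), (20, 3)], []),
    ([(18, 223), (19, 146), (20, 401)], [(17, 105)]),
    ([(17, 81), (19, 426)], [(18, 203)]),
    ([(17, 14), (19, 72)], [(18, 95), (20, 114)]),
    ([(20, 22)], [(17, 4), (18, 5), (19, 35)]),
    ([(18, 16), (19, 15), (20, 40)], [(17, 1)]),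
    ([(21, 484)], []),
    ([(21, 154)], []),
    ([], [(21, 27)]),
    ([(21, 23)], []),
    ([], [])]]

def d54pm_44 : List (List Col) :=
  [[([], []),
    ([(0, 481)], []),
    ([(0, 162)], []),
    ([(0, 28)], []),
    ([], [(0, 23)]),
    ([(1, 470), (2, 195)], [(3, 21), (4, 11)]),
    ([(1, 104), (3, 54), (4, 431)], [(2, 210)]),
    ([(2, 215), (3, 410), (4, 92)], [(1, 84)]),
    ([(1, 14), (4, 96)], [(2, 92), (3, 91)]),
    ([(1, 4), (2, 8), (4, 17)], [(3, 37)]),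
    ([(3, 5), (4, 40)], [(2, 17)]),
    ([(5, 431), (6, 254), (7, 41), (8, 101), (9, 3), (10, 1)], []),
    ([(7, 199), (8, 286), (9, 209), (10, 267)], [(5, 28), (6, 107)]),
    ([(6, 42), (9, 205)], [(5, 1), (7, 37), (8, 95), (10, 12)]),
    ([(5, 1), (7, 22), (8, 99), (10, 83)], [(6, 16), (9, 59)]),
    ([(6, 5), (7, 16), (8, 7), (9, 51)], [(10, 22)]),
    ([(6, 3)], [(7, 5), (8, 25), (9, 17), (10, 45)]),
    ([(11, 59), (13, 359), (14, 246)], [(12, 97), (15, 218), (16, 47)]),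
    ([(13, 48), (14, 87), (15, 25)], [(11, 1), (12, 12), (16, 67)]),
    ([(12, 1), (13, 30), (14, 23), (16, 12)], [(15, 37)]),
    ([(12, 6), (13, 3), (15, 14), (16, 48)], [(14, 29)]),
    ([(17, 7), (18, 39), (20, 32)], [(19, 28)])],
   [([], [(0, 56)]),
    ([(2, 316), (4, 205)], [(1, 150), (3, 277)]),
    ([(2, 150), (3, 48), (4, 113)], [(1, 21)]),
    ([(2, 11), (3, 42)], [(1, 7), (4, 19)]),
    ([(3, 21), (4, 24)], [(2, 25)]),
    ([(6, 398), (8, 160), (9, 13)], [(5, 267), (7, 73), (10, 2)]),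
    ([(7, 281), (8, 150), (9, 1)], [(5, 41), (6, 40), (10, 368)]),
    ([(8, 155), (10, 84)], [(5, 1), (6, 66), (7, 30), (9, 370)]),
    ([(5, 1), (7, 36), (8, 39)], [(6, 6), (9, 22), (10, 118)]),
    ([(8, 20), (10, 17)], [(6, 5), (7, 21), (9, 25)]),
    ([(7, 14), (8, 25), (9, 11), (10, 3)], [(6, 3)]),
    ([(12, 368), (13, 46), (14, 143), (16, 2)], [(11, 322), (15, 3)]),
    ([(14, 88)], [(11, 49), (12, 41), (13, 285), (15, 292), (16, 255)]),
    ([(11, 2), (12, 59), (16, 208)], [(13, 27), (14, 139), (15, 265)]),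
    ([(11, 1), (14, 38)], [(12, 8), (13, 35), (15, 40), (16, 122)]),
    ([(14, 18), (16, 10)], [(12, 2), (13, 23), (15, 16)]),
    ([(13, 12), (14, 27), (15, 19), (16, 1)], [(12, 5)]),
    ([(19, 369)], [(17, 131), (18, 303), (20, 25)]),
    ([(19, 31)], [(17, 16), (18, 116), (20, 126)]),
    ([(17, 4), (19, 37), (20, 35)], [(18, 15)]),
    ([(20, 25)], [(17, 3), (18, 23), (19, 21)]),
    ([], [(21, 57)])],
   [([(1, 8), (3, 3)], [(2, 44), (4, 32)]),
    ([(5, 56), (8, 241), (9, 141)], [(6, 140), (7, 356), (10, 150)]),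
    ([(8, 129)], [(5, 2), (6, 19), (7, 61), (9, 106), (10, 21)]),
    ([(6, 4), (7, 20), (10, 35)], [(8, 38), (9, 11)]),
    ([(7, 20), (8, 5)], [(6, 4), (9, 22), (10, 19)]),
    ([(11, 389), (12, 300), (14, 122), (16, 5)], [(13, 70), (15, 3)]),
    ([(14, 322), (15, 35), (16, 287)], [(11, 37), (12, 142), (13, 195)]),
    ([(11, 2), (14, 96), (15, 198)], [(12, 43), (13, 25), (16, 211)]),
    ([(11, 1), (14, 120), (15, 114)], [(12, 18), (13, 24), (16, 4)]),
    ([(12, 1), (13, 12), (15, 8)], [(14, 30), (16, 50)]),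
    ([(12, 4)], [(13, 11), (14, 2), (15, 39), (16, 3)]),
    ([(17, 474), (19, 6), (20, 14)], [(18, 189)]),
    ([(17, 123), (18, 278), (19, 233)], [(20, 311)]),
    ([(17, 69), (18, 178), (19, 228), (20, 380)], []),
    ([(17, 13), (18, 97), (19, 124)], [(20, 5)]),
    ([(18, 23), (19, 2)], [(17, 1), (20, 39)]),
    ([(17, 3), (19, 32)], [(18, 2), (20, 10)]),
    ([(21, 487)], []),
    ([(21, 146)], []),
    ([(21, 1)], []),
    ([(21, 29)], []),
    ([], [])]]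

def d54pm_45 : List (List Col) :=
  [[([], []),
    ([(0, 483)], []),
    ([], [(0, 157)]),
    ([(0, 10)], []),
    ([], [(0, 26)]),
    ([(1, 473)], [(2, 191), (3, 8), (4, 20)]),
    ([(3, 216)], [(1, 128), (2, 275), (4, 324)]),
    ([(3, 243), (4, 366)], [(1, 69), (2, 187)]),
    ([(1, 12), (2, 99), (4, 15)], [(3, 118)]),
    ([(1, 3)], [(2, 27), (3, 14), (4, 22)]),
    ([(1, 2), (2, 6), (4, 27)], [(3, 26)]),
    ([(5, 383), (7, 65), (8, 126)], [(6, 307), (9, 1), (10, 6)]),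
    ([(5, 37), (9, 64), (10, 281)], [(6, 142), (7, 187), (8, 330)]),
    ([(9, 159)], [(5, 2), (6, 41), (7, 23), (8, 94), (10, 215)]),
    ([(5, 1), (6, 17), (7, 20), (8, 113), (10, 12)], [(9, 103)]),
    ([(7, 14), (8, 29), (9, 8)], [(10, 47)]),
    ([(6, 4), (8, 1)], [(7, 12), (9, 38), (10, 3)]),
    ([(11, 55), (12, 141), (13, 355), (14, 254), (16, 182)], [(15, 71)]),
    ([(12, 18), (13, 53), (14, 118), (15, 100)], [(11, 1), (16, 20)]),
    ([(12, 4), (13, 16), (14, 36), (15, 4), (16, 34)], []),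
    ([(13, 19)], [(12, 3), (14, 2), (15, 26), (16, 6)]),
    ([(17, 7), (18, 42), (19, 3), (20, 28)], [])],
   [([(0, 61)], []),
    ([(1, 132), (2, 294), (3, 371)], [(4, 33)]),
    ([(4, 132)], [(1, 17), (2, 126), (3, 34)]),
    ([(1, 5)], [(2, 7), (3, 44), (4, 28)]),
    ([(3, 10)], [(1, 2), (2, 23), (4, 34)]),
    ([(5, 328), (6, 363), (7, 53), (10, 5)], [(8, 138), (9, 2)]),
    ([(6, 37), (7, 283), (8, 97), (9, 307), (10, 232)], [(5, 49)]),
    ([(5, 2), (7, 33), (9, 264)], [(6, 58), (8, 135), (10, 238)]),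
    ([], [(5, 1), (6, 9), (7, 36), (8, 39), (9, 56), (10, 116)]),
    ([(7, 28), (9, 29)], [(6, 1), (8, 3), (10, 18)]),
    ([(7, 2), (9, 11), (10, 3)], [(6, 5), (8, 31)]),
    ([(11, 262), (12, 402), (15, 6)], [(13, 71), (14, 160), (16, 6)]),
    ([(12, 39), (14, 149), (15, 121), (16, 349)], [(11, 39), (13, 283)]),
    ([(12, 62), (13, 25), (14, 147), (15, 317)], [(11, 1), (16, 203)]),
    ([(13, 33)], [(11, 1), (12, 5), (14, 36), (15, 63), (16, 98)]),
    ([(12, 5), (13, 19), (14, 13), (15, 17)], [(16, 23)]),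
    ([(12, 3), (14, 30)], [(13, 11), (15, 7), (16, 3)]),
    ([(17, 148), (18, 331), (20, 236)], [(19, 240)]),
    ([(17, 19), (18, 139), (19, 69), (20, 98)], []),
    ([(20, 24)], [(17, 6), (18, 12), (19, 37)]),
    ([(18, 23)], [(19, 23), (20, 18)]),
    ([(21, 51)], [])],
   [([(1, 8), (2, 41), (3, 30)], [(4, 37)]),
    ([(5, 60), (6, 97), (8, 235), (9, 225), (10, 25)], [(7, 363)]),
    ([(5, 1), (7, 57), (9, 31)], [(6, 12), (8, 94), (10, 83)]),
    ([(7, 31)], [(8, 32), (9, 39), (10, 2)]),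
    ([(6, 6), (7, 9), (8, 23), (9, 9), (10, 50)], []),
    ([(11, 434), (14, 96)], [(12, 250), (13, 40)]),
    ([(11, 27), (13, 204), (15, 278), (16, 187)], [(12, 103), (14, 290)]),
    ([(11, 1), (12, 41), (14, 83), (15, 212)], [(13, 37), (16, 78)]),
    ([(11, 1), (12, 16), (14, 99), (15, 39)], [(13, 24), (16, 103)]),
    ([(12, 3), (13, 15), (15, 56)], [(14, 17), (16, 16)]),
    ([(15, 8), (16, 51)], [(12, 4), (13, 2), (14, 20)]),
    ([(17, 473), (19, 18), (20, 7)], [(18, 191)]),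
    ([(19, 93), (20, 426)], [(17, 99), (18, 213)]),
    ([(17, 79), (18, 203), (19, 424), (20, 45)], []),
    ([(17, 13), (18, 87), (19, 86)], [(20, 100)]),
    ([(18, 6), (20, 15)], [(17, 3), (19, 36)]),
    ([(19, 6), (20, 40)], [(17, 1), (18, 13)]),
    ([(21, 486)], []),
    ([(21, 149)], []),
    ([], [(21, 27)]),
    ([(21, 20)], []),
    ([], [])]]

def d54pm_46 : List (List Col) :=
  [[([], []),
    ([(0, 480)], []),
    ([], [(0, 166)]),
    ([(0, 29)], []),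
    ([], [(0, 20)]),
    ([(1, 470), (2, 194)], [(3, 24), (4, 19)]),
    ([(1, 98), (4, 448)], [(2, 188), (3, 3)]),
    ([(2, 227), (3, 393), (4, 130)], [(1, 84)]),
    ([(1, 12), (4, 84)], [(2, 83), (3, 96)]),
    ([(1, 4), (2, 12), (4, 13)], [(3, 35)]),
    ([(4, 35)], [(2, 17), (3, 5)]),
    ([(5, 437), (6, 248), (7, 27), (8, 95), (9, 1)], [(10, 2)]),
    ([(7, 194), (8, 289), (9, 168)], [(5, 25), (6, 95), (10, 305)]),
    ([(6, 39), (9, 176)], [(5, 1), (7, 35), (8, 87), (10, 30)]),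
    ([(5, 1), (7, 17), (8, 86)], [(6, 15), (9, 66), (10, 65)]),
    ([], [(6, 5), (7, 15), (8, 6), (9, 52), (10, 17)]),
    ([(6, 2), (10, 44)], [(7, 5), (8, 22), (9, 13)]),
    ([(11, 58), (13, 362), (14, 248)], [(12, 89), (15, 215), (16, 60)]),
    ([(13, 43), (14, 76), (15, 29)], [(11, 1), (12, 10), (16, 54)]),
    ([(15, 35)], [(13, 27), (14, 27)]),
    ([(12, 6), (13, 7), (15, 5), (16, 48)], [(14, 23)]),
    ([(17, 7), (18, 37), (20, 34)], [(19, 28)])],
   [([], [(0, 56)]),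
    ([(2, 319), (4, 146)], [(1, 153), (3, 306)]),
    ([(1, 22)], [(2, 161), (3, 30), (4, 115)]),
    ([(2, 11), (3, 45)], [(1, 7), (4, 14)]),
    ([(3, 14), (4, 24)], [(2, 22)]),
    ([(6, 401), (8, 156), (9, 16)], [(5, 258), (7, 90)]),
    ([(7, 274), (8, 174), (9, 50), (10, 360)], [(5, 37), (6, 33)]),
    ([(8, 155)], [(5, 1), (6, 66), (7, 34), (9, 386), (10, 44)]),
    ([(5, 1), (7, 31), (8, 37), (9, 2), (10, 118)], [(6, 6)]),
    ([(8, 24)], [(6, 5), (7, 22), (9, 33), (10, 16)]),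
    ([(7, 12), (8, 20), (9, 16)], [(6, 3), (10, 3)]),
    ([(12, 360), (13, 46), (14, 133), (15, 1)], [(11, 335), (16, 1)]),
    ([(14, 85)], [(11, 48), (12, 38), (13, 285), (15, 294), (16, 255)]),
    ([(11, 2), (12, 54), (16, 188)], [(13, 26), (14, 129), (15, 258)]),
    ([(11, 1), (14, 35)], [(12, 7), (13, 29), (15, 29), (16, 127)]),
    ([(12, 2), (13, 21), (15, 16)], [(14, 21), (16, 9)]),
    ([(13, 13), (14, 24), (15, 20)], [(12, 4)]),
    ([(19, 372)], [(17, 125), (18, 305), (20, 21)]),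
    ([(19, 29)], [(17, 15), (18, 107), (20, 126)]),
    ([(18, 10)], [(17, 4), (19, 37), (20, 29)]),
    ([(20, 30)], [(17, 2), (18, 21), (19, 14)]),
    ([], [(21, 55)])],
   [([(1, 8), (3, 7)], [(2, 46), (4, 28)]),
    ([(5, 56), (8, 227), (9, 166), (10, 118)], [(6, 153), (7, 362)]),
    ([(5, 2), (6, 21), (7, 68), (9, 122)], [(8, 142), (10, 30)]),
    ([(6, 4), (7, 21)], [(8, 40), (9, 13), (10, 32)]),
    ([(7, 17), (8, 4), (10, 20)], [(6, 3), (9, 11)]),
    ([(11, 378), (12, 313), (14, 124), (15, 1), (16, 4)], [(13, 70)]),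
    ([(14, 337), (15, 42), (16, 271)], [(11, 38), (12, 141), (13, 192)]),
    ([(11, 2), (14, 86), (15, 206)], [(12, 42), (13, 21), (16, 245)]),
    ([(11, 1), (14, 114), (15, 116)], [(12, 18), (13, 20), (16, 17)]),
    ([(12, 1), (13, 11), (15, 8)], [(14, 30), (16, 53)]),
    ([(12, 3), (16, 1)], [(13, 10), (14, 2), (15, 36)]),
    ([(17, 477), (19, 4), (20, 14)], [(18, 183)]),
    ([(17, 123), (18, 291), (19, 248)], [(20, 291)]),
    ([(17, 62), (18, 170), (19, 211), (20, 396)], []),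
    ([(17, 11), (18, 90), (19, 116), (20, 5)], []),
    ([(17, 1), (20, 37)], [(18, 23), (19, 9)]),
    ([(17, 2), (19, 27)], [(18, 6), (20, 7)]),
    ([(21, 490)], []),
    ([(21, 137)], []),
    ([(21, 3)], []),
    ([(21, 25)], []),
    ([], [])]]

def d54pm_47 : List (List Col) :=
  [[([], []),
    ([(0, 482)], []),
    ([], [(0, 160)]),
    ([], [(0, 12)]),
    ([], [(0, 19)]),
    ([(1, 473), (2, 189)], [(3, 9), (4, 26)]),
    ([(2, 284), (3, 219)], [(1, 133), (4, 316)]),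
    ([(2, 189), (3, 235), (4, 369)], [(1, 63)]),
    ([(2, 92), (3, 106)], [(1, 9), (4, 13)]),
    ([(1, 3), (2, 29)], [(3, 14), (4, 9)]),
    ([(1, 1), (4, 26)], [(2, 7), (3, 20)]),
    ([(5, 369), (7, 58), (8, 129)], [(6, 325), (9, 8), (10, 5)]),
    ([(5, 37), (9, 90), (10, 264)], [(6, 140), (7, 175), (8, 348)]),
    ([(5, 2), (6, 37), (7, 17), (8, 83), (10, 227)], [(9, 130)]),
    ([(9, 91)], [(5, 1), (6, 15), (7, 14), (8, 100), (10, 22)]),
    ([(7, 14), (8, 29), (9, 11)], [(10, 47)]),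
    ([(6, 3)], [(7, 12), (9, 34), (10, 2)]),
    ([(11, 53), (12, 150), (13, 357), (14, 261), (15, 40), (16, 176)], []),
    ([(11, 1), (15, 103), (16, 50)], [(12, 17), (13, 49), (14, 113)]),
    ([(15, 10)], [(12, 4), (13, 14), (14, 33), (16, 27)]),
    ([(13, 15), (15, 19)], [(12, 2), (14, 1), (16, 3)]),
    ([(19, 2)], [(17, 7), (18, 39), (20, 24)])],
   [([(0, 63)], []),
    ([(1, 128), (3, 378)], [(2, 287), (4, 27)]),
    ([(2, 127), (4, 141)], [(1, 17), (3, 37)]),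
    ([(3, 45), (4, 23)], [(1, 5), (2, 5)]),
    ([(2, 18), (3, 6)], [(1, 1), (4, 32)]),
    ([(5, 345), (6, 351), (7, 61), (9, 1), (10, 6)], [(8, 125)]),
    ([(6, 31), (7, 282), (8, 108), (9, 312), (10, 221)], [(5, 49)]),
    ([(5, 3), (7, 36), (9, 265)], [(6, 54), (8, 121), (10, 251)]),
    ([(5, 1), (6, 10), (7, 33), (8, 38), (9, 60), (10, 108)], []),
    ([(7, 29), (9, 37)], [(6, 2), (8, 11), (10, 33)]),
    ([(9, 7), (10, 5)], [(6, 4), (8, 28)]),
    ([(11, 250), (12, 408), (15, 2)], [(13, 82), (14, 157), (16, 8)]),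
    ([(12, 34), (14, 161), (16, 329)], [(11, 34), (13, 278), (15, 171)]),
    ([(11, 1), (15, 291), (16, 255)], [(12, 57), (13, 22), (14, 132)]),
    ([(11, 1), (12, 4), (14, 30), (16, 85)], [(13, 27), (15, 69)]),
    ([(12, 4), (13, 19), (14, 7)], [(15, 18), (16, 26)]),
    ([(12, 3), (14, 32), (15, 5)], [(13, 7), (16, 5)]),
    ([(17, 149), (18, 351), (19, 264), (20, 180)], []),
    ([(19, 62)], [(17, 18), (18, 135), (20, 98)]),
    ([(17, 5), (18, 11)], [(19, 39), (20, 16)]),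
    ([(18, 18), (19, 15)], [(20, 18)]),
    ([], [(21, 46)])],
   [([(1, 8), (3, 33)], [(2, 41), (4, 44)]),
    ([(5, 61), (6, 92), (8, 228), (9, 226), (10, 18)], [(7, 370)]),
    ([(5, 1), (7, 60), (9, 46)], [(6, 10), (8, 92), (10, 104)]),
    ([(6, 1), (8, 38), (9, 35), (10, 19)], [(7, 31)]),
    ([(6, 6), (7, 8), (8, 19), (9, 6), (10, 45)], []),
    ([(11, 441), (14, 87)], [(12, 242), (13, 30), (15, 4), (16, 1)]),
    ([(11, 25), (13, 207), (16, 163)], [(12, 89), (14, 300), (15, 285)]),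
    ([(12, 38), (14, 63)], [(13, 35), (15, 210), (16, 82)]),
    ([(13, 22), (15, 39), (16, 104)], [(11, 1), (12, 15), (14, 89)]),
    ([(12, 2), (13, 13)], [(14, 20), (15, 61), (16, 14)]),
    ([(16, 51)], [(12, 4), (13, 4), (14, 15), (15, 2)]),
    ([(17, 475), (20, 11)], [(18, 185), (19, 16)]),
    ([(20, 447)], [(17, 91), (18, 201), (19, 12)]),
    ([(19, 419)], [(17, 73), (18, 196), (20, 106)]),
    ([(19, 100), (20, 77)], [(17, 11), (18, 74)]),
    ([(18, 7), (19, 34), (20, 3)], [(17, 3)]),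
    ([(19, 7), (20, 38)], [(17, 1), (18, 8)]),
    ([(21, 490)], []),
    ([], [(21, 137)]),
    ([(21, 25)], []),
    ([(21, 15)], []),
    ([], [])]]

def d54pm_48 : List (List Col) :=
  [[([], []),
    ([(0, 478)], []),
    ([], [(0, 171)]),
    ([(0, 31)], []),
    ([(0, 18)], []),
    ([(1, 470), (2, 194), (3, 26)], [(4, 28)]),
    ([(1, 89), (3, 47), (4, 462)], [(2, 156)]),
    ([(1, 85), (3, 382)], [(2, 239), (4, 143)]),
    ([(2, 65)], [(1, 10), (3, 92), (4, 74)]),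
    ([(1, 4), (2, 21), (3, 28), (4, 9)], []),
    ([(3, 19), (4, 22)], [(2, 23)]),
    ([(5, 444), (6, 239), (7, 4), (9, 1)], [(8, 86), (10, 3)]),
    ([(5, 21), (6, 76), (8, 295), (10, 335)], [(7, 180), (9, 131)]),
    ([(6, 34), (8, 80), (9, 130)], [(7, 32), (10, 57)]),
    ([(7, 9)], [(6, 13), (8, 69), (9, 70), (10, 46)]),
    ([(8, 3)], [(6, 4), (7, 13), (9, 45), (10, 15)]),
    ([(6, 1), (8, 17), (10, 36)], [(7, 5), (9, 13)]),
    ([(12, 77), (13, 367), (14, 254), (15, 201), (16, 96)], [(11, 56)]),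
    ([(15, 34)], [(11, 1), (12, 7), (13, 33), (14, 57), (16, 29)]),
    ([(12, 2), (13, 19), (14, 31), (15, 23), (16, 23)], []),
    ([(13, 13), (15, 12)], [(12, 4), (14, 9), (16, 33)]),
    ([(17, 6), (19, 26), (20, 35)], [(18, 34)])],
   [([], [(0, 56)]),
    ([(2, 323), (3, 318), (4, 87)], [(1, 160)]),
    ([(1, 23), (3, 18)], [(2, 177), (4, 113)]),
    ([(2, 11)], [(1, 7), (3, 47), (4, 11)]),
    ([(2, 19), (3, 7)], [(4, 19)]),
    ([(6, 403), (9, 23)], [(5, 246), (7, 122), (8, 145), (10, 2)]),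
    ([(7, 255), (9, 97), (10, 349)], [(5, 31), (6, 23), (8, 208)]),
    ([(5, 2), (6, 66), (7, 38), (8, 156), (9, 392), (10, 8)], []),
    ([(6, 6), (8, 35)], [(5, 1), (7, 22), (9, 16), (10, 107)]),
    ([], [(6, 5), (7, 25), (8, 29), (9, 42), (10, 17)]),
    ([(7, 10), (9, 26)], [(6, 2), (8, 5), (10, 4)]),
    ([(12, 348), (15, 7)], [(11, 354), (13, 45), (14, 117), (16, 5)]),
    ([(11, 46), (12, 33), (14, 83), (15, 277), (16, 277)], [(13, 286)]),
    ([(11, 2), (12, 46), (13, 22), (14, 112), (16, 128)], [(15, 252)]),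
    ([(11, 1), (13, 19)], [(12, 6), (14, 26), (15, 2), (16, 130)]),
    ([(12, 3), (14, 27), (15, 11)], [(13, 15), (16, 4)]),
    ([(15, 20), (16, 1)], [(12, 3), (13, 13), (14, 17)]),
    ([(17, 114), (19, 376), (20, 18)], [(18, 311)]),
    ([(18, 90)], [(17, 12), (19, 20), (20, 126)]),
    ([(19, 33)], [(17, 3), (18, 2), (20, 9)]),
    ([(19, 1)], [(18, 18), (20, 34)]),
    ([(21, 50)], [])],
   [([(1, 9)], [(2, 47), (3, 9), (4, 24)]),
    ([(5, 55), (9, 186), (10, 78)], [(6, 173), (7, 372), (8, 194)]),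
    ([(5, 2), (6, 24), (7, 82), (8, 161), (9, 140)], [(10, 45)]),
    ([(6, 4), (7, 23), (8, 42)], [(9, 13), (10, 31)]),
    ([(6, 3)], [(7, 13), (9, 2), (10, 16)]),
    ([(11, 361), (12, 334), (13, 68), (15, 6), (16, 2)], [(14, 123)]),
    ([(13, 189), (15, 36), (16, 248)], [(11, 38), (12, 137), (14, 357)]),
    ([(12, 40), (14, 73), (16, 274)], [(11, 2), (13, 17), (15, 249)]),
    ([(12, 16), (14, 98), (16, 27)], [(11, 1), (13, 13), (15, 121)]),
    ([(12, 2), (14, 33), (15, 10)], [(13, 9), (16, 57)]),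
    ([(12, 2), (13, 5), (14, 7), (16, 6)], [(15, 32)]),
    ([(17, 482), (18, 171), (20, 13)], [(19, 1)]),
    ([(18, 310), (19, 268), (20, 260)], [(17, 120)]),
    ([(17, 50), (20, 417)], [(18, 154), (19, 187)]),
    ([(17, 9), (20, 22)], [(18, 76), (19, 104)]),
    ([(18, 21), (19, 19), (20, 34)], []),
    ([(17, 1), (18, 10)], [(19, 16), (20, 3)]),
    ([(21, 495)], []),
    ([], [(21, 119)]),
    ([], [(21, 7)]),
    ([(21, 17)], []),
    ([], [])]]

def d54pm_49 : List (List Col) :=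
  [[([], []),
    ([(0, 483)], []),
    ([], [(0, 156)]),
    ([], [(0, 10)]),
    ([], [(0, 10)]),
    ([(1, 473), (2, 190), (4, 36)], [(3, 11)]),
    ([(2, 303), (3, 222), (4, 303)], [(1, 141)]),
    ([(1, 54), (4, 368)], [(2, 189), (3, 223)]),
    ([(2, 74), (3, 78)], [(1, 5), (4, 2)]),
    ([(1, 3), (2, 28)], [(3, 12), (4, 9)]),
    ([(2, 7), (3, 14), (4, 12)], []),
    ([(4, 49)], [(2, 16), (3, 18)]),
    ([(6, 354), (7, 43), (8, 128), (9, 20), (10, 6)], [(5, 343)]),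
    ([(5, 35), (7, 153), (8, 366), (9, 140), (10, 235)], [(6, 132)]),
    ([(5, 1), (6, 29), (10, 146)], [(7, 9), (8, 61), (9, 92)]),
    ([(5, 1), (6, 12), (10, 1)], [(7, 5), (8, 71), (9, 72)]),
    ([(9, 17)], [(6, 1), (7, 16), (8, 29), (10, 52)]),
    ([(6, 2), (7, 6)], [(8, 5), (9, 22), (10, 7)]),
    ([(11, 49), (13, 359), (14, 277), (16, 150)], [(12, 160), (15, 26)]),
    ([(11, 1), (12, 14), (15, 95), (16, 96)], [(13, 38), (14, 89)]),
    ([(12, 3), (15, 18)], [(13, 9), (14, 24), (16, 14)]),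
    ([(17, 5), (19, 3), (20, 20)], [(18, 32)])],
   [([(0, 66)], []),
    ([(1, 124), (3, 389), (4, 22)], [(2, 276)]),
    ([(2, 119)], [(1, 16), (3, 34), (4, 162)]),
    ([(3, 43)], [(1, 5), (2, 5), (4, 17)]),
    ([(2, 11), (3, 3), (4, 21)], []),
    ([(5, 370), (6, 329), (8, 103), (9, 7), (10, 13)], [(7, 74)]),
    ([(6, 20), (9, 312), (10, 222)], [(5, 48), (7, 284), (8, 142)]),
    ([(6, 46), (7, 37), (10, 279)], [(5, 3), (8, 92), (9, 270)]),
    ([(5, 1), (6, 10), (9, 51), (10, 37)], [(7, 25), (8, 35)]),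
    ([(8, 13), (9, 41)], [(6, 2), (7, 28), (10, 77)]),
    ([(6, 3)], [(7, 1), (8, 19), (9, 3), (10, 10)]),
    ([(10, 29)], [(7, 1), (8, 15), (9, 16)]),
    ([(12, 419), (13, 93), (14, 150), (16, 7)], [(11, 233), (15, 19)]),
    ([(14, 156), (16, 278)], [(11, 27), (12, 26), (13, 268), (15, 268)]),
    ([(11, 1), (12, 45), (15, 228), (16, 331)], [(13, 16), (14, 94)]),
    ([(12, 3), (13, 16), (15, 73)], [(14, 16), (16, 51)]),
    ([(13, 16)], [(12, 2), (14, 13), (15, 12), (16, 25)]),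
    ([(13, 1), (14, 27)], [(12, 3), (15, 4), (16, 17)]),
    ([(18, 392), (19, 273)], [(17, 147), (20, 61)]),
    ([(17, 14), (19, 46), (20, 107)], [(18, 114)]),
    ([(18, 10)], [(17, 4), (19, 37), (20, 2)]),
    ([], [(21, 34)])],
   [([(1, 8), (3, 38), (4, 60)], [(2, 42)]),
    ([(5, 62), (6, 87), (7, 379), (9, 216), (10, 7)], [(8, 229)]),
    ([(5, 1), (8, 80), (9, 73)], [(6, 9), (7, 57), (10, 203)]),
    ([(6, 2), (7, 31), (9, 26), (10, 77)], [(8, 43)]),
    ([(6, 4), (9, 3), (10, 19)], [(7, 5), (8, 13)]),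
    ([(11, 452), (12, 228), (14, 73)], [(13, 17), (15, 10), (16, 2)]),
    ([(11, 22), (12, 71), (13, 221), (16, 111)], [(14, 329), (15, 277)]),
    ([(12, 30), (13, 32), (15, 201), (16, 109)], [(14, 27)]),
    ([(12, 13), (13, 19), (15, 42), (16, 115)], [(14, 69)]),
    ([(13, 12)], [(12, 2), (14, 26), (15, 60), (16, 24)]),
    ([(13, 3), (14, 10)], [(12, 3), (15, 1), (16, 47)]),
    ([(13, 7), (15, 6), (16, 8)], [(14, 15)]),
    ([(17, 481), (18, 173), (19, 5), (20, 13)], []),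
    ([(17, 77), (19, 199)], [(18, 186), (20, 417)]),
    ([(17, 57), (19, 361), (20, 267)], [(18, 164)]),
    ([(18, 52), (20, 12)], [(17, 8), (19, 116)]),
    ([(17, 1), (18, 8), (19, 11), (20, 21)], []),
    ([(17, 2), (19, 30)], [(18, 1), (20, 16)]),
    ([(21, 499)], []),
    ([], [(21, 108)]),
    ([(21, 20)], []),
    ([], [])]]

def d54pm_50 : List (List Col) :=
  [[([], []),
    ([(0, 482)], []),
    ([], [(0, 159)]),
    ([(0, 33)], []),
    ([], [(0, 15)]),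
    ([], [(0, 10)]),
    ([(1, 468), (2, 197), (3, 21)], [(4, 33)]),
    ([(1, 74), (3, 97), (4, 473)], [(2, 115)]),
    ([(1, 81), (3, 396)], [(2, 222), (4, 143)]),
    ([(2, 23)], [(1, 8), (3, 80), (4, 62)]),
    ([(1, 2), (2, 25), (3, 12)], [(4, 8)]),
    ([(3, 8), (4, 10)], [(2, 13)]),
    ([(5, 453), (6, 226), (7, 31), (9, 1), (10, 4)], [(8, 66), (11, 14)]),
    ([(5, 15), (6, 48), (7, 143), (8, 309)], [(9, 118), (10, 356)]),
    ([(6, 25), (7, 21), (8, 73), (9, 97), (10, 54), (11, 275)], []),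
    ([(6, 11), (8, 46), (9, 72), (11, 136)], [(7, 1), (10, 33)]),
    ([(6, 2), (9, 20)], [(7, 7), (8, 1), (10, 19), (11, 10)]),
    ([(7, 4), (8, 5), (11, 15)], [(9, 8), (10, 9)]),
    ([(12, 47), (13, 56), (14, 369), (16, 122), (17, 181)], [(15, 268)]),
    ([(15, 29), (16, 30), (17, 9)], [(13, 4), (14, 17)]),
    ([(13, 3), (14, 2), (17, 23)], [(15, 19), (16, 9)]),
    ([(18, 4), (20, 21)], [(19, 26)])],
   [([], [(0, 51)]),
    ([(2, 352), (3, 292), (4, 32)], [(1, 174)]),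
    ([(1, 23), (3, 32)], [(2, 182), (4, 105)]),
    ([(2, 13)], [(1, 8), (3, 50), (4, 10)]),
    ([(4, 11)], [(2, 12), (3, 6)]),
    ([], [(2, 3), (3, 3), (4, 4)]),
    ([(6, 398), (7, 183), (9, 28), (10, 8)], [(5, 230), (8, 116), (11, 50)]),
    ([(9, 154)], [(5, 21), (6, 4), (7, 202), (8, 254), (10, 342), (11, 12)]),
    ([(5, 2), (6, 65), (8, 164), (9, 389), (10, 11), (11, 97)], [(7, 36)]),
    ([(6, 7), (8, 40), (9, 10), (10, 74), (11, 86)], [(7, 3)]),
    ([(7, 24), (10, 30), (11, 73)], [(6, 4), (8, 18), (9, 32)]),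
    ([(8, 2), (9, 11), (10, 5)], [(6, 1), (7, 6), (11, 33)]),
    ([(12, 382), (13, 327), (15, 87), (16, 17)], [(14, 39), (17, 4)]),
    ([(13, 27), (16, 150), (17, 368)], [(12, 39), (14, 289), (15, 79)]),
    ([(13, 33), (14, 16)], [(12, 1), (15, 83), (16, 229), (17, 7)]),
    ([(12, 1), (13, 4), (17, 103)], [(14, 8), (15, 7), (16, 54)]),
    ([(14, 4), (15, 27), (16, 5)], [(13, 3), (17, 2)]),
    ([(16, 7), (17, 1)], [(14, 2)]),
    ([(18, 90), (20, 381)], [(19, 322)]),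
    ([(19, 62)], [(18, 7), (20, 6)]),
    ([(19, 6), (20, 14)], [(18, 1)]),
    ([(21, 39)], [])],
   [([(1, 9)], [(2, 47), (3, 3), (4, 18)]),
    ([(5, 56), (7, 392), (9, 179)], [(6, 211), (8, 126), (10, 35), (11, 86)]),
    ([(5, 2), (6, 28), (8, 176), (9, 154), (10, 69)], [(7, 97), (11, 352)]),
    ([(6, 5), (8, 39), (10, 35)], [(7, 26), (9, 16), (11, 81)]),
    ([(8, 1), (9, 3)], [(6, 1), (7, 8), (10, 6), (11, 62)]),
    ([(7, 1), (8, 1), (10, 2), (11, 2)], [(9, 2)]),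
    ([(13, 367), (14, 61), (15, 110), (16, 16), (17, 2)], [(12, 334)]),
    ([(12, 34), (14, 191), (15, 385), (17, 224)], [(13, 118), (16, 20)]),
    ([(12, 1), (13, 40), (17, 175)], [(14, 14), (15, 56), (16, 388)]),
    ([(13, 10), (17, 11)], [(14, 2), (15, 50), (16, 129)]),
    ([(13, 5)], [(14, 6), (15, 46), (16, 10), (17, 45)]),
    ([(13, 1)], [(15, 7), (16, 16), (17, 4)]),
    ([(18, 492), (19, 140), (20, 2)], []),
    ([(19, 340), (20, 296)], [(18, 103)]),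
    ([(18, 31)], [(19, 122), (20, 143)]),
    ([(19, 59), (20, 87)], [(18, 7)]),
    ([(18, 1)], [(19, 11), (20, 23)]),
    ([(19, 1)], [(20, 1)]),
    ([(21, 503)], []),
    ([], [(21, 86)]),
    ([], [(21, 8)]),
    ([], [])]]

def d54pm_51 : List (List Col) :=
  [[([], []),
    ([(0, 493)], []),
    ([], [(0, 122)]),
    ([(1, 472), (2, 196)], [(3, 9), (4, 30), (5, 7)]),
    ([(2, 349), (3, 244), (5, 55)], [(1, 154), (4, 232)]),
    ([(1, 38), (5, 202)], [(2, 152), (3, 179), (4, 396)]),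
    ([(7, 407), (8, 12), (9, 97), (10, 59), (11, 5)], [(6, 289)]),
    ([(6, 28), (8, 116), (9, 302), (10, 324), (11, 200)], [(7, 105)]),
    ([(12, 39), (14, 343), (16, 124), (17, 22)], [(13, 162), (15, 317)])],
   [([(0, 67)], []),
    ([(1, 117), (3, 410), (5, 97)], [(2, 265), (4, 22)]),
    ([(2, 83), (4, 198), (5, 297)], [(1, 15), (3, 6)]),
    ([(6, 414), (7, 278), (9, 62), (10, 27), (11, 8)], [(8, 94)]),
    ([(7, 2), (10, 256), (11, 175)], [(6, 48), (8, 297), (9, 274)]),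
    ([(7, 32), (8, 20), (9, 1), (11, 368)], [(6, 4), (10, 251)]),
    ([(13, 439), (14, 91), (16, 36)], [(12, 201), (15, 138), (17, 13)]),
    ([(16, 419), (17, 153)], [(12, 16), (13, 13), (14, 238), (15, 79)]),
    ([(19, 462), (20, 174)], [(18, 136)])],
   [([(1, 8), (3, 44)], [(2, 40), (4, 104), (5, 347)]),
    ([(6, 65), (7, 86), (8, 388), (10, 123), (11, 43)], [(9, 288)]),
    ([(6, 1), (9, 7), (10, 97)], [(7, 5), (8, 23), (11, 233)]),
    ([(12, 469), (13, 200), (16, 11)], [(14, 8), (15, 50), (17, 5)]),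
    ([(12, 18), (13, 50), (14, 280), (15, 366), (16, 210), (17, 55)], []),
    ([(12, 1), (13, 19), (14, 30), (17, 485)], [(15, 6), (16, 160)]),
    ([(18, 490), (19, 147)], [(20, 7)]),
    ([(18, 57), (20, 481)], [(19, 165)]),
    ([(21, 512)], [])]]

def d54pm_52 : List (List Col) :=
  [[([(0, 512)], []),
    ([(1, 468), (2, 208)], []),
    ([(3, 462), (4, 208), (5, 72)], [])],
   [([(2, 468)], [(1, 208)]),
    ([(4, 369), (5, 286)], [(3, 210)]),
    ([(6, 424), (7, 287)], [])],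
   [([(3, 64), (5, 419)], [(4, 288)]),
    ([(7, 424)], [(6, 287)]),
    ([(8, 512)], [])]]

def d54pm_53 : List (List Col) :=
  [[([(0, 512)], [])],
   [([(1, 512)], [])],
   [([(2, 512)], [])]]

def d54pm : List (List (List Col)) :=
  [d54pm_0, d54pm_1, d54pm_2, d54pm_3, d54pm_4, d54pm_5, d54pm_6, d54pm_7, d54pm_8, d54pm_9, d54pm_10, d54pm_11, d54pm_12, d54pm_13, d54pm_14, d54pm_15, d54pm_16, d54pm_17, d54pm_18, d54pm_19, d54pm_20, d54pm_21, d54pm_22, d54pm_23, d54pm_24, d54pm_25, d54pm_26, d54pm_27, d54pm_28, d54pm_29, d54pm_30, d54pm_31, d54pm_32, d54pm_33, d54pm_34, d54pm_35, d54pm_36, d54pm_37, d54pm_38, d54pm_39, d54pm_40, d54pm_41, d54pm_42, d54pm_43, d54pm_44, d54pm_45, d54pm_46, d54pm_47, d54pm_48, d54pm_49, d54pm_50, d54pm_51, d54pm_52, d54pm_53]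

end Crest.Agent.R347
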