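import Crest.Agent.R347.MpsEval

set_option autoImplicit false
set_option maxRecDepth 100000

namespace Crest.Agent.R347

def d54pp_0 : List (List Col) :=
  [[([(0, 512)], []),
    ([], []),
    ([], [])],
   [([], []),
    ([(0, 512)], []),
    ([], [])],
   [([], []),
    ([], []),
    ([(0, 512)], [])]]

def d54pp_1 : List (List Col) :=
  [[([(0, 512)], []),
    ([], [(1, 287)]),
    ([(1, 424)], []),
    ([(2, 65)], []),
    ([], [(2, 288)]),
    ([(2, 419)], []),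
    ([], []),
    ([], []),
    ([], [])],
   [([], []),
    ([(0, 424)], []),
    ([(0, 287)], []),
    ([], [(1, 210)]),
    ([(1, 369)], []),
    ([(1, 286)], []),
    ([], [(2, 208)]),
    ([(2, 468)], []),
    ([], [])],
   [([], []),
    ([], []),
    ([], []),
    ([(0, 462)], []),
    ([(0, 208)], []),
    ([(0, 72)], []),
    ([(1, 468)], []),
    ([(1, 208)], []),
    ([(2, 512)], [])]]

def d54pp_2 : List (List Col) :=
  [[([(0, 512)], []),
    ([(1, 490), (2, 57)], []),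
    ([(1, 147)], [(2, 165)]),
    ([(2, 481)], [(1, 7)]),
    ([(3, 469), (4, 18), (5, 1)], []),
    ([(3, 200), (4, 50), (5, 19)], []),
    ([(3, 8)], [(4, 280), (5, 30)]),
    ([(3, 50), (5, 6)], [(4, 366)]),
    ([(3, 11), (4, 210)], [(5, 160)]),
    ([(4, 55), (5, 485)], [(3, 5)]),
    ([(6, 65), (7, 1)], []),
    ([(6, 86)], [(7, 5)]),
    ([(6, 388)], [(7, 23)]),
    ([(7, 7)], [(6, 288)]),
    ([(6, 123), (7, 97)], []),
    ([(7, 233)], [(6, 43)]),
    ([(8, 8)], []),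
    ([], [(8, 40)]),
    ([(8, 44)], []),
    ([(8, 104)], []),
    ([(8, 347)], []),
    ([], [])],
   [([], []),
    ([], [(0, 136)]),
    ([(0, 462)], []),
    ([(0, 174)], []),
    ([], [(1, 201), (2, 16)]),
    ([(1, 439)], [(2, 13)]),
    ([(2, 238)], [(1, 91)]),
    ([(1, 138), (2, 79)], []),
    ([(1, 36), (2, 419)], []),
    ([(2, 153)], [(1, 13)]),
    ([(3, 414)], [(4, 48), (5, 4)]),
    ([(3, 278), (4, 2), (5, 32)], []),
    ([(5, 20)], [(3, 94), (4, 297)]),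
    ([(3, 62), (5, 1)], [(4, 274)]),
    ([(3, 27), (4, 256)], [(5, 251)]),
    ([], [(3, 8), (4, 175), (5, 368)]),
    ([(6, 117)], [(7, 15)]),
    ([(7, 83)], [(6, 265)]),
    ([(6, 410)], [(7, 6)]),
    ([(6, 22)], [(7, 198)]),
    ([], [(6, 97), (7, 297)]),
    ([(8, 67)], [])],
   [([], []),
    ([], []),
    ([], []),
    ([], []),
    ([(0, 39)], []),
    ([], [(0, 162)]),
    ([], [(0, 343)]),
    ([(0, 317)], []),
    ([(0, 124)], []),
    ([(0, 22)], []),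
    ([(2, 28)], [(1, 289)]),
    ([(1, 407)], [(2, 105)]),
    ([(1, 12), (2, 116)], []),
    ([(1, 97), (2, 302)], []),
    ([(1, 59), (2, 324)], []),
    ([], [(1, 5), (2, 200)]),
    ([(3, 472), (5, 38)], [(4, 154)]),
    ([(3, 196), (4, 349)], [(5, 152)]),
    ([(4, 244)], [(3, 9), (5, 179)]),
    ([(3, 30), (4, 232), (5, 396)], []),
    ([(3, 7)], [(4, 55), (5, 202)]),
    ([(6, 493)], [(7, 122)])]]

def d54pp_3 : List (List Col) :=
  [[([(1, 503)], [(2, 86), (3, 8)]),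
    ([(4, 492), (7, 7), (8, 1)], [(5, 103), (6, 31)]),
    ([(4, 140), (5, 340), (6, 122), (9, 1)], [(7, 59), (8, 11)]),
    ([(4, 2), (5, 296), (6, 143)], [(7, 87), (8, 23), (9, 1)]),
    ([(11, 34), (12, 1)], [(10, 334)]),
    ([(10, 367), (12, 40), (13, 10), (14, 5)], [(11, 118), (15, 1)]),
    ([(10, 61), (11, 191)], [(12, 14), (13, 2), (14, 6)]),
    ([(10, 110), (11, 385), (15, 7)], [(12, 56), (13, 50), (14, 46)]),
    ([(11, 20), (12, 388), (13, 129), (14, 10)], [(10, 16), (15, 16)]),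
    ([(10, 2), (11, 224), (12, 175), (13, 11), (15, 4)], [(14, 45)]),
    ([(16, 56), (17, 2)], []),
    ([(17, 28), (18, 5), (19, 1)], [(16, 211)]),
    ([(16, 392), (19, 8)], [(17, 97), (18, 26), (20, 1)]),
    ([(17, 176), (18, 39)], [(16, 126), (19, 1), (20, 1)]),
    ([(16, 179), (17, 154), (20, 2)], [(18, 16), (19, 3)]),
    ([(17, 69), (18, 35), (19, 6)], [(16, 35), (20, 2)]),
    ([(16, 86), (17, 352), (18, 81), (20, 2)], [(19, 62)]),
    ([(21, 9)], []),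
    ([], [(21, 47)]),
    ([], [(21, 3)]),
    ([], [(21, 18)]),
    ([], [])],
   [([(0, 39)], []),
    ([(1, 90)], [(2, 7), (3, 1)]),
    ([(2, 62), (3, 6)], [(1, 322)]),
    ([(1, 381), (3, 14)], [(2, 6)]),
    ([(4, 382), (6, 1)], [(5, 39), (7, 1)]),
    ([(4, 327), (5, 27)], [(6, 33), (7, 4), (8, 3)]),
    ([(7, 8), (8, 4)], [(4, 39), (5, 289), (6, 16), (9, 2)]),
    ([(4, 87), (6, 83), (7, 7), (8, 27)], [(5, 79)]),
    ([], [(4, 17), (5, 150), (6, 229), (7, 54), (8, 5), (9, 7)]),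
    ([(5, 368), (6, 7), (9, 1)], [(4, 3), (7, 103), (8, 2)]),
    ([(12, 2)], [(10, 230), (11, 21)]),
    ([(10, 398), (12, 65), (13, 7), (15, 1)], [(11, 4), (14, 4)]),
    ([(10, 183), (14, 24), (15, 6)], [(11, 202), (12, 36), (13, 3)]),
    ([(12, 164), (13, 40)], [(10, 116), (11, 254), (14, 18), (15, 2)]),
    ([(10, 28), (11, 154), (12, 389), (13, 10)], [(14, 32), (15, 11)]),
    ([(10, 8), (12, 11), (13, 74), (14, 30)], [(11, 342), (15, 5)]),
    ([(10, 50), (11, 12)], [(12, 97), (13, 86), (14, 73), (15, 33)]),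
    ([(17, 23)], [(16, 174), (18, 8)]),
    ([(16, 352), (18, 13), (19, 12), (20, 3)], [(17, 182)]),
    ([(16, 292), (17, 32), (19, 6), (20, 3)], [(18, 50)]),
    ([(16, 32), (20, 4)], [(17, 105), (18, 10), (19, 11)]),
    ([], [(21, 51)])],
   [([], []),
    ([(0, 4)], []),
    ([], [(0, 26)]),
    ([(0, 21)], []),
    ([(1, 47)], []),
    ([(1, 56), (3, 3)], [(2, 4)]),
    ([(1, 369), (3, 2)], [(2, 17)]),
    ([(2, 29)], [(1, 268), (3, 19)]),
    ([(3, 9)], [(1, 122), (2, 30)]),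
    ([(1, 181), (2, 9), (3, 23)], []),
    ([(4, 453), (5, 15)], []),
    ([(4, 226), (5, 48), (8, 2)], [(6, 25), (7, 11)]),
    ([(4, 31), (5, 143), (7, 1), (9, 4)], [(6, 21), (8, 7)]),
    ([(5, 309), (9, 5)], [(4, 66), (6, 73), (7, 46), (8, 1)]),
    ([(4, 1), (8, 20)], [(5, 118), (6, 97), (7, 72), (9, 8)]),
    ([(4, 4), (7, 33)], [(5, 356), (6, 54), (8, 19), (9, 9)]),
    ([(4, 14), (6, 275), (7, 136), (8, 10)], [(9, 15)]),
    ([(10, 468), (11, 74), (12, 81), (14, 2)], [(13, 8)]),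
    ([(10, 197), (13, 23), (14, 25), (15, 13)], [(11, 115), (12, 222)]),
    ([(10, 21), (11, 97), (12, 396), (14, 12)], [(13, 80), (15, 8)]),
    ([(11, 473)], [(10, 33), (12, 143), (13, 62), (14, 8), (15, 10)]),
    ([(16, 482), (18, 33), (19, 15), (20, 10)], [(17, 159)])]]

def d54pp_4 : List (List Col) :=
  [[([(1, 499), (3, 20)], [(2, 108)]),
    ([(4, 481), (5, 77), (6, 57), (9, 2)], [(7, 8), (8, 1)]),
    ([(4, 173), (7, 52)], [(5, 186), (6, 164), (8, 8), (9, 1)]),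
    ([(4, 5), (5, 200), (6, 360), (9, 30)], [(7, 116), (8, 11)]),
    ([(4, 13), (6, 268), (7, 11)], [(5, 417), (8, 21), (9, 16)]),
    ([(10, 452), (11, 22)], []),
    ([(10, 228), (11, 71), (12, 30), (13, 13)], [(14, 2), (15, 3)]),
    ([(10, 17), (16, 7)], [(11, 221), (12, 32), (13, 19), (14, 12), (15, 3)]),
    ([(11, 329), (12, 27), (13, 69), (14, 26)], [(10, 73), (15, 10), (16, 15)]),
    ([(10, 10), (11, 277), (14, 60), (15, 1), (16, 6)], [(12, 201), (13, 42)]),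
    ([(11, 111), (12, 109), (13, 115)], [(10, 2), (14, 24), (15, 47), (16, 8)]),
    ([(17, 62), (18, 1)], []),
    ([(17, 88), (19, 2), (20, 4)], [(18, 9)]),
    ([(17, 379), (19, 31)], [(18, 57), (20, 5)]),
    ([(17, 229), (19, 43), (20, 13)], [(18, 80)]),
    ([(17, 216), (18, 73), (19, 26), (20, 3)], []),
    ([(18, 203)], [(17, 7), (19, 77), (20, 19)]),
    ([(21, 8)], []),
    ([], [(21, 42)]),
    ([(21, 38)], []),
    ([(21, 60)], []),
    ([], [])],
   [([], [(0, 34)]),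
    ([(2, 14)], [(1, 147), (3, 4)]),
    ([(1, 392), (3, 10)], [(2, 114)]),
    ([(1, 273), (2, 46)], [(3, 37)]),
    ([(2, 107)], [(1, 61), (3, 2)]),
    ([(6, 1)], [(4, 233), (5, 27)]),
    ([(4, 419), (6, 45), (7, 3), (8, 2)], [(5, 26), (9, 3)]),
    ([(5, 268), (6, 16), (8, 16)], [(4, 93), (7, 16), (9, 1)]),
    ([(6, 94), (7, 16)], [(4, 150), (5, 156), (8, 13), (9, 27)]),
    ([(4, 19), (5, 268), (9, 4)], [(6, 228), (7, 73), (8, 12)]),
    ([(4, 7), (5, 277), (6, 331), (8, 25)], [(7, 51), (9, 17)]),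
    ([(10, 370), (13, 1)], [(11, 48), (12, 3)]),
    ([(10, 329), (11, 20), (12, 46), (13, 10), (15, 3)], [(14, 2)]),
    ([(12, 37), (16, 1)], [(10, 74), (11, 284), (13, 25), (14, 28), (15, 1)]),
    ([(11, 142), (12, 92), (13, 35), (15, 19)], [(10, 103), (14, 13), (16, 15)]),
    ([(10, 7), (11, 312), (13, 51), (14, 41), (16, 16)], [(12, 270), (15, 3)]),
    ([(14, 77), (15, 10), (16, 29)], [(10, 13), (11, 222), (12, 279), (13, 37)]),
    ([(17, 124)], [(18, 16), (19, 5)]),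
    ([(18, 119), (20, 11)], [(17, 276), (19, 5)]),
    ([(17, 389), (19, 43), (20, 3)], [(18, 34)]),
    ([(17, 22), (20, 21)], [(18, 162), (19, 17)]),
    ([(21, 66)], [])],
   [([], []),
    ([(0, 5)], []),
    ([], [(0, 32)]),
    ([(0, 3)], []),
    ([(0, 20)], []),
    ([(1, 49), (2, 1)], []),
    ([(2, 14), (3, 3)], [(1, 160)]),
    ([(2, 38), (3, 9)], [(1, 359)]),
    ([(2, 89), (3, 24)], [(1, 277)]),
    ([(1, 26)], [(2, 95), (3, 18)]),
    ([(1, 150), (2, 96)], [(3, 14)]),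
    ([(5, 35), (6, 1), (7, 1)], [(4, 343)]),
    ([(4, 354), (6, 29), (7, 12), (8, 1), (9, 2)], [(5, 132)]),
    ([(4, 43), (5, 153), (8, 16), (9, 6)], [(6, 9), (7, 5)]),
    ([(6, 61), (7, 71), (9, 5)], [(4, 128), (5, 366), (8, 29)]),
    ([(4, 20), (5, 140)], [(6, 92), (7, 72), (8, 17), (9, 22)]),
    ([(9, 7)], [(4, 6), (5, 235), (6, 146), (7, 1), (8, 52)]),
    ([(10, 473), (12, 54), (14, 3)], [(11, 141), (13, 5)]),
    ([(10, 190), (11, 303), (13, 74), (14, 28), (15, 7), (16, 16)], [(12, 189)]),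
    ([(11, 222), (13, 78), (15, 14), (16, 18)], [(10, 11), (12, 223), (14, 12)]),
    ([(10, 36), (11, 303), (12, 368), (15, 12)], [(13, 2), (14, 9), (16, 49)]),
    ([(17, 483)], [(18, 156), (19, 10), (20, 10)])]]

def d54pp_5 : List (List Col) :=
  [[([(1, 495), (4, 17)], [(2, 119), (3, 7)]),
    ([(5, 482), (10, 1)], [(6, 120), (7, 50), (8, 9)]),
    ([(5, 171), (6, 310), (7, 154), (8, 76), (10, 10)], [(9, 21)]),
    ([(6, 268), (7, 187), (8, 104)], [(5, 1), (9, 19), (10, 16)]),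
    ([(7, 417), (8, 22), (9, 34), (10, 3)], [(5, 13), (6, 260)]),
    ([(11, 361), (14, 1)], [(12, 38), (13, 2)]),
    ([(11, 334), (13, 40), (15, 2)], [(12, 137), (14, 16), (16, 2)]),
    ([(13, 17), (15, 9), (16, 5)], [(11, 68), (12, 189), (14, 13)]),
    ([(13, 73), (15, 33)], [(11, 123), (12, 357), (14, 98), (16, 7)]),
    ([(11, 6), (12, 36), (14, 121), (15, 10), (16, 32)], [(13, 249)]),
    ([(11, 2), (12, 248), (13, 274)], [(14, 27), (15, 57), (16, 6)]),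
    ([(17, 55), (18, 2)], []),
    ([(18, 24), (19, 4), (20, 3)], [(17, 173)]),
    ([(17, 372), (20, 13)], [(18, 82), (19, 23)]),
    ([(17, 194)], [(18, 161), (19, 42)]),
    ([(17, 186), (18, 140)], [(19, 13), (20, 2)]),
    ([(17, 78)], [(18, 45), (19, 31), (20, 16)]),
    ([(21, 9)], []),
    ([], [(21, 47)]),
    ([], [(21, 9)]),
    ([], [(21, 24)]),
    ([], [])],
   [([(0, 50)], []),
    ([(1, 114)], [(2, 12), (3, 3)]),
    ([(2, 90)], [(1, 311), (3, 2), (4, 18)]),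
    ([(1, 376), (3, 33), (4, 1)], [(2, 20)]),
    ([(2, 126), (3, 9), (4, 34)], [(1, 18)]),
    ([(6, 46)], [(5, 354), (7, 2), (8, 1)]),
    ([(5, 348), (6, 33), (8, 6)], [(7, 47), (9, 3), (10, 3)]),
    ([(5, 45), (6, 286), (7, 22), (8, 19), (10, 13)], [(9, 15)]),
    ([(6, 83), (8, 26)], [(5, 117), (7, 112), (9, 27), (10, 17)]),
    ([(5, 7), (6, 277), (7, 253), (8, 2), (10, 20)], [(9, 11)]),
    ([(6, 277), (8, 130), (9, 4), (10, 1)], [(5, 5), (7, 128)]),
    ([(13, 2), (14, 1)], [(11, 246), (12, 31)]),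
    ([(11, 403), (13, 66), (16, 2)], [(12, 23), (14, 6), (15, 5)]),
    ([(11, 122), (15, 25), (16, 10)], [(12, 255), (13, 38), (14, 22)]),
    ([(11, 145), (12, 208), (14, 35), (15, 29)], [(13, 156), (16, 5)]),
    ([(11, 23), (12, 97), (13, 392), (14, 16)], [(15, 42), (16, 26)]),
    ([(12, 349), (13, 8), (14, 107), (16, 4)], [(11, 2), (15, 17)]),
    ([(18, 23)], [(17, 160), (19, 7)]),
    ([(17, 323), (19, 11), (20, 19)], [(18, 177)]),
    ([(17, 318), (18, 18), (20, 7)], [(19, 47)]),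
    ([(17, 87)], [(18, 113), (19, 11), (20, 19)]),
    ([], [(21, 56)])],
   [([], []),
    ([(0, 6)], []),
    ([], [(0, 34)]),
    ([(0, 26)], []),
    ([], [(0, 35)]),
    ([], [(1, 56), (2, 1)]),
    ([(1, 77), (3, 2)], [(2, 7), (4, 4)]),
    ([(2, 33)], [(1, 367), (3, 19), (4, 13)]),
    ([(1, 254), (3, 31)], [(2, 57), (4, 9)]),
    ([(1, 201), (2, 34), (3, 23), (4, 12)], []),
    ([(1, 96), (3, 23)], [(2, 29), (4, 33)]),
    ([(5, 444), (6, 21)], []),
    ([(5, 239), (6, 76), (8, 13), (9, 4), (10, 1)], [(7, 34)]),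
    ([(6, 180), (8, 9), (10, 5)], [(5, 5), (7, 32), (9, 13)]),
    ([(5, 86), (7, 80), (9, 3)], [(6, 295), (8, 69), (10, 17)]),
    ([(5, 1), (8, 70), (9, 45)], [(6, 131), (7, 130), (10, 13)]),
    ([(6, 335), (7, 57), (8, 46), (9, 15), (10, 36)], [(5, 3)]),
    ([(11, 470), (12, 89), (13, 85), (14, 10), (15, 4)], []),
    ([(11, 194), (15, 21), (16, 23)], [(12, 156), (13, 239), (14, 65)]),
    ([(11, 26), (12, 47), (13, 382), (14, 92), (15, 28)], [(16, 19)]),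
    ([(12, 462), (14, 74), (15, 9)], [(11, 28), (13, 143), (16, 22)]),
    ([(17, 478), (19, 31), (20, 18)], [(18, 171)])]]

def d54pp_6 : List (List Col) :=
  [[([(1, 490), (3, 25)], [(2, 137), (4, 15)]),
    ([(5, 475), (7, 73)], [(6, 91), (8, 11), (9, 3), (10, 1)]),
    ([(7, 196), (9, 7)], [(5, 185), (6, 201), (8, 74), (10, 8)]),
    ([(5, 15), (6, 11), (7, 419)], [(8, 101), (9, 34), (10, 7)]),
    ([(5, 11), (6, 447), (7, 107), (8, 77), (9, 3), (10, 38)], []),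
    ([(11, 441), (12, 25), (14, 1)], []),
    ([(14, 15), (15, 2)], [(11, 242), (12, 89), (13, 38), (16, 4)]),
    ([(11, 30), (14, 22), (16, 4)], [(12, 207), (13, 35), (15, 13)]),
    ([(11, 87), (14, 89)], [(12, 301), (13, 63), (15, 20), (16, 15)]),
    ([(13, 210)], [(11, 4), (12, 285), (14, 39), (15, 61), (16, 2)]),
    ([(12, 163), (13, 82), (16, 51)], [(11, 1), (14, 104), (15, 14)]),
    ([(17, 61), (18, 1)], []),
    ([(17, 92), (19, 1), (20, 6)], [(18, 10)]),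
    ([(17, 370), (19, 31)], [(18, 60), (20, 8)]),
    ([(17, 228), (19, 38), (20, 19)], [(18, 92)]),
    ([(17, 225), (18, 46), (19, 35), (20, 6)], []),
    ([(17, 18), (19, 19), (20, 45)], [(18, 104)]),
    ([(21, 8)], []),
    ([], [(21, 41)]),
    ([(21, 33)], []),
    ([(21, 44)], []),
    ([], [])],
   [([], [(0, 46)]),
    ([(1, 149), (3, 5)], [(2, 18)]),
    ([(1, 351), (3, 11)], [(2, 135), (4, 18)]),
    ([(3, 39), (4, 15)], [(1, 264), (2, 61)]),
    ([(1, 180), (4, 18)], [(2, 98), (3, 16)]),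
    ([(5, 250), (8, 1)], [(6, 34), (7, 1)]),
    ([(5, 408), (6, 34), (7, 57), (8, 4), (9, 4), (10, 3)], []),
    ([(5, 82), (6, 278), (8, 27), (10, 7)], [(7, 22), (9, 19)]),
    ([(6, 161), (7, 132), (8, 30), (9, 7), (10, 32)], [(5, 157)]),
    ([(5, 2), (10, 5)], [(6, 171), (7, 291), (8, 69), (9, 18)]),
    ([(6, 329), (8, 85)], [(5, 8), (7, 255), (9, 26), (10, 5)]),
    ([(11, 345)], [(12, 49), (13, 3), (14, 1)]),
    ([(11, 351), (12, 31), (13, 54)], [(14, 10), (15, 2), (16, 4)]),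
    ([(13, 36), (14, 33)], [(11, 61), (12, 282), (15, 29)]),
    ([(12, 108), (13, 121)], [(11, 125), (14, 38), (15, 11), (16, 28)]),
    ([(11, 1), (12, 312), (15, 37), (16, 7)], [(13, 265), (14, 60)]),
    ([(11, 6), (12, 221), (13, 251), (16, 5)], [(14, 108), (15, 33)]),
    ([(17, 128)], [(18, 17), (19, 5), (20, 1)]),
    ([(18, 127), (20, 18)], [(17, 287), (19, 5)]),
    ([(17, 378), (19, 45), (20, 6)], [(18, 37)]),
    ([(17, 27), (20, 32)], [(18, 141), (19, 23)]),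
    ([(21, 63)], [])],
   [([], []),
    ([], [(0, 7)]),
    ([], [(0, 39)]),
    ([], [(0, 2)]),
    ([], [(0, 24)]),
    ([(1, 53), (2, 1)], []),
    ([(1, 150), (4, 2)], [(2, 17), (3, 4)]),
    ([(2, 49), (3, 14), (4, 15)], [(1, 357)]),
    ([(1, 261), (4, 1)], [(2, 113), (3, 33)]),
    ([(1, 40), (2, 103), (3, 10)], [(4, 19)]),
    ([(1, 176), (2, 49), (4, 3)], [(3, 27)]),
    ([(5, 369), (6, 37)], [(7, 2), (8, 1)]),
    ([(10, 3)], [(5, 325), (6, 140), (7, 37), (8, 15)]),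
    ([(6, 175), (7, 17), (8, 14), (10, 12)], [(5, 58), (9, 14)]),
    ([(5, 129), (9, 29)], [(6, 348), (7, 83), (8, 100)]),
    ([(6, 90), (7, 130), (8, 91), (9, 11)], [(5, 8), (10, 34)]),
    ([(6, 264)], [(5, 5), (7, 227), (8, 22), (9, 47), (10, 2)]),
    ([(11, 473), (13, 63), (14, 9), (15, 3), (16, 1)], [(12, 133)]),
    ([(11, 189), (12, 284), (15, 29)], [(13, 189), (14, 92), (16, 7)]),
    ([(12, 219)], [(11, 9), (13, 235), (14, 106), (15, 14), (16, 20)]),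
    ([(11, 26), (12, 316), (13, 369), (15, 9)], [(14, 13), (16, 26)]),
    ([(17, 482)], [(18, 160), (19, 12), (20, 19)])]]

def d54pp_7 : List (List Col) :=
  [[([(1, 490), (2, 137), (4, 25)], [(3, 3)]),
    ([(5, 477), (6, 123), (8, 11), (9, 1), (10, 2)], [(7, 62)]),
    ([(5, 183), (7, 170), (9, 23), (10, 6)], [(6, 290), (8, 90)]),
    ([(5, 4), (6, 248), (8, 116), (10, 27)], [(7, 211), (9, 9)]),
    ([(6, 291), (7, 396), (10, 7)], [(5, 14), (8, 5), (9, 37)]),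
    ([(11, 378), (14, 1)], [(12, 38), (13, 2)]),
    ([(11, 313), (13, 42), (15, 1), (16, 3)], [(12, 141), (14, 18)]),
    ([(11, 70), (12, 192), (14, 20), (16, 10)], [(13, 21), (15, 11)]),
    ([(11, 124), (12, 337), (14, 114)], [(13, 86), (15, 30), (16, 2)]),
    ([(11, 1), (12, 42), (14, 116), (15, 8)], [(13, 206), (16, 36)]),
    ([(11, 4), (12, 271), (13, 245), (16, 1)], [(14, 17), (15, 53)]),
    ([(17, 56), (18, 2)], []),
    ([(18, 21), (19, 4), (20, 3)], [(17, 152)]),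
    ([(17, 362), (20, 17)], [(18, 68), (19, 21)]),
    ([(17, 227)], [(18, 142), (19, 40), (20, 4)]),
    ([(17, 166), (18, 122), (20, 11)], [(19, 13)]),
    ([(18, 31), (19, 32), (20, 20)], [(17, 118)]),
    ([(21, 8)], []),
    ([(21, 46)], []),
    ([], [(21, 7)]),
    ([], [(21, 28)]),
    ([], [])],
   [([], [(0, 55)]),
    ([(3, 4)], [(1, 125), (2, 15), (4, 2)]),
    ([(1, 305), (2, 107), (3, 10), (4, 22)], []),
    ([(1, 372), (2, 29), (3, 37)], [(4, 14)]),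
    ([(1, 21), (2, 126)], [(3, 29), (4, 30)]),
    ([(8, 1)], [(5, 335), (6, 48), (7, 2)]),
    ([(5, 360), (9, 2)], [(6, 38), (7, 54), (8, 7), (10, 4)]),
    ([(6, 285), (8, 29)], [(5, 46), (7, 26), (9, 21), (10, 13)]),
    ([(5, 133), (6, 85), (7, 129), (8, 35), (10, 24)], [(9, 21)]),
    ([(5, 1), (7, 259), (9, 16), (10, 20)], [(6, 294), (8, 29)]),
    ([], [(5, 1), (6, 255), (7, 188), (8, 127), (9, 9)]),
    ([(13, 1), (14, 1)], [(11, 258), (12, 37)]),
    ([(11, 401), (13, 66)], [(12, 33), (14, 6), (15, 5), (16, 3)]),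
    ([(11, 90), (15, 22)], [(12, 274), (13, 34), (14, 31), (16, 12)]),
    ([(11, 156), (12, 174), (14, 37), (15, 24), (16, 20)], [(13, 155)]),
    ([(11, 16), (12, 50), (13, 386), (14, 2), (16, 16)], [(15, 33)]),
    ([(15, 16), (16, 3)], [(12, 360), (13, 43), (14, 118)]),
    ([(18, 22)], [(17, 153), (19, 7)]),
    ([(18, 161)], [(17, 319), (19, 11), (20, 22)]),
    ([(17, 306), (18, 30), (20, 14)], [(19, 45)]),
    ([(17, 146)], [(18, 115), (19, 14), (20, 24)]),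
    ([], [(21, 56)])],
   [([], []),
    ([(0, 7)], []),
    ([], [(0, 37)]),
    ([], [(0, 28)]),
    ([], [(0, 34)]),
    ([(1, 58)], [(2, 1)]),
    ([(4, 6)], [(1, 89), (2, 10)]),
    ([], [(1, 362), (2, 43), (3, 27), (4, 7)]),
    ([(1, 248), (2, 76), (3, 27)], [(4, 23)]),
    ([(2, 29), (4, 5)], [(1, 215), (3, 35)]),
    ([(4, 48)], [(1, 60), (2, 54)]),
    ([(5, 437), (7, 1), (8, 1)], [(6, 25)]),
    ([(5, 248), (10, 2)], [(6, 95), (7, 39), (8, 15), (9, 5)]),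
    ([(9, 15), (10, 5)], [(5, 27), (6, 194), (7, 35), (8, 17)]),
    ([(5, 95), (6, 289), (7, 87), (8, 86)], [(9, 6), (10, 22)]),
    ([(5, 1), (6, 167)], [(7, 176), (8, 66), (9, 52), (10, 13)]),
    ([(5, 2), (6, 305), (8, 65), (9, 17)], [(7, 30), (10, 44)]),
    ([(11, 470), (12, 98), (13, 84), (14, 12), (15, 4)], []),
    ([(12, 188), (13, 227), (14, 83), (16, 17)], [(11, 194), (15, 12)]),
    ([(11, 24), (12, 4), (13, 393), (14, 96), (15, 35), (16, 5)], []),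
    ([(12, 447), (14, 83), (15, 13), (16, 35)], [(11, 19), (13, 131)]),
    ([(17, 480), (19, 29), (20, 20)], [(18, 166)])]]

def d54pp_8 : List (List Col) :=
  [[([(1, 486)], [(2, 148), (3, 27), (4, 20)]),
    ([(5, 473), (8, 13)], [(6, 99), (7, 79), (9, 3), (10, 1)]),
    ([(8, 87), (9, 6)], [(5, 191), (6, 213), (7, 203), (10, 13)]),
    ([(7, 424), (9, 36)], [(5, 18), (6, 92), (8, 86), (10, 6)]),
    ([(5, 7), (6, 426), (9, 15), (10, 40)], [(7, 46), (8, 100)]),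
    ([(11, 434), (12, 27), (14, 1)], [(13, 1)]),
    ([(14, 16), (15, 3), (16, 4)], [(11, 250), (12, 103), (13, 42)]),
    ([(11, 40), (14, 24)], [(12, 204), (13, 37), (15, 15), (16, 2)]),
    ([(11, 96), (14, 99), (16, 20)], [(12, 290), (13, 83), (15, 17)]),
    ([(13, 213), (16, 8)], [(12, 277), (14, 39), (15, 56)]),
    ([(12, 187), (13, 78)], [(14, 103), (15, 15), (16, 51)]),
    ([(17, 60)], [(18, 1)]),
    ([(17, 97), (18, 12), (20, 6)], []),
    ([(17, 363), (18, 57), (19, 31)], [(20, 9)]),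
    ([(17, 235), (18, 94), (19, 32), (20, 23)], []),
    ([(18, 31)], [(17, 225), (19, 39), (20, 9)]),
    ([(17, 25), (18, 83), (19, 2), (20, 50)], []),
    ([(21, 8)], []),
    ([], [(21, 41)]),
    ([(21, 29)], []),
    ([(21, 37)], []),
    ([], [])],
   [([(0, 51)], []),
    ([(1, 148)], [(2, 19), (3, 6)]),
    ([(1, 331)], [(2, 139), (3, 12), (4, 23)]),
    ([(1, 241), (2, 68), (3, 37)], [(4, 23)]),
    ([(1, 235), (3, 24), (4, 18)], [(2, 98)]),
    ([(5, 262), (7, 1)], [(6, 39), (8, 1)]),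
    ([(5, 402), (6, 39), (9, 5), (10, 3)], [(7, 62), (8, 5)]),
    ([(5, 71), (6, 283), (7, 25), (10, 11)], [(8, 33), (9, 19)]),
    ([(6, 149), (9, 13), (10, 30)], [(5, 160), (7, 147), (8, 36)]),
    ([(7, 317), (8, 63), (10, 7)], [(5, 6), (6, 121), (9, 17)]),
    ([(6, 349), (7, 203)], [(5, 6), (8, 98), (9, 23), (10, 3)]),
    ([(11, 328)], [(12, 49), (13, 2), (14, 1)]),
    ([(11, 363), (12, 37), (13, 58), (16, 5)], [(14, 9), (15, 1)]),
    ([(13, 33), (14, 36), (16, 2)], [(11, 53), (12, 283), (15, 28)]),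
    ([(12, 97), (13, 135), (16, 31)], [(11, 138), (14, 39), (15, 3)]),
    ([(11, 2), (13, 264), (14, 56), (16, 11)], [(12, 307), (15, 29)]),
    ([(11, 5), (12, 232), (13, 238)], [(14, 116), (15, 18), (16, 3)]),
    ([(17, 132), (18, 17)], [(19, 5), (20, 2)]),
    ([(20, 23)], [(17, 294), (18, 126), (19, 7)]),
    ([(17, 371), (18, 34), (19, 44), (20, 10)], []),
    ([(17, 33), (18, 132), (20, 34)], [(19, 28)]),
    ([(21, 61)], [])],
   [([], []),
    ([(0, 7)], []),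
    ([(0, 42)], []),
    ([], [(0, 3)]),
    ([(0, 28)], []),
    ([(1, 55), (2, 1)], []),
    ([(1, 141), (3, 4), (4, 3)], [(2, 17)]),
    ([(2, 53), (4, 19)], [(1, 355), (3, 16)]),
    ([(1, 254), (3, 36), (4, 2)], [(2, 118)]),
    ([(1, 71), (2, 100)], [(3, 4), (4, 26)]),
    ([(1, 182), (2, 20), (3, 34), (4, 6)], []),
    ([(5, 384), (6, 37), (7, 2), (8, 1)], []),
    ([(7, 41), (8, 17), (10, 4)], [(5, 307), (6, 142)]),
    ([(6, 187), (10, 12)], [(5, 65), (7, 23), (8, 20), (9, 14)]),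
    ([(5, 126), (7, 94), (8, 113), (9, 29), (10, 1)], [(6, 330)]),
    ([(5, 1), (7, 160), (8, 103), (10, 38)], [(6, 64), (9, 8)]),
    ([(6, 281), (7, 215), (8, 12)], [(5, 6), (9, 47), (10, 3)]),
    ([(11, 473), (13, 69), (14, 12), (15, 3)], [(12, 127), (16, 2)]),
    ([(11, 191), (12, 275), (15, 27), (16, 6)], [(13, 187), (14, 99)]),
    ([(12, 216), (16, 26)], [(11, 8), (13, 243), (14, 118), (15, 14)]),
    ([(11, 20), (12, 324), (13, 365), (15, 22), (16, 27)], [(14, 15)]),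
    ([(17, 483), (18, 157)], [(19, 10), (20, 26)])]]

def d54pp_9 : List (List Col) :=
  [[([(1, 487), (2, 146), (4, 29)], []),
    ([(5, 474), (6, 123), (8, 13), (9, 1), (10, 3)], [(7, 69)]),
    ([(5, 189), (7, 178), (9, 23), (10, 2)], [(6, 278), (8, 97)]),
    ([(5, 6), (6, 233), (8, 124), (10, 32)], [(7, 228), (9, 2)]),
    ([(6, 311), (7, 380), (8, 5), (10, 10)], [(5, 14), (9, 39)]),
    ([(11, 389), (14, 1)], [(12, 37), (13, 2)]),
    ([(11, 300), (13, 43), (16, 4)], [(12, 142), (14, 18), (15, 1)]),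
    ([(11, 70), (12, 195), (14, 24), (15, 12), (16, 11)], [(13, 25)]),
    ([(11, 122), (12, 322), (14, 120), (15, 30)], [(13, 96), (16, 2)]),
    ([(12, 35), (14, 114)], [(11, 3), (13, 198), (15, 8), (16, 39)]),
    ([(11, 5), (12, 287), (13, 211), (15, 50)], [(14, 4), (16, 3)]),
    ([(17, 56), (18, 2)], []),
    ([(18, 19), (19, 4), (20, 4)], [(17, 140)]),
    ([(17, 356), (20, 20)], [(18, 61), (19, 20)]),
    ([(17, 241)], [(18, 129), (19, 38), (20, 5)]),
    ([(17, 141), (18, 106), (20, 22)], [(19, 11)]),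
    ([(18, 22), (19, 35), (20, 19)], [(17, 150)]),
    ([(21, 8)], []),
    ([(21, 44)], []),
    ([], [(21, 3)]),
    ([(21, 32)], []),
    ([], [])],
   [([], [(0, 57)]),
    ([], [(1, 131), (2, 16), (3, 4), (4, 3)]),
    ([(1, 303), (2, 116), (4, 23)], [(3, 14)]),
    ([(1, 368), (2, 31)], [(3, 37), (4, 21)]),
    ([(1, 25), (2, 126), (3, 35)], [(4, 25)]),
    ([(8, 1)], [(5, 322), (6, 49), (7, 2)]),
    ([(5, 368), (9, 2)], [(6, 41), (7, 59), (8, 8), (10, 5)]),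
    ([(6, 285), (8, 35)], [(5, 46), (7, 27), (9, 23), (10, 12)]),
    ([(5, 143), (6, 88), (7, 139), (8, 38), (10, 27)], [(9, 18)]),
    ([(7, 265), (9, 16), (10, 19)], [(5, 3), (6, 291), (8, 40)]),
    ([(5, 2), (10, 1)], [(6, 255), (7, 208), (8, 122), (9, 10)]),
    ([(13, 1), (14, 1)], [(11, 267), (12, 41)]),
    ([(11, 398), (13, 66), (15, 5)], [(12, 40), (14, 6), (16, 3)]),
    ([(11, 73)], [(12, 281), (13, 30), (14, 36), (15, 21), (16, 14)]),
    ([(11, 160), (12, 150), (14, 39), (16, 25)], [(13, 155), (15, 20)]),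
    ([(11, 13), (12, 2), (13, 370), (15, 25), (16, 11)], [(14, 22)]),
    ([(16, 3)], [(11, 2), (12, 368), (13, 83), (14, 118), (15, 17)]),
    ([(18, 21)], [(17, 149), (19, 7)]),
    ([(18, 150)], [(17, 316), (19, 10), (20, 25)]),
    ([(17, 278), (18, 47), (20, 21)], [(19, 42)]),
    ([(18, 113), (19, 19), (20, 24)], [(17, 204)]),
    ([], [(21, 56)])],
   [([], []),
    ([(0, 7)], []),
    ([], [(0, 39)]),
    ([], [(0, 28)]),
    ([], [(0, 32)]),
    ([(1, 59)], [(2, 1)]),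
    ([(4, 6)], [(1, 97), (2, 12), (3, 1)]),
    ([(3, 30)], [(1, 359), (2, 48), (4, 4)]),
    ([(1, 246), (2, 87)], [(3, 23), (4, 28)]),
    ([(2, 25), (3, 37), (4, 13)], [(1, 218)]),
    ([(4, 48)], [(1, 47), (2, 67), (3, 12)]),
    ([(5, 431), (7, 1), (8, 1)], [(6, 28)]),
    ([(5, 254), (10, 3)], [(6, 108), (7, 42), (8, 16), (9, 5)]),
    ([(9, 16), (10, 5)], [(5, 41), (6, 199), (7, 37), (8, 22)]),
    ([(5, 101), (6, 286), (7, 95), (8, 99)], [(9, 7), (10, 25)]),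
    ([(5, 3), (6, 209)], [(7, 205), (8, 59), (9, 51), (10, 17)]),
    ([(5, 1), (6, 268), (7, 11), (8, 83), (9, 22)], [(10, 45)]),
    ([(11, 470), (12, 104), (13, 84), (14, 14)], [(15, 4)]),
    ([(12, 210), (13, 215), (14, 92), (15, 8), (16, 17)], [(11, 195)]),
    ([(11, 21), (13, 409), (14, 92)], [(12, 52), (15, 37), (16, 5)]),
    ([(11, 11), (13, 93), (15, 17)], [(12, 431), (14, 96), (16, 40)]),
    ([(17, 481), (19, 28), (20, 23)], [(18, 162)])]]

def d54pp_10 : List (List Col) :=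
  [[([(1, 484)], [(2, 153), (3, 27), (4, 23)]),
    ([(5, 472), (8, 14)], [(6, 105), (7, 81), (9, 4), (10, 1)]),
    ([(8, 95), (9, 5)], [(5, 194), (6, 223), (7, 203), (10, 16)]),
    ([(7, 426), (9, 35)], [(5, 18), (6, 145), (8, 73), (10, 14)]),
    ([(5, 3), (6, 402), (9, 22), (10, 40)], [(7, 2), (8, 114)]),
    ([(11, 428), (12, 29), (14, 1)], [(13, 1)]),
    ([(14, 16), (15, 4), (16, 4)], [(11, 256), (12, 112), (13, 44)]),
    ([(11, 48), (14, 26), (16, 1)], [(12, 203), (13, 37), (15, 16)]),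
    ([(11, 102), (14, 106), (16, 23)], [(12, 286), (13, 95), (15, 14)]),
    ([(11, 3), (13, 216), (16, 16)], [(12, 271), (14, 39), (15, 52)]),
    ([(11, 1), (12, 194), (13, 79)], [(14, 103), (15, 21), (16, 49)]),
    ([(17, 59)], [(18, 1)]),
    ([(17, 101), (18, 13)], [(19, 1), (20, 7)]),
    ([(17, 359), (18, 54), (19, 31), (20, 7)], []),
    ([(17, 241), (18, 96), (19, 27)], [(20, 27)]),
    ([(17, 222), (19, 39)], [(18, 25), (20, 13)]),
    ([(17, 30), (18, 79)], [(19, 8), (20, 50)]),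
    ([(21, 8)], []),
    ([], [(21, 41)]),
    ([(21, 27)], []),
    ([(21, 34)], []),
    ([], [])],
   [([(0, 54)], []),
    ([(1, 147)], [(2, 20), (3, 6)]),
    ([(1, 320)], [(2, 139), (3, 11), (4, 27)]),
    ([(1, 211), (2, 77), (3, 34)], [(4, 29)]),
    ([(1, 273), (3, 28), (4, 17)], [(2, 95)]),
    ([(5, 270), (7, 1)], [(6, 42), (8, 1)]),
    ([(5, 397), (6, 43), (9, 5), (10, 4)], [(7, 64), (8, 5)]),
    ([(5, 63), (6, 285), (7, 26), (10, 13)], [(8, 37), (9, 20)]),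
    ([(6, 136), (9, 15), (10, 30)], [(5, 161), (7, 153), (8, 39)]),
    ([(7, 327), (8, 60), (10, 8)], [(5, 9), (6, 97), (9, 16)]),
    ([(6, 359), (7, 171)], [(5, 5), (8, 103), (9, 20), (10, 3)]),
    ([(11, 317)], [(12, 49), (13, 2), (14, 1)]),
    ([(11, 370), (12, 41), (13, 61), (16, 6)], [(14, 8)]),
    ([(13, 30), (14, 38), (16, 5)], [(11, 49), (12, 284), (15, 27)]),
    ([(12, 94), (13, 143), (15, 5), (16, 32)], [(11, 146), (14, 41)]),
    ([(12, 297), (15, 22)], [(11, 4), (13, 267), (14, 52), (16, 14)]),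
    ([(11, 5), (12, 244), (13, 229)], [(14, 116), (15, 13), (16, 3)]),
    ([(17, 134), (18, 18), (20, 3)], [(19, 5)]),
    ([], [(17, 298), (18, 125), (19, 11), (20, 26)]),
    ([(17, 367), (18, 31), (19, 43)], [(20, 16)]),
    ([(17, 39), (18, 129)], [(19, 32), (20, 30)]),
    ([(21, 59)], [])],
   [([], []),
    ([(0, 8)], []),
    ([(0, 42)], []),
    ([], [(0, 6)]),
    ([(0, 31)], []),
    ([(1, 56), (2, 1)], []),
    ([(1, 134), (3, 4), (4, 4)], [(2, 17)]),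
    ([(2, 54), (4, 22)], [(1, 353), (3, 17)]),
    ([(1, 252), (3, 36), (4, 4)], [(2, 118)]),
    ([(1, 85), (2, 96)], [(4, 31)]),
    ([(1, 185), (2, 2), (3, 37), (4, 9)], []),
    ([(5, 393), (6, 37), (7, 2), (8, 1)], []),
    ([(7, 43), (8, 18), (10, 4)], [(5, 295), (6, 141)]),
    ([(6, 194), (10, 12)], [(5, 68), (7, 27), (8, 24), (9, 14)]),
    ([(5, 122), (7, 101), (8, 120), (9, 29), (10, 3)], [(6, 316)]),
    ([(5, 3), (6, 44), (9, 9)], [(7, 179), (8, 108), (10, 40)]),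
    ([(6, 293), (7, 195)], [(5, 6), (9, 47), (10, 6)]),
    ([(11, 472), (13, 73), (14, 13), (15, 2)], [(12, 124), (16, 2)]),
    ([(11, 192), (12, 269), (15, 24), (16, 6)], [(13, 187), (14, 102)]),
    ([(12, 210), (16, 32)], [(11, 8), (13, 251), (14, 125), (15, 12)]),
    ([(11, 16), (12, 332), (13, 359), (15, 32), (16, 23)], [(14, 17)]),
    ([(17, 483), (18, 155), (20, 31)], [(19, 5)])]]

def d54pp_11 : List (List Col) :=
  [[([(1, 485), (2, 151), (4, 32)], [(3, 4)]),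
    ([(5, 473), (6, 122), (8, 14), (9, 1), (10, 3)], [(7, 73)]),
    ([(5, 192), (7, 183), (9, 23)], [(6, 269), (8, 102), (10, 1)]),
    ([(5, 7), (6, 218), (8, 128), (9, 2), (10, 36)], [(7, 245)]),
    ([(6, 327), (7, 365), (8, 12), (10, 12)], [(5, 13), (9, 40)]),
    ([(11, 396), (14, 1)], [(12, 36), (13, 2)]),
    ([(11, 291), (13, 44), (15, 1), (16, 4)], [(12, 141), (14, 18)]),
    ([(11, 70), (12, 198), (14, 26), (16, 12)], [(13, 29), (15, 13)]),
    ([(11, 120), (12, 311), (14, 123)], [(13, 102), (15, 29), (16, 3)]),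
    ([(12, 23), (14, 113), (15, 9)], [(11, 5), (13, 200), (16, 41)]),
    ([(11, 5), (12, 298), (13, 186), (14, 7)], [(15, 48), (16, 7)]),
    ([(17, 57), (18, 2)], []),
    ([(18, 18), (19, 4), (20, 5)], [(17, 132)]),
    ([(17, 354), (20, 22)], [(18, 57), (19, 19)]),
    ([(17, 246)], [(18, 121), (19, 37), (20, 6)]),
    ([(17, 121), (18, 96), (20, 30)], [(19, 9)]),
    ([(18, 19), (19, 38), (20, 17)], [(17, 169)]),
    ([(21, 8)], []),
    ([(21, 43)], []),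
    ([(21, 2)], []),
    ([(21, 33)], []),
    ([], [])],
   [([], [(0, 58)]),
    ([], [(1, 134), (2, 17), (3, 3), (4, 4)]),
    ([(1, 302), (2, 121), (4, 24)], [(3, 18)]),
    ([(1, 365), (2, 30)], [(3, 36), (4, 26)]),
    ([(1, 34), (2, 127), (3, 38)], [(4, 21)]),
    ([(8, 1)], [(5, 313), (6, 49), (7, 2)]),
    ([(5, 373), (9, 2)], [(6, 43), (7, 62), (8, 7), (10, 5)]),
    ([(6, 285), (8, 38)], [(5, 45), (7, 27), (9, 24), (10, 11)]),
    ([(5, 149), (6, 90), (7, 145), (8, 40), (10, 28)], [(9, 17)]),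
    ([(7, 273), (9, 15), (10, 18)], [(5, 5), (6, 283), (8, 42)]),
    ([(5, 4), (10, 2)], [(6, 261), (7, 210), (8, 119), (9, 9)]),
    ([(13, 1), (14, 1)], [(11, 273), (12, 43)]),
    ([(11, 395), (13, 66)], [(12, 43), (14, 6), (15, 5), (16, 4)]),
    ([(11, 62), (15, 20)], [(12, 284), (13, 28), (14, 39), (16, 14)]),
    ([(11, 161), (12, 134), (14, 41), (15, 18), (16, 28)], [(13, 156)]),
    ([(11, 12), (13, 355), (16, 9)], [(12, 31), (14, 39), (15, 20)]),
    ([(15, 17), (16, 4)], [(11, 3), (12, 370), (13, 108), (14, 114)]),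
    ([(18, 20)], [(17, 147), (19, 6), (20, 1)]),
    ([(18, 143)], [(17, 314), (19, 10), (20, 28)]),
    ([(17, 237), (18, 66), (20, 27)], [(19, 39)]),
    ([(18, 106), (19, 25), (20, 22)], [(17, 256)]),
    ([], [(21, 57)])],
   [([], []),
    ([(0, 8)], []),
    ([], [(0, 40)]),
    ([], [(0, 27)]),
    ([], [(0, 31)]),
    ([(1, 59)], [(2, 1)]),
    ([(4, 6)], [(1, 102), (2, 13), (3, 2)]),
    ([(3, 31)], [(1, 356), (2, 50), (4, 1)]),
    ([(1, 246), (2, 94)], [(3, 19), (4, 31)]),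
    ([(2, 24), (3, 36), (4, 19)], [(1, 218)]),
    ([(4, 46)], [(1, 44), (2, 73), (3, 19)]),
    ([(5, 426), (7, 1), (8, 1)], [(6, 30)]),
    ([(5, 258), (10, 3)], [(6, 116), (7, 44), (8, 16), (9, 5)]),
    ([(9, 16), (10, 5)], [(5, 50), (6, 201), (7, 37), (8, 25)]),
    ([(5, 104), (6, 285), (7, 100), (8, 107)], [(9, 8), (10, 26)]),
    ([(5, 4), (6, 235)], [(7, 218), (8, 52), (9, 48), (10, 21)]),
    ([(6, 237), (7, 43), (8, 94), (9, 26)], [(10, 45)]),
    ([(11, 471), (12, 107), (13, 83), (14, 14), (15, 4)], []),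
    ([(12, 224), (13, 207), (14, 98), (16, 18)], [(11, 195), (15, 6)]),
    ([(11, 20), (13, 422), (14, 79), (15, 36)], [(12, 114), (16, 13)]),
    ([(11, 5), (13, 39)], [(12, 409), (14, 110), (15, 21), (16, 41)]),
    ([(17, 482), (19, 27), (20, 25)], [(18, 159)])]]

def d54pp_12 : List (List Col) :=
  [[([(1, 483)], [(2, 155), (3, 27), (4, 25)]),
    ([(5, 471), (8, 15)], [(6, 108), (7, 82), (9, 4), (10, 1)]),
    ([(8, 99), (9, 5)], [(5, 195), (6, 231), (7, 200), (10, 18)]),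
    ([(7, 426), (9, 34)], [(5, 18), (6, 177), (8, 63), (10, 19)]),
    ([(5, 1), (6, 381), (7, 29), (9, 25), (10, 40)], [(8, 122)]),
    ([(11, 424), (12, 30), (14, 1)], [(13, 1)]),
    ([(14, 17), (15, 4), (16, 4)], [(11, 260), (12, 119), (13, 45)]),
    ([(11, 54), (14, 27), (16, 3)], [(12, 203), (13, 37), (15, 17)]),
    ([(11, 105), (14, 111), (16, 25)], [(12, 285), (13, 101), (15, 12)]),
    ([(11, 5), (13, 220), (16, 21)], [(12, 265), (14, 41), (15, 48)]),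
    ([(11, 1), (12, 197), (13, 80)], [(14, 104), (15, 25), (16, 46)]),
    ([(17, 59)], [(18, 1)]),
    ([(17, 105), (18, 14)], [(19, 2), (20, 7)]),
    ([(17, 356), (18, 53), (19, 32), (20, 3)], []),
    ([(17, 244), (18, 98), (19, 22)], [(20, 30)]),
    ([(17, 220), (19, 38)], [(18, 24), (20, 17)]),
    ([(17, 36), (18, 78)], [(19, 16), (20, 47)]),
    ([(21, 8)], []),
    ([], [(21, 41)]),
    ([(21, 26)], []),
    ([(21, 32)], []),
    ([], [])],
   [([(0, 56)], []),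
    ([(1, 145)], [(2, 20), (3, 6), (4, 1)]),
    ([(1, 315)], [(2, 137), (3, 10), (4, 29)]),
    ([(1, 185), (2, 85), (3, 33)], [(4, 32)]),
    ([(1, 297), (3, 31), (4, 16)], [(2, 92)]),
    ([(5, 276), (7, 1)], [(6, 44), (8, 1)]),
    ([(5, 394), (6, 44), (9, 5), (10, 4)], [(7, 65), (8, 6)]),
    ([(5, 57), (6, 286), (7, 26), (10, 14)], [(8, 39), (9, 20)]),
    ([(6, 126), (9, 14), (10, 30)], [(5, 161), (7, 155), (8, 41)]),
    ([(7, 332), (8, 60), (10, 7)], [(5, 10), (6, 83), (9, 15)]),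
    ([(6, 364), (7, 150)], [(5, 5), (8, 105), (9, 19), (10, 4)]),
    ([(11, 309)], [(12, 49), (13, 2), (14, 1)]),
    ([(11, 374), (12, 44), (13, 63), (16, 6)], [(14, 7)]),
    ([(13, 28), (14, 40), (16, 7)], [(11, 46), (12, 285), (15, 26)]),
    ([(12, 93), (13, 148), (15, 10), (16, 31)], [(11, 151), (14, 41)]),
    ([(12, 284), (15, 18)], [(11, 6), (13, 275), (14, 48), (16, 15)]),
    ([(11, 6), (12, 258), (13, 217)], [(14, 117), (15, 10), (16, 3)]),
    ([(17, 136), (18, 18), (20, 4)], [(19, 4)]),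
    ([], [(17, 301), (18, 126), (19, 16), (20, 26)]),
    ([(17, 363), (18, 27), (19, 40)], [(20, 23)]),
    ([(17, 48), (18, 128)], [(19, 35), (20, 25)]),
    ([(21, 59)], [])],
   [([], []),
    ([(0, 8)], []),
    ([(0, 43)], []),
    ([], [(0, 8)]),
    ([(0, 32)], []),
    ([(1, 57), (2, 1)], []),
    ([(1, 128), (3, 4), (4, 5)], [(2, 17)]),
    ([(2, 54), (4, 23)], [(1, 352), (3, 18)]),
    ([(1, 251), (3, 36), (4, 5)], [(2, 116)]),
    ([(1, 92), (2, 91), (3, 3)], [(4, 34)]),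
    ([(1, 187), (3, 39), (4, 11)], [(2, 9)]),
    ([(5, 399), (6, 36), (7, 2), (8, 1)], []),
    ([(7, 45), (8, 18), (10, 5)], [(5, 288), (6, 140)]),
    ([(6, 197), (10, 11)], [(5, 69), (7, 30), (8, 27), (9, 14)]),
    ([(5, 120), (7, 105), (8, 122), (9, 29), (10, 5)], [(6, 307)]),
    ([(5, 5), (6, 26), (9, 11)], [(7, 193), (8, 111), (10, 42)]),
    ([(6, 302), (7, 176)], [(5, 5), (8, 10), (9, 47), (10, 9)]),
    ([(11, 472), (13, 75), (14, 14), (15, 2)], [(12, 122), (16, 3)]),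
    ([(11, 193), (12, 264), (15, 23), (16, 5)], [(13, 187), (14, 104)]),
    ([(12, 199), (16, 35)], [(11, 8), (13, 263), (14, 129), (15, 11)]),
    ([(11, 13), (12, 342), (13, 349), (15, 36), (16, 20)], [(14, 21)]),
    ([(17, 483), (18, 155), (19, 1), (20, 33)], [])]]

def d54pp_13 : List (List Col) :=
  [[([(1, 484), (2, 153), (4, 33)], [(3, 7)]),
    ([(5, 472), (6, 120), (8, 14), (9, 2), (10, 3)], [(7, 76)]),
    ([(5, 193), (7, 185), (9, 22)], [(6, 264), (8, 104), (10, 3)]),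
    ([(5, 8), (6, 199), (8, 131), (9, 6), (10, 38)], [(7, 265)]),
    ([(6, 342), (7, 348), (8, 20), (10, 14)], [(5, 12), (9, 40)]),
    ([(11, 401), (14, 1)], [(12, 36), (13, 2)]),
    ([(11, 285), (13, 45), (16, 5)], [(12, 139), (14, 18)]),
    ([(11, 69), (12, 199), (14, 28), (16, 11)], [(13, 31), (15, 14)]),
    ([(11, 118), (12, 304), (14, 124)], [(13, 106), (15, 29), (16, 5)]),
    ([(12, 8), (14, 113), (15, 12)], [(11, 6), (13, 207), (16, 42)]),
    ([(11, 5), (12, 305), (13, 164), (14, 17)], [(15, 47), (16, 11)]),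
    ([(17, 57), (18, 2)], []),
    ([(18, 17), (19, 3), (20, 5)], [(17, 127)]),
    ([(17, 352), (20, 22)], [(18, 55), (19, 20)]),
    ([(17, 249)], [(18, 116), (19, 36), (20, 7)]),
    ([(17, 111), (18, 90), (20, 34)], [(19, 9)]),
    ([(17, 179)], [(18, 20), (19, 39), (20, 16)]),
    ([(21, 8)], []),
    ([(21, 43)], []),
    ([(21, 7)], []),
    ([], [(21, 34)]),
    ([], [])],
   [([], [(0, 58)]),
    ([], [(1, 137), (2, 18), (3, 3), (4, 5)]),
    ([(1, 303), (2, 124), (4, 24)], [(3, 21)]),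
    ([(1, 361), (2, 25)], [(3, 35), (4, 29)]),
    ([(1, 50), (2, 127), (3, 38)], [(4, 18)]),
    ([(8, 1)], [(5, 306), (6, 49), (7, 2)]),
    ([(5, 376), (9, 1)], [(6, 45), (7, 63), (8, 7), (10, 6)]),
    ([(6, 285), (8, 40)], [(5, 45), (7, 27), (9, 24), (10, 10)]),
    ([(5, 152), (6, 92), (7, 149), (8, 42), (10, 28)], [(9, 16)]),
    ([(7, 283), (9, 14), (10, 17)], [(5, 7), (6, 270), (8, 40)]),
    ([(5, 5), (10, 3)], [(6, 273), (7, 201), (8, 119), (9, 8)]),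
    ([(13, 1), (14, 1)], [(11, 278), (12, 45)]),
    ([(11, 392), (13, 66)], [(12, 45), (14, 6), (15, 5), (16, 4)]),
    ([(11, 56), (15, 21)], [(12, 286), (13, 27), (14, 40), (16, 14)]),
    ([(11, 161), (12, 123), (14, 42), (15, 15), (16, 29)], [(13, 157)]),
    ([(11, 12), (13, 346), (16, 8)], [(12, 46), (14, 49), (15, 17)]),
    ([(11, 3), (12, 371), (13, 115), (14, 111)], [(15, 17), (16, 4)]),
    ([(18, 20)], [(17, 145), (19, 6), (20, 1)]),
    ([(18, 138)], [(17, 311), (19, 9), (20, 30)]),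
    ([(17, 199), (18, 80), (20, 31)], [(19, 36)]),
    ([(17, 290)], [(18, 97), (19, 29), (20, 19)]),
    ([], [(21, 57)])],
   [([], []),
    ([(0, 8)], []),
    ([], [(0, 41)]),
    ([], [(0, 25)]),
    ([], [(0, 32)]),
    ([(1, 59)], [(2, 1)]),
    ([(4, 6)], [(1, 106), (2, 14), (3, 3)]),
    ([(3, 32), (4, 2)], [(1, 354), (2, 51)]),
    ([(1, 247), (2, 98)], [(3, 16), (4, 33)]),
    ([(2, 26), (3, 36), (4, 21)], [(1, 216)]),
    ([(4, 44)], [(1, 48), (2, 75), (3, 23)]),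
    ([(5, 422), (7, 1), (8, 1)], [(6, 31)]),
    ([(5, 262), (10, 3)], [(6, 121), (7, 45), (8, 17), (9, 5)]),
    ([(9, 17), (10, 6)], [(5, 55), (6, 202), (7, 37), (8, 27)]),
    ([(5, 107), (6, 285), (7, 104), (8, 112)], [(9, 9), (10, 27)]),
    ([(5, 5), (6, 246)], [(7, 224), (8, 48), (9, 45), (10, 23)]),
    ([(5, 1), (10, 44)], [(6, 220), (7, 61), (8, 100), (9, 27)]),
    ([(11, 471), (12, 110), (13, 82), (14, 15), (15, 4), (16, 1)], []),
    ([(12, 232), (13, 201), (14, 101), (16, 19)], [(11, 195), (15, 6)]),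
    ([(11, 18), (13, 426), (14, 67), (15, 34)], [(12, 160), (16, 19)]),
    ([(12, 386), (13, 8), (14, 120), (15, 24), (16, 40)], [(11, 2)]),
    ([(17, 482), (19, 26), (20, 26)], [(18, 158)])]]

def d54pp_14 : List (List Col) :=
  [[([(1, 483)], [(2, 156), (3, 25), (4, 27)]),
    ([(5, 471), (8, 15)], [(6, 110), (7, 82), (9, 4), (10, 1)]),
    ([(8, 102), (9, 6)], [(5, 195), (6, 236), (7, 198), (10, 19)]),
    ([(7, 426), (9, 33)], [(5, 17), (6, 194), (8, 56), (10, 22)]),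
    ([(6, 367), (7, 47), (9, 25), (10, 40)], [(5, 1), (8, 126)]),
    ([(11, 421), (12, 31), (14, 1)], [(13, 2)]),
    ([(14, 17), (15, 4)], [(11, 263), (12, 124), (13, 45), (16, 4)]),
    ([(11, 58), (14, 28)], [(12, 203), (13, 37), (15, 17), (16, 4)]),
    ([(11, 107), (14, 115)], [(12, 285), (13, 105), (15, 11), (16, 26)]),
    ([(11, 6), (13, 225)], [(12, 259), (14, 43), (15, 45), (16, 22)]),
    ([(11, 2), (12, 200), (13, 78), (16, 45)], [(14, 105), (15, 26)]),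
    ([(17, 59)], [(18, 1)]),
    ([(17, 107), (18, 14), (20, 6)], [(19, 3)]),
    ([(17, 354), (18, 52), (19, 32)], []),
    ([(17, 246), (18, 100), (19, 17), (20, 33)], []),
    ([(18, 27)], [(17, 216), (19, 37), (20, 20)]),
    ([(17, 47), (18, 77), (20, 45)], [(19, 21)]),
    ([(21, 8)], []),
    ([], [(21, 41)]),
    ([(21, 23)], []),
    ([(21, 32)], []),
    ([], [])],
   [([(0, 57)], []),
    ([(1, 144)], [(2, 20), (3, 6), (4, 1)]),
    ([(1, 312)], [(2, 135), (3, 9), (4, 31)]),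
    ([(1, 167), (2, 90), (3, 33)], [(4, 33)]),
    ([(1, 311), (3, 32), (4, 16)], [(2, 89)]),
    ([(5, 280), (7, 1)], [(6, 45), (8, 1)]),
    ([(5, 391), (6, 46), (9, 5), (10, 4)], [(7, 66), (8, 6)]),
    ([(5, 54), (6, 286), (7, 26), (10, 14)], [(8, 41), (9, 21)]),
    ([(6, 119), (9, 13), (10, 31)], [(5, 161), (7, 156), (8, 42)]),
    ([(7, 336), (8, 59), (10, 7)], [(5, 11), (6, 70), (9, 15)]),
    ([(6, 369), (7, 133)], [(5, 4), (8, 106), (9, 17), (10, 5)]),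
    ([(11, 304)], [(12, 49), (13, 2), (14, 1)]),
    ([(11, 378), (12, 45), (13, 64), (15, 1)], [(14, 7), (16, 6)]),
    ([(13, 27), (14, 41)], [(11, 45), (12, 285), (15, 25), (16, 7)]),
    ([(12, 94), (13, 151), (15, 13)], [(11, 154), (14, 42), (16, 30)]),
    ([(11, 8), (13, 287), (14, 42)], [(12, 267), (15, 16), (16, 15)]),
    ([(11, 6), (12, 274), (13, 201), (16, 4)], [(14, 118), (15, 8)]),
    ([(17, 138), (18, 18)], [(19, 3), (20, 5)]),
    ([(20, 25)], [(17, 302), (18, 127), (19, 20)]),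
    ([(17, 358), (18, 20), (19, 38), (20, 27)], []),
    ([(17, 66), (18, 128), (20, 21)], [(19, 36)]),
    ([(21, 58)], [])],
   [([], []),
    ([(0, 8)], []),
    ([(0, 42)], []),
    ([], [(0, 10)]),
    ([(0, 33)], []),
    ([(1, 57), (2, 1)], []),
    ([(1, 125), (3, 3), (4, 5)], [(2, 17)]),
    ([(2, 53), (4, 23)], [(1, 351), (3, 19)]),
    ([(1, 251), (3, 36), (4, 7)], [(2, 113)]),
    ([(1, 97), (2, 87), (3, 7)], [(4, 36)]),
    ([(1, 188), (3, 39), (4, 14)], [(2, 16)]),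
    ([(5, 403), (6, 35), (7, 2), (8, 1)], []),
    ([(7, 45), (8, 18), (10, 5)], [(5, 283), (6, 139)]),
    ([(6, 199), (10, 11)], [(5, 69), (7, 32), (8, 28), (9, 15)]),
    ([(5, 118), (7, 107), (8, 124), (9, 29), (10, 7)], [(6, 301)]),
    ([(7, 206), (8, 111), (10, 42)], [(5, 6), (6, 5), (9, 14)]),
    ([(6, 308), (7, 157)], [(5, 5), (8, 20), (9, 45), (10, 14)]),
    ([(11, 471), (13, 77), (14, 15), (15, 2), (16, 3)], [(12, 120)]),
    ([(11, 194), (12, 260), (15, 22)], [(13, 188), (14, 105), (16, 6)]),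
    ([(12, 180)], [(11, 9), (13, 282), (14, 130), (15, 12), (16, 37)]),
    ([(11, 12), (12, 354), (13, 332), (15, 38)], [(14, 28), (16, 20)]),
    ([(17, 483), (18, 155), (19, 6)], [(20, 34)])]]

def d54pp_15 : List (List Col) :=
  [[([(1, 484), (2, 154), (4, 34)], [(3, 9)]),
    ([(5, 472), (6, 119), (8, 15), (9, 2), (10, 3)], [(7, 77)]),
    ([(5, 194), (7, 187), (9, 21)], [(6, 260), (8, 105), (10, 5)]),
    ([(5, 9), (6, 169), (8, 130), (9, 11), (10, 38)], [(7, 293)]),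
    ([(6, 360), (7, 323), (8, 32), (10, 18)], [(5, 11), (9, 40)]),
    ([(11, 405), (14, 1)], [(12, 35), (13, 2)]),
    ([(11, 281), (13, 46), (16, 5)], [(12, 138), (14, 18)]),
    ([(11, 69), (12, 200), (14, 29), (15, 15), (16, 10)], [(13, 33)]),
    ([(11, 117), (12, 299), (14, 124), (15, 29)], [(13, 108), (16, 7)]),
    ([(14, 111)], [(11, 7), (12, 14), (13, 216), (15, 17), (16, 42)]),
    ([(11, 5), (12, 309), (13, 143), (14, 28), (15, 45)], [(16, 17)]),
    ([(17, 58), (18, 2)], []),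
    ([(18, 17), (19, 3), (20, 6)], [(17, 123)]),
    ([(17, 351), (20, 22)], [(18, 54), (19, 21)]),
    ([(17, 250)], [(18, 113), (19, 36), (20, 9)]),
    ([(17, 109), (18, 86), (20, 36)], [(19, 11)]),
    ([(17, 183)], [(18, 23), (19, 39), (20, 18)]),
    ([(21, 8)], []),
    ([(21, 43)], []),
    ([(21, 9)], []),
    ([], [(21, 34)]),
    ([], [])],
   [([], [(0, 58)]),
    ([], [(1, 138), (2, 18), (3, 3), (4, 5)]),
    ([(1, 303), (2, 126), (4, 23)], [(3, 22)]),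
    ([(1, 355), (2, 15)], [(3, 36), (4, 30)]),
    ([(1, 77), (2, 129), (3, 36)], [(4, 18)]),
    ([(8, 1)], [(5, 302), (6, 49), (7, 1)]),
    ([(5, 379), (9, 1)], [(6, 46), (7, 64), (8, 7), (10, 6)]),
    ([(6, 286), (8, 41)], [(5, 45), (7, 27), (9, 25), (10, 9)]),
    ([(5, 155), (6, 94), (7, 152), (8, 42), (10, 29)], [(9, 16)]),
    ([(7, 297), (9, 14), (10, 16)], [(5, 8), (6, 251), (8, 35)]),
    ([(5, 5), (10, 5)], [(6, 289), (7, 184), (8, 120), (9, 7)]),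
    ([(13, 1), (14, 1)], [(11, 282), (12, 46)]),
    ([(11, 390), (13, 66), (15, 5)], [(12, 46), (14, 6), (16, 4)]),
    ([(11, 53)], [(12, 286), (13, 26), (14, 41), (15, 21), (16, 14)]),
    ([(11, 161), (12, 116), (14, 43), (16, 30)], [(13, 157), (15, 13)]),
    ([(11, 12), (13, 343), (15, 16), (16, 6)], [(12, 47), (14, 53)]),
    ([(11, 3), (12, 373), (13, 110), (14, 110), (15, 16)], [(16, 5)]),
    ([(18, 20)], [(17, 144), (19, 6), (20, 1)]),
    ([(18, 136)], [(17, 310), (19, 7), (20, 31)]),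
    ([(17, 174), (18, 87), (20, 32)], [(19, 35)]),
    ([(17, 308)], [(18, 92), (19, 31), (20, 18)]),
    ([], [(21, 57)])],
   [([], []),
    ([(0, 8)], []),
    ([], [(0, 41)]),
    ([], [(0, 22)]),
    ([], [(0, 33)]),
    ([(1, 59)], [(2, 1)]),
    ([(4, 6)], [(1, 108), (2, 14), (3, 3)]),
    ([(3, 32), (4, 3)], [(1, 353), (2, 52)]),
    ([(1, 248), (2, 100)], [(3, 14), (4, 34)]),
    ([(2, 31), (3, 36), (4, 21)], [(1, 213)]),
    ([(4, 44)], [(1, 58), (2, 75), (3, 23)]),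
    ([(5, 420), (7, 2), (8, 1)], [(6, 32)]),
    ([(5, 265), (10, 3)], [(6, 125), (7, 46), (8, 17), (9, 4)]),
    ([(9, 17), (10, 5)], [(5, 59), (6, 203), (7, 37), (8, 28)]),
    ([(5, 108), (6, 285), (7, 106), (8, 116)], [(9, 10), (10, 27)]),
    ([(5, 6), (6, 247)], [(7, 229), (8, 49), (9, 44), (10, 23)]),
    ([(5, 1), (10, 44)], [(6, 214), (7, 66), (8, 102), (9, 26)]),
    ([(11, 471), (12, 111), (13, 82), (14, 15), (16, 1)], [(15, 4)]),
    ([(12, 238), (13, 198), (14, 103), (15, 6), (16, 19)], [(11, 195)]),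
    ([(11, 17), (13, 427), (14, 59)], [(12, 185), (15, 34), (16, 21)]),
    ([(12, 370), (13, 36), (14, 125), (16, 40)], [(15, 24)]),
    ([(17, 483), (19, 24), (20, 28)], [(18, 157)])]]

def d54pp_16 : List (List Col) :=
  [[([(1, 483)], [(2, 156), (3, 23), (4, 29)]),
    ([(5, 471), (8, 15)], [(6, 112), (7, 81), (9, 4), (10, 1)]),
    ([(8, 104), (9, 7)], [(5, 195), (6, 241), (7, 196), (10, 19)]),
    ([(7, 426), (9, 34)], [(5, 16), (6, 201), (8, 53), (10, 21)]),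
    ([(6, 360), (7, 55), (9, 24), (10, 41)], [(5, 1), (8, 127)]),
    ([(11, 419), (12, 32), (14, 1)], [(13, 2)]),
    ([(14, 17), (15, 4)], [(11, 266), (12, 127), (13, 46), (16, 4)]),
    ([(11, 60), (14, 29)], [(12, 203), (13, 37), (15, 17), (16, 5)]),
    ([(11, 109), (14, 118)], [(12, 285), (13, 107), (15, 11), (16, 27)]),
    ([(11, 7), (13, 231)], [(12, 251), (14, 47), (15, 45), (16, 21)]),
    ([(11, 2), (12, 207), (13, 72), (16, 45)], [(14, 104), (15, 24)]),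
    ([(17, 59)], [(18, 1)]),
    ([(17, 110), (18, 15), (20, 6)], [(19, 3)]),
    ([(17, 353), (18, 52), (19, 32), (20, 2)], []),
    ([(17, 248), (18, 102), (19, 15), (20, 34)], []),
    ([(18, 33)], [(17, 211), (19, 37), (20, 19)]),
    ([(17, 62), (18, 75), (20, 44)], [(19, 21)]),
    ([(21, 8)], []),
    ([], [(21, 41)]),
    ([(21, 20)], []),
    ([(21, 34)], []),
    ([], [])],
   [([(0, 57)], []),
    ([(1, 144)], [(2, 19), (3, 6), (4, 1)]),
    ([(1, 310)], [(2, 134), (3, 6), (4, 32)]),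
    ([(1, 158), (2, 92), (3, 35)], [(4, 32)]),
    ([(1, 318), (3, 32), (4, 17)], [(2, 87)]),
    ([(5, 284), (7, 1)], [(6, 46), (8, 1)]),
    ([(5, 389), (6, 46), (9, 4), (10, 5)], [(7, 66), (8, 6)]),
    ([(5, 51), (6, 287), (7, 26), (10, 13)], [(8, 42), (9, 22)]),
    ([(6, 113), (9, 11), (10, 31)], [(5, 161), (7, 157), (8, 43)]),
    ([(7, 339), (8, 57), (10, 5)], [(5, 11), (6, 54), (9, 15)]),
    ([(6, 372), (7, 115)], [(5, 4), (8, 108), (9, 16), (10, 6)]),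
    ([(11, 300)], [(12, 48), (13, 1), (14, 1)]),
    ([(11, 380), (12, 46), (13, 64), (15, 1)], [(14, 7), (16, 6)]),
    ([(13, 27), (14, 41)], [(11, 45), (12, 286), (15, 25), (16, 7)]),
    ([(12, 96), (13, 153), (15, 14)], [(11, 155), (14, 43), (16, 30)]),
    ([(11, 9), (13, 303), (14, 33)], [(12, 243), (15, 15), (16, 15)]),
    ([(11, 5), (12, 295), (13, 177), (16, 5)], [(14, 120), (15, 6)]),
    ([(17, 139), (18, 18)], [(19, 3), (20, 5)]),
    ([(20, 24)], [(17, 303), (18, 127), (19, 22)]),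
    ([(17, 349), (18, 8), (19, 39), (20, 28)], []),
    ([(17, 98), (18, 129), (20, 21)], [(19, 33)]),
    ([(21, 58)], [])],
   [([], []),
    ([(0, 8)], []),
    ([(0, 42)], []),
    ([], [(0, 11)]),
    ([(0, 34)], []),
    ([(1, 58), (2, 1)], []),
    ([(1, 122), (3, 3), (4, 6)], [(2, 16)]),
    ([(2, 53), (4, 22)], [(1, 351), (3, 21)]),
    ([(1, 250), (3, 35), (4, 10)], [(2, 111)]),
    ([(1, 104), (2, 84), (3, 12)], [(4, 37)]),
    ([(1, 186), (3, 39), (4, 18)], [(2, 22)]),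
    ([(5, 406), (6, 35), (7, 2), (8, 1)], []),
    ([(7, 46), (8, 18), (10, 5)], [(5, 279), (6, 137)]),
    ([(6, 201), (10, 9)], [(5, 68), (7, 33), (8, 29), (9, 16)]),
    ([(5, 116), (7, 109), (8, 124), (9, 28), (10, 9)], [(6, 297)]),
    ([(6, 22), (7, 218), (8, 110), (10, 41)], [(5, 7), (9, 20)]),
    ([(6, 310), (7, 134)], [(5, 4), (8, 32), (9, 43), (10, 21)]),
    ([(11, 471), (13, 78), (14, 15), (15, 2), (16, 3)], [(12, 118)]),
    ([(11, 194), (12, 258), (15, 21)], [(13, 188), (14, 106), (16, 7)]),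
    ([(12, 145)], [(11, 10), (13, 313), (14, 129), (15, 16), (16, 36)]),
    ([(11, 10), (12, 372), (13, 302), (15, 38)], [(14, 41), (16, 22)]),
    ([(17, 483), (18, 155), (19, 8)], [(20, 35)])]]

def d54pp_17 : List (List Col) :=
  [[([(1, 483), (2, 155), (4, 35)], [(3, 10)]),
    ([(5, 471), (6, 118), (8, 15), (9, 2), (10, 3)], [(7, 78)]),
    ([(5, 194), (7, 188), (9, 21)], [(6, 257), (8, 106), (10, 7)]),
    ([(5, 11), (6, 120), (8, 126), (9, 18), (10, 36)], [(7, 333)]),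
    ([(6, 382), (7, 280), (8, 49), (10, 24)], [(5, 9), (9, 38)]),
    ([(11, 407), (14, 1)], [(12, 35), (13, 2)]),
    ([(11, 278), (13, 46), (16, 5)], [(12, 137), (14, 18)]),
    ([(11, 68), (12, 201), (14, 29), (15, 16), (16, 9)], [(13, 34)]),
    ([(11, 116), (12, 295), (14, 124), (15, 28)], [(13, 109), (16, 10)]),
    ([(14, 108)], [(11, 7), (12, 42), (13, 227), (15, 24), (16, 40)]),
    ([(11, 4), (12, 309), (13, 119), (14, 39), (15, 41)], [(16, 24)]),
    ([(17, 58), (18, 2)], []),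
    ([(18, 16), (19, 2), (20, 6)], [(17, 121)]),
    ([(17, 351), (20, 21)], [(18, 53), (19, 23)]),
    ([(17, 250)], [(18, 111), (19, 34), (20, 12)]),
    ([(17, 112), (18, 82), (20, 36)], [(19, 16)]),
    ([(18, 27), (19, 37), (20, 23)], [(17, 182)]),
    ([(21, 8)], []),
    ([(21, 42)], []),
    ([(21, 11)], []),
    ([], [(21, 34)]),
    ([], [])],
   [([], [(0, 58)]),
    ([], [(1, 139), (2, 19), (3, 3), (4, 5)]),
    ([(1, 304), (2, 127), (4, 23)], [(3, 23)]),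
    ([(1, 342)], [(2, 1), (3, 39), (4, 29)]),
    ([(1, 120), (2, 129), (3, 32)], [(4, 21)]),
    ([(8, 1)], [(5, 299), (6, 48), (7, 1)]),
    ([(5, 381), (9, 1)], [(6, 46), (7, 65), (8, 7), (10, 6)]),
    ([(6, 286), (8, 42)], [(5, 45), (7, 26), (9, 25), (10, 8)]),
    ([(5, 156), (6, 96), (7, 153), (8, 43), (10, 29)], [(9, 15)]),
    ([(7, 313), (9, 15), (10, 15)], [(5, 9), (6, 224), (8, 25)]),
    ([(5, 5), (10, 6)], [(6, 309), (7, 157), (8, 122), (9, 5)]),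
    ([(13, 1), (14, 1)], [(11, 285), (12, 46)]),
    ([(11, 388), (13, 66), (15, 4)], [(12, 46), (14, 6), (16, 5)]),
    ([(11, 50)], [(12, 287), (13, 26), (14, 42), (15, 22), (16, 12)]),
    ([(11, 161), (12, 112), (14, 43), (16, 32)], [(13, 157), (15, 10)]),
    ([(11, 12), (13, 344), (15, 16), (16, 5)], [(12, 37), (14, 52)]),
    ([(16, 7)], [(11, 3), (12, 375), (13, 98), (14, 110), (15, 15)]),
    ([(18, 19)], [(17, 143), (19, 6), (20, 2)]),
    ([(18, 134)], [(17, 309), (19, 4), (20, 32)]),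
    ([(17, 162), (18, 91), (20, 30)], [(19, 37)]),
    ([(17, 317)], [(18, 89), (19, 30), (20, 20)]),
    ([], [(21, 57)])],
   [([], []),
    ([(0, 8)], []),
    ([], [(0, 41)]),
    ([], [(0, 18)]),
    ([], [(0, 35)]),
    ([(1, 59)], [(2, 1)]),
    ([(4, 6)], [(1, 110), (2, 15), (3, 3)]),
    ([(3, 32), (4, 4)], [(1, 352), (2, 52)]),
    ([(1, 248), (2, 102)], [(3, 13), (4, 34)]),
    ([(2, 37), (3, 37), (4, 18)], [(1, 207)]),
    ([(4, 44)], [(1, 74), (2, 73), (3, 21)]),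
    ([(5, 418), (7, 2), (8, 1)], [(6, 32)]),
    ([(5, 267), (10, 3)], [(6, 128), (7, 46), (8, 17), (9, 4)]),
    ([(9, 17), (10, 5)], [(5, 61), (6, 203), (7, 37), (8, 29)]),
    ([(5, 110), (6, 286), (7, 108), (8, 118)], [(9, 11), (10, 27)]),
    ([(5, 7), (6, 242)], [(7, 234), (8, 52), (9, 45), (10, 21)]),
    ([(6, 217), (7, 62), (8, 102), (9, 23)], [(5, 2), (10, 45)]),
    ([(11, 471), (12, 112), (13, 81), (14, 15), (16, 1)], [(15, 4)]),
    ([(12, 242), (13, 195), (14, 104), (15, 8), (16, 19)], [(11, 195)]),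
    ([(11, 16), (13, 427), (14, 55)], [(12, 195), (15, 35), (16, 20)]),
    ([(11, 1), (12, 362), (13, 47), (14, 127), (16, 41)], [(15, 22)]),
    ([(17, 483), (19, 21), (20, 31)], [(18, 157)])]]

def d54pp_18 : List (List Col) :=
  [[([(1, 483)], [(2, 156), (3, 19), (4, 32)]),
    ([(5, 471), (8, 15)], [(6, 113), (7, 81), (9, 4), (10, 1)]),
    ([(8, 105), (9, 9)], [(5, 195), (6, 243), (7, 194), (10, 19)]),
    ([(7, 427), (9, 36)], [(5, 15), (6, 200), (8, 53), (10, 19)]),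
    ([(6, 358), (7, 54), (9, 20), (10, 42)], [(5, 1), (8, 128)]),
    ([(11, 417), (12, 33), (14, 1)], [(13, 2)]),
    ([(14, 18), (15, 4), (16, 4)], [(11, 267), (12, 129), (13, 46)]),
    ([(11, 62), (14, 29), (16, 4)], [(12, 203), (13, 37), (15, 17)]),
    ([(11, 110), (14, 119), (16, 27)], [(12, 286), (13, 108), (15, 12)]),
    ([(11, 7), (13, 236), (16, 19)], [(12, 241), (14, 52), (15, 45)]),
    ([(11, 2), (12, 216), (13, 62)], [(14, 102), (15, 21), (16, 46)]),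
    ([(17, 58)], [(18, 1)]),
    ([(17, 111), (18, 15), (20, 6)], [(19, 3)]),
    ([(17, 352), (18, 52), (19, 32), (20, 3)], []),
    ([(17, 249), (18, 103), (19, 14), (20, 34)], []),
    ([(18, 40)], [(17, 204), (19, 38), (20, 16)]),
    ([(17, 82), (18, 72), (20, 45)], [(19, 19)]),
    ([(21, 8)], []),
    ([], [(21, 42)]),
    ([(21, 15)], []),
    ([(21, 36)], []),
    ([], [])],
   [([(0, 57)], []),
    ([(1, 143)], [(2, 19), (3, 6), (4, 2)]),
    ([(1, 308)], [(2, 133), (3, 2), (4, 33)]),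
    ([(1, 156), (2, 92), (3, 39)], [(4, 29)]),
    ([(1, 320), (3, 29), (4, 21)], [(2, 88)]),
    ([(5, 286), (7, 1)], [(6, 46), (8, 1)]),
    ([(5, 388), (6, 47), (9, 4), (10, 5)], [(7, 66), (8, 6)]),
    ([(5, 49), (6, 287), (7, 26), (10, 11)], [(8, 42), (9, 23)]),
    ([(6, 110), (9, 8), (10, 32)], [(5, 161), (7, 157), (8, 43)]),
    ([(7, 344), (8, 53), (10, 4)], [(5, 12), (6, 35), (9, 16)]),
    ([(6, 376), (7, 95)], [(5, 3), (8, 110), (9, 14), (10, 8)]),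
    ([(11, 298)], [(12, 48), (13, 1), (14, 1)]),
    ([(11, 381), (12, 46), (13, 65), (15, 1), (16, 6)], [(14, 7)]),
    ([(13, 26), (14, 42), (16, 7)], [(11, 45), (12, 286), (15, 25)]),
    ([(12, 97), (13, 154), (15, 14), (16, 30)], [(11, 157), (14, 43)]),
    ([(11, 10), (13, 320), (14, 21), (16, 14)], [(12, 211), (15, 15)]),
    ([(11, 4), (12, 318), (13, 144)], [(14, 123), (15, 4), (16, 7)]),
    ([(17, 139), (18, 19)], [(19, 3), (20, 5)]),
    ([(20, 24)], [(17, 304), (18, 128), (19, 23)]),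
    ([(17, 330), (19, 42), (20, 27)], [(18, 12)]),
    ([(17, 148), (18, 129), (20, 24)], [(19, 28)]),
    ([(21, 58)], [])],
   [([], []),
    ([(0, 8)], []),
    ([(0, 42)], []),
    ([], [(0, 11)]),
    ([(0, 34)], []),
    ([(1, 58), (2, 1)], []),
    ([(1, 120), (3, 2), (4, 6)], [(2, 16)]),
    ([(2, 53), (4, 19)], [(1, 351), (3, 24)]),
    ([(1, 250), (3, 33), (4, 15)], [(2, 110)]),
    ([(1, 112), (2, 81), (3, 19)], [(4, 35)]),
    ([(1, 183), (3, 36), (4, 25)], [(2, 28)]),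
    ([(5, 408), (6, 35), (7, 2), (8, 1)], []),
    ([(7, 46), (8, 18), (10, 5)], [(5, 277), (6, 136), (9, 1)]),
    ([(6, 201), (10, 8)], [(5, 68), (7, 34), (8, 29), (9, 16)]),
    ([(5, 115), (7, 109), (8, 124), (9, 27), (10, 12)], [(6, 294)]),
    ([(6, 55), (7, 231), (8, 106), (10, 37)], [(5, 8), (9, 28)]),
    ([(6, 309), (7, 108)], [(5, 4), (8, 44), (9, 39), (10, 28)]),
    ([(11, 471), (13, 79), (14, 15), (15, 2)], [(12, 117), (16, 3)]),
    ([(11, 194), (12, 255), (15, 20), (16, 8)], [(13, 189), (14, 106)]),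
    ([(12, 87), (16, 33)], [(11, 12), (13, 355), (14, 122), (15, 22)]),
    ([(11, 8), (12, 391), (13, 249), (15, 35), (16, 29)], [(14, 60)]),
    ([(17, 483), (18, 155), (19, 10)], [(20, 35)])]]

def d54pp_19 : List (List Col) :=
  [[([(1, 483), (2, 155), (4, 35)], [(3, 10)]),
    ([(5, 471), (6, 117), (8, 15), (9, 2), (10, 3)], [(7, 79)]),
    ([(5, 194), (7, 189), (9, 20)], [(6, 255), (8, 106), (10, 8)]),
    ([(5, 12), (6, 47), (8, 116), (9, 26), (10, 30)], [(7, 378)]),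
    ([(6, 399), (7, 212), (8, 72), (10, 32)], [(5, 7), (9, 33)]),
    ([(11, 409), (14, 1)], [(12, 34), (13, 2)]),
    ([(11, 276), (13, 46), (15, 1), (16, 5)], [(12, 136), (14, 18)]),
    ([(11, 67), (12, 202), (14, 30), (15, 17), (16, 7)], [(13, 35)]),
    ([(11, 115), (12, 293), (14, 124), (15, 27)], [(13, 110), (16, 13)]),
    ([(14, 103)], [(11, 8), (12, 76), (13, 237), (15, 31), (16, 35)]),
    ([(11, 3), (12, 305), (13, 91), (14, 52), (15, 35)], [(16, 32)]),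
    ([(17, 58), (18, 2)], []),
    ([(18, 16), (19, 1), (20, 6)], [(17, 119)]),
    ([(17, 351), (20, 17)], [(18, 53), (19, 26)]),
    ([(17, 250)], [(18, 109), (19, 32), (20, 17)]),
    ([(17, 119), (18, 79), (20, 33)], [(19, 23)]),
    ([(18, 32), (19, 33), (20, 30)], [(17, 179)]),
    ([(21, 8)], []),
    ([(21, 42)], []),
    ([(21, 11)], []),
    ([], [(21, 35)]),
    ([], [])],
   [([], [(0, 58)]),
    ([], [(1, 140), (2, 19), (3, 3), (4, 5)]),
    ([(1, 305), (2, 128), (4, 24)], [(3, 23)]),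
    ([(1, 313)], [(2, 25), (3, 44), (4, 25)]),
    ([(1, 180), (2, 127), (3, 24)], [(4, 26)]),
    ([(8, 1)], [(5, 297), (6, 48), (7, 1)]),
    ([(5, 382), (9, 1)], [(6, 47), (7, 65), (8, 7), (10, 6)]),
    ([(6, 286), (8, 42)], [(5, 45), (7, 26), (9, 25), (10, 7)]),
    ([(5, 157), (6, 98), (7, 154), (8, 43), (10, 30)], [(9, 14)]),
    ([(7, 329), (9, 15), (10, 13)], [(5, 10), (6, 189), (8, 13)]),
    ([(5, 4), (10, 8)], [(6, 331), (7, 123), (8, 124), (9, 3)]),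
    ([(13, 1), (14, 1)], [(11, 287), (12, 47)]),
    ([(11, 387), (13, 66), (15, 4)], [(12, 47), (14, 6), (16, 5)]),
    ([(11, 49)], [(12, 287), (13, 26), (14, 42), (15, 23), (16, 10)]),
    ([(11, 160), (12, 108), (14, 43), (16, 32)], [(13, 157), (15, 7)]),
    ([(11, 12), (13, 347), (15, 16), (16, 3)], [(12, 20), (14, 49)]),
    ([(16, 8)], [(11, 3), (12, 377), (13, 80), (14, 112), (15, 13)]),
    ([(18, 19)], [(17, 143), (19, 6), (20, 2)]),
    ([(18, 133), (19, 1)], [(17, 308), (20, 33)]),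
    ([(17, 160), (18, 91), (20, 25)], [(19, 41)]),
    ([(17, 319)], [(18, 89), (19, 27), (20, 24)]),
    ([], [(21, 57)])],
   [([], []),
    ([(0, 8)], []),
    ([], [(0, 42)]),
    ([], [(0, 11)]),
    ([], [(0, 37)]),
    ([(1, 58)], [(2, 1)]),
    ([(4, 6)], [(1, 112), (2, 15), (3, 3)]),
    ([(3, 32), (4, 4)], [(1, 352), (2, 52)]),
    ([(1, 249), (2, 103)], [(3, 13), (4, 34)]),
    ([(2, 45), (3, 39), (4, 14)], [(1, 198)]),
    ([(4, 45)], [(1, 94), (2, 69), (3, 17)]),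
    ([(5, 416), (7, 2), (8, 1)], [(6, 33)]),
    ([(5, 268), (10, 4)], [(6, 129), (7, 46), (8, 18), (9, 4)]),
    ([(9, 17), (10, 4)], [(5, 63), (6, 203), (7, 37), (8, 30)]),
    ([(5, 111), (6, 286), (7, 109), (8, 120)], [(9, 12), (10, 27)]),
    ([(5, 7), (6, 232)], [(7, 239), (8, 56), (9, 46), (10, 17)]),
    ([(6, 225), (7, 53), (8, 100), (9, 19)], [(5, 2), (10, 47)]),
    ([(11, 471), (12, 113), (13, 81), (14, 16), (16, 1)], [(15, 3)]),
    ([(12, 244), (13, 194), (14, 105), (15, 9), (16, 18)], [(11, 195)]),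
    ([(11, 15), (13, 428), (14, 55)], [(12, 194), (15, 37), (16, 17)]),
    ([(11, 1), (12, 360), (13, 47), (14, 127), (16, 43)], [(15, 18)]),
    ([(17, 483), (19, 16), (20, 34)], [(18, 156)])]]

def d54pp_20 : List (List Col) :=
  [[([(1, 483)], [(2, 156), (3, 12), (4, 35)]),
    ([(5, 471), (8, 16)], [(6, 114), (7, 81), (9, 3), (10, 2)]),
    ([(8, 105), (9, 11)], [(5, 195), (6, 246), (7, 193), (10, 18)]),
    ([(7, 428), (9, 38)], [(5, 15), (6, 193), (8, 55), (10, 15)]),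
    ([(6, 359), (7, 46), (9, 15), (10, 44)], [(5, 1), (8, 127)]),
    ([(11, 416), (12, 33), (14, 1)], [(13, 2)]),
    ([(14, 18), (15, 4), (16, 4)], [(11, 269), (12, 130), (13, 46)]),
    ([(11, 63), (14, 30), (16, 4)], [(12, 203), (13, 37), (15, 18)]),
    ([(11, 111), (14, 120), (16, 26)], [(12, 287), (13, 109), (15, 13)]),
    ([(12, 227), (14, 59), (15, 46)], [(11, 8), (13, 241), (16, 14)]),
    ([(11, 1), (12, 228), (13, 49)], [(14, 99), (15, 16), (16, 47)]),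
    ([(17, 58)], [(18, 1)]),
    ([(17, 112), (18, 15), (20, 6)], [(19, 3)]),
    ([(17, 352), (18, 52), (19, 32), (20, 3)], []),
    ([(17, 249), (18, 104), (19, 13), (20, 34)], []),
    ([(18, 48)], [(17, 193), (19, 40), (20, 11)]),
    ([(17, 103), (18, 67), (20, 46)], [(19, 15)]),
    ([(21, 8)], []),
    ([], [(21, 42)]),
    ([(21, 7)], []),
    ([(21, 37)], []),
    ([], [])],
   [([(0, 57)], []),
    ([(1, 142)], [(2, 19), (3, 5), (4, 3)]),
    ([(1, 308), (3, 4)], [(2, 132), (4, 33)]),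
    ([(1, 160), (2, 91), (3, 44)], [(4, 21)]),
    ([(1, 320), (3, 25), (4, 26)], [(2, 89)]),
    ([(5, 288), (7, 1)], [(6, 47), (8, 1)]),
    ([(5, 387), (6, 47), (9, 3), (10, 5)], [(7, 66), (8, 6)]),
    ([(5, 48), (6, 287), (7, 26), (10, 9)], [(8, 42), (9, 24)]),
    ([(6, 107), (9, 5), (10, 33)], [(5, 160), (7, 157), (8, 43)]),
    ([(5, 12), (6, 12), (9, 16)], [(7, 348), (8, 48), (10, 2)]),
    ([(6, 378), (7, 73)], [(5, 2), (8, 113), (9, 12), (10, 9)]),
    ([(11, 296)], [(12, 48), (13, 1), (14, 1)]),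
    ([(11, 382), (12, 47), (13, 65), (16, 6)], [(14, 7)]),
    ([(13, 26), (14, 42), (16, 6)], [(11, 45), (12, 286), (15, 25)]),
    ([(12, 99), (13, 155), (15, 13), (16, 30)], [(11, 158), (14, 43)]),
    ([(11, 11), (13, 335), (14, 8), (16, 12)], [(12, 173), (15, 16)]),
    ([(11, 3), (12, 339), (13, 106)], [(14, 124), (15, 2), (16, 9)]),
    ([(17, 140), (18, 19)], [(19, 3), (20, 5)]),
    ([(20, 24)], [(17, 305), (18, 129), (19, 23)]),
    ([(17, 295), (19, 46), (20, 22)], [(18, 37)]),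
    ([(17, 208), (18, 124), (20, 28)], [(19, 19)]),
    ([(21, 58)], [])],
   [([], []),
    ([(0, 8)], []),
    ([(0, 42)], []),
    ([], [(0, 11)]),
    ([(0, 35)], []),
    ([(1, 58), (2, 1)], []),
    ([(1, 118), (3, 1), (4, 7)], [(2, 16)]),
    ([(2, 52), (4, 15)], [(1, 351), (3, 27)]),
    ([(1, 250), (3, 30), (4, 21)], [(2, 109)]),
    ([(4, 30)], [(1, 122), (2, 78), (3, 27)]),
    ([(1, 177), (3, 29), (4, 33)], [(2, 34)]),
    ([(5, 410), (6, 34), (7, 2), (8, 1)], []),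
    ([(7, 46), (8, 18), (10, 5)], [(5, 275), (6, 135), (9, 1)]),
    ([(6, 202), (10, 6)], [(5, 67), (7, 35), (8, 30), (9, 17)]),
    ([(5, 114), (7, 110), (8, 124), (9, 26), (10, 15)], [(6, 292)]),
    ([(6, 90), (7, 240), (8, 100), (10, 31)], [(5, 8), (9, 35)]),
    ([(6, 302), (7, 78)], [(5, 3), (8, 57), (9, 32), (10, 36)]),
    ([(11, 471), (13, 79), (14, 15), (15, 2)], [(12, 117), (16, 3)]),
    ([(11, 195), (12, 254), (15, 20), (16, 9)], [(13, 189), (14, 106)]),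
    ([(12, 9), (16, 26)], [(11, 13), (13, 397), (14, 109), (15, 30)]),
    ([(11, 6), (12, 402), (13, 175), (15, 29), (16, 36)], [(14, 83)]),
    ([(17, 483), (18, 155), (19, 10)], [(20, 35)])]]

def d54pp_21 : List (List Col) :=
  [[([(1, 483), (2, 155), (4, 35)], [(3, 10)]),
    ([(5, 471), (6, 116), (8, 15), (10, 3)], [(7, 79), (9, 2)]),
    ([(5, 195), (7, 190)], [(6, 253), (8, 106), (9, 19), (10, 9)]),
    ([(6, 31), (7, 412), (9, 33)], [(5, 14), (8, 100), (10, 22)]),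
    ([(6, 401), (7, 135), (8, 94), (9, 25), (10, 39)], [(5, 4)]),
    ([(11, 410), (14, 1)], [(12, 34), (13, 2)]),
    ([(11, 275), (13, 46), (15, 2), (16, 5)], [(12, 135), (14, 18)]),
    ([(11, 67), (12, 202), (14, 30), (15, 17), (16, 5)], [(13, 35)]),
    ([(11, 114), (12, 291), (14, 124), (15, 25)], [(13, 110), (16, 16)]),
    ([(11, 8), (12, 109), (13, 245), (15, 38), (16, 27)], [(14, 96)]),
    ([(11, 2), (12, 297), (13, 62), (14, 63), (15, 28)], [(16, 40)]),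
    ([(17, 58), (18, 2)], []),
    ([(18, 16), (20, 7)], [(17, 118)]),
    ([(17, 351), (20, 12)], [(18, 52), (19, 29)]),
    ([(17, 250)], [(18, 108), (19, 28), (20, 23)]),
    ([(17, 129), (18, 76), (20, 27)], [(19, 31)]),
    ([(18, 37), (19, 25), (20, 37)], [(17, 173)]),
    ([(21, 8)], []),
    ([(21, 42)], []),
    ([(21, 10)], []),
    ([], [(21, 35)]),
    ([], [])],
   [([], [(0, 58)]),
    ([], [(1, 140), (2, 19), (3, 3), (4, 5)]),
    ([(1, 305), (2, 129), (4, 24)], [(3, 23)]),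
    ([(2, 48), (3, 48), (4, 19)], [(1, 273)]),
    ([(1, 235), (2, 119), (3, 15)], [(4, 30)]),
    ([(8, 1)], [(5, 295), (6, 48), (7, 1)]),
    ([(5, 383)], [(6, 47), (7, 65), (8, 7), (10, 6)]),
    ([(6, 286), (8, 42), (9, 25)], [(5, 46), (7, 26), (10, 5)]),
    ([(5, 158), (6, 99), (7, 155), (8, 43), (9, 13), (10, 31)], []),
    ([(5, 11), (6, 151), (9, 16)], [(7, 341), (10, 12)]),
    ([(5, 3), (9, 1), (10, 10)], [(6, 349), (7, 85), (8, 124)]),
    ([(13, 1), (14, 1)], [(11, 288), (12, 47)]),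
    ([(11, 386), (13, 66), (15, 3)], [(12, 47), (14, 6), (16, 6)]),
    ([(11, 48)], [(12, 287), (13, 26), (14, 42), (15, 25), (16, 7)]),
    ([(11, 160), (12, 106), (14, 43), (16, 33)], [(13, 157), (15, 3)]),
    ([(11, 12), (12, 2), (13, 350), (15, 17), (16, 1)], [(14, 44)]),
    ([(16, 10)], [(11, 2), (12, 378), (13, 59), (14, 115), (15, 11)]),
    ([(18, 19)], [(17, 142), (19, 5), (20, 3)]),
    ([(18, 132), (19, 8)], [(17, 307), (20, 32)]),
    ([(17, 165), (18, 90), (20, 17)], [(19, 46)]),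
    ([(17, 318)], [(18, 91), (19, 21), (20, 29)]),
    ([], [(21, 57)])],
   [([], []),
    ([(0, 8)], []),
    ([], [(0, 42)]),
    ([(0, 4)], []),
    ([], [(0, 38)]),
    ([(1, 58)], [(2, 1)]),
    ([(4, 6)], [(1, 113), (2, 15), (3, 3)]),
    ([(3, 32), (4, 3)], [(1, 351), (2, 52)]),
    ([(1, 249), (2, 104)], [(3, 13), (4, 34)]),
    ([(1, 186)], [(2, 53), (3, 40), (4, 8)]),
    ([(4, 46)], [(1, 114), (2, 64), (3, 12)]),
    ([(5, 415), (7, 2), (8, 1)], [(6, 33)]),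
    ([(5, 269), (9, 4), (10, 4)], [(6, 131), (7, 46), (8, 18)]),
    ([(10, 3)], [(5, 64), (6, 203), (7, 37), (8, 30), (9, 18)]),
    ([(5, 111), (6, 287), (7, 109), (8, 121), (9, 14)], [(10, 26)]),
    ([(5, 8), (6, 219), (9, 47)], [(7, 243), (8, 62), (10, 12)]),
    ([(6, 236), (7, 40), (8, 96)], [(5, 1), (9, 14), (10, 48)]),
    ([(11, 471), (12, 114), (13, 81), (14, 16), (16, 2)], [(15, 3)]),
    ([(12, 246), (13, 193), (14, 106), (15, 12), (16, 17)], [(11, 195)]),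
    ([(11, 15), (13, 429), (14, 57)], [(12, 187), (15, 39), (16, 13)]),
    ([(11, 1), (12, 362), (13, 38), (14, 126), (16, 45)], [(15, 12)]),
    ([(17, 483), (19, 9), (20, 36)], [(18, 156)])]]

def d54pp_22 : List (List Col) :=
  [[([(1, 483), (3, 5)], [(2, 156), (4, 37)]),
    ([(5, 471), (8, 16), (9, 3)], [(6, 114), (7, 81), (10, 2)]),
    ([(8, 106)], [(5, 195), (6, 247), (7, 192), (9, 13), (10, 17)]),
    ([(7, 430)], [(5, 15), (6, 182), (8, 58), (9, 40), (10, 10)]),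
    ([(6, 364), (7, 33), (10, 46)], [(5, 1), (8, 125), (9, 9)]),
    ([(11, 415), (12, 33), (14, 1)], [(13, 2)]),
    ([(14, 18), (15, 4), (16, 4)], [(11, 270), (12, 131), (13, 46)]),
    ([(11, 64), (14, 30), (16, 3)], [(12, 203), (13, 37), (15, 18)]),
    ([(11, 111), (14, 121), (16, 26)], [(12, 287), (13, 110), (15, 15)]),
    ([(12, 212), (14, 65), (15, 47)], [(11, 8), (13, 245), (16, 9)]),
    ([(11, 1), (12, 241), (13, 33)], [(14, 95), (15, 10), (16, 49)]),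
    ([(17, 58)], [(18, 1)]),
    ([(17, 113), (18, 15), (20, 6)], [(19, 3)]),
    ([(17, 351), (18, 52), (19, 32), (20, 3)], []),
    ([(17, 249), (18, 105), (19, 14), (20, 34)], []),
    ([(18, 56)], [(17, 181), (19, 41), (20, 6)]),
    ([(17, 122), (18, 61), (20, 46)], [(19, 10)]),
    ([(21, 8)], []),
    ([], [(21, 42)]),
    ([(21, 1)], []),
    ([(21, 38)], []),
    ([], [])],
   [([(0, 57)], []),
    ([(1, 142), (3, 5)], [(2, 19), (4, 4)]),
    ([(1, 307)], [(2, 131), (3, 11), (4, 31)]),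
    ([(1, 168), (2, 89)], [(3, 48), (4, 12)]),
    ([(1, 316), (4, 31)], [(2, 92), (3, 18)]),
    ([(5, 289), (7, 1)], [(6, 47), (8, 1)]),
    ([(5, 386), (6, 47), (10, 6)], [(7, 66), (8, 6), (9, 3)]),
    ([(5, 48), (6, 287), (7, 26), (9, 25), (10, 6)], [(8, 42)]),
    ([(6, 105), (10, 33)], [(5, 160), (7, 156), (8, 43), (9, 1)]),
    ([(5, 12), (10, 1)], [(6, 12), (7, 351), (8, 41), (9, 17)]),
    ([(6, 378), (7, 49), (9, 10)], [(5, 2), (8, 116), (10, 10)]),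
    ([(11, 294)], [(12, 48), (13, 1), (14, 1)]),
    ([(11, 383), (12, 47), (13, 65), (16, 6)], [(14, 6)]),
    ([(13, 26), (14, 42), (16, 4)], [(11, 46), (12, 286), (15, 26)]),
    ([(12, 100), (13, 155), (15, 11), (16, 31)], [(11, 158), (14, 43)]),
    ([(11, 11), (13, 345), (16, 11)], [(12, 134), (14, 5), (15, 16)]),
    ([(11, 2), (12, 356), (13, 68)], [(14, 124), (16, 10)]),
    ([(17, 140), (18, 19)], [(19, 3), (20, 5)]),
    ([(20, 25)], [(17, 305), (18, 129), (19, 22)]),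
    ([(17, 254), (19, 49), (20, 16)], [(18, 58)]),
    ([(17, 255), (18, 115), (20, 32)], [(19, 10)]),
    ([(21, 58)], [])],
   [([], []),
    ([(0, 8)], []),
    ([(0, 42)], []),
    ([], [(0, 10)]),
    ([(0, 35)], []),
    ([(1, 58), (2, 1)], []),
    ([(1, 117), (3, 1), (4, 7)], [(2, 16)]),
    ([(2, 52), (3, 30), (4, 9)], [(1, 351)]),
    ([(1, 250), (4, 26)], [(2, 108), (3, 26)]),
    ([(3, 34), (4, 23)], [(1, 133), (2, 75)]),
    ([(1, 170), (4, 40)], [(2, 39), (3, 20)]),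
    ([(5, 411), (6, 34), (7, 2), (8, 1)], []),
    ([(7, 46), (8, 18), (9, 2), (10, 5)], [(5, 274), (6, 134)]),
    ([(6, 202), (9, 18), (10, 4)], [(5, 67), (7, 35), (8, 30)]),
    ([(5, 114), (7, 110), (8, 123), (10, 18)], [(6, 291), (9, 24)]),
    ([(6, 124), (7, 247), (8, 93), (9, 41), (10, 23)], [(5, 8)]),
    ([(6, 291), (7, 50), (9, 23)], [(5, 2), (8, 68), (10, 43)]),
    ([(11, 471), (13, 80), (14, 15), (15, 2)], [(12, 116), (16, 3)]),
    ([(11, 195), (12, 252), (15, 19), (16, 10)], [(13, 190), (14, 106)]),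
    ([(16, 18)], [(11, 14), (12, 63), (13, 421), (14, 93), (15, 36)]),
    ([(11, 3), (12, 398), (13, 102), (15, 21), (16, 41)], [(14, 101)]),
    ([(17, 483), (18, 155), (19, 9)], [(20, 36)])]]

def d54pp_23 : List (List Col) :=
  [[([(1, 483), (2, 155), (4, 36)], [(3, 9)]),
    ([(5, 471), (6, 116), (8, 15), (10, 3)], [(7, 80), (9, 2)]),
    ([(5, 195), (7, 190)], [(6, 252), (8, 106), (9, 18), (10, 11)]),
    ([(6, 91), (7, 427), (9, 38)], [(5, 14), (8, 85), (10, 14)]),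
    ([(6, 393), (7, 71), (8, 108), (9, 17), (10, 43)], [(5, 2)]),
    ([(11, 411), (14, 1)], [(12, 34), (13, 2)]),
    ([(11, 274), (13, 46), (15, 2), (16, 5)], [(12, 134), (14, 18)]),
    ([(11, 66), (12, 202), (14, 30), (15, 18), (16, 3)], [(13, 36)]),
    ([(11, 113), (12, 290), (14, 123), (15, 23)], [(13, 110), (16, 19)]),
    ([(11, 8), (12, 139), (13, 249), (15, 43), (16, 19)], [(14, 89)]),
    ([(11, 1), (12, 285), (13, 36), (14, 73), (15, 19)], [(16, 45)]),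
    ([(17, 58), (18, 1)], []),
    ([(18, 16), (20, 7)], [(17, 117), (19, 1)]),
    ([(17, 351), (20, 7)], [(18, 52), (19, 31)]),
    ([(17, 250)], [(18, 108), (19, 23), (20, 28)]),
    ([(17, 139), (18, 73), (20, 19)], [(19, 37)]),
    ([(18, 42), (19, 16), (20, 42)], [(17, 166)]),
    ([(21, 8)], []),
    ([(21, 42)], []),
    ([(21, 9)], []),
    ([], [(21, 36)]),
    ([], [])],
   [([], [(0, 58)]),
    ([], [(1, 140), (2, 19), (3, 3), (4, 5)]),
    ([(1, 306), (2, 129), (4, 25)], [(3, 22)]),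
    ([(2, 65), (3, 50), (4, 14)], [(1, 236)]),
    ([(1, 272), (2, 111), (3, 6)], [(4, 33)]),
    ([(8, 1)], [(5, 294), (6, 48), (7, 1)]),
    ([(5, 383)], [(6, 47), (7, 65), (8, 6), (10, 6)]),
    ([(6, 286), (8, 42), (9, 26)], [(5, 46), (7, 26), (10, 3)]),
    ([(5, 158), (6, 100), (7, 155), (8, 43), (9, 11), (10, 31)], []),
    ([(5, 11), (6, 115), (9, 16)], [(7, 349), (8, 11), (10, 10)]),
    ([(5, 2), (10, 11)], [(6, 362), (7, 50), (8, 123), (9, 1)]),
    ([(13, 1), (14, 1)], [(11, 290), (12, 47)]),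
    ([(11, 386), (13, 66), (15, 2)], [(12, 47), (14, 6), (16, 6)]),
    ([(11, 47)], [(12, 287), (13, 26), (14, 42), (15, 25), (16, 5)]),
    ([(11, 160), (12, 104), (14, 43), (16, 33)], [(13, 156)]),
    ([(11, 12), (12, 26), (13, 352), (15, 17)], [(14, 38), (16, 2)]),
    ([(16, 11)], [(11, 1), (12, 378), (13, 36), (14, 117), (15, 9)]),
    ([(18, 19)], [(17, 142), (19, 4), (20, 4)]),
    ([(18, 131), (19, 13)], [(17, 307), (20, 30)]),
    ([(17, 174), (18, 87), (20, 8)], [(19, 49)]),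
    ([(17, 313)], [(18, 94), (19, 14), (20, 32)]),
    ([], [(21, 58)])],
   [([], []),
    ([(0, 8)], []),
    ([], [(0, 42)]),
    ([], [(0, 2)]),
    ([], [(0, 38)]),
    ([(1, 58)], [(2, 1)]),
    ([(4, 6)], [(1, 114), (2, 15), (3, 3)]),
    ([(3, 32), (4, 2)], [(1, 351), (2, 52)]),
    ([(1, 250), (2, 105)], [(3, 14), (4, 34)]),
    ([(1, 174)], [(2, 59), (3, 41), (4, 3)]),
    ([(4, 47)], [(1, 131), (2, 58), (3, 7)]),
    ([(5, 414), (7, 2), (8, 1)], [(6, 33)]),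
    ([(5, 270), (9, 4), (10, 4)], [(6, 132), (7, 46), (8, 18)]),
    ([(10, 2)], [(5, 64), (6, 203), (7, 36), (8, 30), (9, 18)]),
    ([(5, 112), (6, 288), (7, 110), (8, 122), (9, 16)], [(10, 25)]),
    ([(5, 8), (6, 203), (9, 48)], [(7, 246), (8, 69), (10, 6)]),
    ([(6, 248), (7, 24), (8, 92)], [(5, 1), (9, 7), (10, 49)]),
    ([(11, 471), (12, 115), (13, 81), (14, 16), (16, 2)], [(15, 3)]),
    ([(12, 248), (13, 192), (14, 106), (15, 13), (16, 16)], [(11, 195)]),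
    ([(11, 15), (13, 431), (14, 61)], [(12, 175), (15, 40), (16, 7)]),
    ([(11, 1), (12, 367), (13, 24), (14, 124), (16, 46)], [(15, 6)]),
    ([(17, 483), (19, 2), (20, 37)], [(18, 156)])]]

def d54pp_24 : List (List Col) :=
  [[([(1, 483)], [(2, 156), (4, 37)]),
    ([(5, 471), (8, 16), (9, 3)], [(6, 115), (7, 80), (10, 2)]),
    ([(8, 106)], [(5, 195), (6, 248), (7, 192), (9, 14), (10, 15)]),
    ([(7, 432)], [(5, 15), (6, 167), (8, 63), (9, 41), (10, 4)]),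
    ([(6, 370), (7, 14), (10, 46)], [(8, 123), (9, 3)]),
    ([(11, 414), (12, 33), (14, 1)], [(13, 2)]),
    ([(14, 18), (15, 3), (16, 4)], [(11, 271), (12, 132), (13, 46)]),
    ([(11, 65), (14, 30), (16, 2)], [(12, 203), (13, 36), (15, 18)]),
    ([(11, 112), (14, 122), (16, 25)], [(12, 288), (13, 110), (15, 17)]),
    ([(12, 195), (14, 72), (15, 48)], [(11, 8), (13, 248), (16, 3)]),
    ([(11, 1), (12, 254), (13, 16)], [(14, 90), (15, 4), (16, 49)]),
    ([(17, 58)], [(18, 1)]),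
    ([(17, 114), (18, 15), (20, 6)], [(19, 3)]),
    ([(17, 351), (18, 52), (19, 32), (20, 2)], []),
    ([(17, 250), (18, 105), (19, 15), (20, 33)], []),
    ([(18, 62)], [(17, 168), (19, 41)]),
    ([(17, 138), (18, 55), (20, 47)], [(19, 4)]),
    ([(21, 8)], []),
    ([], [(21, 42)]),
    ([], [(21, 4)]),
    ([(21, 37)], []),
    ([], [])],
   [([(0, 58)], []),
    ([(1, 142), (3, 4)], [(2, 19), (4, 5)]),
    ([(1, 306)], [(2, 131), (3, 15), (4, 29)]),
    ([(1, 180), (2, 85)], [(3, 50), (4, 4)]),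
    ([(1, 310), (4, 33)], [(2, 96), (3, 11)]),
    ([(5, 290), (7, 1)], [(6, 47), (8, 1)]),
    ([(5, 385), (6, 47), (10, 6)], [(7, 66), (8, 6), (9, 2)]),
    ([(5, 47), (6, 287), (7, 26), (9, 25), (10, 3)], [(8, 42)]),
    ([(6, 104), (9, 2), (10, 33)], [(5, 160), (7, 156), (8, 43)]),
    ([(5, 12), (10, 3)], [(6, 38), (7, 353), (8, 34), (9, 17)]),
    ([(6, 377), (7, 24), (9, 8)], [(5, 1), (8, 118), (10, 11)]),
    ([(11, 293)], [(12, 48), (13, 1), (14, 1)]),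
    ([(11, 384), (12, 47), (13, 65), (16, 6)], [(14, 6)]),
    ([(13, 26), (14, 42), (16, 2)], [(11, 46), (12, 286), (15, 26)]),
    ([(12, 101), (13, 155), (15, 10), (16, 32)], [(11, 159), (14, 43)]),
    ([(11, 12), (13, 351), (16, 9)], [(12, 98), (14, 17), (15, 17)]),
    ([(11, 1), (12, 367), (13, 34), (15, 2)], [(14, 123), (16, 11)]),
    ([(17, 141), (18, 19)], [(19, 3), (20, 5)]),
    ([(20, 25)], [(17, 306), (18, 130), (19, 21)]),
    ([(17, 221), (19, 50), (20, 11)], [(18, 71)]),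
    ([(17, 284), (18, 107), (20, 34)], [(19, 3)]),
    ([(21, 58)], [])],
   [([], []),
    ([(0, 8)], []),
    ([(0, 42)], []),
    ([], [(0, 9)]),
    ([(0, 36)], []),
    ([(1, 58), (2, 1)], []),
    ([(1, 116), (3, 2), (4, 7)], [(2, 16)]),
    ([(2, 52), (3, 31), (4, 5)], [(1, 351)]),
    ([(1, 250), (4, 29)], [(2, 107), (3, 21)]),
    ([(3, 38), (4, 15)], [(1, 144), (2, 71)]),
    ([(1, 161), (4, 44)], [(2, 44), (3, 12)]),
    ([(5, 411), (6, 34), (7, 2), (8, 1)], []),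
    ([(7, 46), (8, 18), (9, 2), (10, 5)], [(5, 273), (6, 134)]),
    ([(6, 202), (9, 18), (10, 2)], [(5, 66), (7, 36), (8, 30)]),
    ([(5, 113), (7, 110), (8, 123), (10, 20)], [(6, 290), (9, 22)]),
    ([(6, 152), (7, 249), (8, 85), (9, 45), (10, 15)], [(5, 8)]),
    ([(6, 279), (7, 25), (9, 15)], [(5, 1), (8, 77), (10, 47)]),
    ([(11, 471), (13, 80), (14, 15), (15, 2)], [(12, 116), (16, 3)]),
    ([(11, 195), (12, 251), (15, 18), (16, 11)], [(13, 191), (14, 106)]),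
    ([(16, 11)], [(11, 14), (12, 112), (13, 430), (14, 80), (15, 39)]),
    ([(11, 2), (12, 388), (13, 48), (15, 14), (16, 44)], [(14, 112)]),
    ([(17, 483), (18, 155), (19, 8)], [(20, 36)])]]

def d54pp_25 : List (List Col) :=
  [[([(1, 483), (2, 155), (4, 36)], [(3, 8)]),
    ([(5, 471), (6, 115), (8, 15), (10, 3)], [(7, 80), (9, 2)]),
    ([(5, 195), (7, 191)], [(6, 251), (8, 106), (9, 17), (10, 12)]),
    ([(6, 130), (7, 432), (9, 40)], [(5, 14), (8, 74), (10, 8)]),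
    ([(6, 383), (7, 28), (8, 116), (9, 10), (10, 45)], [(5, 1)]),
    ([(11, 412), (14, 1)], [(12, 34), (13, 2)]),
    ([(11, 273), (13, 46), (15, 3), (16, 5)], [(12, 133), (14, 18)]),
    ([(11, 66), (12, 202), (14, 30), (15, 18), (16, 2)], [(13, 36)]),
    ([(11, 113), (12, 289), (14, 123), (15, 21)], [(13, 110), (16, 21)]),
    ([(11, 8), (12, 164), (13, 250), (15, 46), (16, 11)], [(14, 82)]),
    ([(12, 273), (13, 13), (14, 81), (15, 10)], [(16, 48)]),
    ([(17, 58), (18, 1)], []),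
    ([(18, 16), (20, 6)], [(17, 116), (19, 2)]),
    ([(17, 351), (20, 3)], [(18, 52), (19, 31)]),
    ([(17, 250)], [(18, 107), (19, 20), (20, 30)]),
    ([(17, 150), (18, 69), (20, 11)], [(19, 40)]),
    ([(18, 47), (19, 8), (20, 45)], [(17, 156)]),
    ([(21, 8)], []),
    ([(21, 42)], []),
    ([(21, 8)], []),
    ([(21, 36)], []),
    ([], [])],
   [([], [(0, 58)]),
    ([], [(1, 141), (2, 19), (3, 3), (4, 5)]),
    ([(1, 306), (2, 130), (4, 26)], [(3, 21)]),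
    ([(2, 76), (3, 50), (4, 8)], [(1, 208)]),
    ([(1, 293), (2, 103)], [(4, 34)]),
    ([(8, 1)], [(5, 293), (6, 48), (7, 1)]),
    ([(5, 384), (9, 1)], [(6, 47), (7, 65), (8, 6), (10, 6)]),
    ([(6, 286), (8, 42), (9, 26)], [(5, 46), (7, 26), (10, 2)]),
    ([(5, 159), (6, 101), (7, 156), (8, 43), (9, 9), (10, 32)], []),
    ([(5, 12), (6, 82), (9, 17)], [(7, 352), (8, 22), (10, 8)]),
    ([(5, 1), (10, 11)], [(6, 371), (7, 18), (8, 122), (9, 3)]),
    ([(13, 1), (14, 1)], [(11, 291), (12, 47)]),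
    ([(11, 385), (13, 65), (15, 2)], [(12, 47), (14, 6), (16, 6)]),
    ([(11, 47)], [(12, 287), (13, 26), (14, 42), (15, 26), (16, 2)]),
    ([(11, 159), (12, 103), (14, 43), (15, 4), (16, 33)], [(13, 156)]),
    ([(11, 12), (12, 52), (13, 353), (15, 17)], [(14, 30), (16, 4)]),
    ([(16, 11)], [(12, 375), (13, 11), (14, 120), (15, 7)]),
    ([(18, 19)], [(17, 141), (19, 4), (20, 5)]),
    ([(18, 131), (19, 17)], [(17, 306), (20, 28)]),
    ([(17, 188), (18, 83)], [(19, 50)]),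
    ([(18, 98), (19, 8), (20, 34)], [(17, 306)]),
    ([], [(21, 58)])],
   [([], []),
    ([(0, 8)], []),
    ([], [(0, 42)]),
    ([], [(0, 6)]),
    ([], [(0, 37)]),
    ([(1, 58)], [(2, 1)]),
    ([(4, 6)], [(1, 115), (2, 15), (3, 3)]),
    ([(3, 32), (4, 1)], [(1, 351), (2, 52)]),
    ([(1, 250), (2, 106)], [(3, 15), (4, 33)]),
    ([(1, 162), (4, 3)], [(2, 65), (3, 41)]),
    ([(4, 47)], [(1, 145), (2, 53), (3, 1)]),
    ([(5, 413), (7, 2), (8, 1)], [(6, 33)]),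
    ([(5, 271), (9, 3), (10, 4)], [(6, 132), (7, 46), (8, 18)]),
    ([(10, 1)], [(5, 65), (6, 203), (7, 36), (8, 30), (9, 18)]),
    ([(5, 112), (6, 288), (7, 110), (8, 122), (9, 17)], [(10, 24)]),
    ([(5, 8), (6, 185), (9, 48)], [(7, 249), (8, 75)]),
    ([(6, 260), (7, 7), (8, 87)], [(9, 1), (10, 49)]),
    ([(11, 471), (12, 115), (13, 80), (14, 16), (16, 2)], [(15, 3)]),
    ([(12, 249), (13, 192), (14, 106), (15, 15), (16, 15)], [(11, 195)]),
    ([(11, 15), (13, 432), (14, 67)], [(12, 157), (15, 41), (16, 1)]),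
    ([], [(12, 374), (13, 3), (14, 121), (16, 46)]),
    ([(17, 483), (20, 37)], [(18, 156), (19, 2)])]]

def d54pp_26 : List (List Col) :=
  [[([(1, 483)], [(2, 156), (3, 4), (4, 37)]),
    ([(5, 471), (8, 15), (9, 3)], [(6, 115), (7, 80), (10, 2)]),
    ([(8, 106)], [(5, 195), (6, 249), (7, 191), (9, 16), (10, 14)]),
    ([(7, 432), (10, 2)], [(5, 15), (6, 145), (8, 70), (9, 41)]),
    ([(6, 378), (9, 4), (10, 46)], [(7, 11), (8, 119)]),
    ([(11, 413), (12, 34), (14, 1)], [(13, 2)]),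
    ([(14, 18), (15, 3), (16, 4)], [(11, 271), (12, 133), (13, 46)]),
    ([(11, 65), (14, 30)], [(12, 203), (13, 36), (15, 18)]),
    ([(11, 112), (14, 122), (16, 23)], [(12, 289), (13, 110), (15, 18)]),
    ([(12, 176), (14, 78), (15, 48), (16, 4)], [(11, 8), (13, 249)]),
    ([(12, 267), (15, 3)], [(13, 3), (14, 84), (16, 49)]),
    ([(17, 58)], [(18, 1)]),
    ([(17, 115), (18, 15)], [(19, 3), (20, 6)]),
    ([(17, 351), (18, 52), (19, 32)], []),
    ([(17, 250), (18, 106), (19, 16)], [(20, 32)]),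
    ([(18, 67)], [(17, 156), (19, 41), (20, 5)]),
    ([(17, 151), (18, 50), (19, 1)], [(20, 46)]),
    ([(21, 8)], []),
    ([], [(21, 42)]),
    ([], [(21, 7)]),
    ([(21, 37)], []),
    ([], [])],
   [([(0, 58)], []),
    ([(1, 141), (3, 4)], [(2, 19), (4, 5)]),
    ([(1, 306)], [(2, 130), (3, 18), (4, 28)]),
    ([(1, 197), (2, 80), (4, 3)], [(3, 50)]),
    ([(1, 300), (4, 34)], [(2, 100), (3, 5)]),
    ([(5, 291), (7, 1)], [(6, 47), (8, 1)]),
    ([(5, 385), (6, 47), (10, 6)], [(7, 65), (8, 6), (9, 1)]),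
    ([(5, 47), (6, 287), (7, 26), (9, 26), (10, 1)], [(8, 42)]),
    ([(6, 103), (9, 5), (10, 33)], [(5, 159), (7, 156), (8, 43)]),
    ([(5, 12), (10, 5)], [(6, 66), (7, 353), (8, 26), (9, 17)]),
    ([(6, 373), (9, 5)], [(7, 3), (8, 121), (10, 11)]),
    ([(11, 292)], [(12, 47), (13, 1), (14, 1)]),
    ([(11, 384), (12, 47), (13, 65), (16, 6)], [(14, 6), (15, 1)]),
    ([(13, 26), (14, 42), (16, 1)], [(11, 46), (12, 287), (15, 26)]),
    ([(12, 102), (13, 156), (15, 8), (16, 32)], [(11, 159), (14, 43)]),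
    ([(11, 12), (13, 353), (16, 7)], [(12, 67), (14, 26), (15, 17)]),
    ([(12, 373), (13, 4), (15, 4)], [(14, 121), (16, 11)]),
    ([(17, 141), (18, 19), (20, 5)], [(19, 3)]),
    ([], [(17, 306), (18, 130), (19, 20), (20, 26)]),
    ([(17, 197), (19, 50)], [(18, 80), (20, 6)]),
    ([(17, 300), (18, 101), (19, 3)], [(20, 34)]),
    ([(21, 58)], [])],
   [([], []),
    ([(0, 8)], []),
    ([(0, 42)], []),
    ([], [(0, 7)]),
    ([(0, 37)], []),
    ([(1, 58), (2, 1)], []),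
    ([(1, 116), (3, 2), (4, 6)], [(2, 16)]),
    ([(2, 52), (3, 31), (4, 2)], [(1, 351)]),
    ([(1, 250), (4, 31)], [(2, 107), (3, 18)]),
    ([(3, 40), (4, 8)], [(1, 156), (2, 67)]),
    ([(1, 151), (4, 46)], [(2, 50), (3, 5)]),
    ([(5, 412), (6, 34), (7, 2), (8, 1)], []),
    ([(7, 46), (8, 18), (9, 3), (10, 5)], [(5, 273), (6, 133)]),
    ([(6, 203), (9, 18), (10, 1)], [(5, 65), (7, 36), (8, 30)]),
    ([(5, 113), (7, 110), (8, 123), (10, 22)], [(6, 289), (9, 20)]),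
    ([(6, 175), (7, 250), (8, 78), (9, 47), (10, 7)], [(5, 8)]),
    ([(6, 266), (7, 3), (9, 7)], [(8, 84), (10, 49)]),
    ([(11, 471), (13, 80), (14, 15), (15, 3)], [(12, 115), (16, 3)]),
    ([(11, 195), (12, 250), (15, 17), (16, 13)], [(13, 191), (14, 106)]),
    ([(16, 5)], [(11, 14), (12, 144), (13, 432), (14, 70), (15, 41)]),
    ([(12, 378), (13, 12), (15, 7), (16, 46)], [(14, 119)]),
    ([(17, 483), (18, 156), (19, 7), (20, 36)], [])]]

def d54pp_27 : List (List Col) :=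
  [[([], []),
    ([], [(21, 1)]),
    ([], []),
    ([], []),
    ([], []),
    ([(17, 40), (18, 1)], []),
    ([(18, 1), (20, 1)], [(17, 10)]),
    ([(18, 1), (19, 1)], [(17, 7)]),
    ([(17, 1)], [(18, 1)]),
    ([], []),
    ([], []),
    ([(12, 23), (13, 1)], [(11, 288), (14, 1)]),
    ([(12, 11), (14, 2)], [(11, 23), (13, 4)]),
    ([(11, 1), (12, 4), (14, 1)], [(13, 1)]),
    ([(13, 1)], [(11, 1), (12, 2), (14, 1)]),
    ([], []),
    ([], []),
    ([(5, 40), (6, 10), (8, 1)], [(7, 7)]),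
    ([(6, 1), (8, 1)], [(5, 1), (7, 1)]),
    ([], [(7, 1)]),
    ([], [(6, 1)]),
    ([], [(1, 1)])],
   [([], []),
    ([(17, 12)], [(18, 2)]),
    ([(18, 1)], [(17, 2)]),
    ([], []),
    ([], []),
    ([(13, 1), (14, 1)], [(11, 203), (12, 33)]),
    ([(11, 33), (13, 6)], [(12, 4), (14, 1), (16, 1)]),
    ([(12, 6), (13, 1), (14, 1), (15, 1)], [(11, 1)]),
    ([(11, 1), (12, 1)], [(13, 1)]),
    ([(13, 1)], []),
    ([], [(12, 1)]),
    ([(5, 204), (6, 33), (7, 1)], [(8, 1)]),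
    ([(6, 4), (7, 6), (8, 1), (10, 1)], [(5, 33)]),
    ([(6, 6), (8, 1), (9, 1)], [(5, 1), (7, 1)]),
    ([], [(5, 1), (6, 1), (7, 1)]),
    ([(7, 1)], []),
    ([(6, 1)], []),
    ([], [(1, 12), (2, 2)]),
    ([], [(1, 2), (2, 1)]),
    ([], []),
    ([], []),
    ([], [])],
   [([(17, 1)], []),
    ([], [(11, 41), (12, 10), (13, 7), (14, 1)]),
    ([(12, 1), (13, 1), (14, 1)], [(11, 1)]),
    ([(13, 1)], []),
    ([], [(12, 1)]),
    ([(5, 287), (7, 1), (8, 1)], [(6, 23)]),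
    ([(5, 23)], [(6, 11), (7, 4), (8, 2)]),
    ([(5, 1), (6, 4), (7, 1), (8, 1)], []),
    ([(5, 1), (6, 2), (7, 1), (8, 1)], []),
    ([], []),
    ([], []),
    ([(2, 1)], [(1, 40)]),
    ([(1, 10), (2, 1)], [(4, 1)]),
    ([(3, 1)], [(1, 7), (2, 1)]),
    ([], [(1, 1), (2, 1)]),
    ([], []),
    ([], []),
    ([(0, 1)], []),
    ([], []),
    ([], []),
    ([], []),
    ([], [])]]

def d54pp_28 : List (List Col) :=
  [[([], []),
    ([(0, 483)], []),
    ([(0, 155)], []),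
    ([], [(0, 8)]),
    ([(0, 36)], []),
    ([(1, 471), (2, 195)], [(3, 14), (4, 1)]),
    ([(1, 115), (3, 130), (4, 383)], [(2, 251)]),
    ([(2, 191), (3, 432), (4, 28)], [(1, 80)]),
    ([(1, 15), (4, 116)], [(2, 106), (3, 74)]),
    ([(3, 40), (4, 10)], [(1, 2), (2, 17)]),
    ([(1, 3), (4, 45)], [(2, 12), (3, 8)]),
    ([(5, 412), (6, 273), (7, 66), (8, 113), (9, 8)], []),
    ([(7, 202), (8, 289), (9, 164), (10, 273)], [(5, 34), (6, 133)]),
    ([(6, 46), (9, 250), (10, 13)], [(5, 2), (7, 36), (8, 110)]),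
    ([(5, 1), (7, 30), (8, 123), (10, 81)], [(6, 18), (9, 82)]),
    ([(6, 3), (7, 18), (8, 21), (9, 46), (10, 10)], []),
    ([(6, 5), (7, 2), (9, 11)], [(8, 21), (10, 48)]),
    ([(11, 58), (13, 351), (14, 250), (15, 150)], [(12, 116), (16, 156)]),
    ([(11, 1), (12, 16), (15, 69), (16, 47)], [(13, 52), (14, 107)]),
    ([(16, 8)], [(12, 2), (13, 31), (14, 20), (15, 40)]),
    ([(12, 6), (13, 3), (15, 11), (16, 45)], [(14, 30)]),
    ([(17, 8), (18, 42), (19, 8), (20, 36)], [])],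
   [([], [(0, 58)]),
    ([(2, 306), (4, 293)], [(1, 141), (3, 208)]),
    ([(2, 130), (3, 76), (4, 103)], [(1, 19)]),
    ([(3, 50)], [(1, 3), (2, 21)]),
    ([(2, 26), (3, 8)], [(1, 5), (4, 34)]),
    ([(6, 384), (8, 159), (9, 12), (10, 1)], [(5, 293), (7, 46)]),
    ([(7, 286), (8, 101), (9, 82)], [(5, 48), (6, 47), (10, 371)]),
    ([(8, 156)], [(5, 1), (6, 65), (7, 26), (9, 352), (10, 18)]),
    ([(5, 1), (7, 42), (8, 43)], [(6, 6), (9, 22), (10, 122)]),
    ([(6, 1), (7, 26), (8, 9), (9, 17)], [(10, 3)]),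
    ([(8, 32), (10, 11)], [(6, 6), (7, 2), (9, 8)]),
    ([(12, 385), (13, 47), (14, 159), (15, 12)], [(11, 291)]),
    ([(14, 103), (15, 52)], [(11, 47), (12, 47), (13, 287), (16, 375)]),
    ([(11, 1), (12, 65), (15, 353)], [(13, 26), (14, 156), (16, 11)]),
    ([(11, 1), (14, 43)], [(12, 6), (13, 42), (15, 30), (16, 120)]),
    ([(12, 2), (14, 4), (15, 17)], [(13, 26), (16, 7)]),
    ([(14, 33), (16, 11)], [(12, 6), (13, 2), (15, 4)]),
    ([(19, 188)], [(17, 141), (18, 306), (20, 306)]),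
    ([(17, 19), (18, 131), (19, 83), (20, 98)], []),
    ([(18, 17), (20, 8)], [(17, 4), (19, 50)]),
    ([(20, 34)], [(17, 5), (18, 28)]),
    ([], [(21, 58)])],
   [([(1, 8)], [(2, 42), (3, 6), (4, 37)]),
    ([(5, 58), (8, 250), (9, 162)], [(6, 115), (7, 351), (10, 145)]),
    ([(8, 106)], [(5, 1), (6, 15), (7, 52), (9, 65), (10, 53)]),
    ([(7, 32)], [(6, 3), (8, 15), (9, 41), (10, 1)]),
    ([(6, 6), (7, 1), (9, 3), (10, 47)], [(8, 33)]),
    ([(11, 413), (12, 271), (14, 112), (15, 8)], [(13, 65)]),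
    ([(14, 288), (15, 185), (16, 260)], [(11, 33), (12, 132), (13, 203)]),
    ([(11, 2), (14, 110), (16, 7)], [(12, 46), (13, 36), (15, 249)]),
    ([(11, 1), (14, 122), (16, 87)], [(12, 18), (13, 30), (15, 75)]),
    ([(12, 3), (14, 17), (15, 48)], [(13, 18), (16, 1)]),
    ([(12, 4), (13, 1)], [(14, 24), (16, 49)]),
    ([(17, 471), (19, 15)], [(18, 195)]),
    ([(17, 115), (18, 249)], [(19, 157), (20, 374)]),
    ([(17, 80), (18, 192), (19, 432)], [(20, 3)]),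
    ([(17, 16), (18, 106), (19, 67)], [(20, 121)]),
    ([(18, 15)], [(17, 3), (19, 41)]),
    ([(17, 2), (18, 15)], [(19, 1), (20, 46)]),
    ([(21, 483)], []),
    ([], [(21, 156)]),
    ([], [(21, 2)]),
    ([(21, 37)], []),
    ([], [])]]

def d54pp_29 : List (List Col) :=
  [[([], []),
    ([(0, 483)], []),
    ([], [(0, 156)]),
    ([], []),
    ([], [(0, 37)]),
    ([(1, 471)], [(2, 195), (3, 15)]),
    ([(4, 370)], [(1, 115), (2, 248), (3, 167)]),
    ([(3, 432), (4, 14)], [(1, 80), (2, 192)]),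
    ([(1, 16), (2, 106)], [(3, 63), (4, 123)]),
    ([(1, 3)], [(2, 14), (3, 41), (4, 3)]),
    ([(4, 46)], [(1, 2), (2, 15), (3, 4)]),
    ([(5, 414), (7, 65), (8, 112), (10, 1)], [(6, 271), (9, 8)]),
    ([(5, 33), (9, 195), (10, 254)], [(6, 132), (7, 203), (8, 288)]),
    ([(10, 16)], [(5, 2), (6, 46), (7, 36), (8, 110), (9, 248)]),
    ([(5, 1), (6, 18), (7, 30), (8, 122), (9, 72)], [(10, 90)]),
    ([(6, 3), (9, 48)], [(7, 18), (8, 17), (10, 4)]),
    ([(6, 4), (7, 2), (8, 25)], [(9, 3), (10, 49)]),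
    ([(11, 58), (12, 114), (13, 351), (14, 250), (16, 138)], [(15, 168)]),
    ([(12, 15), (13, 52), (14, 105), (15, 62), (16, 55)], [(11, 1)]),
    ([(13, 32), (14, 15)], [(12, 3), (15, 41), (16, 4)]),
    ([(12, 6), (13, 2), (14, 33), (16, 47)], []),
    ([(17, 8), (20, 37)], [(18, 42), (19, 4)])],
   [([(0, 58)], []),
    ([(1, 142), (2, 306), (3, 180), (4, 310)], []),
    ([(3, 85)], [(1, 19), (2, 131), (4, 96)]),
    ([(1, 4)], [(2, 15), (3, 50), (4, 11)]),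
    ([(4, 33)], [(1, 5), (2, 29), (3, 4)]),
    ([(5, 290), (6, 385), (7, 47), (9, 12)], [(8, 160), (10, 1)]),
    ([(6, 47), (7, 287), (8, 104), (10, 377)], [(5, 47), (9, 38)]),
    ([(5, 1), (7, 26), (10, 24)], [(6, 66), (8, 156), (9, 353)]),
    ([], [(5, 1), (6, 6), (7, 42), (8, 43), (9, 34), (10, 118)]),
    ([(7, 25), (8, 2), (10, 8)], [(6, 2), (9, 17)]),
    ([(6, 6), (7, 3), (8, 33), (9, 3)], [(10, 11)]),
    ([(11, 293), (12, 384), (15, 12), (16, 1)], [(13, 46), (14, 159)]),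
    ([(12, 47), (14, 101), (16, 367)], [(11, 48), (13, 286), (15, 98)]),
    ([(12, 65), (13, 26), (14, 155), (15, 351), (16, 34)], [(11, 1)]),
    ([(13, 42)], [(11, 1), (12, 6), (14, 43), (15, 17), (16, 123)]),
    ([(14, 10), (16, 2)], [(13, 26), (15, 17)]),
    ([(12, 6), (13, 2), (14, 32), (15, 9)], [(16, 11)]),
    ([(17, 141), (19, 221), (20, 284)], [(18, 306)]),
    ([(17, 19), (20, 107)], [(18, 130), (19, 71)]),
    ([(19, 50)], [(17, 3), (18, 21), (20, 3)]),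
    ([(18, 25), (19, 11), (20, 34)], [(17, 5)]),
    ([(21, 58)], [])],
   [([(1, 8), (2, 42), (4, 36)], [(3, 9)]),
    ([(5, 58), (6, 116), (8, 250), (10, 161)], [(7, 351), (9, 144)]),
    ([(5, 1), (7, 52)], [(6, 16), (8, 107), (9, 71), (10, 44)]),
    ([(6, 2), (7, 31), (9, 38)], [(8, 21), (10, 12)]),
    ([(6, 7), (7, 5), (8, 29), (9, 15), (10, 44)], []),
    ([(11, 411), (14, 113)], [(12, 273), (13, 66), (15, 8), (16, 1)]),
    ([(11, 34), (13, 202), (15, 152), (16, 279)], [(12, 134), (14, 290)]),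
    ([(11, 2), (12, 46), (14, 110), (15, 249), (16, 25)], [(13, 36)]),
    ([(11, 1), (12, 18), (14, 123), (15, 85)], [(13, 30), (16, 77)]),
    ([(12, 2), (13, 18), (15, 45), (16, 15)], [(14, 22)]),
    ([(12, 5), (13, 2), (14, 20), (15, 15)], [(16, 47)]),
    ([(17, 471), (18, 195), (20, 2)], [(19, 14)]),
    ([(18, 251), (20, 388)], [(17, 116), (19, 112)]),
    ([(17, 80), (20, 48)], [(18, 191), (19, 430)]),
    ([(17, 15)], [(18, 106), (19, 80), (20, 112)]),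
    ([(17, 2), (18, 18), (20, 14)], [(19, 39)]),
    ([(18, 11), (19, 11), (20, 44)], [(17, 3)]),
    ([(21, 483)], []),
    ([(21, 155)], []),
    ([(21, 8)], []),
    ([], [(21, 36)]),
    ([], [])]]

def d54pp_30 : List (List Col) :=
  [[([], []),
    ([(0, 483)], []),
    ([(0, 155)], []),
    ([], [(0, 9)]),
    ([(0, 36)], []),
    ([(1, 471), (2, 195)], [(3, 14), (4, 2)]),
    ([(1, 116), (3, 91), (4, 393)], [(2, 252)]),
    ([(2, 190), (3, 427), (4, 71)], [(1, 80)]),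
    ([(1, 15), (4, 108)], [(2, 106), (3, 85)]),
    ([(3, 38), (4, 17)], [(1, 2), (2, 18)]),
    ([(1, 3), (4, 43)], [(2, 11), (3, 14)]),
    ([(5, 411), (6, 274), (7, 66), (8, 113), (9, 8), (10, 1)], []),
    ([(7, 202), (8, 290), (9, 139), (10, 285)], [(5, 34), (6, 134)]),
    ([(6, 46), (9, 249), (10, 36)], [(5, 2), (7, 36), (8, 110)]),
    ([(5, 1), (7, 30), (8, 123), (10, 73)], [(6, 18), (9, 89)]),
    ([(6, 2), (7, 18), (8, 23), (9, 43), (10, 19)], []),
    ([(6, 5), (7, 3), (9, 19)], [(8, 19), (10, 45)]),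
    ([(11, 58), (13, 351), (14, 250), (15, 139)], [(12, 117), (16, 166)]),
    ([(11, 1), (12, 16), (15, 73), (16, 42)], [(13, 52), (14, 108)]),
    ([(16, 16)], [(12, 1), (13, 31), (14, 23), (15, 37)]),
    ([(12, 7), (13, 7), (15, 19), (16, 42)], [(14, 28)]),
    ([(17, 8), (18, 42), (19, 9)], [(20, 36)])],
   [([], [(0, 58)]),
    ([(2, 306), (4, 272)], [(1, 140), (3, 236)]),
    ([(2, 129), (3, 65), (4, 111)], [(1, 19)]),
    ([(3, 50), (4, 6)], [(1, 3), (2, 22)]),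
    ([(2, 25), (3, 14)], [(1, 5), (4, 33)]),
    ([(6, 383), (8, 158), (9, 11), (10, 2)], [(5, 294), (7, 46)]),
    ([(7, 286), (8, 100), (9, 115)], [(5, 48), (6, 47), (10, 362)]),
    ([(8, 155)], [(5, 1), (6, 65), (7, 26), (9, 349), (10, 50)]),
    ([(5, 1), (7, 42), (8, 43)], [(6, 6), (9, 11), (10, 123)]),
    ([(7, 26), (8, 11), (9, 16)], [(10, 1)]),
    ([(8, 31), (10, 11)], [(6, 6), (7, 3), (9, 10)]),
    ([(12, 386), (13, 47), (14, 160), (15, 12)], [(11, 290), (16, 1)]),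
    ([(14, 104), (15, 26)], [(11, 47), (12, 47), (13, 287), (16, 378)]),
    ([(11, 1), (12, 66), (15, 352)], [(13, 26), (14, 156), (16, 36)]),
    ([(11, 1), (14, 43)], [(12, 6), (13, 42), (15, 38), (16, 117)]),
    ([(12, 2), (15, 17)], [(13, 25), (16, 9)]),
    ([(14, 33), (16, 11)], [(12, 6), (13, 5), (15, 2)]),
    ([(19, 174), (20, 313)], [(17, 142), (18, 307)]),
    ([(17, 19), (18, 131), (19, 87)], [(20, 94)]),
    ([(18, 13)], [(17, 4), (19, 49), (20, 14)]),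
    ([(19, 8)], [(17, 4), (18, 30), (20, 32)]),
    ([], [(21, 58)])],
   [([(1, 8)], [(2, 42), (3, 2), (4, 38)]),
    ([(5, 58), (8, 250), (9, 174)], [(6, 114), (7, 351), (10, 131)]),
    ([(8, 105)], [(5, 1), (6, 15), (7, 52), (9, 59), (10, 58)]),
    ([(7, 32)], [(6, 3), (8, 14), (9, 41), (10, 7)]),
    ([(6, 6), (7, 2), (10, 47)], [(8, 34), (9, 3)]),
    ([(11, 414), (12, 270), (14, 112), (15, 8)], [(13, 64), (16, 1)]),
    ([(14, 288), (15, 203), (16, 248)], [(11, 33), (12, 132), (13, 203)]),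
    ([(11, 2), (14, 110), (16, 24)], [(12, 46), (13, 36), (15, 246)]),
    ([(11, 1), (14, 122), (16, 92)], [(12, 18), (13, 30), (15, 69)]),
    ([(12, 4), (14, 16), (15, 48)], [(13, 18), (16, 7)]),
    ([(12, 4), (13, 2)], [(14, 25), (15, 6), (16, 49)]),
    ([(17, 471), (19, 15), (20, 1)], [(18, 195)]),
    ([(17, 115), (18, 248), (20, 367)], [(19, 175)]),
    ([(17, 81), (18, 192), (19, 431), (20, 24)], []),
    ([(17, 16), (18, 106), (19, 61), (20, 124)], []),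
    ([(18, 13)], [(17, 3), (19, 40), (20, 6)]),
    ([(17, 2), (18, 16), (20, 46)], [(19, 7)]),
    ([(21, 483)], []),
    ([], [(21, 156)]),
    ([(21, 2)], []),
    ([(21, 37)], []),
    ([], [])]]

def d54pp_31 : List (List Col) :=
  [[([], []),
    ([(0, 483)], []),
    ([], [(0, 156)]),
    ([(0, 5)], []),
    ([], [(0, 37)]),
    ([(1, 471)], [(2, 195), (3, 15), (4, 1)]),
    ([(4, 364)], [(1, 114), (2, 247), (3, 182)]),
    ([(3, 430), (4, 33)], [(1, 81), (2, 192)]),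
    ([(1, 16), (2, 106)], [(3, 58), (4, 125)]),
    ([(1, 3)], [(2, 13), (3, 40), (4, 9)]),
    ([(4, 46)], [(1, 2), (2, 17), (3, 10)]),
    ([(5, 415), (7, 64), (8, 111), (10, 1)], [(6, 270), (9, 8)]),
    ([(5, 33), (9, 212), (10, 241)], [(6, 131), (7, 203), (8, 287)]),
    ([(10, 33)], [(5, 2), (6, 46), (7, 37), (8, 110), (9, 245)]),
    ([(5, 1), (6, 18), (7, 30), (8, 121), (9, 65)], [(10, 95)]),
    ([(6, 4), (9, 47)], [(7, 18), (8, 15), (10, 10)]),
    ([(6, 4), (7, 3), (8, 26)], [(9, 9), (10, 49)]),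
    ([(11, 58), (12, 113), (13, 351), (14, 249), (16, 122)], [(15, 181)]),
    ([(12, 15), (13, 52), (14, 105), (15, 56), (16, 61)], [(11, 1)]),
    ([(13, 32), (14, 14)], [(12, 3), (15, 41), (16, 10)]),
    ([(12, 6), (13, 3), (14, 34), (16, 46)], [(15, 6)]),
    ([(17, 8), (19, 1), (20, 38)], [(18, 42)])],
   [([(0, 57)], []),
    ([(1, 142), (2, 307), (3, 168), (4, 316)], []),
    ([(3, 89)], [(1, 19), (2, 131), (4, 92)]),
    ([(1, 5)], [(2, 11), (3, 48), (4, 18)]),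
    ([(4, 31)], [(1, 4), (2, 31), (3, 12)]),
    ([(5, 289), (6, 386), (7, 48), (9, 12)], [(8, 160), (10, 2)]),
    ([(6, 47), (7, 287), (8, 105), (10, 378)], [(5, 47), (9, 12)]),
    ([(5, 1), (7, 26), (10, 49)], [(6, 66), (8, 156), (9, 351)]),
    ([], [(5, 1), (6, 6), (7, 42), (8, 43), (9, 41), (10, 116)]),
    ([(7, 25), (10, 10)], [(6, 3), (8, 1), (9, 17)]),
    ([(6, 6), (7, 6), (8, 33), (9, 1)], [(10, 10)]),
    ([(11, 294), (12, 383), (15, 11), (16, 2)], [(13, 46), (14, 158)]),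
    ([(12, 47), (14, 100), (16, 356)], [(11, 48), (13, 286), (15, 134)]),
    ([(12, 65), (13, 26), (14, 155), (15, 345), (16, 68)], [(11, 1)]),
    ([(13, 42)], [(11, 1), (12, 6), (14, 43), (15, 5), (16, 124)]),
    ([(14, 11)], [(13, 26), (15, 16)]),
    ([(12, 6), (13, 4), (14, 31), (15, 11)], [(16, 10)]),
    ([(17, 140), (19, 254), (20, 255)], [(18, 305)]),
    ([(17, 19), (20, 115)], [(18, 129), (19, 58)]),
    ([(19, 49)], [(17, 3), (18, 22), (20, 10)]),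
    ([(18, 25), (19, 16), (20, 32)], [(17, 5)]),
    ([(21, 58)], [])],
   [([(1, 8), (2, 42), (4, 35)], [(3, 10)]),
    ([(5, 58), (6, 117), (8, 250), (10, 170)], [(7, 351), (9, 133)]),
    ([(5, 1), (7, 52)], [(6, 16), (8, 108), (9, 75), (10, 39)]),
    ([(6, 1), (7, 30), (9, 34)], [(8, 26), (10, 20)]),
    ([(6, 7), (7, 9), (8, 26), (9, 23), (10, 40)], []),
    ([(11, 411), (14, 114)], [(12, 274), (13, 67), (15, 8), (16, 2)]),
    ([(11, 34), (13, 202), (15, 124), (16, 291)], [(12, 134), (14, 291)]),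
    ([(11, 2), (12, 46), (14, 110), (15, 247), (16, 50)], [(13, 35)]),
    ([(11, 1), (12, 18), (14, 123), (15, 93)], [(13, 30), (16, 68)]),
    ([(12, 2), (13, 18), (15, 41), (16, 23)], [(14, 24)]),
    ([(12, 5), (13, 4), (14, 18), (15, 23)], [(16, 43)]),
    ([(17, 471), (18, 195), (20, 3)], [(19, 14)]),
    ([(18, 252), (20, 398)], [(17, 116), (19, 63)]),
    ([(17, 80), (20, 102)], [(18, 190), (19, 421)]),
    ([(17, 15)], [(18, 106), (19, 93), (20, 101)]),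
    ([(17, 2), (18, 19), (20, 21)], [(19, 36)]),
    ([(18, 10), (19, 18), (20, 41)], [(17, 3)]),
    ([(21, 483)], []),
    ([(21, 155)], []),
    ([(21, 9)], []),
    ([], [(21, 36)]),
    ([], [])]]

def d54pp_32 : List (List Col) :=
  [[([], []),
    ([(0, 483)], []),
    ([(0, 155)], []),
    ([], [(0, 10)]),
    ([(0, 35)], []),
    ([(1, 471), (2, 195)], [(3, 14), (4, 4)]),
    ([(1, 116), (3, 31), (4, 401)], [(2, 253)]),
    ([(2, 190), (3, 412), (4, 135)], [(1, 79)]),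
    ([(1, 15), (4, 94)], [(2, 106), (3, 100)]),
    ([(3, 33), (4, 25)], [(1, 2), (2, 19)]),
    ([(1, 3), (4, 39)], [(2, 9), (3, 22)]),
    ([(5, 410), (6, 275), (7, 67), (8, 114), (9, 8), (10, 2)], []),
    ([(7, 202), (8, 291), (9, 109), (10, 297)], [(5, 34), (6, 135)]),
    ([(6, 46), (9, 245), (10, 62)], [(5, 2), (7, 35), (8, 110)]),
    ([(5, 1), (7, 30), (8, 124), (10, 63)], [(6, 18), (9, 96)]),
    ([(6, 2), (7, 17), (8, 25), (9, 38), (10, 28)], []),
    ([(6, 5), (7, 5), (9, 27)], [(8, 16), (10, 40)]),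
    ([(11, 58), (13, 351), (14, 250), (15, 129)], [(12, 118), (16, 173)]),
    ([(11, 2), (12, 16), (15, 76), (16, 37)], [(13, 52), (14, 108)]),
    ([(16, 25)], [(13, 29), (14, 28), (15, 31)]),
    ([(12, 7), (13, 12), (15, 27), (16, 37)], [(14, 23)]),
    ([(17, 8), (18, 42), (19, 10)], [(20, 35)])],
   [([], [(0, 58)]),
    ([(2, 305), (4, 235)], [(1, 140), (3, 273)]),
    ([(2, 129), (3, 48), (4, 119)], [(1, 19)]),
    ([(3, 48), (4, 15)], [(1, 3), (2, 23)]),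
    ([(2, 24), (3, 19)], [(1, 5), (4, 30)]),
    ([(6, 383), (8, 158), (9, 11), (10, 3)], [(5, 295), (7, 46)]),
    ([(7, 286), (8, 99), (9, 151)], [(5, 48), (6, 47), (10, 349)]),
    ([(8, 155)], [(5, 1), (6, 65), (7, 26), (9, 341), (10, 85)]),
    ([(5, 1), (7, 42), (8, 43)], [(6, 7), (10, 124)]),
    ([(7, 25), (8, 13), (9, 16), (10, 1)], []),
    ([(8, 31), (10, 10)], [(6, 6), (7, 5), (9, 12)]),
    ([(12, 386), (13, 48), (14, 160), (15, 12)], [(11, 288), (16, 2)]),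
    ([(14, 106), (15, 2)], [(11, 47), (12, 47), (13, 287), (16, 378)]),
    ([(11, 1), (12, 66), (15, 350)], [(13, 26), (14, 157), (16, 59)]),
    ([(11, 1), (14, 43)], [(12, 6), (13, 42), (15, 44), (16, 115)]),
    ([(12, 3), (15, 17)], [(13, 25), (14, 3), (16, 11)]),
    ([(14, 33), (15, 1), (16, 10)], [(12, 6), (13, 7)]),
    ([(19, 165), (20, 318)], [(17, 142), (18, 307)]),
    ([(17, 19), (18, 132), (19, 90)], [(20, 91)]),
    ([(18, 8)], [(17, 5), (19, 46), (20, 21)]),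
    ([(19, 17)], [(17, 3), (18, 32), (20, 29)]),
    ([], [(21, 57)])],
   [([(1, 8), (3, 4)], [(2, 42), (4, 38)]),
    ([(5, 58), (8, 249), (9, 186)], [(6, 113), (7, 351), (10, 114)]),
    ([(8, 104)], [(5, 1), (6, 15), (7, 52), (9, 53), (10, 64)]),
    ([(7, 32)], [(6, 3), (8, 13), (9, 40), (10, 12)]),
    ([(6, 6), (7, 3), (10, 46)], [(8, 34), (9, 8)]),
    ([(11, 415), (12, 269), (14, 111), (15, 8)], [(13, 64), (16, 1)]),
    ([(14, 287), (15, 219), (16, 236)], [(11, 33), (12, 131), (13, 203)]),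
    ([(11, 2), (14, 109), (16, 40)], [(12, 46), (13, 37), (15, 243)]),
    ([(11, 1), (14, 121), (16, 96)], [(12, 18), (13, 30), (15, 62)]),
    ([(12, 4), (14, 14), (15, 47)], [(13, 18), (16, 14)]),
    ([(12, 4), (13, 3)], [(14, 26), (15, 12), (16, 48)]),
    ([(17, 471), (19, 15), (20, 1)], [(18, 195)]),
    ([(17, 114), (18, 246), (20, 362)], [(19, 187)]),
    ([(17, 81), (18, 193), (19, 429), (20, 38)], []),
    ([(17, 16), (18, 106), (19, 57), (20, 126)], []),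
    ([(18, 12)], [(17, 3), (19, 39), (20, 12)]),
    ([(17, 2), (18, 17), (20, 45)], [(19, 13)]),
    ([(21, 483)], []),
    ([], [(21, 156)]),
    ([(21, 9)], []),
    ([(21, 36)], []),
    ([], [])]]

def d54pp_33 : List (List Col) :=
  [[([], []),
    ([(0, 483)], []),
    ([], [(0, 156)]),
    ([], [(0, 12)]),
    ([], [(0, 35)]),
    ([(1, 471)], [(2, 195), (3, 15), (4, 1)]),
    ([(4, 359)], [(1, 114), (2, 246), (3, 193)]),
    ([(3, 428), (4, 46)], [(1, 81), (2, 193)]),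
    ([(1, 16), (2, 105)], [(3, 55), (4, 127)]),
    ([(2, 11), (3, 38), (4, 15)], [(1, 3)]),
    ([(4, 44)], [(1, 2), (2, 18), (3, 15)]),
    ([(5, 416), (7, 63), (8, 111), (10, 1)], [(6, 269), (9, 8)]),
    ([(5, 33), (9, 227), (10, 228)], [(6, 130), (7, 203), (8, 287)]),
    ([(10, 49)], [(5, 2), (6, 46), (7, 37), (8, 109), (9, 241)]),
    ([(5, 1), (6, 18), (7, 30), (8, 120), (9, 59)], [(10, 99)]),
    ([(6, 4), (9, 46)], [(7, 18), (8, 13), (10, 16)]),
    ([(6, 4), (7, 4), (8, 26)], [(9, 14), (10, 47)]),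
    ([(11, 58), (12, 112), (13, 352), (14, 249), (16, 103)], [(15, 193)]),
    ([(12, 15), (13, 52), (14, 104), (15, 48), (16, 67)], [(11, 1)]),
    ([(13, 32), (14, 13)], [(12, 3), (15, 40), (16, 15)]),
    ([(12, 6), (13, 3), (14, 34), (16, 46)], [(15, 11)]),
    ([(17, 8), (19, 7), (20, 37)], [(18, 42)])],
   [([(0, 57)], []),
    ([(1, 142), (2, 308), (3, 160), (4, 320)], []),
    ([(3, 91)], [(1, 19), (2, 132), (4, 89)]),
    ([(2, 4), (3, 44), (4, 25)], [(1, 5)]),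
    ([(4, 26)], [(1, 3), (2, 33), (3, 21)]),
    ([(5, 288), (6, 387), (7, 48), (9, 12)], [(8, 160), (10, 2)]),
    ([(6, 47), (7, 287), (8, 107), (9, 12), (10, 378)], [(5, 47)]),
    ([(5, 1), (7, 26), (10, 73)], [(6, 66), (8, 157), (9, 348)]),
    ([], [(5, 1), (6, 6), (7, 42), (8, 43), (9, 48), (10, 113)]),
    ([(6, 3), (8, 5), (9, 16)], [(7, 24), (10, 12)]),
    ([(6, 5), (7, 9), (8, 33)], [(9, 2), (10, 9)]),
    ([(11, 296), (12, 382), (15, 11), (16, 3)], [(13, 45), (14, 158)]),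
    ([(12, 47), (14, 99), (16, 339)], [(11, 48), (13, 286), (15, 173)]),
    ([(12, 65), (13, 26), (14, 155), (15, 335), (16, 106)], [(11, 1)]),
    ([(13, 42), (15, 8)], [(11, 1), (12, 7), (14, 43), (16, 124)]),
    ([(14, 13)], [(13, 25), (15, 16), (16, 2)]),
    ([(12, 6), (13, 6), (14, 30), (15, 12)], [(16, 9)]),
    ([(17, 140), (19, 295), (20, 208)], [(18, 305)]),
    ([(17, 19), (20, 124)], [(18, 129), (19, 37)]),
    ([(19, 46)], [(17, 3), (18, 23), (20, 19)]),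
    ([(18, 24), (19, 22), (20, 28)], [(17, 5)]),
    ([(21, 58)], [])],
   [([(1, 8), (2, 42), (4, 35)], [(3, 11)]),
    ([(5, 58), (6, 118), (8, 250), (10, 177)], [(7, 351), (9, 122)]),
    ([(5, 1), (7, 52)], [(6, 16), (8, 109), (9, 78), (10, 34)]),
    ([(6, 1), (8, 30), (10, 29)], [(7, 27), (9, 27)]),
    ([(6, 7), (7, 15), (8, 21), (9, 30), (10, 33)], []),
    ([(11, 410), (14, 114)], [(12, 275), (13, 67), (15, 8), (16, 3)]),
    ([(11, 34), (13, 202), (15, 90), (16, 302)], [(12, 135), (14, 292)]),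
    ([(11, 2), (12, 46), (14, 110), (15, 240), (16, 78)], [(13, 35)]),
    ([(11, 1), (12, 18), (14, 124), (15, 100)], [(13, 30), (16, 57)]),
    ([(14, 26)], [(12, 1), (13, 17), (15, 35), (16, 32)]),
    ([(12, 5), (13, 6), (14, 15), (15, 31)], [(16, 36)]),
    ([(17, 471), (18, 195), (20, 6)], [(19, 13)]),
    ([(18, 254), (19, 9), (20, 402)], [(17, 117)]),
    ([(17, 79), (20, 175)], [(18, 189), (19, 397)]),
    ([(17, 15)], [(18, 106), (19, 109), (20, 83)]),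
    ([(17, 2), (18, 20), (20, 29)], [(19, 30)]),
    ([(18, 9), (19, 26), (20, 36)], [(17, 3)]),
    ([(21, 483)], []),
    ([(21, 155)], []),
    ([(21, 10)], []),
    ([], [(21, 35)]),
    ([], [])]]

def d54pp_34 : List (List Col) :=
  [[([], []),
    ([(0, 483)], []),
    ([(0, 155)], []),
    ([], [(0, 10)]),
    ([(0, 35)], []),
    ([(1, 471), (2, 194), (3, 12)], [(4, 7)]),
    ([(1, 117), (3, 47), (4, 399)], [(2, 255)]),
    ([(2, 189), (4, 212)], [(1, 79), (3, 378)]),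
    ([(1, 15), (3, 116), (4, 72)], [(2, 106)]),
    ([(1, 2), (2, 20), (3, 26)], [(4, 33)]),
    ([(1, 3), (3, 30), (4, 32)], [(2, 8)]),
    ([(5, 409), (6, 276), (7, 67), (8, 115), (10, 3)], [(9, 8)]),
    ([(7, 202), (8, 293), (10, 305)], [(5, 34), (6, 136), (9, 76)]),
    ([(6, 46), (10, 91)], [(5, 2), (7, 35), (8, 110), (9, 237)]),
    ([(5, 1), (7, 30), (8, 124), (9, 103), (10, 52)], [(6, 18)]),
    ([(6, 1), (7, 17), (8, 27), (10, 35)], [(9, 31)]),
    ([(6, 5), (7, 7)], [(8, 13), (9, 35), (10, 32)]),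
    ([(11, 58), (13, 351), (14, 250), (15, 119)], [(12, 119), (16, 179)]),
    ([(11, 2), (12, 16), (15, 79), (16, 32)], [(13, 53), (14, 109)]),
    ([(12, 1), (16, 33)], [(13, 26), (14, 32), (15, 23)]),
    ([(12, 6), (13, 17), (15, 33), (16, 30)], [(14, 17)]),
    ([(17, 8), (18, 42), (19, 11)], [(20, 35)])],
   [([], [(0, 58)]),
    ([(2, 305), (3, 313), (4, 180)], [(1, 140)]),
    ([(2, 128), (4, 127)], [(1, 19), (3, 25)]),
    ([(4, 24)], [(1, 3), (2, 23), (3, 44)]),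
    ([(2, 24)], [(1, 5), (3, 25), (4, 26)]),
    ([(6, 382), (8, 157), (10, 4)], [(5, 297), (7, 45), (9, 10)]),
    ([(7, 286), (8, 98)], [(5, 48), (6, 47), (9, 189), (10, 331)]),
    ([(8, 154), (9, 329)], [(5, 1), (6, 65), (7, 26), (10, 123)]),
    ([(5, 1), (7, 42), (8, 43)], [(6, 7), (9, 13), (10, 124)]),
    ([(6, 1), (9, 15)], [(7, 25), (8, 14), (10, 3)]),
    ([(8, 30), (9, 13), (10, 8)], [(6, 6), (7, 7)]),
    ([(12, 387), (13, 49), (14, 160), (15, 12)], [(11, 287), (16, 3)]),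
    ([(14, 108)], [(11, 47), (12, 47), (13, 287), (15, 20), (16, 377)]),
    ([(11, 1), (12, 66), (15, 347)], [(13, 26), (14, 157), (16, 80)]),
    ([(11, 1), (14, 43)], [(12, 6), (13, 42), (15, 49), (16, 112)]),
    ([(12, 4), (15, 16)], [(13, 23), (14, 7), (16, 13)]),
    ([(14, 32), (15, 3), (16, 8)], [(12, 5), (13, 10)]),
    ([(19, 160), (20, 319)], [(17, 143), (18, 308)]),
    ([(17, 19), (18, 133), (19, 91)], [(20, 89)]),
    ([(18, 1)], [(17, 6), (19, 41), (20, 27)]),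
    ([(19, 25)], [(17, 2), (18, 33), (20, 24)]),
    ([], [(21, 57)])],
   [([(1, 8)], [(2, 42), (3, 11), (4, 37)]),
    ([(5, 58), (8, 249)], [(6, 112), (7, 352), (9, 198), (10, 94)]),
    ([(8, 103), (9, 45)], [(5, 1), (6, 15), (7, 52), (10, 69)]),
    ([(7, 32), (9, 39)], [(6, 3), (8, 13), (10, 17)]),
    ([(6, 6), (7, 4), (9, 14), (10, 45)], [(8, 34)]),
    ([(11, 416), (12, 268), (14, 111), (15, 7)], [(13, 63), (16, 2)]),
    ([(14, 286), (15, 232), (16, 225)], [(11, 33), (12, 129), (13, 203)]),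
    ([(11, 2), (14, 109), (16, 53)], [(12, 46), (13, 37), (15, 239)]),
    ([(11, 1), (14, 120), (16, 100)], [(12, 18), (13, 30), (15, 56)]),
    ([(13, 17), (16, 19)], [(12, 4), (14, 12), (15, 46)]),
    ([(12, 4), (13, 4)], [(14, 27), (15, 17), (16, 47)]),
    ([(17, 471), (19, 15), (20, 1)], [(18, 195)]),
    ([(17, 113), (18, 244), (20, 360)], [(19, 194)]),
    ([(17, 81), (18, 194), (19, 428), (20, 47)], []),
    ([(17, 16), (18, 105), (19, 55), (20, 127)], []),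
    ([(18, 9)], [(17, 3), (19, 37), (20, 18)]),
    ([(17, 1), (18, 18), (20, 43)], [(19, 17)]),
    ([(21, 483)], []),
    ([], [(21, 156)]),
    ([(21, 16)], []),
    ([(21, 34)], []),
    ([], [])]]

def d54pp_35 : List (List Col) :=
  [[([], []),
    ([(0, 483)], []),
    ([], [(0, 156)]),
    ([], [(0, 19)]),
    ([], [(0, 32)]),
    ([(1, 471)], [(2, 195), (3, 15), (4, 1)]),
    ([(4, 358)], [(1, 113), (2, 243), (3, 200)]),
    ([(3, 427), (4, 54)], [(1, 81), (2, 194)]),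
    ([(1, 15), (2, 105)], [(3, 53), (4, 128)]),
    ([(2, 9), (3, 36), (4, 20)], [(1, 4)]),
    ([(4, 42)], [(1, 1), (2, 19), (3, 19)]),
    ([(5, 417), (7, 62), (8, 110), (9, 7), (10, 2)], [(6, 267)]),
    ([(5, 33), (10, 216)], [(6, 129), (7, 203), (8, 286), (9, 241)]),
    ([(9, 236), (10, 62)], [(5, 2), (6, 46), (7, 37), (8, 108)]),
    ([(5, 1), (6, 18), (7, 29), (8, 119)], [(9, 52), (10, 102)]),
    ([(6, 4)], [(7, 17), (8, 12), (9, 45), (10, 21)]),
    ([(6, 4), (7, 4), (8, 27), (9, 19)], [(10, 46)]),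
    ([(11, 58), (12, 111), (13, 352), (14, 249), (16, 82)], [(15, 204)]),
    ([(12, 15), (13, 52), (14, 103), (15, 40), (16, 72)], [(11, 1)]),
    ([(13, 32), (14, 14)], [(12, 3), (15, 38), (16, 19)]),
    ([(12, 6), (13, 3), (14, 34), (16, 45)], [(15, 16)]),
    ([(17, 8), (19, 15), (20, 36)], [(18, 42)])],
   [([(0, 57)], []),
    ([(1, 143), (2, 308), (3, 156), (4, 320)], []),
    ([(3, 92)], [(1, 19), (2, 133), (4, 88)]),
    ([(3, 39), (4, 29)], [(1, 6), (2, 2)]),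
    ([(4, 21)], [(1, 2), (2, 33), (3, 29)]),
    ([(5, 286), (6, 388), (7, 49)], [(8, 161), (9, 12), (10, 3)]),
    ([(6, 47), (7, 287), (8, 110), (10, 376)], [(5, 46), (9, 35)]),
    ([(5, 1), (7, 26), (9, 344), (10, 95)], [(6, 66), (8, 157)]),
    ([(9, 53)], [(5, 1), (6, 6), (7, 42), (8, 43), (10, 110)]),
    ([(6, 4), (8, 8)], [(7, 23), (9, 16), (10, 14)]),
    ([(6, 5), (7, 11), (8, 32), (9, 4)], [(10, 8)]),
    ([(11, 298), (12, 381), (15, 10), (16, 4)], [(13, 45), (14, 157)]),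
    ([(12, 46), (14, 97), (16, 318)], [(11, 48), (13, 286), (15, 211)]),
    ([(12, 65), (13, 26), (14, 154), (15, 320), (16, 144)], [(11, 1)]),
    ([(13, 42), (15, 21)], [(11, 1), (12, 7), (14, 43), (16, 123)]),
    ([(12, 1), (14, 14)], [(13, 25), (15, 15), (16, 4)]),
    ([(12, 6), (13, 7), (14, 30), (15, 14)], [(16, 7)]),
    ([(17, 139), (19, 330), (20, 148)], [(18, 304)]),
    ([(17, 19), (20, 129)], [(18, 128), (19, 12)]),
    ([(19, 42)], [(17, 3), (18, 23), (20, 28)]),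
    ([(18, 24), (19, 27), (20, 24)], [(17, 5)]),
    ([(21, 58)], [])],
   [([(1, 8), (2, 42), (4, 34)], [(3, 11)]),
    ([(5, 58), (6, 120), (8, 250), (9, 112), (10, 183)], [(7, 351)]),
    ([(5, 1), (7, 53), (9, 81)], [(6, 16), (8, 110), (10, 28)]),
    ([(6, 2), (8, 33), (9, 19), (10, 36)], [(7, 24)]),
    ([(6, 6), (7, 19), (8, 15), (10, 25)], [(9, 35)]),
    ([(11, 408), (14, 115)], [(12, 277), (13, 68), (15, 8), (16, 4)]),
    ([(11, 35), (13, 201), (15, 55), (16, 309)], [(12, 136), (14, 294)]),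
    ([(11, 2), (12, 46), (14, 109), (15, 231), (16, 108)], [(13, 34)]),
    ([(11, 1), (12, 18), (14, 124), (15, 106)], [(13, 29), (16, 44)]),
    ([(14, 27)], [(12, 1), (13, 16), (15, 28), (16, 39)]),
    ([(12, 5), (13, 8), (14, 12), (15, 37)], [(16, 28)]),
    ([(17, 471), (18, 194), (20, 8)], [(19, 12)]),
    ([(18, 255), (19, 87), (20, 391)], [(17, 117)]),
    ([(17, 79), (20, 249)], [(18, 189), (19, 355)]),
    ([(17, 15)], [(18, 106), (19, 122), (20, 60)]),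
    ([(17, 2), (18, 20), (20, 35)], [(19, 22)]),
    ([(18, 8), (19, 33), (20, 29)], [(17, 3)]),
    ([(21, 483)], []),
    ([(21, 155)], []),
    ([(21, 10)], []),
    ([], [(21, 35)]),
    ([], [])]]

def d54pp_36 : List (List Col) :=
  [[([], []),
    ([(0, 483)], []),
    ([(0, 155)], []),
    ([], [(0, 10)]),
    ([(0, 35)], []),
    ([(1, 471), (2, 194), (3, 11)], [(4, 9)]),
    ([(1, 118), (3, 120), (4, 382)], [(2, 257)]),
    ([(2, 188), (4, 280)], [(1, 78), (3, 333)]),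
    ([(1, 15), (3, 126), (4, 49)], [(2, 106)]),
    ([(1, 2), (2, 21), (3, 18)], [(4, 38)]),
    ([(1, 3), (3, 36), (4, 24)], [(2, 7)]),
    ([(5, 407), (6, 278), (7, 68), (8, 116), (10, 4)], [(9, 7)]),
    ([(7, 201), (8, 295), (10, 309)], [(5, 35), (6, 137), (9, 42)]),
    ([(6, 46), (10, 119)], [(5, 2), (7, 34), (8, 109), (9, 227)]),
    ([(5, 1), (7, 29), (8, 124), (9, 108), (10, 39)], [(6, 18)]),
    ([(7, 16), (8, 28), (10, 41)], [(9, 24)]),
    ([(6, 5), (7, 9)], [(8, 10), (9, 40), (10, 24)]),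
    ([(11, 58), (13, 351), (14, 250), (15, 112)], [(12, 121), (16, 182)]),
    ([(11, 2), (12, 16), (15, 82), (16, 27)], [(13, 53), (14, 111)]),
    ([(12, 2), (16, 37)], [(13, 23), (14, 34), (15, 16)]),
    ([(12, 6), (13, 21), (15, 36), (16, 23)], [(14, 12)]),
    ([(17, 8), (18, 42), (19, 11)], [(20, 34)])],
   [([], [(0, 58)]),
    ([(2, 304), (3, 342), (4, 120)], [(1, 139)]),
    ([(2, 127), (4, 129)], [(1, 19), (3, 1)]),
    ([(4, 32)], [(1, 3), (2, 23), (3, 39)]),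
    ([(2, 23)], [(1, 5), (3, 29), (4, 21)]),
    ([(6, 381), (8, 156), (10, 5)], [(5, 299), (7, 45), (9, 9)]),
    ([(7, 286), (8, 96)], [(5, 48), (6, 46), (9, 224), (10, 309)]),
    ([(8, 153), (9, 313)], [(5, 1), (6, 65), (7, 26), (10, 157)]),
    ([(5, 1), (7, 42), (8, 43)], [(6, 7), (9, 25), (10, 122)]),
    ([(6, 1), (9, 15)], [(7, 25), (8, 15), (10, 5)]),
    ([(8, 29), (9, 15), (10, 6)], [(6, 6), (7, 8)]),
    ([(12, 388), (13, 50), (14, 161), (15, 12)], [(11, 285), (16, 3)]),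
    ([(14, 112)], [(11, 46), (12, 46), (13, 287), (15, 37), (16, 375)]),
    ([(11, 1), (12, 66), (15, 344)], [(13, 26), (14, 157), (16, 98)]),
    ([(11, 1), (14, 43)], [(12, 6), (13, 42), (15, 52), (16, 110)]),
    ([(12, 4), (15, 16)], [(13, 22), (14, 10), (16, 15)]),
    ([(14, 32), (15, 5), (16, 7)], [(12, 5), (13, 12)]),
    ([(19, 162), (20, 317)], [(17, 143), (18, 309)]),
    ([(17, 19), (18, 134), (19, 91)], [(20, 89)]),
    ([], [(17, 6), (18, 4), (19, 37), (20, 30)]),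
    ([(19, 30)], [(17, 2), (18, 32), (20, 20)]),
    ([], [(21, 57)])],
   [([(1, 8)], [(2, 41), (3, 18), (4, 35)]),
    ([(5, 59), (8, 248)], [(6, 110), (7, 352), (9, 207), (10, 74)]),
    ([(8, 102), (9, 37)], [(5, 1), (6, 15), (7, 52), (10, 73)]),
    ([(7, 32), (9, 37)], [(6, 3), (8, 13), (10, 21)]),
    ([(6, 6), (7, 4), (9, 18), (10, 44)], [(8, 34)]),
    ([(11, 418), (12, 267), (14, 110), (15, 7)], [(13, 61), (16, 2)]),
    ([(14, 286), (15, 242), (16, 217)], [(11, 32), (12, 128), (13, 203)]),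
    ([(11, 2), (14, 108), (16, 62)], [(12, 46), (13, 37), (15, 234)]),
    ([(11, 1), (14, 118), (16, 102)], [(12, 17), (13, 29), (15, 52)]),
    ([(13, 17), (16, 23)], [(12, 4), (14, 11), (15, 45)]),
    ([(12, 3), (13, 5)], [(14, 27), (15, 21), (16, 45)]),
    ([(17, 471), (19, 16), (20, 1)], [(18, 195)]),
    ([(17, 112), (18, 242), (20, 362)], [(19, 195)]),
    ([(17, 81), (18, 195), (19, 427), (20, 47)], []),
    ([(17, 15), (18, 104), (19, 55), (20, 127)], []),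
    ([(18, 8)], [(17, 4), (19, 35), (20, 22)]),
    ([(17, 1), (18, 19), (20, 41)], [(19, 20)]),
    ([(21, 483)], []),
    ([], [(21, 157)]),
    ([(21, 21)], []),
    ([(21, 31)], []),
    ([], [])]]

def d54pp_37 : List (List Col) :=
  [[([], []),
    ([(0, 483)], []),
    ([], [(0, 156)]),
    ([], [(0, 23)]),
    ([], [(0, 29)]),
    ([(1, 471)], [(2, 195), (3, 16), (4, 1)]),
    ([(4, 360)], [(1, 112), (2, 241), (3, 201)]),
    ([(3, 426), (4, 55)], [(1, 81), (2, 196)]),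
    ([(1, 15), (2, 104)], [(3, 53), (4, 127)]),
    ([(2, 7), (3, 34), (4, 24)], [(1, 4)]),
    ([(4, 41)], [(1, 1), (2, 19), (3, 21)]),
    ([(5, 419), (7, 60), (8, 109), (9, 7), (10, 2)], [(6, 266)]),
    ([(5, 32), (10, 207)], [(6, 127), (7, 203), (8, 285), (9, 251)]),
    ([(9, 231), (10, 72)], [(5, 2), (6, 46), (7, 37), (8, 107)]),
    ([(5, 1), (6, 17), (7, 29), (8, 118)], [(9, 47), (10, 104)]),
    ([(6, 4)], [(7, 17), (8, 11), (9, 45), (10, 24)]),
    ([(10, 45)], [(6, 4), (7, 5), (8, 27), (9, 21)]),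
    ([(11, 59), (12, 110), (13, 353), (14, 248), (16, 62)], [(15, 211)]),
    ([(12, 15), (13, 52), (14, 102), (15, 33), (16, 75)], [(11, 1)]),
    ([(13, 32), (14, 15)], [(12, 3), (15, 37), (16, 21)]),
    ([(12, 6), (13, 2), (14, 34), (16, 44)], [(15, 19)]),
    ([(17, 8), (19, 20), (20, 34)], [(18, 41)])],
   [([(0, 57)], []),
    ([(1, 144), (2, 310), (3, 158), (4, 318)], []),
    ([(3, 92)], [(1, 19), (2, 134), (4, 87)]),
    ([(3, 35), (4, 32)], [(1, 6), (2, 6)]),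
    ([(4, 17)], [(1, 1), (2, 32), (3, 32)]),
    ([(5, 284), (6, 389), (7, 51)], [(8, 161), (9, 11), (10, 4)]),
    ([(6, 46), (7, 287), (8, 113), (10, 372)], [(5, 46), (9, 54)]),
    ([(5, 1), (7, 26), (9, 339), (10, 115)], [(6, 66), (8, 157)]),
    ([(9, 57)], [(5, 1), (6, 6), (7, 42), (8, 43), (10, 108)]),
    ([(6, 4), (8, 11)], [(7, 22), (9, 15), (10, 16)]),
    ([(6, 5), (7, 13), (8, 31), (9, 5)], [(10, 6)]),
    ([(11, 300), (12, 380), (15, 9), (16, 5)], [(13, 45), (14, 155)]),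
    ([(12, 46), (14, 96), (16, 295)], [(11, 48), (13, 286), (15, 243)]),
    ([(12, 64), (13, 27), (14, 153), (15, 303), (16, 177)], [(11, 1)]),
    ([(13, 41), (15, 33)], [(11, 1), (12, 7), (14, 43), (16, 120)]),
    ([(12, 1), (14, 14)], [(13, 25), (15, 15), (16, 6)]),
    ([(16, 5)], [(12, 6), (13, 7), (14, 30), (15, 15)]),
    ([(17, 139), (19, 349), (20, 98)], [(18, 303)]),
    ([(17, 18), (19, 8), (20, 129)], [(18, 127)]),
    ([(19, 39)], [(17, 3), (18, 22), (20, 33)]),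
    ([(18, 24), (19, 28), (20, 21)], [(17, 5)]),
    ([(21, 58)], [])],
   [([(1, 8), (2, 42), (4, 34)], [(3, 11)]),
    ([(5, 58), (6, 122), (8, 250), (9, 104), (10, 186)], [(7, 351)]),
    ([(5, 1), (7, 53), (9, 84)], [(6, 16), (8, 111), (10, 22)]),
    ([(6, 3), (8, 35), (9, 12), (10, 39)], [(7, 21)]),
    ([(6, 6), (7, 22), (8, 10), (10, 18)], [(9, 37)]),
    ([(11, 406), (14, 116)], [(12, 279), (13, 68), (15, 7), (16, 4)]),
    ([(11, 35), (13, 201), (15, 22), (16, 310)], [(12, 137), (14, 297)]),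
    ([(11, 2), (12, 46), (14, 109), (15, 218), (16, 134)], [(13, 33)]),
    ([(11, 1), (12, 18), (14, 124), (15, 110)], [(13, 29), (16, 32)]),
    ([(14, 28)], [(13, 16), (15, 20), (16, 43)]),
    ([(12, 5), (13, 9), (14, 9), (15, 41)], [(16, 21)]),
    ([(17, 471), (18, 194), (20, 10)], [(19, 10)]),
    ([(18, 258), (19, 145), (20, 372)], [(17, 118)]),
    ([(17, 78), (20, 302)], [(18, 188), (19, 313)]),
    ([(17, 15)], [(18, 106), (19, 129), (20, 41)]),
    ([(17, 2), (18, 21), (20, 38)], [(19, 16)]),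
    ([(17, 3)], [(18, 7), (19, 36), (20, 22)]),
    ([(21, 483)], []),
    ([(21, 155)], []),
    ([(21, 8)], []),
    ([], [(21, 35)]),
    ([], [])]]

def d54pp_38 : List (List Col) :=
  [[([], []),
    ([(0, 484)], []),
    ([(0, 154)], []),
    ([], [(0, 9)]),
    ([(0, 34)], []),
    ([(1, 472), (2, 194), (3, 9)], [(4, 11)]),
    ([(1, 119), (3, 169), (4, 360)], [(2, 260)]),
    ([(2, 187), (4, 323)], [(1, 77), (3, 293)]),
    ([(1, 15), (3, 130), (4, 32)], [(2, 105)]),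
    ([(1, 2), (2, 21), (3, 11)], [(4, 40)]),
    ([(1, 3), (3, 38), (4, 18)], [(2, 5)]),
    ([(5, 405), (6, 281), (7, 69), (8, 117), (10, 5)], [(9, 7)]),
    ([(7, 200), (8, 299), (10, 309)], [(5, 35), (6, 138), (9, 14)]),
    ([(6, 46), (10, 143)], [(5, 2), (7, 33), (8, 108), (9, 216)]),
    ([(5, 1), (7, 29), (8, 124), (9, 111), (10, 28)], [(6, 18)]),
    ([(7, 15), (8, 29), (10, 45)], [(9, 17)]),
    ([(6, 5), (7, 10)], [(8, 7), (9, 42), (10, 17)]),
    ([(11, 58), (13, 351), (14, 250), (15, 109), (16, 183)], [(12, 123)]),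
    ([(11, 2), (12, 17), (15, 86)], [(13, 54), (14, 113), (16, 23)]),
    ([(12, 3)], [(13, 21), (14, 36), (15, 11), (16, 39)]),
    ([(12, 6), (13, 22), (15, 36)], [(14, 9), (16, 18)]),
    ([(17, 8), (18, 43), (19, 9)], [(20, 34)])],
   [([], [(0, 58)]),
    ([(2, 303), (3, 355), (4, 77)], [(1, 138)]),
    ([(2, 126), (3, 15), (4, 129)], [(1, 18)]),
    ([(4, 36)], [(1, 3), (2, 22), (3, 36)]),
    ([(2, 23)], [(1, 5), (3, 30), (4, 18)]),
    ([(6, 379), (8, 155), (10, 5)], [(5, 302), (7, 45), (9, 8)]),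
    ([(7, 286), (8, 94)], [(5, 49), (6, 46), (9, 251), (10, 289)]),
    ([(8, 152), (9, 297)], [(5, 1), (6, 64), (7, 27), (10, 184)]),
    ([(5, 1), (7, 41), (8, 42)], [(6, 7), (9, 35), (10, 120)]),
    ([(6, 1), (9, 14)], [(7, 25), (8, 16), (10, 7)]),
    ([(8, 29), (9, 16), (10, 5)], [(6, 6), (7, 9)]),
    ([(12, 390), (13, 53), (14, 161), (15, 12), (16, 3)], [(11, 282)]),
    ([(14, 116), (16, 373)], [(11, 46), (12, 46), (13, 286), (15, 47)]),
    ([(11, 1), (12, 66), (15, 343), (16, 110)], [(13, 26), (14, 157)]),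
    ([(11, 1), (14, 43), (16, 110)], [(12, 6), (13, 41), (15, 53)]),
    ([(12, 5), (15, 16), (16, 16)], [(13, 21), (14, 13)]),
    ([(14, 30), (15, 6)], [(12, 4), (13, 14), (16, 5)]),
    ([(19, 174), (20, 308)], [(17, 144), (18, 310)]),
    ([(17, 20), (18, 136), (19, 87)], [(20, 92)]),
    ([], [(17, 6), (18, 7), (19, 35), (20, 31)]),
    ([(19, 32)], [(17, 1), (18, 31), (20, 18)]),
    ([], [(21, 57)])],
   [([(1, 8)], [(2, 41), (3, 22), (4, 33)]),
    ([(5, 59), (8, 248)], [(6, 108), (7, 353), (9, 213), (10, 58)]),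
    ([(8, 100), (9, 31)], [(5, 1), (6, 14), (7, 52), (10, 75)]),
    ([(7, 32), (9, 36)], [(6, 3), (8, 14), (10, 23)]),
    ([(6, 6), (7, 3), (9, 21), (10, 44)], [(8, 34)]),
    ([(11, 420), (12, 265), (14, 108), (15, 6), (16, 1)], [(13, 59)]),
    ([(14, 285), (15, 247)], [(11, 32), (12, 125), (13, 203), (16, 214)]),
    ([(11, 2), (14, 106)], [(12, 46), (13, 37), (15, 229), (16, 66)]),
    ([(11, 1), (14, 116)], [(12, 17), (13, 28), (15, 49), (16, 102)]),
    ([(13, 17)], [(12, 4), (14, 10), (15, 44), (16, 26)]),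
    ([(12, 3), (13, 5), (16, 44)], [(14, 27), (15, 23)]),
    ([(17, 471), (19, 17)], [(18, 195)]),
    ([(17, 111), (18, 238), (20, 370)], [(19, 185)]),
    ([(17, 82), (18, 198), (19, 427), (20, 36)], []),
    ([(17, 15), (18, 103), (19, 59), (20, 125)], []),
    ([(18, 6)], [(17, 4), (19, 34), (20, 24)]),
    ([(17, 1), (18, 19), (20, 40)], [(19, 21)]),
    ([(21, 483)], []),
    ([], [(21, 157)]),
    ([(21, 24)], []),
    ([(21, 28)], []),
    ([], [])]]

def d54pp_39 : List (List Col) :=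
  [[([], []),
    ([(0, 483)], []),
    ([], [(0, 156)]),
    ([], [(0, 25)]),
    ([], [(0, 27)]),
    ([(1, 471)], [(2, 195), (3, 17), (4, 1)]),
    ([(4, 367)], [(1, 110), (2, 236), (3, 194)]),
    ([(3, 426), (4, 47)], [(1, 82), (2, 198)]),
    ([(1, 15), (2, 102)], [(3, 56), (4, 126)]),
    ([(2, 6), (3, 33), (4, 25)], [(1, 4)]),
    ([(4, 40)], [(1, 1), (2, 19), (3, 22)]),
    ([(5, 421), (7, 58), (8, 107), (9, 6), (10, 2)], [(6, 263)]),
    ([(5, 31), (10, 200)], [(6, 124), (7, 203), (8, 285), (9, 259)]),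
    ([(9, 225), (10, 78)], [(5, 2), (6, 45), (7, 37), (8, 105)]),
    ([(5, 1), (6, 17), (7, 28), (8, 115)], [(9, 43), (10, 105)]),
    ([(6, 4)], [(7, 17), (8, 11), (9, 45), (10, 26)]),
    ([(10, 45)], [(6, 4), (7, 4), (8, 26), (9, 22)]),
    ([(11, 59), (12, 107), (13, 354), (14, 246), (16, 47)], [(15, 216)]),
    ([(12, 14), (13, 52), (14, 100), (15, 27), (16, 77)], [(11, 1)]),
    ([(13, 32), (14, 17)], [(12, 3), (15, 37), (16, 21)]),
    ([(12, 6), (14, 33), (16, 45)], [(15, 20)]),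
    ([(17, 8), (19, 23), (20, 32)], [(18, 41)])],
   [([(0, 57)], []),
    ([(1, 144), (2, 312), (3, 167), (4, 311)], []),
    ([(3, 90)], [(1, 20), (2, 135), (4, 89)]),
    ([(3, 33), (4, 32)], [(1, 6), (2, 9)]),
    ([(4, 16)], [(1, 1), (2, 31), (3, 33)]),
    ([(5, 280), (6, 391), (7, 54)], [(8, 161), (9, 11), (10, 4)]),
    ([(6, 46), (7, 286), (8, 119), (10, 369)], [(5, 45), (9, 70)]),
    ([(5, 1), (7, 26), (9, 336), (10, 133)], [(6, 66), (8, 156)]),
    ([(9, 59)], [(5, 1), (6, 6), (7, 41), (8, 42), (10, 106)]),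
    ([(6, 5), (8, 13)], [(7, 21), (9, 15), (10, 17)]),
    ([(6, 4), (7, 14), (8, 31), (9, 7)], [(10, 5)]),
    ([(11, 304), (12, 378), (15, 8), (16, 6)], [(13, 45), (14, 154)]),
    ([(12, 45), (14, 94), (16, 274)], [(11, 49), (13, 285), (15, 267)]),
    ([(12, 64), (13, 27), (14, 151), (15, 287), (16, 201)], [(11, 2)]),
    ([(13, 41), (15, 42)], [(11, 1), (12, 7), (14, 42), (16, 118)]),
    ([(12, 1), (14, 13)], [(13, 25), (15, 16), (16, 8)]),
    ([(16, 4)], [(12, 6), (13, 7), (14, 30), (15, 15)]),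
    ([(17, 138), (19, 358), (20, 66)], [(18, 302)]),
    ([(17, 18), (19, 20), (20, 128)], [(18, 127)]),
    ([(19, 38)], [(17, 3), (18, 20), (20, 36)]),
    ([(18, 25), (19, 27), (20, 21)], [(17, 5)]),
    ([(21, 58)], [])],
   [([(1, 8), (2, 42), (4, 33)], [(3, 10)]),
    ([(5, 57), (6, 125), (8, 251), (9, 97), (10, 188)], [(7, 351)]),
    ([(5, 1), (7, 53), (9, 87)], [(6, 17), (8, 113), (10, 16)]),
    ([(6, 3), (8, 36), (9, 7), (10, 39)], [(7, 19)]),
    ([(6, 5), (7, 23), (8, 7), (10, 14)], [(9, 36)]),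
    ([(11, 403), (14, 118)], [(12, 283), (13, 69), (15, 6), (16, 5)]),
    ([(11, 35), (13, 199), (16, 308)], [(12, 139), (14, 301), (15, 5)]),
    ([(11, 2), (12, 45), (14, 107), (15, 206), (16, 157)], [(13, 32)]),
    ([(11, 1), (12, 18), (14, 124), (15, 111)], [(13, 28), (16, 20)]),
    ([(14, 29)], [(13, 15), (15, 14), (16, 45)]),
    ([(12, 5), (13, 11), (14, 7), (15, 42)], [(16, 14)]),
    ([(17, 471), (18, 194), (20, 12)], [(19, 9)]),
    ([(18, 260), (19, 180), (20, 354)], [(17, 120)]),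
    ([(17, 77), (20, 332)], [(18, 188), (19, 282)]),
    ([(17, 15)], [(18, 105), (19, 130), (20, 28)]),
    ([(17, 2), (18, 22), (20, 38)], [(19, 12)]),
    ([(17, 3)], [(18, 6), (19, 37), (20, 20)]),
    ([(21, 483)], []),
    ([(21, 155)], []),
    ([(21, 6)], []),
    ([], [(21, 34)]),
    ([], [])]]

def d54pp_40 : List (List Col) :=
  [[([], []),
    ([(0, 484)], []),
    ([(0, 153)], []),
    ([], [(0, 7)]),
    ([(0, 33)], []),
    ([(1, 472), (2, 193), (3, 8)], [(4, 12)]),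
    ([(1, 120), (3, 199), (4, 342)], [(2, 264)]),
    ([(2, 185), (4, 348)], [(1, 76), (3, 265)]),
    ([(1, 14), (3, 131), (4, 20)], [(2, 104)]),
    ([(1, 2), (2, 22), (3, 6)], [(4, 40)]),
    ([(1, 3), (3, 38), (4, 14)], [(2, 3)]),
    ([(5, 401), (6, 285), (7, 69), (8, 118), (10, 5)], [(9, 6)]),
    ([(7, 199), (8, 304), (9, 8), (10, 305)], [(5, 36), (6, 139)]),
    ([(6, 45), (10, 164)], [(5, 2), (7, 31), (8, 106), (9, 207)]),
    ([(5, 1), (7, 28), (8, 124), (9, 113), (10, 17)], [(6, 18)]),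
    ([(9, 12)], [(7, 14), (8, 29), (10, 47)]),
    ([(6, 5), (7, 11)], [(8, 5), (9, 42), (10, 11)]),
    ([(11, 57), (13, 352), (14, 249), (15, 111), (16, 179)], [(12, 127)]),
    ([(11, 2), (12, 17), (15, 90)], [(13, 55), (14, 116), (16, 20)]),
    ([(12, 3)], [(13, 20), (14, 36), (15, 9), (16, 39)]),
    ([(12, 5), (13, 22), (15, 34)], [(14, 7), (16, 16)]),
    ([(17, 8), (18, 43), (19, 7)], [(20, 34)])],
   [([], [(0, 58)]),
    ([(2, 303), (3, 361), (4, 50)], [(1, 137)]),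
    ([(2, 124), (3, 25), (4, 127)], [(1, 18)]),
    ([(4, 38)], [(1, 3), (2, 21), (3, 35)]),
    ([(2, 24)], [(1, 5), (3, 29), (4, 18)]),
    ([(6, 376), (8, 152), (10, 5)], [(5, 306), (7, 45), (9, 7)]),
    ([(7, 285), (8, 92)], [(5, 49), (6, 45), (9, 270), (10, 273)]),
    ([(8, 149), (9, 283)], [(5, 2), (6, 63), (7, 27), (10, 201)]),
    ([(5, 1), (7, 40), (8, 42)], [(6, 7), (9, 40), (10, 119)]),
    ([(6, 1), (9, 14)], [(7, 24), (8, 16), (10, 8)]),
    ([(8, 28), (9, 17), (10, 3)], [(6, 6), (7, 10)]),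
    ([(12, 392), (13, 56), (14, 161), (15, 12), (16, 3)], [(11, 278)]),
    ([(14, 123), (16, 371)], [(11, 45), (12, 45), (13, 286), (15, 46)]),
    ([(11, 1), (12, 66), (15, 346), (16, 115)], [(13, 27), (14, 157)]),
    ([(11, 1), (14, 42), (16, 111)], [(12, 6), (13, 40), (15, 49)]),
    ([(13, 21), (14, 15)], [(12, 5), (15, 17), (16, 17)]),
    ([(14, 29), (15, 8)], [(12, 4), (13, 14), (16, 4)]),
    ([(19, 199), (20, 290)], [(17, 145), (18, 311)]),
    ([(17, 20), (18, 138), (19, 80)], [(20, 97)]),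
    ([], [(17, 6), (18, 9), (19, 36), (20, 29)]),
    ([(19, 31)], [(17, 1), (18, 30), (20, 19)]),
    ([], [(21, 57)])],
   [([(1, 8)], [(2, 41), (3, 25), (4, 32)]),
    ([(5, 59), (8, 247)], [(6, 106), (7, 354), (9, 216), (10, 48)]),
    ([(8, 98), (9, 26)], [(5, 1), (6, 14), (7, 51), (10, 75)]),
    ([(7, 32), (9, 36)], [(6, 3), (8, 16), (10, 23)]),
    ([(6, 6), (7, 2), (9, 21), (10, 44)], [(8, 33)]),
    ([(11, 422), (12, 262), (14, 107), (15, 5), (16, 1)], [(13, 55)]),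
    ([(14, 285), (15, 246)], [(11, 31), (12, 121), (13, 202), (16, 220)]),
    ([(11, 1), (14, 104)], [(12, 45), (13, 37), (15, 224), (16, 61)]),
    ([(11, 1), (14, 112)], [(12, 17), (13, 27), (15, 48), (16, 100)]),
    ([(13, 17)], [(12, 5), (14, 9), (15, 45), (16, 27)]),
    ([(12, 3), (13, 6), (16, 44)], [(14, 27), (15, 23)]),
    ([(17, 471), (19, 18)], [(18, 195), (20, 2)]),
    ([(17, 110), (18, 232), (20, 386)], [(19, 160)]),
    ([(17, 82), (18, 201), (19, 426), (20, 8)], []),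
    ([(17, 15), (18, 101), (19, 67), (20, 120)], []),
    ([(17, 4), (19, 34), (20, 24)], [(18, 6)]),
    ([(17, 1), (18, 19), (20, 40)], [(19, 19)]),
    ([(21, 482)], []),
    ([], [(21, 158)]),
    ([(21, 26)], []),
    ([(21, 26)], []),
    ([], [])]]

def d54pp_41 : List (List Col) :=
  [[([], []),
    ([(0, 483)], []),
    ([], [(0, 155)]),
    ([], [(0, 27)]),
    ([], [(0, 25)]),
    ([(1, 471), (4, 1)], [(2, 195), (3, 18)]),
    ([(4, 381)], [(1, 108), (2, 231), (3, 177)]),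
    ([(3, 426), (4, 29)], [(1, 82), (2, 200)]),
    ([(1, 15), (2, 99)], [(3, 63), (4, 122)]),
    ([(2, 5), (3, 34), (4, 25)], [(1, 4)]),
    ([(4, 40)], [(1, 1), (2, 18), (3, 19)]),
    ([(5, 424), (7, 54), (8, 105), (9, 5), (10, 1)], [(6, 260)]),
    ([(5, 30), (10, 197)], [(6, 119), (7, 203), (8, 285), (9, 265)]),
    ([(9, 220), (10, 80)], [(5, 1), (6, 45), (7, 37), (8, 101)]),
    ([(5, 1), (6, 17), (7, 27), (8, 111)], [(9, 41), (10, 104)]),
    ([(6, 4)], [(7, 17), (8, 12), (9, 48), (10, 25)]),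
    ([(6, 4), (7, 3), (8, 25), (9, 21)], [(10, 46)]),
    ([(11, 59), (12, 105), (13, 356), (14, 244), (15, 220), (16, 36)], []),
    ([(12, 14), (13, 53), (14, 98), (16, 78)], [(11, 1), (15, 24)]),
    ([(13, 32), (14, 22), (15, 38)], [(12, 2), (16, 16)]),
    ([(13, 3)], [(12, 7), (14, 30), (15, 17), (16, 47)]),
    ([(17, 8), (19, 26), (20, 32)], [(18, 41)])],
   [([(0, 56)], []),
    ([(1, 145), (2, 315), (3, 185), (4, 297)], []),
    ([(3, 85)], [(1, 20), (2, 137), (4, 92)]),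
    ([(3, 33), (4, 31)], [(1, 6), (2, 10)]),
    ([(4, 16)], [(1, 1), (2, 29), (3, 32)]),
    ([(5, 276), (6, 394), (7, 57)], [(8, 161), (9, 10), (10, 5)]),
    ([(6, 44), (7, 286), (8, 126), (10, 364)], [(5, 44), (9, 83)]),
    ([(5, 1), (7, 26), (9, 332), (10, 150)], [(6, 65), (8, 155)]),
    ([(9, 60)], [(5, 1), (6, 6), (7, 39), (8, 41), (10, 105)]),
    ([(6, 5), (8, 14)], [(7, 20), (9, 15), (10, 19)]),
    ([(6, 4), (7, 14), (8, 30), (9, 7)], [(10, 4)]),
    ([(11, 309), (12, 374), (16, 6)], [(13, 46), (14, 151), (15, 6)]),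
    ([(12, 44), (14, 93), (15, 284), (16, 258)], [(11, 49), (13, 285)]),
    ([(12, 63), (13, 28), (14, 148), (16, 217)], [(11, 2), (15, 275)]),
    ([(13, 40)], [(11, 1), (12, 7), (14, 41), (15, 48), (16, 117)]),
    ([(14, 10), (15, 18)], [(13, 26), (16, 10)]),
    ([(12, 6), (13, 7), (14, 31)], [(15, 15), (16, 3)]),
    ([(17, 136), (19, 363), (20, 48)], [(18, 301)]),
    ([(17, 18), (19, 27), (20, 128)], [(18, 126)]),
    ([(19, 40)], [(17, 4), (18, 16), (20, 35)]),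
    ([(17, 4)], [(18, 26), (19, 23), (20, 25)]),
    ([(21, 59)], [])],
   [([(1, 8), (2, 43), (4, 32)], [(3, 8)]),
    ([(5, 57), (6, 128), (8, 251), (9, 92), (10, 187)], [(7, 352)]),
    ([(5, 1), (7, 54), (9, 91)], [(6, 17), (8, 116), (10, 9)]),
    ([(6, 4), (8, 36), (9, 3), (10, 39)], [(7, 18)]),
    ([(6, 5), (7, 23), (8, 5), (10, 11)], [(9, 34)]),
    ([(11, 399), (14, 120), (15, 5)], [(12, 288), (13, 69), (16, 5)]),
    ([(11, 36), (13, 197), (15, 26), (16, 302)], [(12, 140), (14, 307)]),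
    ([(11, 2), (12, 45), (14, 105), (16, 176)], [(13, 30), (15, 193)]),
    ([(11, 1), (12, 18), (14, 122)], [(13, 27), (15, 111), (16, 10)]),
    ([(14, 29), (15, 11)], [(13, 14), (16, 47)]),
    ([(12, 5), (13, 11), (14, 5)], [(15, 42), (16, 9)]),
    ([(17, 472), (18, 193), (20, 13)], [(19, 8)]),
    ([(18, 264), (19, 199), (20, 342)], [(17, 122)]),
    ([(17, 75), (20, 349)], [(18, 187), (19, 263)]),
    ([(17, 14)], [(18, 104), (19, 129), (20, 21)]),
    ([(17, 2), (18, 23), (20, 36)], [(19, 11)]),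
    ([(18, 5), (19, 35), (20, 20)], [(17, 3)]),
    ([(21, 483)], []),
    ([(21, 155)], []),
    ([(21, 1)], []),
    ([(21, 33)], []),
    ([], [])]]

def d54pp_42 : List (List Col) :=
  [[([], []),
    ([(0, 485)], []),
    ([(0, 151)], []),
    ([], [(0, 4)]),
    ([(0, 32)], []),
    ([(1, 473), (2, 192), (3, 7)], [(4, 13)]),
    ([(1, 122), (3, 218), (4, 327)], [(2, 269)]),
    ([(2, 183), (4, 365)], [(1, 73), (3, 245)]),
    ([(1, 14), (3, 128), (4, 12)], [(2, 102)]),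
    ([(1, 1), (2, 23), (3, 2)], [(4, 40)]),
    ([(1, 3), (3, 36), (4, 12)], [(2, 1)]),
    ([(5, 396), (6, 291), (7, 70), (8, 120), (10, 5)], [(9, 5)]),
    ([(7, 198), (8, 311), (9, 23), (10, 298)], [(5, 36), (6, 141)]),
    ([(6, 44), (10, 186)], [(5, 2), (7, 29), (8, 102), (9, 200)]),
    ([(5, 1), (7, 26), (8, 123), (9, 113), (10, 7)], [(6, 18)]),
    ([(6, 1), (9, 9)], [(7, 13), (8, 29), (10, 48)]),
    ([(6, 4), (7, 12)], [(8, 3), (9, 41), (10, 7)]),
    ([(11, 57), (13, 354), (14, 246), (15, 121)], [(12, 132), (16, 169)]),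
    ([(11, 2), (12, 18), (15, 96), (16, 19)], [(13, 57), (14, 121)]),
    ([(12, 4), (16, 38)], [(13, 19), (14, 37), (15, 9)]),
    ([(12, 5), (13, 22), (15, 30), (16, 17)], [(14, 6)]),
    ([(17, 8), (18, 43), (19, 2), (20, 33)], [])],
   [([], [(0, 58)]),
    ([(2, 302), (3, 365), (4, 34)], [(1, 134)]),
    ([(2, 121), (3, 30), (4, 127)], [(1, 17)]),
    ([(4, 38)], [(1, 3), (2, 18), (3, 36)]),
    ([(2, 24)], [(1, 4), (3, 26), (4, 21)]),
    ([(6, 373), (8, 149), (10, 4)], [(5, 313), (7, 45), (9, 5)]),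
    ([(7, 285), (8, 90)], [(5, 49), (6, 43), (9, 283), (10, 261)]),
    ([(8, 145), (9, 273)], [(5, 2), (6, 62), (7, 27), (10, 210)]),
    ([(5, 1), (7, 38), (8, 40)], [(6, 7), (9, 42), (10, 119)]),
    ([(6, 2), (9, 15)], [(7, 24), (8, 17), (10, 9)]),
    ([(8, 28), (9, 18), (10, 2)], [(6, 5), (7, 11)]),
    ([(12, 395), (13, 62), (14, 161), (15, 12)], [(11, 273), (16, 3)]),
    ([(14, 134)], [(11, 43), (12, 43), (13, 284), (15, 31), (16, 370)]),
    ([(11, 1), (12, 66), (15, 355)], [(13, 28), (14, 156), (16, 108)]),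
    ([(11, 1), (14, 41)], [(12, 6), (13, 39), (15, 39), (16, 114)]),
    ([(13, 20), (14, 18), (16, 17)], [(12, 5), (15, 20)]),
    ([(14, 28), (15, 9), (16, 4)], [(12, 4), (13, 14)]),
    ([(19, 237)], [(17, 147), (18, 314), (20, 256)]),
    ([(17, 20), (18, 143), (19, 66), (20, 106)], []),
    ([(20, 25)], [(17, 6), (18, 10), (19, 39)]),
    ([(19, 27), (20, 22)], [(17, 1), (18, 28)]),
    ([], [(21, 57)])],
   [([(1, 8)], [(2, 40), (3, 27), (4, 31)]),
    ([(5, 59), (8, 246)], [(6, 102), (7, 356), (9, 218), (10, 44)]),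
    ([(8, 94), (9, 24)], [(5, 1), (6, 13), (7, 50), (10, 73)]),
    ([(7, 31), (9, 36)], [(6, 2), (8, 19), (10, 19)]),
    ([(6, 6), (9, 19), (10, 46)], [(7, 1), (8, 31)]),
    ([(11, 426), (12, 258), (14, 104), (15, 4)], [(13, 50)]),
    ([(14, 285), (15, 235), (16, 237)], [(11, 30), (12, 116), (13, 201)]),
    ([(11, 1), (14, 100), (16, 43)], [(12, 44), (13, 37), (15, 218)]),
    ([(11, 1), (14, 107), (16, 94)], [(12, 16), (13, 25), (15, 52)]),
    ([(13, 16), (16, 26)], [(12, 5), (14, 8), (15, 48)]),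
    ([(12, 3), (13, 5)], [(14, 26), (15, 21), (16, 45)]),
    ([(17, 471), (19, 20), (20, 5)], [(18, 195)]),
    ([(17, 107), (18, 224)], [(19, 114), (20, 409)]),
    ([(17, 83), (18, 207), (19, 422), (20, 39)], []),
    ([(17, 14), (18, 98), (19, 79)], [(20, 110)]),
    ([(17, 4), (19, 36)], [(18, 6), (20, 21)]),
    ([(18, 18)], [(19, 13), (20, 41)]),
    ([(21, 482)], []),
    ([], [(21, 159)]),
    ([(21, 27)], []),
    ([(21, 25)], []),
    ([], [])]]

def d54pp_43 : List (List Col) :=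
  [[([], []),
    ([(0, 484)], []),
    ([], [(0, 153)]),
    ([], [(0, 27)]),
    ([], [(0, 23)]),
    ([(1, 472), (4, 3)], [(2, 194), (3, 18)]),
    ([(4, 402)], [(1, 105), (2, 223), (3, 145)]),
    ([(3, 426)], [(1, 81), (2, 203), (4, 2)]),
    ([(1, 14), (2, 95)], [(3, 73), (4, 114)]),
    ([(2, 5), (3, 35), (4, 22)], [(1, 4)]),
    ([(4, 40)], [(1, 1), (2, 16), (3, 14)]),
    ([(5, 428), (7, 48), (8, 102), (9, 3), (10, 1)], [(6, 256)]),
    ([(5, 29), (10, 194)], [(6, 112), (7, 203), (8, 286), (9, 271)]),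
    ([(9, 216), (10, 79)], [(5, 1), (6, 44), (7, 37), (8, 95)]),
    ([(5, 1), (6, 16), (7, 26), (8, 106)], [(9, 39), (10, 103)]),
    ([(6, 4)], [(7, 16), (8, 14), (9, 52), (10, 21)]),
    ([(6, 4), (7, 1), (8, 23), (9, 16)], [(10, 49)]),
    ([(11, 59), (12, 101), (13, 359), (14, 241), (15, 222), (16, 30)], []),
    ([(12, 13), (13, 54), (14, 96), (16, 79)], [(11, 1), (15, 25)]),
    ([(13, 31), (14, 27), (15, 39)], [(12, 1), (16, 8)]),
    ([(13, 7)], [(12, 7), (14, 27), (15, 13), (16, 50)]),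
    ([(17, 8), (19, 27), (20, 34)], [(18, 41)])],
   [([(0, 54)], []),
    ([(1, 147), (2, 320), (3, 211), (4, 273)], []),
    ([(3, 77)], [(1, 20), (2, 139), (4, 95)]),
    ([(3, 34), (4, 28)], [(1, 6), (2, 11)]),
    ([(4, 17)], [(2, 27), (3, 29)]),
    ([(5, 270), (6, 397), (7, 63)], [(8, 161), (9, 9), (10, 5)]),
    ([(6, 43), (7, 285), (8, 136), (10, 359)], [(5, 42), (9, 97)]),
    ([(5, 1), (7, 26), (9, 327), (10, 171)], [(6, 64), (8, 153)]),
    ([(9, 60)], [(5, 1), (6, 5), (7, 37), (8, 39), (10, 103)]),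
    ([(6, 5), (8, 15)], [(7, 20), (9, 16), (10, 20)]),
    ([(6, 4), (7, 13), (8, 30), (9, 8)], [(10, 3)]),
    ([(11, 317), (12, 370), (16, 5)], [(13, 49), (14, 146), (15, 4)]),
    ([(12, 41), (14, 94), (15, 297), (16, 244)], [(11, 49), (13, 284)]),
    ([(12, 61), (13, 30), (14, 143), (16, 229)], [(11, 2), (15, 267)]),
    ([(13, 38)], [(11, 1), (12, 8), (14, 41), (15, 52), (16, 116)]),
    ([(14, 5), (15, 22)], [(13, 27), (16, 13)]),
    ([(12, 6), (13, 5), (14, 32)], [(15, 14), (16, 3)]),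
    ([(17, 134), (19, 367), (20, 39)], [(18, 298)]),
    ([(17, 18), (19, 31), (20, 129)], [(18, 125)]),
    ([(19, 43)], [(17, 5), (18, 11), (20, 32)]),
    ([(17, 3)], [(18, 26), (19, 16), (20, 30)]),
    ([(21, 59)], [])],
   [([(1, 8), (2, 42), (4, 31)], [(3, 6)]),
    ([(5, 56), (6, 134), (8, 252), (9, 85), (10, 185)], [(7, 353)]),
    ([(5, 1), (7, 54), (9, 96), (10, 2)], [(6, 17), (8, 118)]),
    ([(6, 4), (8, 36), (10, 37)], [(7, 17)]),
    ([(6, 4), (7, 22), (8, 4), (10, 9)], [(9, 31)]),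
    ([(11, 393), (14, 122), (15, 3)], [(12, 295), (13, 68), (16, 6)]),
    ([(11, 37), (13, 194), (15, 44), (16, 293)], [(12, 141), (14, 316)]),
    ([(11, 2), (12, 43), (14, 101), (16, 195)], [(13, 27), (15, 179)]),
    ([(11, 1), (12, 18), (14, 120)], [(13, 24), (15, 108)]),
    ([(14, 29), (15, 9)], [(13, 14), (16, 47)]),
    ([(12, 4), (13, 12), (14, 3)], [(15, 40), (16, 6)]),
    ([(17, 472), (18, 192), (20, 16)], [(19, 8)]),
    ([(18, 269), (19, 210), (20, 332)], [(17, 124)]),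
    ([(17, 73), (20, 359)], [(18, 187), (19, 251)]),
    ([(17, 13)], [(18, 102), (19, 125), (20, 17)]),
    ([(17, 2), (18, 24), (20, 32)], [(19, 12)]),
    ([(18, 6), (19, 32), (20, 23)], [(17, 2)]),
    ([(21, 483)], []),
    ([(21, 155)], []),
    ([], [(21, 5)]),
    ([(21, 31)], []),
    ([], [])]]

def d54pp_44 : List (List Col) :=
  [[([], []),
    ([(0, 487)], []),
    ([(0, 146)], []),
    ([], []),
    ([(0, 29)], []),
    ([(1, 474), (2, 189), (3, 6)], [(4, 14)]),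
    ([(1, 123), (3, 233), (4, 311)], [(2, 278)]),
    ([(2, 178), (4, 380)], [(1, 69), (3, 228)]),
    ([(1, 13), (3, 124), (4, 5)], [(2, 97)]),
    ([(1, 1), (2, 23)], [(3, 2), (4, 39)]),
    ([(1, 3), (2, 2), (3, 32), (4, 10)], []),
    ([(5, 389), (6, 300), (7, 70), (8, 122), (10, 5)], [(9, 3)]),
    ([(7, 195), (8, 322), (9, 35), (10, 287)], [(5, 37), (6, 142)]),
    ([(6, 43), (10, 211)], [(5, 2), (7, 25), (8, 96), (9, 198)]),
    ([(5, 1), (7, 24), (8, 120), (9, 114)], [(6, 18), (10, 4)]),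
    ([(7, 12), (8, 30), (10, 50)], [(6, 1), (9, 8)]),
    ([(6, 4), (7, 11)], [(8, 2), (9, 39), (10, 3)]),
    ([(11, 56), (13, 356), (14, 241), (15, 141)], [(12, 140), (16, 150)]),
    ([(11, 2), (12, 19), (15, 106), (16, 22)], [(13, 61), (14, 129)]),
    ([(12, 4), (16, 35)], [(13, 20), (14, 38), (15, 11)]),
    ([(12, 4), (13, 20), (15, 22), (16, 19)], [(14, 5)]),
    ([(17, 8), (18, 44), (20, 32)], [(19, 3)])],
   [([], [(0, 57)]),
    ([(2, 303), (3, 368), (4, 25)], [(1, 131)]),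
    ([(2, 116), (3, 31), (4, 126)], [(1, 16)]),
    ([(4, 35)], [(1, 4), (2, 14), (3, 37)]),
    ([(2, 23)], [(1, 3), (3, 21), (4, 25)]),
    ([(6, 368), (8, 143), (10, 2)], [(5, 322), (7, 46), (9, 3)]),
    ([(7, 285), (8, 88)], [(5, 49), (6, 41), (9, 291), (10, 255)]),
    ([(8, 139), (9, 265)], [(5, 2), (6, 59), (7, 27), (10, 208)]),
    ([(5, 1), (7, 35), (8, 38)], [(6, 8), (9, 40), (10, 122)]),
    ([(6, 2), (9, 16)], [(7, 23), (8, 18), (10, 10)]),
    ([(8, 27), (9, 19), (10, 1)], [(6, 5), (7, 12)]),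
    ([(12, 398), (13, 73), (14, 160), (15, 13)], [(11, 267), (16, 2)]),
    ([(14, 150), (15, 2)], [(11, 41), (12, 40), (13, 281), (16, 368)]),
    ([(11, 1), (12, 66), (15, 370)], [(13, 30), (14, 155), (16, 83)]),
    ([(11, 1), (14, 39)], [(12, 6), (13, 36), (15, 22), (16, 118)]),
    ([(12, 5), (15, 25)], [(13, 21), (14, 20), (16, 17)]),
    ([(14, 25), (15, 11), (16, 3)], [(12, 3), (13, 14)]),
    ([(19, 278)], [(17, 149), (18, 316), (20, 204)]),
    ([(17, 21), (18, 150), (19, 47), (20, 113)], []),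
    ([(20, 19)], [(17, 7), (18, 10), (19, 42)]),
    ([(19, 21), (20, 24)], [(18, 25)]),
    ([], [(21, 56)])],
   [([(1, 7)], [(2, 39), (3, 28), (4, 32)]),
    ([(5, 59), (8, 246)], [(6, 97), (7, 359), (9, 218), (10, 47)]),
    ([(8, 87), (9, 25)], [(5, 1), (6, 12), (7, 48), (10, 67)]),
    ([(7, 30), (9, 37)], [(6, 1), (8, 23), (10, 12)]),
    ([(6, 6), (9, 13), (10, 48)], [(7, 4), (8, 28)]),
    ([(11, 431), (12, 254), (14, 101), (15, 3), (16, 1)], [(13, 41)]),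
    ([(14, 286), (15, 209), (16, 268)], [(11, 28), (12, 108), (13, 199)]),
    ([(11, 1), (14, 95), (16, 11)], [(12, 42), (13, 37), (15, 205)]),
    ([(11, 1), (14, 99), (16, 83)], [(12, 16), (13, 22), (15, 59)]),
    ([(13, 16), (16, 22)], [(12, 5), (14, 7), (15, 51)]),
    ([(12, 3), (13, 5)], [(14, 25), (15, 17), (16, 45)]),
    ([(17, 470), (19, 21), (20, 11)], [(18, 195)]),
    ([(17, 104), (18, 210)], [(19, 52), (20, 431)]),
    ([(17, 84), (18, 215), (19, 409), (20, 93)], []),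
    ([(17, 14), (18, 92), (19, 92)], [(20, 96)]),
    ([(18, 8), (20, 17)], [(17, 4), (19, 37)]),
    ([(18, 17)], [(19, 5), (20, 40)]),
    ([(21, 481)], []),
    ([], [(21, 162)]),
    ([(21, 28)], []),
    ([(21, 23)], []),
    ([], [])]]

def d54pp_45 : List (List Col) :=
  [[([], []),
    ([(0, 486)], []),
    ([], [(0, 148)]),
    ([], [(0, 27)]),
    ([], [(0, 20)]),
    ([(1, 473), (4, 7)], [(2, 191), (3, 18)]),
    ([(4, 426)], [(1, 99), (2, 213), (3, 92)]),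
    ([(3, 424)], [(1, 79), (2, 203), (4, 46)]),
    ([(1, 13), (2, 87)], [(3, 86), (4, 100)]),
    ([(2, 6), (3, 36), (4, 15)], [(1, 3)]),
    ([(4, 40)], [(1, 1), (2, 13), (3, 6)]),
    ([(5, 434), (7, 40), (8, 96)], [(6, 250)]),
    ([(5, 27), (10, 187)], [(6, 103), (7, 204), (8, 290), (9, 277)]),
    ([(9, 213), (10, 78)], [(5, 1), (6, 42), (7, 37), (8, 83)]),
    ([(5, 1), (6, 16), (7, 24), (8, 99)], [(9, 39), (10, 103)]),
    ([(6, 3)], [(7, 15), (8, 17), (9, 56), (10, 15)]),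
    ([(6, 4), (8, 20), (9, 8)], [(7, 2), (10, 51)]),
    ([(11, 60), (12, 97), (13, 363), (14, 235), (16, 25)], [(15, 225)]),
    ([(12, 12), (13, 57), (14, 94), (15, 31), (16, 83)], [(11, 1)]),
    ([(13, 31), (14, 32), (16, 2)], [(15, 39)]),
    ([(12, 6), (14, 23), (16, 50)], [(13, 9), (15, 9)]),
    ([(17, 8), (19, 29), (20, 37)], [(18, 41)])],
   [([(0, 51)], []),
    ([(1, 148), (2, 331), (3, 241), (4, 235)], []),
    ([(3, 68)], [(1, 19), (2, 139), (4, 98)]),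
    ([(3, 37), (4, 24)], [(1, 6), (2, 12)]),
    ([(4, 18)], [(2, 23), (3, 23)]),
    ([(5, 262), (6, 402), (7, 71)], [(8, 160), (9, 6), (10, 6)]),
    ([(6, 39), (7, 283), (8, 149), (10, 349)], [(5, 39), (9, 121)]),
    ([(5, 1), (7, 25), (9, 317), (10, 203)], [(6, 62), (8, 147)]),
    ([(9, 63)], [(5, 1), (6, 5), (7, 33), (8, 36), (10, 98)]),
    ([(6, 5), (8, 13)], [(7, 19), (9, 17), (10, 23)]),
    ([(6, 3), (7, 11), (8, 30), (9, 7)], [(10, 3)]),
    ([(11, 328), (12, 363), (15, 2), (16, 5)], [(13, 53), (14, 138)]),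
    ([(12, 37), (14, 97), (16, 232)], [(11, 49), (13, 283), (15, 307)]),
    ([(12, 58), (13, 33), (14, 135), (15, 264), (16, 238)], [(11, 2)]),
    ([(13, 36), (15, 56)], [(11, 1), (12, 9), (14, 39), (16, 116)]),
    ([], [(12, 1), (13, 28), (14, 3), (15, 29), (16, 18)]),
    ([(12, 5), (13, 2), (14, 31), (15, 11)], [(16, 3)]),
    ([(17, 132), (19, 371), (20, 33)], [(18, 294)]),
    ([(17, 17), (19, 34), (20, 132)], [(18, 126)]),
    ([(19, 44)], [(17, 5), (18, 7), (20, 28)]),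
    ([(18, 23), (19, 10), (20, 34)], [(17, 2)]),
    ([(21, 61)], [])],
   [([(1, 7), (2, 42), (4, 28)], [(3, 3)]),
    ([(5, 55), (6, 141), (8, 254), (9, 71), (10, 182)], [(7, 355)]),
    ([(5, 1), (7, 53), (9, 100), (10, 20)], [(6, 17), (8, 118)]),
    ([(6, 4), (8, 36), (10, 34)], [(7, 16), (9, 4)]),
    ([(6, 3), (7, 19), (8, 2), (10, 6)], [(9, 26)]),
    ([(11, 384), (14, 126), (15, 1)], [(12, 307), (13, 65), (16, 6)]),
    ([(11, 37), (13, 187), (16, 281)], [(12, 142), (14, 330), (15, 64)]),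
    ([(11, 2), (12, 41), (14, 94), (15, 160), (16, 215)], [(13, 23)]),
    ([(11, 1), (12, 17), (14, 113), (15, 103), (16, 12)], [(13, 20)]),
    ([(14, 29)], [(13, 14), (15, 8), (16, 47)]),
    ([(12, 4), (13, 12), (14, 1), (15, 38)], [(16, 3)]),
    ([(17, 473), (18, 191), (20, 20)], [(19, 8)]),
    ([(18, 275), (19, 216), (20, 324)], [(17, 127)]),
    ([(17, 69), (20, 365)], [(18, 187), (19, 243)]),
    ([(17, 12)], [(18, 99), (19, 118), (20, 15)]),
    ([(17, 3), (18, 27), (20, 22)], [(19, 14)]),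
    ([(18, 6), (19, 26), (20, 27)], [(17, 2)]),
    ([(21, 483)], []),
    ([(21, 157)], []),
    ([], [(21, 10)]),
    ([], [(21, 26)]),
    ([], [])]]

def d54pp_46 : List (List Col) :=
  [[([], []),
    ([(0, 490)], []),
    ([(0, 137)], []),
    ([], [(0, 3)]),
    ([(0, 25)], []),
    ([(1, 477), (2, 183), (3, 4)], [(4, 14)]),
    ([(1, 123), (3, 248), (4, 291)], [(2, 290)]),
    ([(2, 170), (4, 396)], [(1, 62), (3, 211)]),
    ([(1, 11), (3, 116)], [(2, 90), (4, 5)]),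
    ([(1, 1), (2, 23)], [(3, 9), (4, 37)]),
    ([(1, 2), (2, 6), (3, 27), (4, 7)], []),
    ([(5, 378), (6, 313), (7, 70), (8, 124), (9, 1), (10, 4)], []),
    ([(7, 192), (8, 337), (9, 42), (10, 271)], [(5, 38), (6, 141)]),
    ([(6, 42), (10, 245)], [(5, 2), (7, 21), (8, 86), (9, 206)]),
    ([(5, 1), (7, 20), (8, 114), (9, 116)], [(6, 18), (10, 17)]),
    ([(6, 1), (9, 8)], [(7, 11), (8, 30), (10, 53)]),
    ([(6, 3), (7, 10), (10, 1)], [(8, 2), (9, 36)]),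
    ([(11, 56), (13, 362), (14, 227), (15, 166)], [(12, 152), (16, 118)]),
    ([(11, 2), (12, 21), (15, 122), (16, 31)], [(13, 68), (14, 142)]),
    ([(12, 4), (16, 32)], [(13, 21), (14, 40), (15, 13)]),
    ([(12, 3), (13, 17), (15, 11), (16, 20)], [(14, 4)]),
    ([(17, 8), (18, 46)], [(19, 7), (20, 28)])],
   [([], [(0, 55)]),
    ([(2, 305), (3, 372), (4, 21)], [(1, 125)]),
    ([(2, 107), (3, 29), (4, 126)], [(1, 15)]),
    ([(1, 4), (2, 10), (3, 37)], [(4, 29)]),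
    ([(2, 22)], [(1, 2), (3, 14), (4, 30)]),
    ([(6, 360), (8, 133), (9, 1)], [(5, 335), (7, 46), (10, 1)]),
    ([(7, 285), (8, 85)], [(5, 48), (6, 38), (9, 294), (10, 255)]),
    ([(8, 129), (9, 259)], [(5, 2), (6, 54), (7, 26), (10, 188)]),
    ([(5, 1), (7, 29), (8, 35)], [(6, 7), (9, 29), (10, 127)]),
    ([(6, 2), (9, 16)], [(7, 21), (8, 21), (10, 9)]),
    ([(8, 24), (9, 20)], [(6, 4), (7, 13)]),
    ([(12, 401), (13, 90), (14, 156), (15, 16)], [(11, 258)]),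
    ([(14, 174), (15, 50)], [(11, 37), (12, 33), (13, 274), (16, 360)]),
    ([(11, 1), (12, 66), (15, 386)], [(13, 34), (14, 155), (16, 43)]),
    ([(11, 1), (14, 37), (15, 2)], [(12, 6), (13, 31), (16, 118)]),
    ([(13, 22), (14, 24), (16, 16)], [(12, 5), (15, 33)]),
    ([(14, 20), (15, 16), (16, 3)], [(12, 3), (13, 12)]),
    ([(19, 306), (20, 146)], [(17, 153), (18, 319)]),
    ([(17, 22), (18, 161), (19, 30)], [(20, 115)]),
    ([], [(17, 7), (18, 11), (19, 45), (20, 14)]),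
    ([(19, 14)], [(18, 22), (20, 24)]),
    ([], [(21, 56)])],
   [([(1, 7)], [(2, 37), (3, 28), (4, 34)]),
    ([(5, 58), (8, 248)], [(6, 89), (7, 362), (9, 215), (10, 60)]),
    ([(8, 76), (9, 29)], [(5, 1), (6, 10), (7, 43), (10, 54)]),
    ([(8, 27)], [(7, 27), (9, 35)]),
    ([(6, 6), (9, 5), (10, 48)], [(7, 7), (8, 23)]),
    ([(11, 437), (12, 248), (14, 95), (15, 1), (16, 2)], [(13, 27)]),
    ([(14, 289), (15, 167), (16, 305)], [(11, 25), (12, 95), (13, 194)]),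
    ([(11, 1), (14, 87)], [(12, 39), (13, 35), (15, 176), (16, 30)]),
    ([(11, 1), (14, 86), (16, 65)], [(12, 15), (13, 17), (15, 66)]),
    ([(13, 15), (16, 17)], [(12, 5), (14, 6), (15, 52)]),
    ([(12, 2), (13, 5)], [(14, 22), (15, 13), (16, 44)]),
    ([(17, 470), (19, 24)], [(18, 194), (20, 19)]),
    ([(17, 98), (18, 188), (19, 4), (20, 447)], []),
    ([(17, 84), (18, 227), (19, 393)], [(20, 131)]),
    ([(17, 12), (18, 83), (19, 96), (20, 83)], []),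
    ([(17, 4), (19, 35), (20, 13)], [(18, 12)]),
    ([(18, 17), (19, 5), (20, 35)], []),
    ([(21, 480)], []),
    ([], [(21, 166)]),
    ([(21, 29)], []),
    ([(21, 20)], []),
    ([], [])]]

def d54pp_47 : List (List Col) :=
  [[([], []),
    ([(0, 490)], []),
    ([], [(0, 137)]),
    ([(0, 25)], []),
    ([], [(0, 15)]),
    ([(1, 475), (3, 15), (4, 11)], [(2, 185)]),
    ([(3, 11), (4, 447)], [(1, 91), (2, 201)]),
    ([(1, 73), (2, 196), (3, 419), (4, 107)], []),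
    ([(4, 77)], [(1, 11), (2, 74), (3, 101)]),
    ([(2, 7), (4, 3)], [(1, 3), (3, 34)]),
    ([(4, 38)], [(1, 1), (2, 8), (3, 7)]),
    ([(5, 441), (7, 30), (8, 87)], [(6, 242), (9, 4), (10, 1)]),
    ([(5, 25), (10, 163)], [(6, 89), (7, 207), (8, 301), (9, 285)]),
    ([(9, 210), (10, 82)], [(6, 38), (7, 35), (8, 63)]),
    ([(5, 1), (6, 15), (7, 22), (8, 89)], [(9, 39), (10, 104)]),
    ([(6, 2)], [(7, 13), (8, 20), (9, 61), (10, 14)]),
    ([(7, 4), (10, 51)], [(6, 4), (8, 15), (9, 2)]),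
    ([(11, 61), (12, 92), (13, 370), (14, 228), (15, 225), (16, 18)], []),
    ([(11, 1), (15, 46)], [(12, 10), (13, 60), (14, 92), (16, 104)]),
    ([(12, 1), (13, 31), (14, 38), (15, 35), (16, 19)], []),
    ([(12, 6), (14, 19), (15, 6), (16, 45)], [(13, 8)]),
    ([(17, 8), (19, 33), (20, 44)], [(18, 41)])],
   [([], [(0, 46)]),
    ([(1, 149), (2, 351), (4, 180)], [(3, 264)]),
    ([], [(1, 18), (2, 135), (3, 61), (4, 98)]),
    ([(1, 5), (2, 11), (3, 39)], [(4, 16)]),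
    ([(3, 15), (4, 18)], [(2, 18)]),
    ([(5, 250), (6, 408), (7, 82), (9, 2)], [(8, 157), (10, 8)]),
    ([(6, 34), (7, 278), (8, 161), (10, 329)], [(5, 34), (9, 171)]),
    ([(6, 57), (8, 132)], [(5, 1), (7, 22), (9, 291), (10, 255)]),
    ([(5, 1), (6, 4), (7, 27), (8, 30), (10, 85)], [(9, 69)]),
    ([(6, 4), (8, 7)], [(7, 19), (9, 18), (10, 26)]),
    ([(6, 3), (7, 7), (8, 32), (9, 5)], [(10, 5)]),
    ([(11, 345), (12, 351), (15, 1), (16, 6)], [(13, 61), (14, 125)]),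
    ([(12, 31), (14, 108), (15, 312), (16, 221)], [(11, 49), (13, 282)]),
    ([(12, 54), (13, 36), (14, 121), (16, 251)], [(11, 3), (15, 265)]),
    ([(13, 33)], [(11, 1), (12, 10), (14, 38), (15, 60), (16, 108)]),
    ([(15, 37)], [(12, 2), (13, 29), (14, 11), (16, 33)]),
    ([(15, 7), (16, 5)], [(12, 4), (14, 28)]),
    ([(17, 128), (19, 378), (20, 27)], [(18, 287)]),
    ([(18, 127)], [(17, 17), (19, 37), (20, 141)]),
    ([(19, 45)], [(17, 5), (18, 5), (20, 23)]),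
    ([(18, 18), (19, 6), (20, 32)], [(17, 1)]),
    ([(21, 63)], [])],
   [([], [(1, 7), (2, 39), (3, 2), (4, 24)]),
    ([(5, 53), (6, 150), (8, 261), (9, 40), (10, 176)], [(7, 357)]),
    ([(5, 1), (7, 49), (9, 103), (10, 49)], [(6, 17), (8, 113)]),
    ([(7, 14), (9, 10)], [(6, 4), (8, 33), (10, 27)]),
    ([(6, 2), (7, 15), (8, 1), (10, 3)], [(9, 19)]),
    ([(11, 369), (14, 129)], [(12, 325), (13, 58), (15, 8), (16, 5)]),
    ([(11, 37), (13, 175), (15, 90), (16, 264)], [(12, 140), (14, 348)]),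
    ([(13, 17), (15, 130)], [(11, 2), (12, 37), (14, 83), (16, 227)]),
    ([(13, 14), (15, 91)], [(11, 1), (12, 15), (14, 100), (16, 22)]),
    ([(14, 29), (15, 11)], [(13, 14), (16, 47)]),
    ([(12, 3), (13, 12)], [(15, 34), (16, 2)]),
    ([(17, 473), (18, 189), (20, 26)], [(19, 9)]),
    ([(18, 284), (19, 219), (20, 316)], [(17, 133)]),
    ([(17, 63), (20, 369)], [(18, 189), (19, 235)]),
    ([(17, 9)], [(18, 92), (19, 106), (20, 13)]),
    ([(17, 3), (18, 29), (20, 9)], [(19, 14)]),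
    ([(17, 1)], [(18, 7), (19, 20), (20, 26)]),
    ([(21, 482)], []),
    ([], [(21, 160)]),
    ([], [(21, 12)]),
    ([], [(21, 19)]),
    ([], [])]]

def d54pp_48 : List (List Col) :=
  [[([], []),
    ([(0, 495)], []),
    ([], [(0, 119)]),
    ([], [(0, 7)]),
    ([(0, 17)], []),
    ([(1, 482), (2, 171)], [(3, 1), (4, 13)]),
    ([(2, 310), (3, 268)], [(1, 120), (4, 260)]),
    ([(2, 154), (3, 187), (4, 417)], [(1, 50)]),
    ([(2, 76), (3, 104), (4, 22)], [(1, 9)]),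
    ([(4, 34)], [(2, 21), (3, 19)]),
    ([(1, 1), (2, 10), (4, 3)], [(3, 16)]),
    ([(5, 361), (6, 334), (9, 6), (10, 2)], [(7, 68), (8, 123)]),
    ([(9, 36), (10, 248)], [(5, 38), (6, 137), (7, 189), (8, 357)]),
    ([(6, 40), (7, 17), (8, 73), (10, 274)], [(5, 2), (9, 249)]),
    ([(5, 1), (9, 121)], [(6, 16), (7, 13), (8, 98), (10, 27)]),
    ([(6, 2), (7, 9), (8, 33), (9, 10)], [(10, 57)]),
    ([(7, 5), (9, 32)], [(6, 2), (8, 7), (10, 6)]),
    ([(11, 55), (13, 372), (14, 194), (15, 186), (16, 78)], [(12, 173)]),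
    ([(11, 2), (12, 24), (15, 140)], [(13, 82), (14, 161), (16, 45)]),
    ([(12, 4)], [(13, 23), (14, 42), (15, 13), (16, 31)]),
    ([(12, 3), (13, 13)], [(15, 2), (16, 16)]),
    ([(17, 9)], [(18, 47), (19, 9), (20, 24)])],
   [([(0, 50)], []),
    ([(1, 114), (3, 376)], [(2, 311), (4, 18)]),
    ([(2, 90), (4, 126)], [(1, 12), (3, 20)]),
    ([(3, 33), (4, 9)], [(1, 3), (2, 2)]),
    ([(3, 1), (4, 34)], [(2, 18)]),
    ([(6, 348), (7, 45), (9, 7)], [(5, 354), (8, 117), (10, 5)]),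
    ([(5, 46), (6, 33), (7, 286), (8, 83), (9, 277), (10, 277)], []),
    ([(7, 22), (9, 253)], [(5, 2), (6, 47), (8, 112), (10, 128)]),
    ([(6, 6), (7, 19), (8, 26), (9, 2), (10, 130)], [(5, 1)]),
    ([(10, 4)], [(6, 3), (7, 15), (8, 27), (9, 11)]),
    ([(7, 13), (9, 20), (10, 1)], [(6, 3), (8, 17)]),
    ([(12, 403), (13, 122), (14, 145), (15, 23)], [(11, 246), (16, 2)]),
    ([(14, 208), (15, 97), (16, 349)], [(11, 31), (12, 23), (13, 255)]),
    ([(11, 2), (12, 66), (15, 392), (16, 8)], [(13, 38), (14, 156)]),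
    ([(11, 1), (14, 35), (15, 16), (16, 107)], [(12, 6), (13, 22)]),
    ([(13, 25), (14, 29)], [(12, 5), (15, 42), (16, 17)]),
    ([(12, 2), (13, 10), (16, 4)], [(14, 5), (15, 26)]),
    ([(18, 323), (19, 318), (20, 87)], [(17, 160)]),
    ([(17, 23), (19, 18)], [(18, 177), (20, 113)]),
    ([(18, 11)], [(17, 7), (19, 47), (20, 11)]),
    ([(18, 19), (19, 7)], [(20, 19)]),
    ([], [(21, 56)])],
   [([(1, 6), (3, 26)], [(2, 34), (4, 35)]),
    ([(6, 77), (8, 254), (9, 201), (10, 96)], [(5, 56), (7, 367)]),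
    ([(7, 33), (9, 34)], [(5, 1), (6, 7), (8, 57), (10, 29)]),
    ([(6, 2), (8, 31), (9, 23), (10, 23)], [(7, 19)]),
    ([(9, 12)], [(6, 4), (7, 13), (8, 9), (10, 33)]),
    ([(11, 444), (12, 239), (14, 86), (15, 1)], [(13, 5), (16, 3)]),
    ([(11, 21), (12, 76), (13, 180), (16, 335)], [(14, 295), (15, 131)]),
    ([(14, 80), (16, 57)], [(12, 34), (13, 32), (15, 130)]),
    ([(12, 13), (13, 9), (15, 70), (16, 46)], [(14, 69)]),
    ([(12, 4), (14, 3), (15, 45), (16, 15)], [(13, 13)]),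
    ([(12, 1), (13, 5), (16, 36)], [(14, 17), (15, 13)]),
    ([(17, 470), (18, 194), (19, 26)], [(20, 28)]),
    ([(17, 89), (19, 47), (20, 462)], [(18, 156)]),
    ([(17, 85), (19, 382)], [(18, 239), (20, 143)]),
    ([(17, 10), (19, 92), (20, 74)], [(18, 65)]),
    ([(17, 4), (18, 21), (19, 28), (20, 9)], []),
    ([(18, 23)], [(19, 19), (20, 22)]),
    ([(21, 478)], []),
    ([], [(21, 171)]),
    ([(21, 31)], []),
    ([(21, 18)], []),
    ([], [])]]

def d54pp_49 : List (List Col) :=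
  [[([], []),
    ([(0, 499)], []),
    ([], [(0, 108)]),
    ([(0, 20)], []),
    ([(1, 481), (2, 173), (3, 5), (4, 13)], []),
    ([(1, 77), (3, 200)], [(2, 186), (4, 417)]),
    ([(1, 57), (3, 360), (4, 268)], [(2, 164)]),
    ([(2, 52), (4, 11)], [(1, 8), (3, 116)]),
    ([], [(1, 1), (2, 8), (3, 11), (4, 21)]),
    ([(1, 2), (3, 30)], [(2, 1), (4, 16)]),
    ([(5, 452), (6, 228), (7, 17), (9, 10)], [(8, 73), (10, 2)]),
    ([(5, 22), (6, 71), (8, 329), (9, 277), (10, 111)], [(7, 221)]),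
    ([(6, 30), (8, 27), (10, 109)], [(7, 32), (9, 201)]),
    ([(6, 13), (8, 69), (10, 115)], [(7, 19), (9, 42)]),
    ([(8, 26), (9, 60)], [(6, 2), (7, 12), (10, 24)]),
    ([(9, 1)], [(6, 3), (7, 3), (8, 10), (10, 47)]),
    ([(7, 7), (9, 6)], [(8, 15), (10, 8)]),
    ([(11, 62), (12, 88), (13, 379), (14, 229), (15, 216)], [(16, 7)]),
    ([(11, 1), (15, 73), (16, 203)], [(12, 9), (13, 57), (14, 80)]),
    ([(12, 2), (13, 31), (14, 43), (15, 26)], [(16, 77)]),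
    ([(12, 4), (14, 13), (15, 3)], [(13, 5), (16, 19)]),
    ([(17, 8), (19, 38), (20, 60)], [(18, 42)])],
   [([], [(0, 34)]),
    ([(2, 392), (3, 273)], [(1, 147), (4, 61)]),
    ([(1, 14), (3, 46), (4, 107)], [(2, 114)]),
    ([(2, 10)], [(1, 4), (3, 37), (4, 2)]),
    ([(6, 419), (9, 19), (10, 7)], [(5, 233), (7, 93), (8, 150)]),
    ([(7, 268), (9, 268), (10, 277)], [(5, 27), (6, 26), (8, 156)]),
    ([(5, 1), (6, 45), (7, 16), (8, 94), (10, 331)], [(9, 228)]),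
    ([(6, 3), (8, 16)], [(7, 16), (9, 73), (10, 51)]),
    ([(6, 2), (7, 16), (10, 25)], [(8, 13), (9, 12)]),
    ([(9, 4)], [(6, 3), (7, 1), (8, 27), (10, 17)]),
    ([(11, 370), (12, 329), (15, 7)], [(13, 74), (14, 103), (16, 13)]),
    ([(12, 20), (14, 142), (15, 312)], [(11, 48), (13, 284), (16, 222)]),
    ([(12, 46), (13, 37), (14, 92)], [(11, 3), (15, 270), (16, 279)]),
    ([(11, 1), (12, 10), (14, 35), (15, 51)], [(13, 25), (16, 37)]),
    ([(15, 41), (16, 77)], [(12, 2), (13, 28), (14, 13)]),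
    ([(12, 3), (14, 19), (16, 10)], [(13, 1), (15, 3)]),
    ([(13, 1), (15, 16), (16, 29)], [(14, 15)]),
    ([(17, 124), (19, 389), (20, 22)], [(18, 276)]),
    ([(18, 119)], [(17, 16), (19, 34), (20, 162)]),
    ([(19, 43)], [(17, 5), (18, 5), (20, 17)]),
    ([(18, 11), (19, 3), (20, 21)], []),
    ([(21, 66)], [])],
   [([(1, 5), (3, 3), (4, 20)], [(2, 32)]),
    ([(5, 49), (9, 26), (10, 150)], [(6, 160), (7, 359), (8, 277)]),
    ([(5, 1), (6, 14), (7, 38), (8, 89), (10, 96)], [(9, 95)]),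
    ([(6, 3), (7, 9), (8, 24)], [(9, 18), (10, 14)]),
    ([(12, 354), (13, 43), (15, 20)], [(11, 343), (14, 128), (16, 6)]),
    ([(11, 35), (13, 153), (15, 140)], [(12, 132), (14, 366), (16, 235)]),
    ([(11, 1), (12, 29), (14, 61)], [(13, 9), (15, 92), (16, 146)]),
    ([(11, 1), (12, 12), (14, 71)], [(13, 5), (15, 72), (16, 1)]),
    ([(12, 1), (13, 16)], [(14, 29), (15, 17), (16, 52)]),
    ([(12, 2), (13, 6), (14, 5), (16, 7)], [(15, 22)]),
    ([(17, 473), (18, 190), (20, 36)], [(19, 11)]),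
    ([(18, 303), (19, 222), (20, 303)], [(17, 141)]),
    ([(17, 54), (20, 368)], [(18, 189), (19, 223)]),
    ([(18, 74), (19, 78)], [(17, 5), (20, 2)]),
    ([(17, 3), (18, 28)], [(19, 12), (20, 9)]),
    ([(18, 7), (19, 14), (20, 12)], []),
    ([(18, 16), (19, 18)], [(20, 49)]),
    ([(21, 483)], []),
    ([], [(21, 156)]),
    ([], [(21, 10)]),
    ([], [(21, 10)]),
    ([], [])]]

def d54pp_50 : List (List Col) :=
  [[([], []),
    ([(0, 503)], []),
    ([], [(0, 86)]),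
    ([], [(0, 8)]),
    ([(1, 492), (2, 140), (3, 2)], []),
    ([(2, 340), (3, 296)], [(1, 103)]),
    ([(2, 122), (3, 143)], [(1, 31)]),
    ([(1, 7)], [(2, 59), (3, 87)]),
    ([(1, 1)], [(2, 11), (3, 23)]),
    ([(2, 1)], [(3, 1)]),
    ([(5, 367), (6, 61), (7, 110), (9, 2)], [(4, 334), (8, 16)]),
    ([(4, 34), (6, 191), (7, 385), (8, 20), (9, 224)], [(5, 118)]),
    ([(4, 1), (5, 40), (8, 388), (9, 175)], [(6, 14), (7, 56)]),
    ([(5, 10), (8, 129), (9, 11)], [(6, 2), (7, 50)]),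
    ([(5, 5), (8, 10)], [(6, 6), (7, 46), (9, 45)]),
    ([(7, 7), (9, 4)], [(5, 1), (8, 16)]),
    ([(10, 56), (12, 392), (14, 179), (16, 86)], [(11, 211), (13, 126), (15, 35)]),
    ([(10, 2), (11, 28), (13, 176), (14, 154), (15, 69), (16, 352)], [(12, 97)]),
    ([(11, 5), (13, 39), (15, 35), (16, 81)], [(12, 26), (14, 16)]),
    ([(11, 1), (12, 8), (15, 6)], [(13, 1), (14, 3), (16, 62)]),
    ([(14, 2), (16, 2)], [(12, 1), (13, 1), (15, 2)]),
    ([(17, 9)], [(18, 47), (19, 3), (20, 18)])],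
   [([(0, 39)], []),
    ([(1, 90), (3, 381)], [(2, 322)]),
    ([(2, 62)], [(1, 7), (3, 6)]),
    ([(2, 6), (3, 14)], [(1, 1)]),
    ([(4, 382), (5, 327), (7, 87)], [(6, 39), (8, 17), (9, 3)]),
    ([(5, 27), (9, 368)], [(4, 39), (6, 289), (7, 79), (8, 150)]),
    ([(4, 1), (7, 83), (9, 7)], [(5, 33), (6, 16), (8, 229)]),
    ([(6, 8), (7, 7)], [(4, 1), (5, 4), (8, 54), (9, 103)]),
    ([(6, 4), (7, 27)], [(5, 3), (8, 5), (9, 2)]),
    ([(9, 1)], [(6, 2), (8, 7)]),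
    ([(11, 398), (12, 183), (14, 28), (15, 8), (16, 50)], [(10, 230), (13, 116)]),
    ([(14, 154), (16, 12)], [(10, 21), (11, 4), (12, 202), (13, 254), (15, 342)]),
    ([(10, 2), (11, 65), (13, 164), (14, 389), (15, 11)], [(12, 36), (16, 97)]),
    ([(11, 7), (13, 40), (14, 10), (15, 74)], [(12, 3), (16, 86)]),
    ([(12, 24), (15, 30)], [(11, 4), (13, 18), (14, 32), (16, 73)]),
    ([(11, 1), (12, 6)], [(13, 2), (14, 11), (15, 5), (16, 33)]),
    ([(18, 352), (19, 292), (20, 32)], [(17, 174)]),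
    ([(17, 23), (19, 32)], [(18, 182), (20, 105)]),
    ([(18, 13)], [(17, 8), (19, 50), (20, 10)]),
    ([(18, 12), (19, 6)], [(20, 11)]),
    ([(18, 3), (19, 3), (20, 4)], []),
    ([], [(21, 51)])],
   [([(1, 4), (3, 21)], [(2, 26)]),
    ([(4, 47), (5, 56), (6, 369), (9, 181)], [(7, 268), (8, 122)]),
    ([(7, 29), (9, 9)], [(5, 4), (6, 17), (8, 30)]),
    ([(5, 3), (6, 2), (8, 9), (9, 23)], [(7, 19)]),
    ([(10, 453), (11, 226), (12, 31), (14, 1), (15, 4), (16, 14)], [(13, 66)]),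
    ([(10, 15), (11, 48), (12, 143), (13, 309)], [(14, 118), (15, 356)]),
    ([(16, 275)], [(11, 25), (12, 21), (13, 73), (14, 97), (15, 54)]),
    ([(12, 1), (15, 33), (16, 136)], [(11, 11), (13, 46), (14, 72)]),
    ([(11, 2), (14, 20), (16, 10)], [(12, 7), (13, 1), (15, 19)]),
    ([(12, 4), (13, 5)], [(14, 8), (15, 9), (16, 15)]),
    ([(17, 468), (18, 197), (19, 21)], [(20, 33)]),
    ([(17, 74), (19, 97), (20, 473)], [(18, 115)]),
    ([(17, 81), (19, 396)], [(18, 222), (20, 143)]),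
    ([(18, 23)], [(17, 8), (19, 80), (20, 62)]),
    ([(17, 2), (18, 25), (19, 12)], [(20, 8)]),
    ([(18, 13)], [(19, 8), (20, 10)]),
    ([(21, 482)], []),
    ([], [(21, 159)]),
    ([(21, 33)], []),
    ([(21, 15)], []),
    ([(21, 10)], []),
    ([], [])]]

def d54pp_51 : List (List Col) :=
  [[([(0, 512)], []),
    ([(1, 490), (2, 147)], [(3, 7)]),
    ([(1, 57), (3, 481)], [(2, 165)]),
    ([(4, 469), (5, 200), (6, 8), (7, 50), (8, 11)], [(9, 5)]),
    ([(4, 18), (5, 50), (8, 210), (9, 55)], [(6, 280), (7, 366)]),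
    ([(4, 1), (5, 19), (7, 6), (9, 485)], [(6, 30), (8, 160)]),
    ([(10, 65), (11, 86), (12, 388), (14, 123)], [(13, 288), (15, 43)]),
    ([(10, 1), (13, 7), (14, 97), (15, 233)], [(11, 5), (12, 23)]),
    ([(16, 8), (18, 44), (19, 104), (20, 347)], [(17, 40)])],
   [([(2, 462), (3, 174)], [(1, 136)]),
    ([(5, 439), (7, 138), (8, 36)], [(4, 201), (6, 91), (9, 13)]),
    ([(6, 238), (7, 79), (8, 419), (9, 153)], [(4, 16), (5, 13)]),
    ([(10, 414), (11, 278), (13, 62), (14, 27)], [(12, 94), (15, 8)]),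
    ([(11, 2), (14, 256)], [(10, 48), (12, 297), (13, 274), (15, 175)]),
    ([(11, 32), (12, 20), (13, 1)], [(10, 4), (14, 251), (15, 368)]),
    ([(16, 117), (18, 410), (19, 22)], [(17, 265), (20, 97)]),
    ([(17, 83)], [(16, 15), (18, 6), (19, 198), (20, 297)]),
    ([(21, 67)], [])],
   [([(4, 39), (7, 317), (8, 124), (9, 22)], [(5, 162), (6, 343)]),
    ([(11, 407), (12, 12), (13, 97), (14, 59)], [(10, 289), (15, 5)]),
    ([(10, 28), (12, 116), (13, 302), (14, 324)], [(11, 105), (15, 200)]),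
    ([(16, 472), (17, 196), (19, 30), (20, 7)], [(18, 9)]),
    ([(17, 349), (18, 244), (19, 232)], [(16, 154), (20, 55)]),
    ([(16, 38), (19, 396)], [(17, 152), (18, 179), (20, 202)]),
    ([(21, 493)], []),
    ([], [(21, 122)]),
    ([], [])]]

def d54pp_52 : List (List Col) :=
  [[([(0, 512)], []),
    ([(2, 424)], [(1, 287)]),
    ([(3, 65), (5, 419)], [(4, 288)])],
   [([(1, 424), (2, 287)], []),
    ([(4, 369), (5, 286)], [(3, 210)]),
    ([(7, 468)], [(6, 208)])],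
   [([(3, 462), (4, 208), (5, 72)], []),
    ([(6, 468), (7, 208)], []),
    ([(8, 512)], [])]]

def d54pp_53 : List (List Col) :=
  [[([(0, 512)], [])],
   [([(1, 512)], [])],
   [([(2, 512)], [])]]

def d54pp : List (List (List Col)) :=
  [d54pp_0, d54pp_1, d54pp_2, d54pp_3, d54pp_4, d54pp_5, d54pp_6, d54pp_7, d54pp_8, d54pp_9, d54pp_10, d54pp_11, d54pp_12, d54pp_13, d54pp_14, d54pp_15, d54pp_16, d54pp_17, d54pp_18, d54pp_19, d54pp_20, d54pp_21, d54pp_22, d54pp_23, d54pp_24, d54pp_25, d54pp_26, d54pp_27, d54pp_28, d54pp_29, d54pp_30, d54pp_31, d54pp_32, d54pp_33, d54pp_34, d54pp_35, d54pp_36, d54pp_37, d54pp_38, d54pp_39, d54pp_40, d54pp_41, d54pp_42, d54pp_43, d54pp_44, d54pp_45, d54pp_46, d54pp_47, d54pp_48, d54pp_49, d54pp_50, d54pp_51, d54pp_52, d54pp_53]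

end Crest.Agent.R347
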