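import Crest.Agent.R347.MpsParity
import Crest.Agent.R347.MpsDat54pp

set_option autoImplicit false
set_option maxRecDepth 100000

namespace Crest.Agent.R347

def l54pp : List (List Bool) :=
  [[false],
   [true, false, true],
   [false, true, true, false, false, false, true, true, false],
   [true, false, false, false, true, true, true, true, true, true, false, false, false, false, false, false, true, true, true, true, true, false],
   [true, false, false, false, true, true, true, true, true, true, false, false, false, false, false, false, false, true, true, true, true, false],
   [true, false, false, false, false, true, true, true, true, true, true, false, false, false, false, false, false, true, true, true, true, false],
   [true, false, false, false, false, true, true, true, true, true, true, false, false, false, false, false, false, true, true, true, true, false],
   [true, false, false, false, false, true, true, true, true, true, true, false, false, false, false, false, false, true, true, true, true, false],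
   [true, false, false, false, false, true, true, true, true, true, true, false, false, false, false, false, false, true, true, true, true, false],
   [true, false, false, false, false, true, true, true, true, true, true, false, false, false, false, false, false, true, true, true, true, false],
   [true, false, false, false, false, true, true, true, true, true, true, false, false, false, false, false, false, true, true, true, true, false],
   [true, false, false, false, false, true, true, true, true, true, true, false, false, false, false, false, false, true, true, true, true, false],
   [true, false, false, false, false, true, true, true, true, true, true, false, false, false, false, false, false, true, true, true, true, false],
   [true, false, false, false, false, true, true, true, true, true, true, false, false, false, false, false, false, true, true, true, true, false],
   [true, false, false, false, false, true, true, true, true, true, true, false, false, false, false, false, false, true, true, true, true, false],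
   [true, false, false, false, false, true, true, true, true, true, true, false, false, false, false, false, false, true, true, true, true, false],
   [true, false, false, false, false, true, true, true, true, true, true, false, false, false, false, false, false, true, true, true, true, false],
   [true, false, false, false, false, true, true, true, true, true, true, false, false, false, false, false, false, true, true, true, true, false],
   [true, false, false, false, false, true, true, true, true, true, true, false, false, false, false, false, false, true, true, true, true, false],
   [true, false, false, false, false, true, true, true, true, true, true, false, false, false, false, false, false, true, true, true, true, false],
   [true, false, false, false, false, true, true, true, true, true, true, false, false, false, false, false, false, true, true, true, true, false],
   [true, false, false, false, false, true, true, true, true, true, true, false, false, false, false, false, false, true, true, true, true, false],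
   [true, false, false, false, false, true, true, true, true, true, true, false, false, false, false, false, false, true, true, true, true, false],
   [true, false, false, false, false, true, true, true, true, true, true, false, false, false, false, false, false, true, true, true, true, false],
   [true, false, false, false, false, true, true, true, true, true, true, false, false, false, false, false, false, true, true, true, true, false],
   [true, false, false, false, false, true, true, true, true, true, true, false, false, false, false, false, false, true, true, true, true, false],
   [true, false, false, false, false, true, true, true, true, true, true, false, false, false, false, false, false, true, true, true, true, false],
   [true, false, false, false, false, true, true, true, true, true, true, false, false, false, false, false, false, true, true, true, true, false],
   [false, true, true, true, true, false, false, false, false, false, false, true, true, true, true, true, true, false, false, false, false, true],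
   [false, true, true, true, true, false, false, false, false, false, false, true, true, true, true, true, true, false, false, false, false, true],
   [false, true, true, true, true, false, false, false, false, false, false, true, true, true, true, true, true, false, false, false, false, true],
   [false, true, true, true, true, false, false, false, false, false, false, true, true, true, true, true, true, false, false, false, false, true],
   [false, true, true, true, true, false, false, false, false, false, false, true, true, true, true, true, true, false, false, false, false, true],
   [false, true, true, true, true, false, false, false, false, false, false, true, true, true, true, true, true, false, false, false, false, true],
   [false, true, true, true, true, false, false, false, false, false, false, true, true, true, true, true, true, false, false, false, false, true],
   [false, true, true, true, true, false, false, false, false, false, false, true, true, true, true, true, true, false, false, false, false, true],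
   [false, true, true, true, true, false, false, false, false, false, false, true, true, true, true, true, true, false, false, false, false, true],
   [false, true, true, true, true, false, false, false, false, false, false, true, true, true, true, true, true, false, false, false, false, true],
   [false, true, true, true, true, false, false, false, false, false, false, true, true, true, true, true, true, false, false, false, false, true],
   [false, true, true, true, true, false, false, false, false, false, false, true, true, true, true, true, true, false, false, false, false, true],
   [false, true, true, true, true, false, false, false, false, false, false, true, true, true, true, true, true, false, false, false, false, true],
   [false, true, true, true, true, false, false, false, false, false, false, true, true, true, true, true, true, false, false, false, false, true],
   [false, true, true, true, true, false, false, false, false, false, false, true, true, true, true, true, true, false, false, false, false, true],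
   [false, true, true, true, true, false, false, false, false, false, false, true, true, true, true, true, true, false, false, false, false, true],
   [false, true, true, true, true, false, false, false, false, false, false, true, true, true, true, true, true, false, false, false, false, true],
   [false, true, true, true, true, false, false, false, false, false, false, true, true, true, true, true, true, false, false, false, false, true],
   [false, true, true, true, true, false, false, false, false, false, false, true, true, true, true, true, true, false, false, false, false, true],
   [false, true, true, true, true, false, false, false, false, false, false, true, true, true, true, true, true, false, false, false, false, true],
   [false, true, true, true, true, false, false, false, false, false, false, true, true, true, true, true, true, false, false, false, false, true],
   [false, true, true, true, true, false, false, false, false, false, false, true, true, true, true, true, true, false, false, false, false, true],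
   [false, true, true, true, false, false, false, false, false, false, true, true, true, true, true, true, true, false, false, false, false, true],
   [false, true, true, true, false, false, false, false, false, false, true, true, true, true, true, true, false, false, false, false, false, true],
   [true, false, false, true, true, true, false, false, true],
   [false, true, false],
   [true]]

theorem pchk54pp : pchk d54pp l54pp = true := by
  decide +kernel

theorem lab54pp : lget l54pp 0 0 = false := rfl

end Crest.Agent.R347
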