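import Crest.Agent.R347.MpsHam
import Crest.Agent.R347.MpsChk20pp
import Crest.Agent.R347.MpsChk20pm
import Crest.Agent.R347.MpsChk54pp
import Crest.Agent.R347.MpsChk54pm
import Crest.Agent.R347.MpsLab20pp
import Crest.Agent.R347.MpsLab20pm
import Crest.Agent.R347.MpsLab54pp
import Crest.Agent.R347.MpsLab54pm

/-!
# Row 347, piece MPS_OPEN : variational energies of open chains with end fields 3/5, 20 and 54 sites

`Fin 20 → Fin 3` configurations, `openH 19 f₀ f₁ = Σ bonds - f₀ S^z_first - f₁ S^z_last`.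
True values (extrapolated from ED, N ≤ 16): E(20,++) = -27.61362, E(20,+-) = -27.63903,
E(54,±) = -75.2775.  The targets leave a margin of 0.0011 / 0.0012 / 0.0015.

`(tens wz).mulVec ψ = ∓ψ` says that the magnetisation `M` of ψ is odd (for `++`, ψ has `M = 1`) resp. even
(for `+-`, `M = 0`): automatic for an `S^z`-symmetric MPS.

Suggested route: finite MPS with integer tensors (no normalisation needed) `ψ(s_0..s_{N-1}) =
A_0^{s_0} A_1^{s_1} ... A_{N-1}^{s_{N-1}}` (1 × 1 matrix), `⟨ψ|ψ⟩` and `⟨ψ|H|ψ⟩` by transfer recursion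
(`N_j` = norm environment, `X_j` = energy environment, `P_j^{s,s'}` = last-site-resolved norm), exact
integer arithmetic in the kernel (`decide +kernel` on big `Nat`/`Int`), `S^z`-block structure.  Or: bulk
isometries of MPS_RING in the middle with special tensors in the first/last few sites and a centre
matrix.  Get the tensors from a small DMRG/iTEBD code in C++ (g++ is on the box), D ≈ 16-22, round to
8-12 bits.
-/

set_option autoImplicit false

open Crest.MathPhysics.SpinChain Matrix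

namespace Crest.Agent.R347

theorem mps_open20pp : ∃ ψ : (Fin (19 + 1) → Fin 3) → ℂ, ψ ≠ 0 ∧ (tens wz).mulVec ψ = -ψ ∧
    (star ψ ⬝ᵥ (openH 19 (3 / 5) (3 / 5)).mulVec ψ).re ≤ (-276125 / 10000 : ℝ) * (star ψ ⬝ᵥ ψ).re := by
  obtain ⟨h0, h⟩ := chk_sound d20pp 19 (by norm_num) (0, 3) 1380625 (3 / 5) (by norm_num) chk20pp
  have hp := tens_wz_vec d20pp l20pp pchk20pp lab20pp (19 + 1)
  have hl : lget l20pp (19 + 1) 0 = true := rfl
  rw [hl] at hp
  have e : (-((1380625 : ℕ) : ℝ) / 50000) = (-276125 / 10000 : ℝ) := by norm_num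
  rw [e] at h
  refine ⟨vec (dget d20pp) (19 + 1), h0, ?_, h⟩
  rw [hp]; simp [sg]

theorem mps_open20pm : ∃ ψ : (Fin (19 + 1) → Fin 3) → ℂ, ψ ≠ 0 ∧ (tens wz).mulVec ψ = ψ ∧
    (star ψ ⬝ᵥ (openH 19 (3 / 5) (-(3 / 5))).mulVec ψ).re ≤
      (-276378 / 10000 : ℝ) * (star ψ ⬝ᵥ ψ).re := by
  obtain ⟨h0, h⟩ := chk_sound d20pm 19 (by norm_num) (3, 0) 1381890 (-(3 / 5)) (by norm_num) chk20pm
  have hp := tens_wz_vec d20pm l20pm pchk20pm lab20pm (19 + 1)
  have hl : lget l20pm (19 + 1) 0 = false := rfl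
  rw [hl] at hp
  have e : (-((1381890 : ℕ) : ℝ) / 50000) = (-276378 / 10000 : ℝ) := by norm_num
  rw [e] at h
  refine ⟨vec (dget d20pm) (19 + 1), h0, ?_, h⟩
  rw [hp]; simp [sg]

theorem mps_open54pp : ∃ ψ : (Fin (53 + 1) → Fin 3) → ℂ, ψ ≠ 0 ∧ (tens wz).mulVec ψ = -ψ ∧
    (star ψ ⬝ᵥ (openH 53 (3 / 5) (3 / 5)).mulVec ψ).re ≤ (-752760 / 10000 : ℝ) * (star ψ ⬝ᵥ ψ).re := by
  obtain ⟨h0, h⟩ := chk_sound d54pp 53 (by norm_num) (0, 3) 3763800 (3 / 5) (by norm_num) chk54pp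
  have hp := tens_wz_vec d54pp l54pp pchk54pp lab54pp (53 + 1)
  have hl : lget l54pp (53 + 1) 0 = true := rfl
  rw [hl] at hp
  have e : (-((3763800 : ℕ) : ℝ) / 50000) = (-752760 / 10000 : ℝ) := by norm_num
  rw [e] at h
  refine ⟨vec (dget d54pp) (53 + 1), h0, ?_, h⟩
  rw [hp]; simp [sg]

theorem mps_open54pm : ∃ ψ : (Fin (53 + 1) → Fin 3) → ℂ, ψ ≠ 0 ∧ (tens wz).mulVec ψ = ψ ∧
    (star ψ ⬝ᵥ (openH 53 (3 / 5) (-(3 / 5))).mulVec ψ).re ≤
      (-752760 / 10000 : ℝ) * (star ψ ⬝ᵥ ψ).re := by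
  obtain ⟨h0, h⟩ := chk_sound d54pm 53 (by norm_num) (3, 0) 3763800 (-(3 / 5)) (by norm_num) chk54pm
  have hp := tens_wz_vec d54pm l54pm pchk54pm lab54pm (53 + 1)
  have hl : lget l54pm (53 + 1) 0 = false := rfl
  rw [hl] at hp
  have e : (-((3763800 : ℕ) : ℝ) / 50000) = (-752760 / 10000 : ℝ) := by norm_num
  rw [e] at h
  refine ⟨vec (dget d54pm) (53 + 1), h0, ?_, h⟩
  rw [hp]; simp [sg]

end Crest.Agent.R347
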