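import Crest.Agent.R347.RStepOpen

/-!
# Row 347, piece R_FINAL, open part: the recursion `j = 0, 1, 2, …` for the open chains
-/

set_option autoImplicit false

namespace Crest.Agent.R347.RFinalOpen

open Crest.Agent.R347

/-- the asymptotic regime: from `δ` to `δ ^ 2` -/
theorem asym_step {z O O' : ℝ → ℕ → ℝ} {m c σ : ℝ → ℝ} (F : RingFam z m)
    (G : OpenFam z O O' m c σ) {L n : ℕ} {β δ : ℝ} (hδ : 0 < δ) (hδ1 : δ ≤ 1 / 70)
    (S : RingState z m L β (1 - δ ^ 2 / 64) (δ ^ 2 / 64) (δ ^ 2 / 64))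
    (P : OpenState O O' m c n β (1 - δ ^ 2 / 16) (1 + δ ^ 2 / 16) (1 + δ ^ 2 / 16) (δ / 16)
      (δ / 16)) :
    RingState z m (2 * L) (2 * β) (1 - (δ ^ 2) ^ 2 / 64) ((δ ^ 2) ^ 2 / 64) ((δ ^ 2) ^ 2 / 64) ∧
    OpenState O O' m c (n + L) (2 * β) (1 - (δ ^ 2) ^ 2 / 16) (1 + (δ ^ 2) ^ 2 / 16)
      (1 + (δ ^ 2) ^ 2 / 16) (δ ^ 2 / 16) (δ ^ 2 / 16) := by
  obtain ⟨x, hx⟩ : ∃ x, x = δ ^ 2 := ⟨_, rfl⟩
  rw [← hx] at S P ⊢
  have hx0 : 0 < x := by rw [hx]; positivity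
  have hx1 : x ≤ 1 / 4900 := by
    rw [hx]
    calc δ ^ 2 ≤ (1 / 70) ^ 2 := pow_le_pow_left₀ hδ.le hδ1 2
      _ = 1 / 4900 := by norm_num
  have hx2 : 0 ≤ x ^ 2 := sq_nonneg x
  have hx2' : x ^ 2 ≤ x / 4900 := by nlinarith
  have hx3 : x ^ 3 ≤ x ^ 2 / 4900 := by nlinarith
  have hx4 : x ^ 4 ≤ x ^ 3 / 4900 := by nlinarith [pow_nonneg hx0.le 3]
  have hx3' : 0 ≤ x ^ 3 := by positivity
  have hx4' : 0 ≤ x ^ 4 := by positivity
  have h64 : 0 < 1 + x / 64 := by positivity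
  have R := ring_step F S (er := x / 16) (e4 := x / 20) (u' := 1 - x ^ 2 / 64)
    (ε' := x ^ 2 / 64) (ε₁' := x ^ 2 / 64) ⟨by positivity, by linarith⟩
    ⟨by positivity, by linarith⟩ (by nlinarith)
    (by
      have e : ((1 - x / 64) / (1 + x / 64)) ^ 2 = (1 - x / 64) ^ 2 / (1 + x / 64) ^ 2 :=
        div_pow _ _ _
      rw [e, div_mul_eq_mul_div, le_div_iff₀ (by positivity)]
      nlinarith)
    (by nlinarith [pow_nonneg hx0.le 6, pow_nonneg hx0.le 5])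
    (by
      rw [div_mul_eq_mul_div, le_div_iff₀ (by positivity)]
      nlinarith [pow_nonneg hx0.le 6, pow_nonneg hx0.le 5])
    (by nlinarith) (by nlinarith)
  refine ⟨R.1, ?_⟩
  have hT0 : 0 ≤ δ / 16 := by positivity
  have hTx : δ / 16 ≤ 1 / 1120 := by linarith
  have hp' : 0 < 1 - x ^ 2 / 16 := by nlinarith
  refine open_step F G S P (e4 := x / 20) (eo := x / 8) (K := 1 + x / 2)
    (p' := 1 - x ^ 2 / 16) (r' := 1 + x ^ 2 / 16) (r₁' := 1 + x ^ 2 / 16) (T' := x / 16)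
    (T₁' := x / 16) ⟨by positivity, by linarith⟩ ⟨by positivity, by linarith⟩ hp' R.2
    (by nlinarith) ?_ ?_ ?_ ?_ ?_ ?_ ?_ ?_
  · -- purity
    obtain ⟨t, ht⟩ : ∃ t, t = δ / 16 * (x / 64) := ⟨_, rfl⟩
    rw [← ht]
    have ht0 : 0 ≤ t := by rw [ht]; positivity
    have ht1 : t ≤ x / 71680 := by rw [ht]; nlinarith
    have e1 : 1 - x * (16 / 100) ≤ (1 - x / 16) * (1 - x / 64) / ((1 + x / 64) * (1 + x / 16)) := by
      rw [le_div_iff₀ (by positivity)]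
      nlinarith
    have e2 : 1 - x * (1 / 100) ≤ (1 - t) / (1 + t) ^ 2 := by
      rw [le_div_iff₀ (by positivity)]
      nlinarith [mul_nonneg ht0 hx0.le, mul_nonneg (mul_nonneg ht0 ht0) hx0.le, sq_nonneg t]
    have e3 : 1 - x * (17 / 100) ≤ (1 - x / 16) * (1 - x / 64) / ((1 + x / 64) * (1 + x / 16)) *
        (1 - t) / (1 + t) ^ 2 := by
      rw [mul_div_assoc]
      calc 1 - x * (17 / 100) ≤ (1 - x * (16 / 100)) * (1 - x * (1 / 100)) := by nlinarith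
        _ ≤ _ := mul_le_mul e1 e2 (by nlinarith) (by
          refine div_nonneg (mul_nonneg ?_ ?_) (by positivity) <;> linarith)
    calc 1 + (x / 8) ^ 2 ≤ (1 - x * (17 / 100)) * (1 + x / 8) ^ 2 := by nlinarith
      _ ≤ _ := mul_le_mul_of_nonneg_right e3 (by positivity)
  · nlinarith [pow_nonneg hx0.le 6, pow_nonneg hx0.le 5]
  · rw [div_le_iff₀ hp', div_pow, ← hx]
    nlinarith
  · nlinarith
  · have : 0 < 1 - (1 + x / 2) * (x / 20) := by nlinarith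
    rw [div_le_iff₀ this]
    nlinarith
  · nlinarith
  · nlinarith
  · nlinarith

theorem comb_step {z O O' : ℝ → ℕ → ℝ} {m c σ : ℝ → ℝ} (F : RingFam z m)
    (G : OpenFam z O O' m c σ) {L n : ℕ} {β u ε ε₁ p r r₁ T T₁ : ℝ}
    (S : RingState z m L β u ε ε₁) (P : OpenState O O' m c n β p r r₁ T T₁)
    (er e4 eo K u' ε' ε₁' p' r' r₁' T' T₁' : ℝ)
    (her : 0 < er ∧ er ≤ 7 / 10) (he4 : 0 < e4 ∧ e4 < 1) (heo : 0 < eo ∧ eo ≤ 7 / 10)
    (hu' : 0 < u') (hp' : 0 < p')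
    (a1 : 1 + er ^ 2 ≤ (u / (1 + ε)) ^ 2 * (1 + er) ^ 2)
    (a2 : u' * (1 + er ^ 2) ^ 2 ≤ 1 + er ^ 4)
    (a3 : 1 + e4 ^ 2 ≤ u' / (1 + ε) ^ 4 * (1 + e4) ^ 2)
    (a4 : e4 ^ 2 ≤ ε') (a5 : ε ^ 2 ≤ ε₁')
    (hTε : T * ε < 1)
    (h1 : 1 + eo ^ 2 ≤ p * u / ((1 + ε) * r) * (1 - T * ε) / (1 + T₁ * ε₁) ^ 2 * (1 + eo) ^ 2)
    (h2 : p' * (1 + eo ^ 2) ^ 2 ≤ 1 + eo ^ 4)
    (h3 : (r ^ 2 + T ^ 2) / p' ≤ K) (h4 : K * e4 < 1)
    (h5 : (1 - e4) / (1 - K * e4) ≤ r') (h6 : e4 * K * r' ≤ T') (h7 : T * ε ≤ T₁')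
    (h8 : 1 + (r - 1) * ε ≤ r₁') :
    RingState z m (2 * L) (2 * β) u' ε' ε₁' ∧
      OpenState O O' m c (n + L) (2 * β) p' r' r₁' T' T₁' := by
  have R := ring_step F S her he4 hu' a1 a2 a3 a4 a5
  exact ⟨R.1, open_step F G S P he4 heo hp' R.2 hTε h1 h2 h3 h4 h5 h6 h7 h8⟩

theorem row1 {z O O' : ℝ → ℕ → ℝ} {m c σ : ℝ → ℝ} (F : RingFam z m)
    (G : OpenFam z O O' m c σ)
    (S68 : RingState z m 68 17 (9196 / 10000) (541 / 10000) (135 / 10000))
    (P52 : OpenState O O' m c 52 17 (7315 / 10000) (10925 / 10000) (1013 / 1000) (1640 / 10000)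
      (360 / 10000)) :
    RingState z m 136 (2 * 17) (23767 / 25000) (23379 / 1000000) (2927 / 1000000) ∧
      OpenState O O' m c 120 (2 * 17) (2937 / 4000) (5679 / 5000) (100501 / 100000)
        (28867 / 100000) (111 / 12500) :=
  comb_step F G S68 P52 (1611 / 10000) (1529 / 10000) (541 / 1250) (8311 / 5000)
    _ _ _ _ _ _ _ _
    (by norm_num) (by norm_num) (by norm_num) (by norm_num) (by norm_num) (by norm_num)
    (by norm_num) (by norm_num) (by norm_num) (by norm_num) (by norm_num) (by norm_num)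
    (by norm_num) (by norm_num) (by norm_num) (by norm_num) (by norm_num) (by norm_num)
    (by norm_num)

theorem row2 {z O O' : ℝ → ℕ → ℝ} {m c σ : ℝ → ℝ} (F : RingFam z m)
    (G : OpenFam z O O' m c σ)
    (S : RingState z m 136 (2 * 17) (23767 / 25000) (23379 / 1000000) (2927 / 1000000))
    (P : OpenState O O' m c 120 (2 * 17) (2937 / 4000) (5679 / 5000) (100501 / 100000)
        (28867 / 100000) (111 / 12500)) :
    RingState z m 272 (2 * (2 * 17)) (6171 / 6250) (3103 / 1000000) (547 / 1000000) ∧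
      OpenState O O' m c 256 (2 * (2 * 17)) (77107 / 100000) (2621 / 2500) (50159 / 50000)
        (5201 / 50000) (27 / 4000) :=
  comb_step F G S P (2 / 25) (557 / 10000) (3897 / 10000) (4453 / 2500)
    _ _ _ _ _ _ _ _
    (by norm_num) (by norm_num) (by norm_num) (by norm_num) (by norm_num) (by norm_num)
    (by norm_num) (by norm_num) (by norm_num) (by norm_num) (by norm_num) (by norm_num)
    (by norm_num) (by norm_num) (by norm_num) (by norm_num) (by norm_num) (by norm_num)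
    (by norm_num)

theorem row3 {z O O' : ℝ → ℕ → ℝ} {m c σ : ℝ → ℝ} (F : RingFam z m)
    (G : OpenFam z O O' m c σ)
    (S : RingState z m 272 (2 * (2 * 17)) (6171 / 6250) (3103 / 1000000) (547 / 1000000))
    (P : OpenState O O' m c 256 (2 * (2 * 17)) (77107 / 100000) (2621 / 2500) (50159 / 50000)
        (5201 / 50000) (27 / 4000)) :
    RingState z m 544 (2 * (2 * (2 * 17))) (999483 / 1000000) (423 / 10000000) (97 / 10000000) ∧
      OpenState O O' m c 528 (2 * (2 * (2 * 17))) (927111 / 1000000) (10013 / 10000)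
        (1000151 / 1000000) (7793 / 1000000) (323 / 1000000) :=
  comb_step F G S P (201 / 12500) (13 / 2000) (9921 / 50000) (119723 / 100000)
    _ _ _ _ _ _ _ _
    (by norm_num) (by norm_num) (by norm_num) (by norm_num) (by norm_num) (by norm_num)
    (by norm_num) (by norm_num) (by norm_num) (by norm_num) (by norm_num) (by norm_num)
    (by norm_num) (by norm_num) (by norm_num) (by norm_num) (by norm_num) (by norm_num)
    (by norm_num)

theorem row4 {z O O' : ℝ → ℕ → ℝ} {m c σ : ℝ → ℝ} (F : RingFam z m)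
    (G : OpenFam z O O' m c σ)
    (S : RingState z m 544 (2 * (2 * (2 * 17))) (999483 / 1000000) (423 / 10000000)
      (97 / 10000000))
    (P : OpenState O O' m c 528 (2 * (2 * (2 * 17))) (927111 / 1000000) (10013 / 10000)
        (1000151 / 1000000) (7793 / 1000000) (323 / 1000000)) :
    RingState z m 1088 (2 * (2 * (2 * (2 * 17)))) (9999993 / 10000000) (1 / 100000000)
        (1 / 100000000) ∧
      OpenState O O' m c 1072 (2 * (2 * (2 * (2 * 17)))) (1245937 / 1250000) (1000001 / 1000000)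
        (10000001 / 10000000) (107 / 1250000) (1 / 2500000) :=
  comb_step F G S P (7 / 12500) (17 / 200000) (40379 / 1000000) (1005933 / 1000000)
    _ _ _ _ _ _ _ _
    (by norm_num) (by norm_num) (by norm_num) (by norm_num) (by norm_num) (by norm_num)
    (by norm_num) (by norm_num) (by norm_num) (by norm_num) (by norm_num) (by norm_num)
    (by norm_num) (by norm_num) (by norm_num) (by norm_num) (by norm_num) (by norm_num)
    (by norm_num)

theorem row5 {z O O' : ℝ → ℕ → ℝ} {m c σ : ℝ → ℝ} (F : RingFam z m)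
    (G : OpenFam z O O' m c σ)
    (S : RingState z m 1088 (2 * (2 * (2 * (2 * 17)))) (9999993 / 10000000) (1 / 100000000)
        (1 / 100000000))
    (P : OpenState O O' m c 1072 (2 * (2 * (2 * (2 * 17)))) (1245937 / 1250000)
      (1000001 / 1000000) (10000001 / 10000000) (107 / 1250000) (1 / 2500000)) :
    RingState z m 2176 (2 * (2 * (2 * (2 * (2 * 17))))) (1 - (1 / 70) ^ 2 / 64)
        ((1 / 70) ^ 2 / 64) ((1 / 70) ^ 2 / 64) ∧
      OpenState O O' m c 2160 (2 * (2 * (2 * (2 * (2 * 17))))) (1 - (1 / 70) ^ 2 / 16)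
        (1 + (1 / 70) ^ 2 / 16) (1 + (1 / 70) ^ 2 / 16) ((1 / 70) / 16) ((1 / 70) / 16) :=
  comb_step F G S P (9 / 12500000) (1 / 500000) (163137 / 100000000) (100003 / 100000)
    _ _ _ _ _ _ _ _
    (by norm_num) (by norm_num) (by norm_num) (by norm_num) (by norm_num) (by norm_num)
    (by norm_num) (by norm_num) (by norm_num) (by norm_num) (by norm_num) (by norm_num)
    (by norm_num) (by norm_num) (by norm_num) (by norm_num) (by norm_num) (by norm_num)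
    (by norm_num)

/-- the states for `j ≥ 5`, `k = j - 5` -/
theorem asym {z O O' : ℝ → ℕ → ℝ} {m c σ : ℝ → ℝ} (F : RingFam z m)
    (G : OpenFam z O O' m c σ)
    (S : RingState z m 2176 544 (1 - (1 / 70) ^ 2 / 64)
        ((1 / 70) ^ 2 / 64) ((1 / 70) ^ 2 / 64))
    (P : OpenState O O' m c 2160 544 (1 - (1 / 70) ^ 2 / 16)
        (1 + (1 / 70) ^ 2 / 16) (1 + (1 / 70) ^ 2 / 16) ((1 / 70) / 16) ((1 / 70) / 16))
    (h544 : (1 / 70 : ℝ) ≤ Real.exp (-(544 * (6 / 1000)))) (k : ℕ) :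
    ∃ (n : ℕ) (β δ : ℝ), n + 16 = 2176 * 2 ^ k ∧ 0 < β ∧ 0 < δ ∧ δ ≤ 1 / 70 ∧
      δ ≤ Real.exp (-(β * (6 / 1000))) ∧
      RingState z m (2176 * 2 ^ k) β (1 - δ ^ 2 / 64) (δ ^ 2 / 64) (δ ^ 2 / 64) ∧
      OpenState O O' m c n β (1 - δ ^ 2 / 16) (1 + δ ^ 2 / 16) (1 + δ ^ 2 / 16) (δ / 16)
        (δ / 16) := by
  induction k with
  | zero =>
    exact ⟨2160, 544, 1 / 70, by norm_num, by norm_num, by norm_num, le_rfl, h544, by simpa using S,
      P⟩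
  | succ k ih =>
    obtain ⟨n, β, δ, h1, h2, h3, h4, h5, h6, h7⟩ := ih
    obtain ⟨S', P'⟩ := asym_step F G h3 h4 h6 h7
    refine ⟨n + 2176 * 2 ^ k, 2 * β, δ ^ 2, ?_, by positivity, by positivity, ?_, ?_, ?_, P'⟩
    · rw [pow_succ]; omega
    · nlinarith
    · calc δ ^ 2 ≤ Real.exp (-(β * (6 / 1000))) ^ 2 := pow_le_pow_left₀ h3.le h5 2
        _ = Real.exp (-(2 * β * (6 / 1000))) := by
          rw [sq, ← Real.exp_add]; congr 1; ring
    · have e : 2176 * 2 ^ (k + 1) = 2 * (2176 * 2 ^ k) := by rw [pow_succ]; ring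
      rw [e]
      exact S'

theorem exp_bound (x : ℝ) (hx : x ≤ 4) : (1 / 70 : ℝ) ≤ Real.exp (-x) := by
  have h1 : Real.exp (-4) ≤ Real.exp (-x) := Real.exp_le_exp.2 (by linarith)
  refine le_trans ?_ h1
  have h2 : Real.exp (-4) = (Real.exp 1)⁻¹ ^ 4 := by
    rw [← Real.exp_neg, ← Real.exp_nat_mul]; norm_num
  rw [h2]
  have h3 : (2.7182818286 : ℝ)⁻¹ ≤ (Real.exp 1)⁻¹ :=
    inv_anti₀ (Real.exp_pos 1) Real.exp_one_lt_d9.le
  refine le_trans ?_ (pow_le_pow_left₀ (by norm_num) h3 4)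
  norm_num

theorem open_final {z O O' : ℝ → ℕ → ℝ} {m c σ : ℝ → ℝ} (F : RingFam z m)
    (G : OpenFam z O O' m c σ)
    (S68 : RingState z m 68 17 (9196 / 10000) (541 / 10000) (135 / 10000))
    (P52 : OpenState O O' m c 52 17 (7315 / 10000) (10925 / 10000) (1013 / 1000) (1640 / 10000)
      (360 / 10000)) :
    ∀ n', Even n' → 1072 ≤ n' → ∃ β e : ℝ, 0 < β ∧ 0 < e ∧ e < 1 ∧
      e ≤ Real.exp (-(β * (6 / 1000))) ∧
      (1 + e ^ 2) * (O β (n' + 1) - O' β (n' + 1)) ^ 2 ≤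
        (1 + e) ^ 2 * (O (2 * β) (n' + 1) - O' (2 * β) (n' + 1)) := by
  intro n' hn' h1072
  obtain ⟨S1, P1⟩ := row1 F G S68 P52
  obtain ⟨S2, P2⟩ := row2 F G S1 P1
  obtain ⟨S3, P3⟩ := row3 F G S2 P2
  obtain ⟨S4, P4⟩ := row4 F G S3 P3
  obtain ⟨S5, P5⟩ := row5 F G S4 P4
  have fin : ∀ {β e q : ℝ}, 1 + e ^ 2 ≤ (1 + e) ^ 2 * q →
      q * (O β (n' + 1) - O' β (n' + 1)) ^ 2 ≤ O (2 * β) (n' + 1) - O' (2 * β) (n' + 1) →
      (1 + e ^ 2) * (O β (n' + 1) - O' β (n' + 1)) ^ 2 ≤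
        (1 + e) ^ 2 * (O (2 * β) (n' + 1) - O' (2 * β) (n' + 1)) := by
    intro β e q h1 h2
    calc (1 + e ^ 2) * (O β (n' + 1) - O' β (n' + 1)) ^ 2
        ≤ ((1 + e) ^ 2 * q) * (O β (n' + 1) - O' β (n' + 1)) ^ 2 :=
          mul_le_mul_of_nonneg_right h1 (sq_nonneg _)
      _ = (1 + e) ^ 2 * (q * (O β (n' + 1) - O' β (n' + 1)) ^ 2) := by ring
      _ ≤ _ := mul_le_mul_of_nonneg_left h2 (sq_nonneg _)
  by_cases hlt : n' < 2160
  · have hc := open_cover F G S4 P4 (by norm_num) hn' h1072 (by omega)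
    refine ⟨2 * (2 * (2 * (2 * 17))), 17 / 10000, by norm_num, by norm_num, by norm_num, ?_,
      fin ?_ hc⟩
    · exact le_trans (by norm_num) (exp_bound _ (by norm_num))
    · norm_num
  · have e544 : (2 * (2 * (2 * (2 * (2 * 17)))) : ℝ) = 544 := by norm_num
    rw [e544] at S5 P5
    obtain ⟨k, hk1, hk2⟩ : ∃ k, 2176 * 2 ^ k ≤ n' + 16 ∧ n' + 16 < 2 * (2176 * 2 ^ k) := by
      refine ⟨Nat.log 2 ((n' + 16) / 2176), ?_, ?_⟩
      · have h0 : (n' + 16) / 2176 ≠ 0 := by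
          rw [Nat.ne_zero_iff_zero_lt]
          exact Nat.div_pos (by omega) (by norm_num)
        have h1 := Nat.pow_log_le_self 2 h0
        calc 2176 * 2 ^ Nat.log 2 ((n' + 16) / 2176) ≤ 2176 * ((n' + 16) / 2176) :=
              Nat.mul_le_mul_left _ h1
          _ ≤ n' + 16 := Nat.mul_div_le _ _
      · have h1 := Nat.lt_pow_succ_log_self (b := 2) (by norm_num) ((n' + 16) / 2176)
        rw [pow_succ] at h1
        omega
    obtain ⟨n, β, δ, h1, h2, h3, h4, h5, h6, h7⟩ :=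
      asym F G S5 P5 (exp_bound _ (by norm_num)) k
    have hx0 : 0 ≤ δ ^ 2 := sq_nonneg δ
    have hx1 : δ ^ 2 ≤ δ / 70 := by nlinarith
    have hc := open_cover F G h6 h7 (by nlinarith) hn' (by omega) (by omega)
    refine ⟨β, δ, h2, h3, by linarith, h5, fin ?_ hc⟩
    have e1 : 1 - δ * (1 / 100) ≤ (1 - δ ^ 2 / 16) * (1 - δ ^ 2 / 64) /
        ((1 + δ ^ 2 / 64) * (1 + δ ^ 2 / 16)) := by
      rw [le_div_iff₀ (by positivity)]
      nlinarith [pow_nonneg h3.le 3, pow_nonneg h3.le 4, pow_nonneg h3.le 5]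
    have e2 : 1 - δ * (1 / 4) ≤ (2 - (1 + δ ^ 2 / 16) - δ / 16) /
        (1 + δ ^ 2 / 16 + δ / 16) ^ 2 := by
      rw [le_div_iff₀ (by positivity)]
      nlinarith [pow_nonneg h3.le 3, pow_nonneg h3.le 4, pow_nonneg h3.le 5]
    have e3 : 1 - δ * (1 / 2) ≤ (1 - δ ^ 2 / 16) * (1 - δ ^ 2 / 64) /
        ((1 + δ ^ 2 / 64) * (1 + δ ^ 2 / 16)) * (2 - (1 + δ ^ 2 / 16) - δ / 16) /
        (1 + δ ^ 2 / 16 + δ / 16) ^ 2 := by
      rw [mul_div_assoc]
      calc 1 - δ * (1 / 2) ≤ (1 - δ * (1 / 100)) * (1 - δ * (1 / 4)) := by nlinarith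
        _ ≤ _ := mul_le_mul e1 e2 (by nlinarith) (by
          refine div_nonneg (mul_nonneg ?_ ?_) (by positivity) <;> nlinarith)
    calc 1 + δ ^ 2 ≤ (1 + δ) ^ 2 * (1 - δ * (1 / 2)) := by nlinarith
      _ ≤ _ := mul_le_mul_of_nonneg_left e3 (by positivity)

end Crest.Agent.R347.RFinalOpen
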