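import Crest.Agent.R347.RStep

/-!
# Row 347, piece RING_FINAL: the ring recursion

`ring_row1 … ring_row5` : states at `(68·2^j, 17·2^j)`, `j = 1 … 5`, together with the bound
`z (4β) L ≤ (1 + e4) m (4β)^L` at the previous `(L, β)`.  `dseq k` : `dseq 0 = 1/70`,
`dseq (k+1) = (dseq k)^2`.  `ring_asym` : the states at `j = 5 + k`.
-/

set_option autoImplicit false

namespace Crest.Agent.R347

/-- `δ_{5+k}` -/
noncomputable def dseq : ℕ → ℝ
  | 0 => 1 / 70
  | k + 1 => dseq k ^ 2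

section rows
variable {z : ℝ → ℕ → ℝ} {m : ℝ → ℝ}

theorem ring_row1 (F : RingFam z m)
    (S : RingState z m 68 17 (9196 / 10000) (541 / 10000) (135 / 10000)) :
    RingState z m 136 34 (23767 / 25000) (23379 / 1000000) (2927 / 1000000) ∧
      z 68 68 ≤ (1 + 1529 / 10000) * m 68 ^ 68 := by
  have h := ring_step F S (er := 1611 / 10000) (e4 := 1529 / 10000) (u' := 23767 / 25000)
    (ε' := 23379 / 1000000) (ε₁' := 2927 / 1000000) (by norm_num) (by norm_num) (by norm_num) (by norm_num)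
    (by norm_num) (by norm_num) (by norm_num) (by norm_num)
  rw [show (2 : ℕ) * 68 = 136 from rfl, show (2 : ℝ) * 17 = 34 by norm_num,
    show (4 : ℝ) * 17 = 68 by norm_num] at h
  exact h

theorem ring_row2 (F : RingFam z m)
    (S : RingState z m 136 34 (23767 / 25000) (23379 / 1000000) (2927 / 1000000)) :
    RingState z m 272 68 (6171 / 6250) (3103 / 1000000) (547 / 1000000) ∧
      z 136 136 ≤ (1 + 557 / 10000) * m 136 ^ 136 := by
  have h := ring_step F S (er := 2 / 25) (e4 := 557 / 10000) (u' := 6171 / 6250)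
    (ε' := 3103 / 1000000) (ε₁' := 547 / 1000000) (by norm_num) (by norm_num) (by norm_num) (by norm_num)
    (by norm_num) (by norm_num) (by norm_num) (by norm_num)
  rw [show (2 : ℕ) * 136 = 272 from rfl, show (2 : ℝ) * 34 = 68 by norm_num,
    show (4 : ℝ) * 34 = 136 by norm_num] at h
  exact h

theorem ring_row3 (F : RingFam z m)
    (S : RingState z m 272 68 (6171 / 6250) (3103 / 1000000) (547 / 1000000)) :
    RingState z m 544 136 (999483 / 1000000) (423 / 10000000) (97 / 10000000) ∧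
      z 272 272 ≤ (1 + 13 / 2000) * m 272 ^ 272 := by
  have h := ring_step F S (er := 201 / 12500) (e4 := 13 / 2000) (u' := 999483 / 1000000)
    (ε' := 423 / 10000000) (ε₁' := 97 / 10000000) (by norm_num) (by norm_num) (by norm_num) (by norm_num)
    (by norm_num) (by norm_num) (by norm_num) (by norm_num)
  rw [show (2 : ℕ) * 272 = 544 from rfl, show (2 : ℝ) * 68 = 136 by norm_num,
    show (4 : ℝ) * 68 = 272 by norm_num] at h
  exact h

theorem ring_row4 (F : RingFam z m)
    (S : RingState z m 544 136 (999483 / 1000000) (423 / 10000000) (97 / 10000000)) :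
    RingState z m 1088 272 (9999993 / 10000000) (1 / 100000000) (1 / 100000000) ∧
      z 544 544 ≤ (1 + 17 / 200000) * m 544 ^ 544 := by
  have h := ring_step F S (er := 7 / 12500) (e4 := 17 / 200000) (u' := 9999993 / 10000000)
    (ε' := 1 / 100000000) (ε₁' := 1 / 100000000) (by norm_num) (by norm_num) (by norm_num) (by norm_num)
    (by norm_num) (by norm_num) (by norm_num) (by norm_num)
  rw [show (2 : ℕ) * 544 = 1088 from rfl, show (2 : ℝ) * 136 = 272 by norm_num,
    show (4 : ℝ) * 136 = 544 by norm_num] at h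
  exact h

/-- row 5 (weakened to the asymptotic form) -/
theorem ring_row5 (F : RingFam z m)
    (S : RingState z m 1088 272 (9999993 / 10000000) (1 / 100000000) (1 / 100000000)) :
    RingState z m 2176 544 (1 - dseq 0 ^ 2 / 64) (dseq 0 ^ 2 / 64) (dseq 0 ^ 2 / 64) ∧
      z 1088 1088 ≤ (1 + 2 / 1000000) * m 1088 ^ 1088 := by
  have h := ring_step F S (er := 9 / 12500000) (e4 := 2 / 1000000) (u' := 1 - (1 / 70) ^ 2 / 64)
    (ε' := (1 / 70) ^ 2 / 64) (ε₁' := (1 / 70) ^ 2 / 64) (by norm_num) (by norm_num) (by norm_num)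
    (by norm_num) (by norm_num) (by norm_num) (by norm_num) (by norm_num)
  rw [show (2 : ℕ) * 1088 = 2176 from rfl, show (2 : ℝ) * 272 = 544 by norm_num,
    show (4 : ℝ) * 272 = 1088 by norm_num] at h
  exact h

theorem dseq_pos (k : ℕ) : 0 < dseq k := by
  induction k with
  | zero => norm_num [dseq]
  | succ k ih => rw [dseq]; positivity

theorem dseq_le (k : ℕ) : dseq k ≤ 1 / 70 := by
  induction k with
  | zero => norm_num [dseq]
  | succ k ih =>
    have h0 := dseq_pos k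
    rw [dseq]
    nlinarith

theorem dseq_le_exp (k : ℕ) : dseq k ≤ Real.exp (-((544 * 2 ^ k : ℝ) * (6 / 1000))) := by
  induction k with
  | zero =>
    have h1 : Real.exp 1 < 2.7182818286 := Real.exp_one_lt_d9
    have h2 : Real.exp (-((544 * 2 ^ 0 : ℝ) * (6 / 1000))) = (Real.exp (3264 / 1000))⁻¹ := by
      rw [← Real.exp_neg]
      norm_num
    rw [h2, dseq]
    rw [one_div]
    apply inv_anti₀ (Real.exp_pos _)
    have h3 : Real.exp (3264 / 1000) ≤ Real.exp 4 := Real.exp_le_exp.mpr (by norm_num)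
    have h4 : Real.exp 4 = Real.exp 1 ^ 4 := by
      rw [← Real.exp_nat_mul]
      norm_num
    rw [h4] at h3
    have h5 : Real.exp 1 ^ 4 ≤ 2.7182818286 ^ 4 := pow_le_pow_left₀ (Real.exp_pos 1).le h1.le 4
    refine h3.trans (h5.trans ?_)
    norm_num
  | succ k ih =>
    have h0 := dseq_pos k
    have h1 : Real.exp (-((544 * 2 ^ (k + 1) : ℝ) * (6 / 1000))) =
        Real.exp (-((544 * 2 ^ k : ℝ) * (6 / 1000))) ^ 2 := by
      rw [← Real.exp_nat_mul]
      congr 1
      push_cast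
      ring
    rw [dseq, h1]
    exact pow_le_pow_left₀ h0.le ih 2

/-- one asymptotic step of the ring, `y = δ²` -/
theorem ring_asym_step (F : RingFam z m) {L : ℕ} {β y : ℝ} (hy0 : 0 < y) (hy : y ≤ 1 / 4900)
    (S : RingState z m L β (1 - y / 64) (y / 64) (y / 64)) :
    RingState z m (2 * L) (2 * β) (1 - y ^ 2 / 64) (y ^ 2 / 64) (y ^ 2 / 64) ∧
      z (4 * β) L ≤ (1 + y / 16) * m (4 * β) ^ L := by
  have hy2 : 0 < y ^ 2 := by positivity
  have hy3 : 0 < y ^ 3 := by positivity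
  have hyy : y ^ 2 ≤ y * (1 / 4900) := by nlinarith
  have hy1 : y ≤ 1 := hy.trans (by norm_num)
  have p3 : y ^ 3 ≤ y ^ 2 := by nlinarith
  have p4 : y ^ 4 ≤ y ^ 2 := by nlinarith [sq_nonneg y]
  have p5 : y ^ 5 ≤ y ^ 2 := by nlinarith [sq_nonneg y, mul_pos hy2 hy3]
  have p6 : y ^ 6 ≤ y ^ 2 := by nlinarith [sq_nonneg y, mul_pos hy3 hy3]
  refine ring_step F S (er := y / 16) (e4 := y / 16) ⟨by positivity, by linarith⟩
    ⟨by positivity, by linarith⟩ (by nlinarith) ?_ ?_ ?_ ?_ ?_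
  · rw [div_pow (1 - y / 64) (1 + y / 64) 2, div_mul_eq_mul_div, le_div_iff₀ (by positivity)]
    nlinarith
  · nlinarith [sq_nonneg (y ^ 2), sq_nonneg (y ^ 3)]
  · rw [div_mul_eq_mul_div, le_div_iff₀ (by positivity)]
    nlinarith
  · nlinarith
  · nlinarith

/-- the asymptotic states -/
theorem ring_asym (F : RingFam z m)
    (S : RingState z m 2176 544 (1 - dseq 0 ^ 2 / 64) (dseq 0 ^ 2 / 64) (dseq 0 ^ 2 / 64)) (k : ℕ) :
    RingState z m (2176 * 2 ^ k) (544 * 2 ^ k) (1 - dseq k ^ 2 / 64) (dseq k ^ 2 / 64)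
      (dseq k ^ 2 / 64) := by
  induction k with
  | zero =>
    rw [pow_zero, pow_zero, mul_one, mul_one]
    exact S
  | succ k ih =>
    have h0 := dseq_pos k
    have h1 := dseq_le k
    have h := (ring_asym_step F (y := dseq k ^ 2) (by positivity) (by nlinarith) ih).1
    have e1 : 2 * (2176 * 2 ^ k) = 2176 * 2 ^ (k + 1) := by ring
    have e2 : (2 : ℝ) * (544 * 2 ^ k) = 544 * 2 ^ (k + 1) := by ring
    rw [e1, e2] at h
    exact h

theorem cover_final (F : RingFam z m) {L : ℕ} {β u ε ε₁ e : ℝ} (S : RingState z m L β u ε ε₁)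
    (he0 : 0 < e) (he1 : e < 1) (h1 : 1 + e ^ 2 ≤ (u / (1 + ε)) ^ 2 * (1 + e) ^ 2)
    (hexp : e ≤ Real.exp (-(β * (6 / 1000)))) {L' : ℕ} (hL' : Even L') (h2 : L ≤ L')
    (h3 : L' ≤ 2 * L) :
    ∃ β e : ℝ, 0 < β ∧ 0 < e ∧ e < 1 ∧ e ≤ Real.exp (-(β * (6 / 1000))) ∧
      (1 + e ^ 2) * z β L' ^ 2 ≤ (1 + e) ^ 2 * z (2 * β) L' := by
  refine ⟨β, e, S.hβ, he0, he1, hexp, ?_⟩
  have h4 := ring_cover F S hL' h2 h3
  calc (1 + e ^ 2) * z β L' ^ 2 ≤ ((u / (1 + ε)) ^ 2 * (1 + e) ^ 2) * z β L' ^ 2 :=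
        mul_le_mul_of_nonneg_right h1 (sq_nonneg _)
    _ = (1 + e) ^ 2 * ((u / (1 + ε)) ^ 2 * z β L' ^ 2) := by ring
    _ ≤ (1 + e) ^ 2 * z (2 * β) L' := mul_le_mul_of_nonneg_left h4 (sq_nonneg _)

/-- crude lower bound of the exponential -/
theorem exp_lower {x e : ℝ} (h : e ≤ 1 - x) : e ≤ Real.exp (-x) := by
  have := Real.add_one_le_exp (-x)
  linarith

end rows

theorem ring_final {z : ℝ → ℕ → ℝ} {m : ℝ → ℝ} (F : RingFam z m)
    (S34 : RingState z m 34 17 (9773 / 10000) (2324 / 10000) (1161 / 10000))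
    (S68 : RingState z m 68 17 (9196 / 10000) (541 / 10000) (135 / 10000)) :
    ∀ L, Even L → 34 ≤ L → ∃ β e : ℝ, 0 < β ∧ 0 < e ∧ e < 1 ∧ e ≤ Real.exp (-(β * (6 / 1000))) ∧
      (1 + e ^ 2) * z β L ^ 2 ≤ (1 + e) ^ 2 * z (2 * β) L := by
  intro L hL h34
  have S1 := (ring_row1 F S68).1
  have S2 := (ring_row2 F S1).1
  have S3 := (ring_row3 F S2).1
  have S4 := (ring_row4 F S3).1
  have S5 := (ring_row5 F S4).1
  by_cases h0 : L ≤ 68
  · exact cover_final F S34 (e := 33 / 100) (by norm_num) (by norm_num) (by norm_num)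
      (exp_lower (by norm_num)) hL h34 (by omega)
  by_cases h1 : L ≤ 136
  · exact cover_final F S68 (e := 1611 / 10000) (by norm_num) (by norm_num) (by norm_num)
      (exp_lower (by norm_num)) hL (by omega) (by omega)
  by_cases h2 : L ≤ 272
  · exact cover_final F S1 (e := 2 / 25) (by norm_num) (by norm_num) (by norm_num)
      (exp_lower (by norm_num)) hL (by omega) (by omega)
  by_cases h3 : L ≤ 544
  · exact cover_final F S2 (e := 201 / 12500) (by norm_num) (by norm_num) (by norm_num)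
      (exp_lower (by norm_num)) hL (by omega) (by omega)
  by_cases h4 : L ≤ 1088
  · exact cover_final F S3 (e := 7 / 12500) (by norm_num) (by norm_num) (by norm_num)
      (exp_lower (by norm_num)) hL (by omega) (by omega)
  by_cases h5 : L ≤ 2176
  · refine cover_final F S4 (e := 9 / 12500000) (by norm_num) (by norm_num) (by norm_num) ?_ hL
      (by omega) (by omega)
    have h6 : Real.exp (-(272 * (6 / 1000) : ℝ)) = Real.exp (-(272 * (6 / 1000) / 2 : ℝ)) ^ 2 := by
      rw [← Real.exp_nat_mul]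
      norm_num
    rw [h6]
    have h7 : (18 / 100 : ℝ) ≤ Real.exp (-(272 * (6 / 1000) / 2 : ℝ)) := exp_lower (by norm_num)
    nlinarith
  · -- asymptotic regime
    obtain ⟨k, hk1, hk2⟩ : ∃ k, 2176 * 2 ^ k ≤ L ∧ L < 2176 * 2 ^ (k + 1) := by
      refine ⟨Nat.log 2 (L / 2176), ?_, ?_⟩
      · have h6 : L / 2176 ≠ 0 := by omega
        have h7 := Nat.pow_log_le_self 2 h6
        have h8 : 2176 * (L / 2176) ≤ L := Nat.mul_div_le L 2176
        calc 2176 * 2 ^ Nat.log 2 (L / 2176) ≤ 2176 * (L / 2176) := Nat.mul_le_mul_left _ h7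
          _ ≤ L := h8
      · have h7 := Nat.lt_pow_succ_log_self (b := 2) (by norm_num) (L / 2176)
        have h9 : L / 2176 < 2 ^ (Nat.log 2 (L / 2176) + 1) := h7
        rw [Nat.div_lt_iff_lt_mul (by norm_num)] at h9
        rwa [mul_comm]
    have S := ring_asym F S5 k
    have hd0 := dseq_pos k
    have hd1 := dseq_le k
    refine cover_final F S (e := dseq k) hd0 (by linarith) ?_ (dseq_le_exp k) hL hk1 (by
      rw [pow_succ] at hk2; omega)
    set d := dseq k with hd
    rw [div_pow, div_mul_eq_mul_div, le_div_iff₀ (by positivity)]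
    have p2 : d ^ 2 ≤ d * (1 / 70) := by nlinarith
    have q2 : 0 < d ^ 2 := by positivity
    have p3 : d ^ 3 ≤ d ^ 2 := by nlinarith
    have p4 : d ^ 4 ≤ d ^ 2 := by nlinarith
    have p5 : d ^ 5 ≤ d ^ 2 := by nlinarith [pow_pos hd0 3, pow_pos hd0 4]
    have p6 : d ^ 6 ≤ d ^ 2 := by nlinarith [pow_pos hd0 3, pow_pos hd0 4, pow_pos hd0 5]
    nlinarith [pow_pos hd0 3, pow_pos hd0 4, pow_pos hd0 5, pow_pos hd0 6]

end Crest.Agent.R347
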