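import Crest.Agent.R347.RStepOpen
import Crest.Agent.R347.RFinalOpen
import Crest.Agent.R347.RFinalRing

/-!
# Row 347, piece R_FINAL (elementary, ~2 h; may be split): the recursion `j = 0, 1, 2, …`

`L_j = 68·2^j`, `β_j = 17·2^j`, `n_j = 68·2^j - 16`.  From the state at `j` (`RingState z m L_j β_j u ε ε₁`,
`OpenState O O' m c n_j β_j p r r₁ T T₁`), `ring_step` and `open_step` give the state at `j+1`.  Rows (exact rationals,
each hypothesis of the step lemmas holds with strict margin; columns `u ε ε₁ | p r r₁ T T₁ | er e4 eo K`):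

j=0: 2299/2500, 541/10000, 27/2000 | 1463/2000, 437/400, 1013/1000, 41/250, 9/250 | er 1611/10000, e4 1529/10000, eo 541/1250, K 8311/5000
j=1: 23767/25000, 23379/1000000, 2927/1000000 | 2937/4000, 5679/5000, 100501/100000, 28867/100000, 111/12500 | er 2/25, e4 557/10000, eo 3897/10000, K 4453/2500
j=2: 6171/6250, 3103/1000000, 547/1000000 | 77107/100000, 2621/2500, 50159/50000, 5201/50000, 27/4000 | er 201/12500, e4 13/2000, eo 9921/50000, K 119723/100000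
j=3: 999483/1000000, 423/10000000, 97/10000000 | 927111/1000000, 10013/10000, 1000151/1000000, 7793/1000000, 323/1000000 | er 7/12500, e4 17/200000, eo 40379/1000000, K 1005933/1000000
j=4: 9999993/10000000, 1/100000000, 1/100000000 | 1245937/1250000, 1000001/1000000, 10000001/10000000, 107/1250000, 1/2500000 | er 9/12500000, e4 3/100000000, eo 163137/100000000, K 125001/125000
(the output of row j is row j+1; if some digit fails, any weakening that keeps the chain is fine).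

Asymptotic regime `j ≥ 5`, `δ_5 = 1/70`, `δ_{j+1} = δ_j²`: invariant `u = 1 - δ²/64`, `ε = ε₁ = δ²/64`, `p = 1 - δ²/16`,
`r = r₁ = 1 + δ²/16`, `T = T₁ = δ/16` (actual values at `j = 5`: `1-u ≤ 1e-8`, `ε ≤ 1e-9`, `1-p ≤ 5.4e-6`, `r-1 ≤ 1e-8`,
`T ≤ 4e-8`; `δ_5²/16 = 1.27e-5`).  Step with `er = e4 = δ²/16`, `eo = δ²/8`, `K = 1 + δ²/2` (check: `(u/(1+ε))² ≥ 1 - δ²/16 ≥ f(er)`,
`f(e) = (1+e²)/(1+e)² ≈ 1 - 2e`; `u' = 1 - δ⁴/64 ≤ (1+er⁴)/(1+er²)²`; `u'/(1+ε)⁴ ≥ 1 - δ²/12`; `s ≥ 1 - 0.17 δ² ≥ f(eo)`;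
`p' = 1 - δ⁴/16 ≤ (1+eo⁴)/(1+eo²)²` as `2 eo² = δ⁴/32`; `(r²+T²)/p' ≤ 1 + δ²/2`;
`r' - 1 = (K-1) e4/(1-K e4) ≈ δ⁴/32`; `e4 K r' ≤ δ²/16·…`: take `e4 = δ²/20` if `e4 K r' ≤ δ²/16` needs room; etc.).
Use monotonicity of the states in their parameters (`RingState`/`OpenState` weaken) where useful.

Covers: ring lengths `L ∈ [L_j, 2L_j]` use `ring_cover` with `e = er_j` (`j ≤ 4`), `e = δ_j` (`j ≥ 5`); `L ∈ [34, 68]` uses the
state `(34, 17)` with `e = 33/100`.  `er_j ≤ exp(-β_j·6/1000)`; `δ_j ≤ exp(-β_j·6/1000)` as `1/70 ≤ exp(-544·0.006) = 0.038`.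
Open: `n' ∈ [1072, 2160)` uses `open_cover` at `j = 4` with `e = 17/10000`, `n' ≥ 2160`: `j ≥ 5` with `e = δ_j`
(`s ≥ 1 - 3δ/16 - …  ≥ f(δ)`).  Here `[n_j, n_j + L_j)` = `[n_j, n_{j+1})`.
-/

set_option autoImplicit false

namespace Crest.Agent.R347

theorem open_final {z O O' : ℝ → ℕ → ℝ} {m c σ : ℝ → ℝ} (F : RingFam z m)
    (G : OpenFam z O O' m c σ)
    (S68 : RingState z m 68 17 (9196 / 10000) (541 / 10000) (135 / 10000))
    (P52 : OpenState O O' m c 52 17 (7315 / 10000) (10925 / 10000) (1013 / 1000) (1640 / 10000)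
      (360 / 10000)) :
    ∀ n', Even n' → 1072 ≤ n' → ∃ β e : ℝ, 0 < β ∧ 0 < e ∧ e < 1 ∧
      e ≤ Real.exp (-(β * (6 / 1000))) ∧
      (1 + e ^ 2) * (O β (n' + 1) - O' β (n' + 1)) ^ 2 ≤
        (1 + e) ^ 2 * (O (2 * β) (n' + 1) - O' (2 * β) (n' + 1)) := by
  exact RFinalOpen.open_final F G S68 P52

end Crest.Agent.R347
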