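import Crest.Agent.R347.RInit

/-!
# Row 347, piece R_INIT_OPEN (elementary; `β₀ = 17/2`)

See the header of `RInit.lean`.  The constants used here: `a₀ ≥ 0.88795`, `b₀ ≥ 1.1010` (`n = 18`),
`a₀, b₀ ≥ 0.994946` (`n = 52`).
-/

set_option autoImplicit false

namespace Crest.Agent.R347

private theorem sum_pow4_le {ι : Type*} (t : Finset ι) (a : ι → ℝ) (ha : ∀ i ∈ t, 0 ≤ a i) :
    (∑ i ∈ t, a i ^ 4) ≤ (∑ i ∈ t, a i) ^ 4 := by
  have h1 := sum_sq_le t (fun i => a i ^ 2) (fun i _ => sq_nonneg _)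
  have h2 := sum_sq_le t a ha
  have h3 : 0 ≤ ∑ i ∈ t, a i ^ 2 := Finset.sum_nonneg fun i _ => sq_nonneg _
  have h4 : (∑ i ∈ t, a i ^ 2) ^ 2 ≤ ((∑ i ∈ t, a i) ^ 2) ^ 2 := pow_le_pow_left₀ h3 h2 2
  calc (∑ i ∈ t, a i ^ 4) = ∑ i ∈ t, (a i ^ 2) ^ 2 := by
        apply Finset.sum_congr rfl
        intro i _
        ring
    _ ≤ (∑ i ∈ t, a i ^ 2) ^ 2 := h1
    _ ≤ ((∑ i ∈ t, a i) ^ 2) ^ 2 := h4
    _ = (∑ i ∈ t, a i) ^ 4 := by ring

private theorem rpow17 {x : ℝ} (hx : 0 < x) : x ^ (17 : ℝ) = (x ^ (17 / 2 : ℝ)) ^ 2 := by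
  rw [← Real.rpow_natCast, ← Real.rpow_mul hx.le]
  norm_num

private theorem rpow34 {x : ℝ} (hx : 0 < x) : x ^ (34 : ℝ) = (x ^ (17 / 2 : ℝ)) ^ 4 := by
  rw [← Real.rpow_natCast, ← Real.rpow_mul hx.le]
  norm_num

private theorem parLev_data {f fp : ℝ → ℝ} {ℓ t : ℝ} (h : ParLev f fp ℓ) (hℓ : 0 < ℓ)
    (ht : t ≤ ℓ ^ (17 / 2 : ℝ)) :
    ∃ a P Q : ℝ, t ≤ a ∧ a ≤ P ∧ 0 ≤ Q ∧ f (17 / 2) = P + Q ∧ fp (17 / 2) = P - Q ∧
      a ^ 2 ≤ f 17 ∧ f 17 ≤ P ^ 2 + Q ^ 2 ∧ f 17 ≤ a ^ 2 + (P - a) ^ 2 + Q ^ 2 ∧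
      a ^ 4 ≤ f 34 ∧ f 34 ≤ P ^ 4 + Q ^ 4 := by
  obtain ⟨k, l, x, y, i₀, hx, hy, hi₀, hf⟩ := h
  set A : Fin k → ℝ := fun i => x i ^ (17 / 2 : ℝ) with hA
  set B : Fin l → ℝ := fun i => y i ^ (17 / 2 : ℝ) with hB
  have hA0 : ∀ i, 0 < A i := fun i => Real.rpow_pos_of_pos (hx i) _
  have hB0 : ∀ i, 0 < B i := fun i => Real.rpow_pos_of_pos (hy i) _
  have f17 : f 17 = ∑ i, A i ^ 2 + ∑ i, B i ^ 2 := by
    rw [(hf 17 (by norm_num)).1]
    congr 1
    · exact Finset.sum_congr rfl fun i _ => rpow17 (hx i)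
    · exact Finset.sum_congr rfl fun i _ => rpow17 (hy i)
  have f34 : f 34 = ∑ i, A i ^ 4 + ∑ i, B i ^ 4 := by
    rw [(hf 34 (by norm_num)).1]
    congr 1
    · exact Finset.sum_congr rfl fun i _ => rpow34 (hx i)
    · exact Finset.sum_congr rfl fun i _ => rpow34 (hy i)
  have hf8 := hf (17 / 2) (by norm_num)
  have hspl : ∑ i, A i = A i₀ + ∑ i ∈ Finset.univ.erase i₀, A i :=
    (Finset.add_sum_erase _ _ (Finset.mem_univ i₀)).symm
  have he0 : 0 ≤ ∑ i ∈ Finset.univ.erase i₀, A i := Finset.sum_nonneg fun i _ => (hA0 i).le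
  have hB2 := sum_sq_le Finset.univ B fun i _ => (hB0 i).le
  have hB4 := sum_pow4_le Finset.univ B fun i _ => (hB0 i).le
  have hA2 := sum_sq_le Finset.univ A fun i _ => (hA0 i).le
  have hA4 := sum_pow4_le Finset.univ A fun i _ => (hA0 i).le
  have hE2 := sum_sq_le (Finset.univ.erase i₀) A fun i _ => (hA0 i).le
  have hB2n : 0 ≤ ∑ i, B i ^ 2 := Finset.sum_nonneg fun i _ => sq_nonneg _
  have hB4n : 0 ≤ ∑ i, B i ^ 4 := Finset.sum_nonneg fun i _ => (pow_pos (hB0 i) 4).le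
  refine ⟨A i₀, ∑ i, A i, ∑ i, B i, ?_, ?_, Finset.sum_nonneg fun i _ => (hB0 i).le, hf8.1, hf8.2,
    ?_, ?_, ?_, ?_, ?_⟩
  · exact ht.trans (Real.rpow_le_rpow hℓ.le hi₀ (by norm_num))
  · rw [hspl]; linarith
  · rw [f17]
    have := Finset.single_le_sum (f := fun i => A i ^ 2) (fun i _ => sq_nonneg _)
      (Finset.mem_univ i₀)
    linarith
  · rw [f17]; linarith
  · have h1 : ∑ i, A i ^ 2 = A i₀ ^ 2 + ∑ i ∈ Finset.univ.erase i₀, A i ^ 2 :=
      (Finset.add_sum_erase _ _ (Finset.mem_univ i₀)).symm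
    have h2 : ∑ i, A i - A i₀ = ∑ i ∈ Finset.univ.erase i₀, A i := by rw [hspl]; ring
    rw [f17, h1, h2]
    linarith
  · rw [f34]
    have := Finset.single_le_sum (f := fun i => A i ^ 4) (fun i _ => (pow_pos (hA0 i) 4).le)
      (Finset.mem_univ i₀)
    linarith
  · rw [f34]; linarith

private theorem chord4 {a b x : ℝ} (ha : 0 ≤ a) (h1 : a ≤ x) (h2 : x ≤ b) :
    x ^ 4 ≤ a ^ 4 + (x - a) * ((a + b) * (a ^ 2 + b ^ 2)) := by
  have hx : 0 ≤ x := ha.trans h1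
  have hb : 0 ≤ b := hx.trans h2
  have h3 : (a + x) * (a ^ 2 + x ^ 2) ≤ (a + b) * (a ^ 2 + b ^ 2) := by gcongr
  have h4 := mul_nonneg (sub_nonneg.2 h1) (sub_nonneg.2 h3)
  nlinarith

private theorem chord2 {a b x : ℝ} (h1 : a ≤ x) (h2 : x ≤ b) :
    x ^ 2 ≤ a ^ 2 + (x - a) * (a + b) := by
  nlinarith [mul_nonneg (sub_nonneg.2 h1) (sub_nonneg.2 h2)]

private theorem part4 {w w0 w1 e : ℝ} (hw : 0 ≤ w) (hw0 : 0 ≤ w0) (h1 : w ≤ w1) (he : 0 ≤ e)
    (h : w ≤ w0 + e) : w ^ 4 ≤ w0 ^ 4 + e * ((w0 + w1) * (w0 ^ 2 + w1 ^ 2)) := by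
  have hw1 : 0 ≤ w1 := hw.trans h1
  rcases le_total w w0 with h2 | h2
  · have h3 : w ^ 4 ≤ w0 ^ 4 := pow_le_pow_left₀ hw h2 4
    have h4 : 0 ≤ e * ((w0 + w1) * (w0 ^ 2 + w1 ^ 2)) := by positivity
    linarith
  · have h3 := chord4 hw0 h2 h1
    have h4 : (w - w0) * ((w0 + w1) * (w0 ^ 2 + w1 ^ 2)) ≤
        e * ((w0 + w1) * (w0 ^ 2 + w1 ^ 2)) := by
      apply mul_le_mul_of_nonneg_right _ (by positivity)
      linarith
    linarith

private theorem part2 {w w0 w1 e : ℝ} (hw : 0 ≤ w) (hw0 : 0 ≤ w0) (h1 : w ≤ w1) (he : 0 ≤ e)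
    (h : w ≤ w0 + e) : w ^ 2 ≤ w0 ^ 2 + e * (w0 + w1) := by
  have hw1 : 0 ≤ w1 := hw.trans h1
  rcases le_total w w0 with h2 | h2
  · have h3 : w ^ 2 ≤ w0 ^ 2 := pow_le_pow_left₀ hw h2 2
    have h4 : 0 ≤ e * (w0 + w1) := by positivity
    linarith
  · have h3 := chord2 h2 h1
    have h4 : (w - w0) * (w0 + w1) ≤ e * (w0 + w1) := by
      apply mul_le_mul_of_nonneg_right _ (by positivity)
      linarith
    linarith

private theorem rat_core {a b L0 κ X' M Z OO O52 : ℝ} (hX : X' ≤ OO) (hOO : OO ≤ a)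
    (hM : 1 ≤ M) (hMZ : M ≤ Z) (hZ : Z ≤ b) (hb : b < 2)
    (hrest : O52 - X' * M ≤ (OO - X') * (Z - M)) (hL : L0 ≤ O52) (hκ : 0 ≤ κ) (hκ1 : κ ≤ 1)
    (hQ : ∀ u, 0 ≤ u → u ≤ b - 1 →
      0 ≤ L0 * κ * b + u * (L0 * (1 - κ) - a * b * (1 + κ)) + a * (1 + κ) * u ^ 2) :
    O52 ≤ (1 + κ) * (X' * M) := by
  have h1 : (OO - X') * (Z - M) ≤ (a - X') * (b - M) := by
    apply mul_le_mul (by linarith) (by linarith) (by linarith) (by linarith)
  set u := b - M with hu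
  have hu0 : 0 ≤ u := by linarith
  have hu1 : u ≤ b - 1 := by linarith
  have hMu : M = b - u := by rw [hu]; ring
  have h2 : L0 - a * u ≤ X' * (b - 2 * u) := by
    have : X' * M + (a - X') * u = a * u + X' * (b - 2 * u) := by rw [hMu]; ring
    linarith
  have hE : 0 ≤ κ * b + (1 - κ) * u := by
    have : 0 ≤ (1 - κ) * u := mul_nonneg (by linarith) hu0
    have : 0 ≤ κ * b := mul_nonneg hκ (by linarith)
    linarith
  have hD : 0 < b - 2 * u := by linarith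
  have h3 := mul_le_mul_of_nonneg_right h2 hE
  have h4 := hQ u hu0 hu1
  have h5 : (b - 2 * u) * (a * u) ≤ (b - 2 * u) * (X' * (κ * b + (1 - κ) * u)) := by
    nlinarith
  have h6 : a * u ≤ X' * (κ * b + (1 - κ) * u) := le_of_mul_le_mul_left h5 hD
  have h7 : (a - X') * u ≤ κ * (X' * M) := by
    rw [hMu]
    nlinarith
  linarith

private theorem pur_core {t p r b P Q R e x0 y1 x1 f17 f34 : ℝ} (hb : t ≤ b) (ht : 0 < t)
    (hP : b ≤ P) (hQ : 0 ≤ Q) (hQ1 : Q ≤ y1) (hx1 : P - b ≤ x1) (hx0 : 0 ≤ x0)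
    (hxy : P - b ≤ x0 + (y1 - Q)) (hslope : x0 + x1 ≤ y1)
    (h17 : f17 ≤ b ^ 2 + (P - b) ^ 2 + Q ^ 2) (h17' : 0 ≤ f17) (h34 : b ^ 4 ≤ f34)
    (he : x0 ^ 2 + y1 ^ 2 ≤ e) (hr0 : 0 ≤ r) (hr : p ≤ r ^ 2)
    (hre : r * e ≤ (1 - r) * t ^ 2) (hr1 : r ≤ 1) (hR : R = f17) : p * R ^ 2 ≤ f34 := by
  have h1 := part2 (w := P - b) (w0 := x0) (w1 := x1) (e := y1 - Q) (by linarith) hx0 hx1
    (by linarith) hxy
  have h2 : Q ^ 2 ≤ y1 ^ 2 - (y1 - Q) * y1 := by nlinarith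
  have h3 : (y1 - Q) * (x0 + x1) ≤ (y1 - Q) * y1 :=
    mul_le_mul_of_nonneg_left hslope (by linarith)
  have h4 : f17 ≤ b ^ 2 + e := by linarith
  have h5 : t ^ 2 ≤ b ^ 2 := pow_le_pow_left₀ ht.le hb 2
  have h6 : r * f17 ≤ b ^ 2 := by
    have h7 : r * f17 ≤ r * (b ^ 2 + e) := mul_le_mul_of_nonneg_left h4 hr0
    have h8 : (1 - r) * t ^ 2 ≤ (1 - r) * b ^ 2 := mul_le_mul_of_nonneg_left h5 (by linarith)
    linarith
  have h9 : (r * f17) ^ 2 ≤ (b ^ 2) ^ 2 := pow_le_pow_left₀ (by positivity) h6 2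
  rw [hR]
  calc p * f17 ^ 2 ≤ r ^ 2 * f17 ^ 2 := mul_le_mul_of_nonneg_right hr (sq_nonneg _)
    _ = (r * f17) ^ 2 := by ring
    _ ≤ (b ^ 2) ^ 2 := h9
    _ = b ^ 4 := by ring
    _ ≤ f34 := h34

private theorem exp_lower_neg {x y : ℝ} (hx0 : 0 ≤ x) (hx1 : x ≤ 1)
    (h : y * (∑ m ∈ Finset.range 5, x ^ m / m.factorial + x ^ 5 * (5 + 1) / (Nat.factorial 5 * 5))
      ≤ 1) (hy : 0 ≤ y) : y ≤ Real.exp (-x) := by
  have h1 := Real.exp_bound' hx0 hx1 (n := 5) (by norm_num)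
  have h2 : y * Real.exp x ≤ 1 := by
    refine (mul_le_mul_of_nonneg_left h1 hy).trans ?_
    exact_mod_cast h
  rw [Real.exp_neg, ← one_div, le_div_iff₀ (Real.exp_pos x)]
  exact h2

private theorem pow4_add {x y : ℝ} (hx : 0 ≤ x) (hy : 0 ≤ y) : x ^ 4 + y ^ 4 ≤ (x + y) ^ 4 := by
  have h : (x + y) ^ 4 = x ^ 4 + y ^ 4 + (4 * x ^ 3 * y + 6 * x ^ 2 * y ^ 2 + 4 * x * y ^ 3) := by
    ring
  have h1 : 0 ≤ 4 * x ^ 3 * y + 6 * x ^ 2 * y ^ 2 + 4 * x * y ^ 3 := by positivity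
  linarith

private theorem pow2_add {x y : ℝ} (hx : 0 ≤ x) (hy : 0 ≤ y) : x ^ 2 + y ^ 2 ≤ (x + y) ^ 2 := by
  have h : (x + y) ^ 2 = x ^ 2 + y ^ 2 + 2 * x * y := by ring
  have h1 : 0 ≤ 2 * x * y := by positivity
  linarith

private theorem quad34 (u : ℝ) (hu0 : 0 ≤ u) (hu1 : u ≤ 12324 / 10000 - 1) :
    (0 : ℝ) ≤ 97993 / 100000 * (925 / 10000) * (12324 / 10000) +
      u * (97993 / 100000 * (1 - 925 / 10000) - 12507 / 10000 * (12324 / 10000) *
        (1 + 925 / 10000)) + 12507 / 10000 * (1 + 925 / 10000) * u ^ 2 := by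
  have h1 : 0 ≤ 2324 / 10000 - u := by linarith
  nlinarith [mul_nonneg h1 h1, mul_nonneg h1 hu0]

private theorem quad17 (u : ℝ) :
    (0 : ℝ) ≤ 98991 / 100000 * (13 / 1000) * (11161 / 10000) +
      u * (98991 / 100000 * (1 - 13 / 1000) - 10835 / 10000 * (11161 / 10000) *
        (1 + 13 / 1000)) + 10835 / 10000 * (1 + 13 / 1000) * u ^ 2 := by
  nlinarith [sq_nonneg (u - 113 / 1000)]

set_option maxHeartbeats 1000000 in
theorem init_open {z O O' Ap Bp : ℝ → ℕ → ℝ} {m c σ : ℝ → ℝ} (F : RingFam z m)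
    (G : OpenFam z O O' m c σ)
    (hz34 : z 34 34 ≤ 12324 / 10000) (hz17 : z 17 34 ≤ 11161 / 10000)
    (A18 : ParLev (fun β => O β 18 - O' β 18) (fun β => -Ap β 18) (Real.exp (-(1398 / 100000))))
    (B18 : ParLev (fun β => O β 18 + O' β 18) (fun β => Bp β 18) (Real.exp (1132 / 100000)))
    (A52 : ParLev (fun β => O β 52 - O' β 52) (fun β => -Ap β 52) (Real.exp (-(596 / 1000000))))
    (B52 : ParLev (fun β => O β 52 + O' β 52) (fun β => Bp β 52) (Real.exp (-(596 / 1000000))))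
    (W18 : O (17 / 2) 18 ≤ 10727 / 10000) (W52 : O (17 / 2) 52 ≤ 12487 / 10000)
    (P18 : 913 / 1000 ≤ (Bp (17 / 2) 18 - Ap (17 / 2) 18) / 2)
    (P18' : (Bp (17 / 2) 18 - Ap (17 / 2) 18) / 2 ≤ 98615 / 100000)
    (P52 : 856 / 1000 ≤ (Bp (17 / 2) 52 - Ap (17 / 2) 52) / 2)
    (P52' : (Bp (17 / 2) 52 - Ap (17 / 2) 52) / 2 ≤ 97595 / 100000) :
    OpenState O O' m c 52 17 (7315 / 10000) (10925 / 10000) (1013 / 1000) (1640 / 10000)
      (360 / 10000) := by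
  -- the four lists
  have tA18 : (88795 / 100000 : ℝ) ≤ (Real.exp (-(1398 / 100000))) ^ (17 / 2 : ℝ) := by
    rw [← Real.exp_mul]
    have h := exp_lower_neg (x := 11883 / 100000) (y := 88795 / 100000) (by norm_num)
      (by norm_num) (by norm_num [Finset.sum_range_succ, Nat.factorial]) (by norm_num)
    refine h.trans (le_of_eq ?_)
    norm_num
  have tB18 : (1101 / 1000 : ℝ) ≤ (Real.exp (1132 / 100000)) ^ (17 / 2 : ℝ) := by
    rw [← Real.exp_mul]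
    have h := Real.sum_le_exp_of_nonneg (x := 9622 / 100000) (by norm_num) 5
    refine le_trans ?_ (h.trans (le_of_eq ?_))
    · norm_num [Finset.sum_range_succ, Nat.factorial]
    · norm_num
  have t52 : (994946 / 1000000 : ℝ) ≤ (Real.exp (-(596 / 1000000))) ^ (17 / 2 : ℝ) := by
    rw [← Real.exp_mul]
    have h := exp_lower_neg (x := 5066 / 1000000) (y := 994946 / 1000000) (by norm_num)
      (by norm_num) (by norm_num [Finset.sum_range_succ, Nat.factorial]) (by norm_num)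
    refine h.trans (le_of_eq ?_)
    norm_num
  obtain ⟨a, q, Qa, a1, a2, a3, a4, a5, a6, a7, a8, a9, a10⟩ :=
    parLev_data A18 (Real.exp_pos _) tA18
  obtain ⟨b, p, Qb, b1, b2, b3, b4, b5, b6, b7, b8, b9, b10⟩ :=
    parLev_data B18 (Real.exp_pos _) tB18
  obtain ⟨a', q', Qa', c1, c2, c3, c4, c5, c6, c7, c8, c9, c10⟩ :=
    parLev_data A52 (Real.exp_pos _) t52
  obtain ⟨b', p', Qb', d1, d2, d3, d4, d5, d6, d7, d8, d9, d10⟩ :=
    parLev_data B52 (Real.exp_pos _) t52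
  -- n = 18
  have s1 : q + p ≤ 205885 / 100000 := by linarith
  have s2 : Qa + Qb ≤ 1597 / 10000 := by linarith
  have s3 : q + p + (Qa + Qb) ≤ 21454 / 10000 := by linarith
  have hq0 : 88795 / 100000 ≤ q := a1.trans a2
  have hp0 : 1101 / 1000 ≤ p := b1.trans b2
  have hw4 : Qa ^ 4 + Qb ^ 4 ≤ (Qa + Qb) ^ 4 := pow4_add a3 b3
  have hw2 : Qa ^ 2 + Qb ^ 2 ≤ (Qa + Qb) ^ 2 := pow2_add a3 b3
  have k1 := chord4 (a := 88795 / 100000) (b := 95785 / 100000) (x := q) (by norm_num) hq0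
    (by linarith)
  have k2 := chord4 (a := 1101 / 1000) (b := 11709 / 10000) (x := p) (by norm_num) hp0
    (by linarith)
  have k3 := part4 (w := Qa + Qb) (w0 := 8655 / 100000) (w1 := 1597 / 10000)
    (e := 205885 / 100000 - (q + p)) (by linarith) (by norm_num) s2 (by linarith) (by linarith)
  have k3' := part4 (w := Qb) (w0 := 8655 / 100000) (w1 := 1597 / 10000)
    (e := 205885 / 100000 - (q + p)) b3 (by norm_num) (by linarith) (by linarith) (by linarith)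
  have l1 := chord2 (a := 88795 / 100000) (b := 95785 / 100000) (x := q) hq0 (by linarith)
  have l2 := chord2 (a := 1101 / 1000) (b := 11709 / 10000) (x := p) hp0 (by linarith)
  have l3 := part2 (w := Qa + Qb) (w0 := 8655 / 100000) (w1 := 1597 / 10000)
    (e := 205885 / 100000 - (q + p)) (by linarith) (by norm_num) s2 (by linarith) (by linarith)
  have l3' := part2 (w := Qb) (w0 := 8655 / 100000) (w1 := 1597 / 10000)
    (e := 205885 / 100000 - (q + p)) b3 (by norm_num) (by linarith) (by linarith) (by linarith)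
  have ha4 : (88795 / 100000 : ℝ) ^ 4 ≤ a ^ 4 := pow_le_pow_left₀ (by norm_num) a1 4
  have ha2 : (88795 / 100000 : ℝ) ^ 2 ≤ a ^ 2 := pow_le_pow_left₀ (by norm_num) a1 2
  norm_num at k1 k2 k3 k3' l1 l2 l3 l3' ha4 ha2
  have O34 : O 34 18 ≤ 12507 / 10000 := by linarith
  have O17 : O 17 18 ≤ 10835 / 10000 := by linarith
  have O34' : O' 34 18 ≤ 6291 / 10000 := by linarith
  have O17' : O' 17 18 ≤ 2951 / 10000 := by linarith
  -- n = 52
  have e4 : (994946 / 1000000 : ℝ) ^ 4 ≤ a' ^ 4 := pow_le_pow_left₀ (by norm_num) c1 4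
  have e2 : (994946 / 1000000 : ℝ) ^ 2 ≤ a' ^ 2 := pow_le_pow_left₀ (by norm_num) c1 2
  have f4 : (994946 / 1000000 : ℝ) ^ 4 ≤ b' ^ 4 := pow_le_pow_left₀ (by norm_num) d1 4
  have f2 : (994946 / 1000000 : ℝ) ^ 2 ≤ b' ^ 2 := pow_le_pow_left₀ (by norm_num) d1 2
  norm_num at e4 e2 f4 f2
  have L34 : 97993 / 100000 ≤ O 34 52 := by linarith
  have L17 : 98991 / 100000 ≤ O 17 52 := by linarith
  -- top data
  obtain ⟨T1, T2, T3, T4, T5, T6, T7, T8⟩ := G.top 34 (by norm_num)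
  obtain ⟨U1, U2, U3, U4, U5, U6, U7, U8⟩ := G.top 17 (by norm_num)
  have m34 : 1 ≤ m 34 := one_le_m (F.top 34 (by norm_num)) (F.ge_one 34 (by norm_num))
  have m17 : 1 ≤ m 17 := one_le_m (F.top 17 (by norm_num)) (F.ge_one 17 (by norm_num))
  have M34 : 1 ≤ m 34 ^ 34 := one_le_pow₀ m34
  have M17 : 1 ≤ m 17 ^ 34 := one_le_pow₀ m17
  have Z34 := T1.2.1 34 (by decide) (by norm_num)
  have Z17 := U1.2.1 34 (by decide) (by norm_num)
  have r34 := T6 18 34 (by decide) (by decide) (by norm_num)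
  have r17 := U6 18 34 (by decide) (by decide) (by norm_num)
  have hp34 : c 34 * m 34 ^ (18 + 34) = c 34 * m 34 ^ 18 * m 34 ^ 34 := by rw [pow_add]; ring
  have hp17 : c 17 * m 17 ^ (18 + 34) = c 17 * m 17 ^ 18 * m 17 ^ 34 := by rw [pow_add]; ring
  rw [hp34] at r34
  rw [hp17] at r17
  have x34 := (T4 18 (by decide)).1
  have x17 := (U4 18 (by decide)).1
  have R34 : O 34 52 ≤ (1 + 925 / 10000) * (c 34 * m 34 ^ 18 * m 34 ^ 34) := by
    refine rat_core (a := 12507 / 10000) (b := 12324 / 10000) (L0 := 97993 / 100000) x34 O34 M34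
      Z34 hz34 (by norm_num) r34 L34 (by norm_num) (by norm_num) quad34
  have R17 : O 17 52 ≤ (1 + 13 / 1000) * (c 17 * m 17 ^ 18 * m 17 ^ 34) := by
    refine rat_core (a := 10835 / 10000) (b := 11161 / 10000) (L0 := 98991 / 100000) x17 O17 M17
      Z17 hz17 (by norm_num) r17 L17 (by norm_num) (by norm_num) (fun u _ _ => quad17 u)
  have q34 : c 34 * m 34 ^ 18 * m 34 ^ 34 = c 34 * m 34 ^ 52 := by
    rw [← hp34]
  have q17 : c 17 * m 17 ^ 18 * m 17 ^ 34 = c 17 * m 17 ^ 52 := by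
    rw [← hp17]
  rw [q34] at R34
  rw [q17] at R17
  have C34 : 0 < c 34 := by
    by_contra hcon
    have h0 : c 34 = 0 := le_antisymm (not_lt.1 hcon) T2
    rw [h0, zero_mul, mul_zero] at R34
    linarith
  have C17 : 0 < c 17 := by
    by_contra hcon
    have h0 : c 17 = 0 := le_antisymm (not_lt.1 hcon) U2
    rw [h0, zero_mul, mul_zero] at R17
    linarith
  have o34 := T7 C34 18 34 (by decide) (by decide) (by norm_num)
  have o17 := U7 C17 18 34 (by decide) (by decide) (by norm_num)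
  have o34' : O' 34 (18 + 34) ≤ 6291 / 10000 * (2324 / 10000) := by
    refine o34.trans (mul_le_mul O34' (by linarith) (by linarith) (by norm_num))
  have o17' : O' 17 (18 + 34) ≤ 2951 / 10000 * (1161 / 10000) := by
    refine o17.trans (mul_le_mul O17' (by linarith) (by linarith) (by norm_num))
  have o34'' : O' 34 52 ≤ 6291 / 10000 * (2324 / 10000) := o34'
  have o17'' : O' 17 52 ≤ 2951 / 10000 * (1161 / 10000) := o17'
  have h34' : (2 * 17 : ℝ) = 34 := by norm_num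
  refine ⟨by decide, by norm_num, by norm_num, by norm_num, by norm_num, by norm_num, by norm_num,
    C17, by rw [h34']; exact C34, ?_, ?_, ?_, ?_, ?_, ?_⟩
  · rw [h34']
    refine pur_core (t := 994946 / 1000000) (r := 85528 / 100000) (b := b') (P := p') (Q := Qb')
      (e := 1674 / 10000) (x0 := 114808 / 1000000) (y1 := 3927 / 10000)
      (x1 := 234758 / 1000000) d1 (by norm_num) d2 d3 (by linarith) (by linarith) (by norm_num)
      (by linarith) (by norm_num) d8 ((sq_nonneg _).trans d6) d9 (by norm_num) (by norm_num)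
      (by norm_num) (by norm_num) (by norm_num) rfl
  · rw [h34']
    refine pur_core (t := 994946 / 1000000) (r := 85528 / 100000) (b := a') (P := q') (Q := Qa')
      (e := 1674 / 10000) (x0 := 114808 / 1000000) (y1 := 3927 / 10000)
      (x1 := 234758 / 1000000) c1 (by norm_num) c2 c3 (by linarith) (by linarith) (by norm_num)
      (by linarith) (by norm_num) c8 ((sq_nonneg _).trans c6) c9 (by norm_num) (by norm_num)
      (by norm_num) (by norm_num) (by norm_num) rfl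
  · rw [h34']; linarith
  · linarith
  · rw [h34']; linarith
  · linarith

end Crest.Agent.R347
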