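import Crest.Agent.R347.RInit

/-!
# Row 347, piece R_INIT_RING (proof described in the header of RInit.lean; `β₀ = 17/2`).
-/

set_option autoImplicit false

open Filter Topology

namespace Crest.Agent.R347

/-- the levels at `β₀`: top level `a ≥ 1`, other symmetric levels `e`, nontrivial levels `Y`. -/
private theorem initRing_core {f fp : ℝ → ℝ} (h : V4Lev f fp) (hge : ∀ β, 0 < β → 1 ≤ f β)
    {b U V : ℝ} (hb : 0 < b) (hU : f b ≤ U) (hV : fp b ≤ V) (hU3 : U < 3) :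
    ∃ a e Y : ℝ, 1 ≤ a ∧ 0 ≤ e ∧ 0 ≤ Y ∧ a + e + 3 * Y ≤ U ∧ a + e - Y ≤ V ∧
      f (2 * b) ≤ a ^ 2 + e ^ 2 + 3 * Y ^ 2 ∧ a ^ 4 ≤ f (4 * b) ∧
      f (4 * b) ≤ (a + e) ^ 4 + 3 * Y ^ 4 := by
  obtain ⟨k, l, x, y, hx, hy, hf⟩ := h
  -- a level `≥ 1`
  have h1 : (∃ i, 1 ≤ x i) ∨ ∃ j, 1 ≤ y j := by
    by_contra hcon
    push Not at hcon
    obtain ⟨hx1, hy1⟩ := hcon
    have hlim : Tendsto (fun β : ℝ => ∑ i, x i ^ β + 3 * ∑ i, y i ^ β) atTop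
        (𝓝 (∑ _i : Fin k, (0 : ℝ) + 3 * ∑ _i : Fin l, (0 : ℝ))) := by
      refine Tendsto.add (tendsto_finsetSum _ fun i _ => ?_)
        (Tendsto.const_mul 3 (tendsto_finsetSum _ fun i _ => ?_))
      · exact tendsto_rpow_atTop_of_base_lt_one _ (by linarith [hx i]) (hx1 i)
      · exact tendsto_rpow_atTop_of_base_lt_one _ (by linarith [hy i]) (hy1 i)
    have h2 : (1 : ℝ) ≤ ∑ _i : Fin k, (0 : ℝ) + 3 * ∑ _i : Fin l, (0 : ℝ) := by
      refine ge_of_tendsto hlim ?_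
      filter_upwards [eventually_gt_atTop (0 : ℝ)] with β hβ
      rw [← (hf β hβ).1]
      exact hge β hβ
    simp at h2
    linarith
  have p2 : ∀ t : ℝ, 0 < t → t ^ (2 * b) = (t ^ b) ^ 2 := by
    intro t ht
    rw [← Real.rpow_natCast, ← Real.rpow_mul ht.le]
    congr 1
    push_cast
    ring
  have p4 : ∀ t : ℝ, 0 < t → t ^ (4 * b) = (t ^ b) ^ 4 := by
    intro t ht
    rw [← Real.rpow_natCast, ← Real.rpow_mul ht.le]
    congr 1
    push_cast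
    ring
  have hxb : ∀ i, 0 < x i ^ b := fun i => Real.rpow_pos_of_pos (hx i) b
  have hyb : ∀ i, 0 < y i ^ b := fun i => Real.rpow_pos_of_pos (hy i) b
  have hX0 : 0 ≤ ∑ i, x i ^ b := Finset.sum_nonneg fun i _ => (hxb i).le
  have hfb := hf b hb
  have h2 : ∃ i, 1 ≤ x i := by
    rcases h1 with h1 | ⟨j, hj⟩
    · exact h1
    · exfalso
      have h3 : 1 ≤ y j ^ b := Real.one_le_rpow hj hb.le
      have h4 : y j ^ b ≤ ∑ i, y i ^ b :=
        Finset.single_le_sum (f := fun i => y i ^ b) (fun i _ => (hyb i).le) (Finset.mem_univ j)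
      linarith [hfb.1]
  obtain ⟨i₀, hi₀⟩ := h2
  have hsplit : x i₀ ^ b + ∑ i ∈ Finset.univ.erase i₀, x i ^ b = ∑ i, x i ^ b :=
    Finset.add_sum_erase _ (fun i => x i ^ b) (Finset.mem_univ i₀)
  refine ⟨x i₀ ^ b, ∑ i ∈ Finset.univ.erase i₀, x i ^ b, ∑ i, y i ^ b,
    Real.one_le_rpow hi₀ hb.le, Finset.sum_nonneg fun i _ => (hxb i).le,
    Finset.sum_nonneg fun i _ => (hyb i).le, ?_, ?_, ?_, ?_, ?_⟩
  · rw [hsplit]
    linarith [hfb.1]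
  · rw [hsplit]
    linarith [hfb.2]
  · rw [(hf (2 * b) (by positivity)).1, ← Finset.add_sum_erase _ _ (Finset.mem_univ i₀),
      p2 _ (hx i₀)]
    have e1 : ∑ i ∈ Finset.univ.erase i₀, x i ^ (2 * b) ≤
        (∑ i ∈ Finset.univ.erase i₀, x i ^ b) ^ 2 := by
      rw [Finset.sum_congr rfl fun i _ => p2 _ (hx i)]
      exact sum_sq_le _ _ fun i _ => (hxb i).le
    have e2 : ∑ i, y i ^ (2 * b) ≤ (∑ i, y i ^ b) ^ 2 := by
      rw [Finset.sum_congr rfl fun i _ => p2 _ (hy i)]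
      exact sum_sq_le _ _ fun i _ => (hyb i).le
    linarith
  · rw [(hf (4 * b) (by positivity)).1, ← Finset.add_sum_erase _ _ (Finset.mem_univ i₀),
      p4 _ (hx i₀)]
    have e1 : 0 ≤ ∑ i ∈ Finset.univ.erase i₀, x i ^ (4 * b) :=
      Finset.sum_nonneg fun i _ => (Real.rpow_pos_of_pos (hx i) _).le
    have e2 : 0 ≤ ∑ i, y i ^ (4 * b) :=
      Finset.sum_nonneg fun i _ => (Real.rpow_pos_of_pos (hy i) _).le
    linarith
  · rw [(hf (4 * b) (by positivity)).1, hsplit]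
    have q4 : ∀ {n : ℕ} (t : Fin n → ℝ), (∀ i, 0 < t i) → ∑ i, t i ^ 4 ≤ (∑ i, t i) ^ 4 := by
      intro n t ht
      have s1 := sum_sq_le Finset.univ (fun i => t i ^ 2) fun i _ => sq_nonneg (t i)
      have s2 := sum_sq_le Finset.univ t fun i _ => (ht i).le
      have s3 : 0 ≤ ∑ i, t i ^ 2 := Finset.sum_nonneg fun i _ => sq_nonneg (t i)
      calc ∑ i, t i ^ 4 = ∑ i, (t i ^ 2) ^ 2 := Finset.sum_congr rfl fun i _ => by ring
        _ ≤ (∑ i, t i ^ 2) ^ 2 := s1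
        _ ≤ ((∑ i, t i) ^ 2) ^ 2 := pow_le_pow_left₀ s3 s2 2
        _ = (∑ i, t i) ^ 4 := by ring
    rw [Finset.sum_congr rfl fun i _ => p4 _ (hx i), Finset.sum_congr rfl fun i _ => p4 _ (hy i)]
    linarith [q4 (fun i => x i ^ b) hxb, q4 (fun i => y i ^ b) hyb]

/-- purity from the excited part `α`. -/
private theorem initRing_pur {a s f2 f4 u α : ℝ} (ha : 1 ≤ a) (hs : s ≤ α) (h0 : 0 ≤ f2)
    (h2 : f2 ≤ a ^ 2 + s) (h4 : a ^ 4 ≤ f4) (hu : 0 ≤ u) (hα : u * (1 + α) ^ 2 ≤ 1) (hα0 : 0 ≤ α) :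
    u * f2 ^ 2 ≤ f4 := by
  have ha2 : 1 ≤ a ^ 2 := one_le_pow₀ ha
  have h5' : α * 1 ≤ α * a ^ 2 := mul_le_mul_of_nonneg_left ha2 hα0
  have h5 : f2 ≤ a ^ 2 * (1 + α) := by linarith
  have h6 : f2 ^ 2 ≤ (a ^ 2 * (1 + α)) ^ 2 := pow_le_pow_left₀ h0 h5 2
  have h7 : u * f2 ^ 2 ≤ u * (a ^ 2 * (1 + α)) ^ 2 := mul_le_mul_of_nonneg_left h6 hu
  have h8 : u * (a ^ 2 * (1 + α)) ^ 2 = a ^ 4 * (u * (1 + α) ^ 2) := by ring
  have h9 : a ^ 4 * (u * (1 + α) ^ 2) ≤ a ^ 4 * 1 :=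
    mul_le_mul_of_nonneg_left hα (by positivity)
  linarith

private theorem initRing_α34 {e Y : ℝ} (he : 0 ≤ e) (hY : 0 ≤ Y) (h1 : e ≤ 53575 / 1000000)
    (h2 : 3 * Y ≤ 1858 / 10000 - e) : e ^ 2 + 3 * Y ^ 2 ≤ 1151 / 100000 := by
  have k2 : (3 * Y) ^ 2 ≤ (1858 / 10000 - e) ^ 2 := pow_le_pow_left₀ (by positivity) h2 2
  have k3 : 0 ≤ e * (53575 / 1000000 - e) := mul_nonneg he (by linarith)
  have k4 : (1858 / 10000 - e) ^ 2 = (1858 / 10000) ^ 2 - 2 * (1858 / 10000) * e + e ^ 2 := by ring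
  have k5 : (3 * Y) ^ 2 = 9 * Y ^ 2 := by ring
  rw [k4, k5] at k2
  have k6 : e ^ 2 ≤ 53575 / 1000000 * e := by linarith
  norm_num at k2
  linarith

private theorem initRing_α68 {e Y : ℝ} (he : 0 ≤ e) (hY : 0 ≤ Y) (h1 : e ≤ 7605 / 100000)
    (h2 : 3 * Y ≤ 3582 / 10000 - e) : e ^ 2 + 3 * Y ^ 2 ≤ 4278 / 100000 := by
  have k2 : (3 * Y) ^ 2 ≤ (3582 / 10000 - e) ^ 2 := pow_le_pow_left₀ (by positivity) h2 2
  have k3 : 0 ≤ e * (7605 / 100000 - e) := mul_nonneg he (by linarith)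
  have k4 : (3582 / 10000 - e) ^ 2 = (3582 / 10000) ^ 2 - 2 * (3582 / 10000) * e + e ^ 2 := by ring
  have k5 : (3 * Y) ^ 2 = 9 * Y ^ 2 := by ring
  rw [k4, k5] at k2
  have k6 : e ^ 2 ≤ 7605 / 100000 * e := by linarith
  norm_num at k2
  linarith

private theorem initRing_z17 {a e Y f : ℝ} (ha : 1 ≤ a) (he : 0 ≤ e) (hY : 0 ≤ Y)
    (h1 : a + e ≤ 1053575 / 1000000) (h2 : 3 * Y ≤ 11858 / 10000 - (a + e))
    (hf : f ≤ a ^ 2 + e ^ 2 + 3 * Y ^ 2) : f ≤ 11161 / 10000 := by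
  have k2 : (3 * Y) ^ 2 ≤ (11858 / 10000 - (a + e)) ^ 2 := pow_le_pow_left₀ (by positivity) h2 2
  have k3 : a ^ 2 + e ^ 2 ≤ (a + e) ^ 2 := by
    have : 0 ≤ a * e := mul_nonneg (by linarith) he
    linarith [show (a + e) ^ 2 = a ^ 2 + e ^ 2 + 2 * (a * e) by ring]
  obtain ⟨t, ht⟩ : ∃ t, t = a + e := ⟨_, rfl⟩
  rw [← ht] at k2 k3 h1
  have ht1 : 1 ≤ t := by rw [ht]; linarith
  have k4 : 0 ≤ (t - 1) * (1053575 / 1000000 - t) := mul_nonneg (by linarith) (by linarith)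
  have k5 : (3 * Y) ^ 2 = 9 * Y ^ 2 := by ring
  have k6 : (11858 / 10000 - t) ^ 2 = (11858 / 10000) ^ 2 - 2 * (11858 / 10000) * t + t ^ 2 := by
    ring
  have k7 : (t - 1) * (1053575 / 1000000 - t) =
    (1 + 1053575 / 1000000) * t - 1053575 / 1000000 - t ^ 2 := by ring
  rw [k5, k6] at k2
  rw [k7] at k4
  norm_num at k2 k4
  linarith

private theorem initRing_z34 {a e Y f : ℝ} (ha : 1 ≤ a) (he : 0 ≤ e) (hY : 0 ≤ Y)
    (h1 : a + e ≤ 1053575 / 1000000) (h2 : Y ≤ 62 / 1000)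
    (hf : f ≤ (a + e) ^ 4 + 3 * Y ^ 4) : f ≤ 12324 / 10000 := by
  have k6 : (a + e) ^ 4 ≤ (1053575 / 1000000) ^ 4 :=
    pow_le_pow_left₀ (by linarith) h1 4
  have k7 : Y ^ 4 ≤ (62 / 1000) ^ 4 := pow_le_pow_left₀ hY h2 4
  norm_num at k6 k7
  linarith

/-- squaring with `TopData` (4) at `L = L' = 34`. -/
private theorem initRing_sq {z : ℕ → ℝ} {m ε ε' : ℝ} (h : TopData z m) (h1 : 1 ≤ m)
    (hz : z 34 ≤ 1 + ε) (hε : ε * ε ≤ ε') : z 68 ≤ (1 + ε') * m ^ 68 := by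
  obtain ⟨_, t1, _, t2⟩ := h
  have ev34 : Even 34 := by decide
  have s1 : m ^ 34 ≤ z 34 := t1 34 ev34 (by norm_num)
  have s2 : z 68 - m ^ 68 ≤ (z 34 - m ^ 34) * (z 34 - m ^ 34) :=
    t2 34 34 ev34 ev34 (by norm_num) (by norm_num)
  have M1 : 1 ≤ m ^ 34 := one_le_pow₀ h1
  have M2 : 1 ≤ m ^ 68 := one_le_pow₀ h1
  have s3 : z 34 - m ^ 34 ≤ ε := by linarith
  have s4 : 0 ≤ z 34 - m ^ 34 := by linarith
  have s5 : (z 34 - m ^ 34) * (z 34 - m ^ 34) ≤ ε * ε := mul_le_mul s3 s3 s4 (s4.trans s3)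
  have hε' : 0 ≤ ε' := (mul_self_nonneg ε).trans hε
  have s6 : ε' * 1 ≤ ε' * m ^ 68 := mul_le_mul_of_nonneg_left M2 hε'
  linarith

theorem init_ring {z zp : ℝ → ℕ → ℝ} {m : ℝ → ℝ} (F : RingFam z m)
    (h34 : V4Lev (fun β => z β 34) (fun β => zp β 34))
    (h68 : V4Lev (fun β => z β 68) (fun β => zp β 68))
    (U34 : z (17 / 2) 34 ≤ 11858 / 10000) (V34 : zp (17 / 2) 34 ≤ 10095 / 10000)
    (U68 : z (17 / 2) 68 ≤ 13582 / 10000) (V68 : zp (17 / 2) 68 ≤ 9820 / 10000) :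
    RingState z m 34 17 (9773 / 10000) (2324 / 10000) (1161 / 10000) ∧
    RingState z m 68 17 (9196 / 10000) (541 / 10000) (135 / 10000) ∧
    z 34 34 ≤ 12324 / 10000 ∧ z 17 34 ≤ 11161 / 10000 := by
  have ev34 : Even 34 := by decide
  have ev68 : Even 68 := by decide
  have hm17 : 1 ≤ m 17 := one_le_m (F.top 17 (by norm_num)) (F.ge_one 17 (by norm_num))
  have hm34 : 1 ≤ m 34 := one_le_m (F.top 34 (by norm_num)) (F.ge_one 34 (by norm_num))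
  have e17 : (2 : ℝ) * (17 / 2) = 17 := by norm_num
  have e34 : (4 : ℝ) * (17 / 2) = 34 := by norm_num
  have e34' : (2 : ℝ) * 17 = 34 := by norm_num
  obtain ⟨a, e, Y, ha, he, hY, c1, c2, c3, c4, c5⟩ := initRing_core h34
    (fun β hβ => F.ge_one β hβ 34 ev34 (by norm_num)) (b := 17 / 2) (by norm_num) U34 V34
    (by norm_num)
  obtain ⟨a', e', Y', ha', he', hY', d1, d2, d3, d4, d5⟩ := initRing_core h68
    (fun β hβ => F.ge_one β hβ 68 ev68 (by norm_num)) (b := 17 / 2) (by norm_num) U68 V68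
    (by norm_num)
  rw [e17] at c3 d3
  rw [e34] at c4 c5 d4 d5
  have g17 : 1 ≤ z 17 34 := F.ge_one 17 (by norm_num) 34 ev34 (by norm_num)
  have g17' : 1 ≤ z 17 68 := F.ge_one 17 (by norm_num) 68 ev68 (by norm_num)
  have g34 : 1 ≤ z 34 34 := F.ge_one 34 (by norm_num) 34 ev34 (by norm_num)
  -- L = 34
  have hα : e ^ 2 + 3 * Y ^ 2 ≤ 1151 / 100000 :=
    initRing_α34 he hY (by linarith) (by linarith)
  have z17 : z 17 34 ≤ 11161 / 10000 := initRing_z17 ha he hY (by linarith) (by linarith) c3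
  have z34 : z 34 34 ≤ 12324 / 10000 := initRing_z34 ha he hY (by linarith) (by linarith) c5
  have p34 : 9773 / 10000 * z 17 34 ^ 2 ≤ z 34 34 :=
    initRing_pur ha hα (by linarith) (by linarith) c4 (by norm_num) (by norm_num) (by norm_num)
  -- L = 68
  have hα' : e' ^ 2 + 3 * Y' ^ 2 ≤ 4278 / 100000 :=
    initRing_α68 he' hY' (by linarith) (by linarith)
  have p68 : 9196 / 10000 * z 17 68 ^ 2 ≤ z 34 68 :=
    initRing_pur ha' hα' (by linarith) (by linarith) d4 (by norm_num) (by norm_num) (by norm_num)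
  have sq17 : z 17 68 ≤ (1 + 135 / 10000) * m 17 ^ 68 :=
    initRing_sq (ε := 1161 / 10000) (F.top 17 (by norm_num)) hm17 (by linarith) (by norm_num)
  have sq34 : z 34 68 ≤ (1 + 541 / 10000) * m 34 ^ 68 :=
    initRing_sq (ε := 2324 / 10000) (F.top 34 (by norm_num)) hm34 (by linarith) (by norm_num)
  have q17 : z 17 34 ≤ (1 + 1161 / 10000) * m 17 ^ 34 := by
    have M17 : 1 ≤ m 17 ^ 34 := one_le_pow₀ hm17
    linarith
  have q34 : z 34 34 ≤ (1 + 2324 / 10000) * m 34 ^ 34 := by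
    have M34 : 1 ≤ m 34 ^ 34 := one_le_pow₀ hm34
    linarith
  refine ⟨⟨ev34, by norm_num, by norm_num, by norm_num, by norm_num, by norm_num, ?_, ?_, ?_⟩,
    ⟨ev68, by norm_num, by norm_num, by norm_num, by norm_num, by norm_num, ?_, ?_, ?_⟩, z34, z17⟩
  · rw [e34']; exact p34
  · rw [e34']; exact q34
  · exact q17
  · rw [e34']; exact p68
  · rw [e34']; exact sq34
  · exact sq17

end Crest.Agent.R347
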