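import Crest.Agent.R347.Abs

/-!
# Row 347, piece R_TOP2: `IsPSO2.exists_top`.

Finite top2_stage: one list `ν` (both sectors), with weights `w` (first sector) and `w'` (second
sector), never both nonzero; `i₀` = index of the largest `|ν i|`, `C = w i₀`.
Then pass to a convergent subsequence of `(M_k, C_k, σ_k)`.
-/

set_option autoImplicit false

open Filter Topology

namespace Crest.Agent.R347

/-- the list of (closed) inequalities -/
private structure Top2Ineqs (Z P P' : ℕ → ℝ) (M C σ : ℝ) : Prop where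
  hM : 0 ≤ M
  hC : 0 ≤ C
  hσ : σ = 1 ∨ σ = -1
  i1 : ∀ L, Even L → 2 ≤ L → M ^ L ≤ Z L
  i2 : ∀ L L', Even L → Even L' → 2 ≤ L → 2 ≤ L' → Z (L + L') ≤ M ^ L * Z L'
  i3 : ∀ L L', Even L → Even L' → 2 ≤ L → 2 ≤ L' →
    Z (L + L') - M ^ (L + L') ≤ (Z L - M ^ L) * (Z L' - M ^ L')
  i4 : ∀ n, Even n → C * M ^ n ≤ P n
  i4' : ∀ n, Even n → 0 ≤ P' n
  i5 : ∀ n L, Even n → Even L → P (n + L) ≤ P n * M ^ L
  i5' : ∀ n L, Even n → Even L → P' (n + L) ≤ P' n * M ^ L
  i6 : ∀ n L, Even n → Even L → 2 ≤ L →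
    P (n + L) - C * M ^ (n + L) ≤ (P n - C * M ^ n) * (Z L - M ^ L)
  i7 : 0 < C → ∀ n L, Even n → Even L → 2 ≤ L → P' (n + L) ≤ P' n * (Z L - M ^ L)
  i8 : ∀ n, Even n → |P (n + 1) - σ * C * M ^ (n + 1)| ≤ M * (P n - C * M ^ n)
  i8' : ∀ n, Even n → |P' (n + 1)| ≤ M * P' n

private theorem top2_sum_mul_le_mul {ι : Type*} (s : Finset ι) (a b : ι → ℝ) (ha : ∀ i ∈ s, 0 ≤ a i)
    (hb : ∀ i ∈ s, 0 ≤ b i) : ∑ i ∈ s, a i * b i ≤ (∑ i ∈ s, a i) * ∑ i ∈ s, b i := by
  rw [Finset.sum_mul]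
  exact Finset.sum_le_sum fun i hi =>
    mul_le_mul_of_nonneg_left (Finset.single_le_sum hb hi) (ha i hi)

private theorem top2_stage {ι : Type} [Fintype ι] (ν w w' : ι → ℝ) (hw : ∀ i, 0 ≤ w i)
    (hw' : ∀ i, 0 ≤ w' i) (hz : ∀ i, w i = 0 ∨ w' i = 0) :
    ∃ M C σ, Top2Ineqs (fun L => ∑ i, ν i ^ L) (fun n => ∑ i, w i * ν i ^ n)
      (fun n => ∑ i, w' i * ν i ^ n) M C σ := by
  classical
  rcases isEmpty_or_nonempty ι with he | hne
  · refine ⟨0, 0, 1, ?_⟩
    constructor <;> simp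
    · intro L _ hL
      have : (0 : ℝ) ^ L = 0 := zero_pow (by omega)
      exact this.le
    · intro L L' _ _ hL hL'
      have h1 : (0 : ℝ) ^ L = 0 := zero_pow (by omega)
      have h2 : (0 : ℝ) ^ (L + L') = 0 := zero_pow (by omega)
      rw [h1, h2]; simp
  · obtain ⟨i₀, -, hmax⟩ := Finset.exists_max_image (Finset.univ : Finset ι) (fun i => |ν i|)
      Finset.univ_nonempty
    have hle : ∀ i, |ν i| ≤ |ν i₀| := fun i => hmax i (Finset.mem_univ i)
    set M := |ν i₀| with hMdef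
    have hM0 : 0 ≤ M := abs_nonneg _
    have hev : ∀ i (n : ℕ), Even n → 0 ≤ ν i ^ n := fun i n hn => hn.pow_nonneg _
    have hMp : ∀ n : ℕ, Even n → ν i₀ ^ n = M ^ n := fun n hn => by rw [hMdef, hn.pow_abs]
    have hlep : ∀ i (n : ℕ), Even n → ν i ^ n ≤ M ^ n := fun i n hn => by
      rw [← hn.pow_abs]; exact pow_le_pow_left₀ (abs_nonneg _) (hle i) n
    obtain ⟨σ, hσ, hσM⟩ : ∃ σ : ℝ, (σ = 1 ∨ σ = -1) ∧ ν i₀ = σ * M := by
      rcases le_total 0 (ν i₀) with h | h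
      · exact ⟨1, Or.inl rfl, by rw [hMdef, abs_of_nonneg h, one_mul]⟩
      · exact ⟨-1, Or.inr rfl, by rw [hMdef, abs_of_nonpos h]; ring⟩
    -- splitting off the top index
    have hsplit : ∀ f : ι → ℝ, ∑ i, f i = f i₀ + ∑ i ∈ Finset.univ.erase i₀, f i := fun f =>
      (Finset.add_sum_erase _ f (Finset.mem_univ i₀)).symm
    have hZrest : ∀ L : ℕ, Even L → ∑ i, ν i ^ L - M ^ L = ∑ i ∈ Finset.univ.erase i₀, ν i ^ L := by
      intro L hL
      rw [hsplit, hMp L hL]; ring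
    have hPrest : ∀ n : ℕ, Even n → ∑ i, w i * ν i ^ n - w i₀ * M ^ n =
        ∑ i ∈ Finset.univ.erase i₀, w i * ν i ^ n := by
      intro n hn
      rw [hsplit, hMp n hn]; ring
    refine ⟨M, w i₀, σ, ?_⟩
    constructor
    · exact hM0
    · exact hw i₀
    · exact hσ
    · intro L hL _
      rw [← hMp L hL]
      exact Finset.single_le_sum (f := fun i => ν i ^ L) (fun i _ => hev i L hL)
        (Finset.mem_univ i₀)
    · intro L L' hL hL' _ _
      rw [Finset.mul_sum]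
      refine Finset.sum_le_sum fun i _ => ?_
      rw [pow_add]
      exact mul_le_mul_of_nonneg_right (hlep i L hL) (hev i L' hL')
    · intro L L' hL hL' _ _
      rw [hZrest _ (hL.add hL'), hZrest L hL, hZrest L' hL']
      simp_rw [pow_add]
      exact top2_sum_mul_le_mul _ _ _ (fun i _ => hev i L hL) (fun i _ => hev i L' hL')
    · intro n hn
      rw [← sub_nonneg, hPrest n hn]
      exact Finset.sum_nonneg fun i _ => mul_nonneg (hw i) (hev i n hn)
    · intro n hn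
      exact Finset.sum_nonneg fun i _ => mul_nonneg (hw' i) (hev i n hn)
    · intro n L hn hL
      rw [Finset.sum_mul]
      refine Finset.sum_le_sum fun i _ => ?_
      rw [pow_add, ← mul_assoc]
      exact mul_le_mul_of_nonneg_left (hlep i L hL) (mul_nonneg (hw i) (hev i n hn))
    · intro n L hn hL
      rw [Finset.sum_mul]
      refine Finset.sum_le_sum fun i _ => ?_
      rw [pow_add, ← mul_assoc]
      exact mul_le_mul_of_nonneg_left (hlep i L hL) (mul_nonneg (hw' i) (hev i n hn))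
    · intro n L hn hL _
      rw [hPrest _ (hn.add hL), hPrest n hn, hZrest L hL]
      simp_rw [pow_add, ← mul_assoc]
      exact top2_sum_mul_le_mul _ _ _ (fun i _ => mul_nonneg (hw i) (hev i n hn))
        (fun i _ => hev i L hL)
    · intro hpos n L hn hL _
      have h0 : w' i₀ = 0 := (hz i₀).resolve_left hpos.ne'
      rw [hZrest L hL, hsplit (fun i => w' i * ν i ^ (n + L)), hsplit (fun i => w' i * ν i ^ n),
        h0, zero_mul, zero_mul, zero_add, zero_add]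
      simp_rw [pow_add, ← mul_assoc]
      exact top2_sum_mul_le_mul _ _ _ (fun i _ => mul_nonneg (hw' i) (hev i n hn))
        (fun i _ => hev i L hL)
    · intro n hn
      rw [hPrest n hn, hsplit (fun i => w i * ν i ^ (n + 1))]
      have e : w i₀ * ν i₀ ^ (n + 1) = σ * w i₀ * M ^ (n + 1) := by
        rw [pow_succ, hMp n hn, hσM, pow_succ]; ring
      rw [e, add_sub_cancel_left, Finset.mul_sum]
      refine (Finset.abs_sum_le_sum_abs _ _).trans (Finset.sum_le_sum fun i _ => ?_)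
      rw [pow_succ, ← mul_assoc, abs_mul, abs_of_nonneg (mul_nonneg (hw i) (hev i n hn)), mul_comm]
      exact mul_le_mul_of_nonneg_right (hle i) (mul_nonneg (hw i) (hev i n hn))
    · intro n hn
      rw [Finset.mul_sum]
      refine (Finset.abs_sum_le_sum_abs _ _).trans (Finset.sum_le_sum fun i _ => ?_)
      rw [pow_succ, ← mul_assoc, abs_mul, abs_of_nonneg (mul_nonneg (hw' i) (hev i n hn)), mul_comm]
      exact mul_le_mul_of_nonneg_right (hle i) (mul_nonneg (hw' i) (hev i n hn))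

theorem IsPSO2.exists_top {z O O' : ℕ → ℝ} (h : IsPSO2 z O O')
    (hz : ∀ L, Even L → 2 ≤ L → 0 < z L) : ∃ m c σ, OTop z O O' m c σ := by
  obtain ⟨κ, κ', μ, c, μ', c', hc, hc', tz, tO, tO'⟩ := h
  -- finite stages
  have hst : ∀ k, ∃ M C σ, Top2Ineqs (fun L => ∑ i, μ k i ^ L + ∑ i, μ' k i ^ L)
      (fun n => ∑ i, c k i * μ k i ^ n) (fun n => ∑ i, c' k i * μ' k i ^ n) M C σ := by
    intro k
    obtain ⟨M, C, σ, H⟩ := top2_stage (ι := Fin (κ k) ⊕ Fin (κ' k)) (Sum.elim (μ k) (μ' k))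
      (Sum.elim (c k) (fun _ => 0)) (Sum.elim (fun _ => 0) (c' k))
      (by rintro (i | i) <;> simp [hc]) (by rintro (i | i) <;> simp [hc'])
      (by rintro (i | i) <;> simp)
    refine ⟨M, C, σ, ?_⟩
    simpa [Fintype.sum_sum_type] using H
  choose M C σ H using hst
  obtain ⟨B, hB⟩ := (tz 2 le_rfl).bddAbove_range
  obtain ⟨B', hB'⟩ := (tO 0).bddAbove_range
  have hB1 : ∀ k, M k ∈ Set.Icc (0 : ℝ) (B + 1) := by
    intro k
    refine ⟨(H k).hM, ?_⟩
    have h1 := (H k).i1 2 (by decide) le_rfl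
    have h2 : ∑ i, μ k i ^ 2 + ∑ i, μ' k i ^ 2 ≤ B := hB ⟨k, rfl⟩
    have h3 := (H k).hM
    nlinarith [sq_nonneg (M k - 1)]
  have hB2 : ∀ k, C k ∈ Set.Icc (0 : ℝ) B' := by
    intro k
    refine ⟨(H k).hC, ?_⟩
    have h1 := (H k).i4 0 (by decide)
    have h2 : ∑ i, c k i * μ k i ^ 0 ≤ B' := hB' ⟨k, rfl⟩
    simp only [pow_zero, mul_one] at h1 h2
    exact h1.trans h2
  have hcomp : IsCompact (Set.Icc (0 : ℝ) (B + 1) ×ˢ (Set.Icc (0 : ℝ) B' ×ˢ ({1, -1} : Set ℝ))) :=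
    isCompact_Icc.prod (isCompact_Icc.prod (Set.toFinite _).isCompact)
  obtain ⟨⟨m, c₀, s⟩, hmem, φ, hφ, hlim⟩ := hcomp.tendsto_subseq
    (x := fun k => (M k, (C k, σ k)))
    (fun k => ⟨hB1 k, hB2 k, by rcases (H k).hσ with h | h <;> simp [h]⟩)
  have hφt := hφ.tendsto_atTop
  have tM : Tendsto (fun k => M (φ k)) atTop (𝓝 m) := by
    have := (continuous_fst.tendsto (m, (c₀, s))).comp hlim
    exact this
  have tC : Tendsto (fun k => C (φ k)) atTop (𝓝 c₀) := by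
    have := ((continuous_fst.comp continuous_snd).tendsto (m, (c₀, s))).comp hlim
    exact this
  have tσ : Tendsto (fun k => σ (φ k)) atTop (𝓝 s) := by
    have := ((continuous_snd.comp continuous_snd).tendsto (m, (c₀, s))).comp hlim
    exact this
  have tz' : ∀ L, 2 ≤ L → Tendsto (fun k => ∑ i, μ (φ k) i ^ L + ∑ i, μ' (φ k) i ^ L) atTop
      (𝓝 (z L)) := fun L hL => (tz L hL).comp hφt
  have tO1 : ∀ n, Tendsto (fun k => ∑ i, c (φ k) i * μ (φ k) i ^ n) atTop (𝓝 (O n)) :=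
    fun n => (tO n).comp hφt
  have tO1' : ∀ n, Tendsto (fun k => ∑ i, c' (φ k) i * μ' (φ k) i ^ n) atTop (𝓝 (O' n)) :=
    fun n => (tO' n).comp hφt
  have hm0 : 0 ≤ m := hmem.1.1
  have hc0 : 0 ≤ c₀ := hmem.2.1.1
  have hs : s = 1 ∨ s = -1 := by simpa using hmem.2.2
  have j2 : ∀ L L', Even L → Even L' → 2 ≤ L → 2 ≤ L' → z (L + L') ≤ m ^ L * z L' := by
    intro L L' hL hL' h2 h2'
    exact le_of_tendsto_of_tendsto' (tz' _ (by omega)) ((tM.pow L).mul (tz' _ h2'))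
      (fun k => (H (φ k)).i2 L L' hL hL' h2 h2')
  have hmpos : 0 < m := by
    rcases hm0.eq_or_lt with h | h
    · have := j2 2 2 (by decide) (by decide) le_rfl le_rfl
      rw [← h] at this
      have h4 := hz 4 (by decide) (by norm_num)
      norm_num at this
      linarith
    · exact h
  refine ⟨m, c₀, s, ⟨hmpos, ?_, j2, ?_⟩, hc0, hs, ?_, ?_, ?_, ?_, ?_⟩
  · intro L hL h2
    exact le_of_tendsto_of_tendsto' (tM.pow L) (tz' _ h2) (fun k => (H (φ k)).i1 L hL h2)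
  · intro L L' hL hL' h2 h2'
    exact le_of_tendsto_of_tendsto' ((tz' _ (by omega)).sub (tM.pow (L + L')))
      (((tz' _ h2).sub (tM.pow L)).mul ((tz' _ h2').sub (tM.pow L')))
      (fun k => (H (φ k)).i3 L L' hL hL' h2 h2')
  · intro n hn
    exact ⟨le_of_tendsto_of_tendsto' (tC.mul (tM.pow n)) (tO1 n) (fun k => (H (φ k)).i4 n hn),
      ge_of_tendsto' (tO1' n) (fun k => (H (φ k)).i4' n hn)⟩
  · intro n L hn hL
    exact ⟨le_of_tendsto_of_tendsto' (tO1 (n + L)) ((tO1 n).mul (tM.pow L))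
        (fun k => (H (φ k)).i5 n L hn hL),
      le_of_tendsto_of_tendsto' (tO1' (n + L)) ((tO1' n).mul (tM.pow L))
        (fun k => (H (φ k)).i5' n L hn hL)⟩
  · intro n L hn hL h2
    exact le_of_tendsto_of_tendsto' ((tO1 (n + L)).sub (tC.mul (tM.pow (n + L))))
      (((tO1 n).sub (tC.mul (tM.pow n))).mul ((tz' _ h2).sub (tM.pow L)))
      (fun k => (H (φ k)).i6 n L hn hL h2)
  · intro hpos n L hn hL h2
    refine le_of_tendsto_of_tendsto (tO1' (n + L))
      ((tO1' n).mul ((tz' _ h2).sub (tM.pow L))) ?_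
    filter_upwards [tC.eventually (lt_mem_nhds hpos)] with k hk
    exact (H (φ k)).i7 hk n L hn hL h2
  · intro n hn
    exact ⟨le_of_tendsto_of_tendsto' ((tO1 (n + 1)).sub ((tσ.mul tC).mul (tM.pow (n + 1)))).abs
        (tM.mul ((tO1 n).sub (tC.mul (tM.pow n)))) (fun k => (H (φ k)).i8 n hn),
      le_of_tendsto_of_tendsto' (tO1' (n + 1)).abs (tM.mul (tO1' n))
        (fun k => (H (φ k)).i8' n hn)⟩

end Crest.Agent.R347
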