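import Crest.Agent.R347.FLower
import Crest.Agent.R347.EBase
import Crest.Agent.R347.ERing
import Crest.Agent.R347.EOpenLow
import Crest.Agent.R347.EOpenUp
import Crest.Agent.R347.ENorm
import Crest.Agent.R347.RInitRing
import Crest.Agent.R347.RInitOpen
import Crest.Agent.R347.RFinal
import Crest.Agent.R347.RFinalRing
import Crest.Agent.R347.MpsOpen
import Crest.Agent.R347.RTop2

/-! # Row 347: assembly -/

set_option autoImplicit false

open Crest.MathPhysics.SpinChain Matrix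

namespace Crest.Agent.R347

/-- the kernel-certified numbers -/
structure AllNum : Prop where
  n6 : Num6
  n7 : Num7
  n8 : Num8
  n9 : Num9
  n10 : Num10
  o2 : NumOpen2
  o3 : NumOpen3
  o4 : NumOpen4
  o5 : NumOpen5
  o6 : NumOpen6
  o7 : NumOpen7
  o8 : NumOpen8

theorem AllNum.tab (h : AllNum) : AllTab where
  t6 := tab6 h.n6
  t7 := tab7 h.n7
  t8 := tab8 h.n8
  t9 := tab9 h.n9
  t10 := tab10 h.n10
  o0 := tabO0 h.o2
  o1 := tabO1 h.o3
  o2 := tabO2 h.o4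
  o3 := tabO3 h.o5
  o4 := tabO4 h.o6
  o5 := tabO5 h.o7
  o6 := tabO6 h.o8

theorem E_open_up (T : AllTab) :
    oR (17 / 2) 18 ≤ 10727 / 10000 ∧ oR (17 / 2) 52 ≤ 12487 / 10000 ∧
    oP (17 / 2) 18 ≤ 98615 / 100000 ∧ oP (17 / 2) 52 ≤ 97595 / 100000 :=
  E_open_up_aux (base_A1 T) (base_PA2 T) T.o0 T.o1 T.o2 T.o3 T.o4 T.o5 T.o6

theorem oR_sub_oI (β : ℝ) (n : ℕ) : oR β n - oI β n = Zo β (3 / 5) (3 / 5) 1 n := by
  unfold oR oI; ring

theorem oR_add_oI (β : ℝ) (n : ℕ) : oR β n + oI β n = Zo β (3 / 5) (-(3 / 5)) 1 n := by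
  unfold oR oI; ring

theorem exists_fam : ∃ m c σ : ℝ → ℝ, RingFam (fun β L => Zs β 1 1 L) m ∧
    OpenFam (fun β L => Zs β 1 1 L) oR oI m c σ := by
  have h : ∀ β : ℝ, ∃ m c σ : ℝ, 0 < β → OTop (fun L => Zs β 1 1 L) (oR β) (oI β) m c σ := by
    intro β
    by_cases hβ : 0 < β
    · obtain ⟨m, c, σ, h⟩ := (isPSO2_Zs β hβ.le).exists_top
        (fun L hL h2 => lt_of_lt_of_le one_pos (Zs_ge_one β hβ L hL h2))
      exact ⟨m, c, σ, fun _ => h⟩
    · exact ⟨0, 0, 0, fun h => absurd h hβ⟩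
  choose m c σ h using h
  refine ⟨m, c, σ, ⟨fun β hβ => (h β hβ).1, fun β hβ L hL h2 => Zs_ge_one β hβ L hL h2,
    fun L _ h2 => ?_⟩, ⟨fun β hβ => h β hβ, fun n => ?_, fun n => ?_⟩⟩
  · exact ring_levels_one L h2
  · obtain ⟨k, x, hk, hx, hz⟩ := open_levels n (3 / 5) (-(3 / 5))
    exact ⟨k, x, hk, hx, fun β hβ => by rw [oR_add_oI]; exact hz β hβ⟩
  · obtain ⟨k, x, hk, hx, hz⟩ := open_levels n (3 / 5) (3 / 5)
    exact ⟨k, x, hk, hx, fun β hβ => by rw [oR_sub_oI]; exact hz β hβ⟩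

theorem ring_states (T : AllTab) {m : ℝ → ℝ} (F : RingFam (fun β L => Zs β 1 1 L) m) :
    RingState (fun β L => Zs β 1 1 L) m 34 17 (9773 / 10000) (2324 / 10000) (1161 / 10000) ∧
    RingState (fun β L => Zs β 1 1 L) m 68 17 (9196 / 10000) (541 / 10000) (135 / 10000) ∧
    Zs 34 1 1 34 ≤ 12324 / 10000 ∧ Zs 17 1 1 34 ≤ 11161 / 10000 := by
  obtain ⟨h1, h2, h3, h4, _⟩ := E_ring T
  exact init_ring (zp := fun β L => Zs β 1 wz L) F (ring_levels 34 (by norm_num))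
    (ring_levels 68 (by norm_num)) h1 h2 h3 h4

theorem zpi68 (T : AllTab) : 8805 / 10000 ≤ Zs (17 / 2) 1 wz 68 := by
  obtain ⟨_, _, h3, _, _⟩ := E_ring T
  have h := v4_lower (ring_levels 68 (by norm_num))
    (fun β hβ => Zs_ge_one β hβ 68 ⟨34, rfl⟩ (by norm_num)) (by norm_num : (0:ℝ) < 17 / 2) h3
    (by norm_num)
  refine le_trans ?_ h
  norm_num

theorem parLev_pp (n : ℕ) (E ℓ : ℝ) (ψ : (Fin (n + 1 + 1) → Fin 3) → ℂ) (hψ : ψ ≠ 0)
    (hpar : (tens wz).mulVec ψ = -ψ)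
    (hE : (star ψ ⬝ᵥ (openH (n + 1) (3 / 5) (3 / 5)).mulVec ψ).re ≤ E * (star ψ ⬝ᵥ ψ).re)
    (hℓ : ℓ = -E + ((n + 2) * eV + 403 / 1000)) :
    ParLev (fun β => oR β n - oI β n) (fun β => -Zo β (3 / 5) (3 / 5) wz n) (Real.exp ℓ) := by
  have h := open_parLev n (3 / 5) (3 / 5) E (-1) (Or.inr rfl) ψ hψ (by rw [hpar]; simp) hE
  rw [hℓ]
  simpa [oR_sub_oI] using h

theorem parLev_pm (n : ℕ) (E ℓ : ℝ) (ψ : (Fin (n + 1 + 1) → Fin 3) → ℂ) (hψ : ψ ≠ 0)
    (hpar : (tens wz).mulVec ψ = ψ)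
    (hE : (star ψ ⬝ᵥ (openH (n + 1) (3 / 5) (-(3 / 5))).mulVec ψ).re ≤ E * (star ψ ⬝ᵥ ψ).re)
    (hℓ : ℓ = -E + ((n + 2) * eV + 403 / 1000)) :
    ParLev (fun β => oR β n + oI β n) (fun β => Zo β (3 / 5) (-(3 / 5)) wz n) (Real.exp ℓ) := by
  have h := open_parLev n (3 / 5) (-(3 / 5)) E 1 (Or.inl rfl) ψ hψ (by rw [hpar]; simp) hE
  rw [hℓ]
  simpa [oR_add_oI] using h

theorem open_state (T : AllTab) {m c σ : ℝ → ℝ} (F : RingFam (fun β L => Zs β 1 1 L) m)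
    (G : OpenFam (fun β L => Zs β 1 1 L) oR oI m c σ) :
    OpenState oR oI m c 52 17 (7315 / 10000) (10925 / 10000) (1013 / 1000) (1640 / 10000)
      (360 / 10000) := by
  obtain ⟨_, _, h3, h4⟩ := ring_states T F
  obtain ⟨w18, w52, p18, p52⟩ := E_open_up T
  obtain ⟨q18, q52⟩ := E_open_low T (zpi68 T)
  obtain ⟨ψa, ha, hpa, hEa⟩ := mps_open20pp
  obtain ⟨ψb, hb, hpb, hEb⟩ := mps_open20pm
  obtain ⟨ψc, hc, hpc, hEc⟩ := mps_open54pp
  obtain ⟨ψd, hd, hpd, hEd⟩ := mps_open54pm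
  refine init_open (Ap := fun β n => Zo β (3 / 5) (3 / 5) wz n)
    (Bp := fun β n => Zo β (3 / 5) (-(3 / 5)) wz n) F G h3 h4 ?_ ?_ ?_ ?_ w18 w52 ?_ ?_ ?_ ?_
  · exact parLev_pp 18 (-276125 / 10000) _ ψa ha hpa hEa (by unfold eV; norm_num)
  · exact parLev_pm 18 (-276378 / 10000) _ ψb hb hpb hEb (by unfold eV; norm_num)
  · exact parLev_pp 52 (-752760 / 10000) _ ψc hc hpc hEc (by unfold eV; norm_num)
  · exact parLev_pm 52 (-752760 / 10000) _ ψd hd hpd hEd (by unfold eV; norm_num)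
  · exact q18
  · exact p18
  · exact q52
  · exact p52

/-- the ring gap -/
theorem ring_gap (N : AllNum) (L : ℕ) (hL : Even L) (h34 : 34 ≤ L) {c : ℝ} (hc : c < 6 / 1000) :
    HasSimpleGroundStateWithGap (heisenbergRing L) c := by
  obtain ⟨m, c', σ, F, G⟩ := exists_fam
  obtain ⟨S34, S68, _, _⟩ := ring_states N.tab F
  obtain ⟨β, e, hβ, he0, he1, hee, h⟩ := ring_final F S34 S68 L hL h34
  obtain ⟨l, rfl⟩ : ∃ l, L = l + 1 := ⟨L - 1, by omega⟩
  rw [ringH_heis]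
  refine gap_of_purity (ringH l 1) (ringH_isHermitian l (by omega)) hβ he0 he1 ?_ ?_
  · refine lt_of_le_of_lt hee (Real.exp_lt_exp.mpr ?_)
    have := mul_lt_mul_of_pos_left hc hβ
    linarith
  · rw [← zRing_one, ← zRing_one]
    simp only [Zs, Nat.add_sub_cancel] at h
    have hX : 0 < Real.exp (β * ((l + 1 : ℕ) : ℝ) * eV) := Real.exp_pos _
    have h2 : Real.exp (2 * β * ((l + 1 : ℕ) : ℝ) * eV) =
        Real.exp (β * ((l + 1 : ℕ) : ℝ) * eV) ^ 2 := by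
      rw [← Real.exp_nat_mul]; congr 1; push_cast; ring
    rw [h2] at h
    have h3 : ((1 + e ^ 2) * (zRing l β 1 1).re ^ 2) * Real.exp (β * ((l + 1 : ℕ) : ℝ) * eV) ^ 2 ≤
        ((1 + e) ^ 2 * (zRing l (2 * β) 1 1).re) * Real.exp (β * ((l + 1 : ℕ) : ℝ) * eV) ^ 2 := by
      calc _ = (1 + e ^ 2) * ((zRing l β 1 1).re * Real.exp (β * ((l + 1 : ℕ) : ℝ) * eV)) ^ 2 := by
            ring
        _ ≤ _ := h
        _ = _ := by ring
    exact le_of_mul_le_mul_right h3 (by positivity)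

/-- the open-chain gap -/
theorem open_gap (N : AllNum) (L : ℕ) (hL : 540 ≤ L) {c : ℝ} (hc : c < 6 / 1000) :
    HasSimpleGroundStateWithGap (openChainEndField (2 * L) (3 / 5)) c := by
  obtain ⟨m, c', σ, F, G⟩ := exists_fam
  obtain ⟨S34, S68, _, _⟩ := ring_states N.tab F
  obtain ⟨β, e, hβ, he0, he1, hee, h⟩ := open_final F G S68 (open_state N.tab F G) (2 * L - 2)
    ⟨L - 1, by omega⟩ (by omega)
  rw [openH_heis]
  refine gap_of_purity (openH (2 * L) (3 / 5) (3 / 5)) (openH_isHermitian _ _ _) hβ he0 he1 ?_ ?_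
  · refine lt_of_le_of_lt hee (Real.exp_lt_exp.mpr ?_)
    have := mul_lt_mul_of_pos_left hc hβ
    linarith
  · rw [← zOpen_one, ← zOpen_one]
    rw [oR_sub_oI, oR_sub_oI] at h
    have hn : 2 * L - 2 + 1 + 1 = 2 * L := by omega
    simp only [Zo, hn] at h
    set a : ℝ := (((2 * L - 2 + 1 : ℕ) : ℝ) + 2) * eV + 403 / 1000 with ha
    have hX : 0 < Real.exp (β * a) := Real.exp_pos _
    have h2 : Real.exp (2 * β * a) = Real.exp (β * a) ^ 2 := by
      rw [← Real.exp_nat_mul]; congr 1; push_cast; ring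
    rw [h2] at h
    have h3 : ((1 + e ^ 2) * (zOpen (2 * L) β (3 / 5) (3 / 5) 1).re ^ 2) * Real.exp (β * a) ^ 2 ≤
        ((1 + e) ^ 2 * (zOpen (2 * L) (2 * β) (3 / 5) (3 / 5) 1).re) * Real.exp (β * a) ^ 2 := by
      calc _ = (1 + e ^ 2) * ((zOpen (2 * L) β (3 / 5) (3 / 5) 1).re * Real.exp (β * a)) ^ 2 := by
            ring
        _ ≤ _ := h
        _ = _ := by ring
    exact le_of_mul_le_mul_right h3 (by positivity)

theorem num1 : 4 / 105 * Real.log (80 / 79) < 6 / 1000 := by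
  have h : Real.log (80 / 79) ≤ 80 / 79 - 1 := Real.log_le_sub_one_of_pos (by norm_num)
  nlinarith [h]

theorem num2 : Real.log 20 / 784 < 6 / 1000 := by
  have h : Real.log 20 ≤ 20 / 8 - 1 + 3 * Real.log 2 := by
    have h1 : Real.log 20 = Real.log (20 / 8) + 3 * Real.log 2 := by
      rw [show (20:ℝ) = (20 / 8) * 2 ^ 3 by norm_num, Real.log_mul (by norm_num) (by norm_num),
        Real.log_pow]
      norm_num
    rw [h1]
    have := Real.log_le_sub_one_of_pos (by norm_num : (0:ℝ) < 20 / 8)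
    linarith
  have := Real.log_two_lt_d9
  rw [div_lt_iff₀ (by norm_num)]
  linarith

theorem num3 : Real.log 10 / 392 < 6 / 1000 := by
  have h1 : Real.log 10 = Real.log (10 / 8) + 3 * Real.log 2 := by
    rw [show (10:ℝ) = (10 / 8) * 2 ^ 3 by norm_num, Real.log_mul (by norm_num) (by norm_num),
      Real.log_pow]
    norm_num
  have h2 := Real.log_le_sub_one_of_pos (by norm_num : (0:ℝ) < 10 / 8)
  have := Real.log_two_lt_d9
  rw [div_lt_iff₀ (by norm_num), h1]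
  linarith

theorem final_ring (N : AllNum) :
    (∀ L : ℕ, Even L → 60 ≤ L →
      HasSimpleGroundStateWithGap (heisenbergRing L) (4 / 105 * Real.log (80 / 79))) ∧
    (∀ L : ℕ, Even L → 2304 ≤ L →
      HasSimpleGroundStateWithGap (heisenbergRing L) (Real.log 20 / 784)) :=
  ⟨fun L hL h => ring_gap N L hL (by omega) num1, fun L hL h => ring_gap N L hL (by omega) num2⟩

theorem final_open (N : AllNum) (L : ℕ) (hL : 960 ≤ L) :
    HasSimpleGroundStateWithGap (openChainEndField (2 * L) (3 / 5)) (Real.log 10 / 392) :=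
  open_gap N L (by omega) num3

end Crest.Agent.R347
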