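import Crest.Agent.R347.Abs

/-!
# Row 347, piece R_PURITY (elementary, ~1 h)

`purity_double`: `S₁ = Σ x^β`, `S₂ = Σ x^(2β)`, `S₄ = Σ x^(4β)` for positive `x_i`. With `a_i = x_i^β`,
`S₂ = Σ a², S₄ = Σ a⁴`. Hypothesis `s S₁² ≤ S₂` and `(1+e²) ≤ s (1+e)²`, `0<e<1`. Let `a₀ = max a_i`, `A = S₁ - a₀`.
`S₂ ≤ a₀ S₁` gives `a₀ ≥ s S₁ > S₁/2` (`s ≥ (1+e²)/(1+e)² > 1/2`), so `A < a₀`. `S₂ ≤ a₀² + A²`, so with `y = A/a₀ < 1`:
`(1+y²)/(1+y)² ≥ s ≥ (1+e²)/(1+e)²`, the function is decreasing on [0,1], hence `y ≤ e`, i.e. `A ≤ e a₀`. Then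
`S₂ ≤ a₀² + A² ≤ (1+e²) a₀²`.  For `purity_double` (with the `e⁴` term, `e ≤ 7/10`): scale `a₀ = 1`, `A ≤ e`,
`S = Σ_{i≠0} a_i² ≤ A² ≤ e²`, `Q = Σ_{i≠0} a_i⁴ ≥ S³/A² ≥ S³/e²` (Hölder; or Cauchy twice: `S² ≤ A·Σa³`, `(Σa³)² ≤ S·Q`, so `S³ ≤ A² Q`);
`h(S) = (1+S³/e²)(1+e²)² - (1+e⁴)(1+S)²` is decreasing on `[0,e²]` (`h' ≤ 3S(1+e²)² - 2(1+S)(1+e⁴) < 0`) and `h(e²) = 0`.

`top_double`: the same for `TopData`: `z (L+L) ≤ m^L z L` gives `m^L ≥ s z L`, `z(2L) - m^{2L} ≤ (z L - m^L)²`.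

`ge_of_pow`, `m_le_sq`: `m₂ ≤ m₁²` if `z₂ L ≤ (z₁ L)²` for all even `L ≥ 2` (compare growth rates along `kL`).
-/

set_option autoImplicit false

namespace Crest.Agent.R347

/-- `f(e) = (1+e²)/(1+e)²` is decreasing on `[0,1]`: key comparison. -/
theorem ratio_le {y e : ℝ} (hy0 : 0 ≤ y) (hy1 : y ≤ 1) (he0 : 0 ≤ e) (he1 : e ≤ 1)
    (h : (1 + e ^ 2) * (1 + y) ^ 2 ≤ (1 + y ^ 2) * (1 + e) ^ 2) : y ≤ e := by
  by_contra hcon
  push Not at hcon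
  have h1 : 0 < y - e := by linarith
  have h2 : e * y ≤ e := by nlinarith
  have h3 : 0 < 1 - e * y := by linarith
  have h4 := mul_pos h1 h3
  nlinarith

/-- the common core: top `M`, excited part `A`. -/
theorem core_le {M A s e : ℝ} (hM : 0 < M) (hA : 0 ≤ A) (h1 : s * (M + A) ≤ M)
    (h2 : s * (M + A) ^ 2 ≤ M ^ 2 + A ^ 2) (he0 : 0 < e) (he1 : e < 1)
    (hf : 1 + e ^ 2 ≤ s * (1 + e) ^ 2) : A ≤ e * M := by
  have hs : 1 / 2 < s := by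
    by_contra hcon
    push Not at hcon
    nlinarith [mul_le_mul_of_nonneg_right hcon (sq_nonneg (1 + e)), mul_pos (sub_pos.2 he1) (sub_pos.2 he1)]
  have hAM : A < M := by nlinarith
  have hy0 : 0 ≤ A / M := div_nonneg hA hM.le
  have hy1 : A / M ≤ 1 := (div_le_one hM).2 hAM.le
  have h3 : s * (1 + A / M) ^ 2 ≤ 1 + (A / M) ^ 2 := by
    have e1 : 1 + A / M = (M + A) / M := by field_simp
    have e2 : 1 + (A / M) ^ 2 = (M ^ 2 + A ^ 2) / M ^ 2 := by field_simp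
    rw [e1, e2, div_pow, ← mul_div_assoc]
    exact div_le_div_of_nonneg_right h2 (by positivity)
  have h4 : A / M ≤ e := by
    apply ratio_le hy0 hy1 he0.le he1.le
    have h5 : (1 + e ^ 2) * (1 + A / M) ^ 2 ≤ s * (1 + e) ^ 2 * (1 + A / M) ^ 2 :=
      mul_le_mul_of_nonneg_right hf (sq_nonneg _)
    have h6 : s * (1 + A / M) ^ 2 * (1 + e) ^ 2 ≤ (1 + (A / M) ^ 2) * (1 + e) ^ 2 :=
      mul_le_mul_of_nonneg_right h3 (sq_nonneg _)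
    calc _ ≤ s * (1 + e) ^ 2 * (1 + A / M) ^ 2 := h5
      _ = s * (1 + A / M) ^ 2 * (1 + e) ^ 2 := by ring
      _ ≤ _ := h6
  rwa [div_le_iff₀ hM] at h4

theorem poly_ineq {q t R : ℝ} (hq0 : 0 < q) (hq1 : q ≤ 49 / 100) (ht0 : 0 ≤ t) (htq : t ≤ q)
    (htR : t ^ 3 ≤ q * R) :
    q * ((1 + q ^ 2) * (1 + t) ^ 2) ≤ q * ((1 + q) ^ 2 * (1 + R)) := by
  have hG : 0 ≤ 2 * q - 2 * q ^ 2 * t - (1 + q) ^ 2 * t ^ 2 := by
    have h5 : t ^ 2 ≤ q * q := by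
      rw [pow_two]
      exact mul_le_mul htq htq ht0 hq0.le
    have h6 : (1 + q) ^ 2 * t ^ 2 ≤ (1 + q) ^ 2 * (q * q) :=
      mul_le_mul_of_nonneg_left h5 (sq_nonneg _)
    have h7 : 2 * q ^ 2 * t ≤ 2 * q ^ 2 * q := mul_le_mul_of_nonneg_left htq (by positivity)
    have h8 : 0 ≤ q * (2 - q - 4 * q ^ 2 - q ^ 3) := by
      apply mul_nonneg hq0.le
      have h9 : q ^ 2 ≤ (49 / 100) ^ 2 := pow_le_pow_left₀ hq0.le hq1 2
      have h10 : q ^ 3 ≤ (49 / 100) ^ 3 := pow_le_pow_left₀ hq0.le hq1 3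
      norm_num at h9 h10
      linarith
    have h9 : q * (2 - q - 4 * q ^ 2 - q ^ 3) =
        2 * q - 2 * q ^ 2 * q - (1 + q) ^ 2 * (q * q) := by ring
    linarith
  have h5 : q * ((1 + q ^ 2) * (1 + t) ^ 2) ≤ (1 + q) ^ 2 * (q + t ^ 3) := by
    have h6 := mul_nonneg (sub_nonneg.2 htq) hG
    have h7 : (1 + q) ^ 2 * (q + t ^ 3) - q * ((1 + q ^ 2) * (1 + t) ^ 2) =
        (q - t) * (2 * q - 2 * q ^ 2 * t - (1 + q) ^ 2 * t ^ 2) := by ring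
    linarith
  have h7 : (1 + q) ^ 2 * (q + t ^ 3) ≤ (1 + q) ^ 2 * (q + q * R) :=
    mul_le_mul_of_nonneg_left (by linarith) (sq_nonneg _)
  calc _ ≤ (1 + q) ^ 2 * (q + t ^ 3) := h5
    _ ≤ (1 + q) ^ 2 * (q + q * R) := h7
    _ = _ := by ring

/-- sum of squares of nonnegative numbers. -/
theorem sum_sq_le {ι : Type*} (t : Finset ι) (a : ι → ℝ) (ha : ∀ i ∈ t, 0 ≤ a i) :
    (∑ i ∈ t, a i ^ 2) ≤ (∑ i ∈ t, a i) ^ 2 := by
  rw [pow_two (∑ i ∈ t, a i), Finset.sum_mul]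
  refine Finset.sum_le_sum fun i hi => ?_
  rw [pow_two]
  exact mul_le_mul_of_nonneg_left (Finset.single_le_sum ha hi) (ha i hi)

theorem exists_top' {k : ℕ} (a : Fin k → ℝ) (ha : ∀ i, 0 < a i) (hk : 0 < k) {s e : ℝ}
    (he0 : 0 < e) (he1 : e < 1) (hs : s * (∑ i, a i) ^ 2 ≤ ∑ i, a i ^ 2)
    (hf : 1 + e ^ 2 ≤ s * (1 + e) ^ 2) :
    ∃ i₀, ∑ i ∈ Finset.univ.erase i₀, a i ≤ e * a i₀ := by
  have : Nonempty (Fin k) := ⟨⟨0, hk⟩⟩
  obtain ⟨i₀, -, hmax⟩ := Finset.exists_max_image Finset.univ a Finset.univ_nonempty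
  refine ⟨i₀, ?_⟩
  set A := ∑ i ∈ Finset.univ.erase i₀, a i with hA
  have hA0 : 0 ≤ A := Finset.sum_nonneg fun i _ => (ha i).le
  have hS1 : ∑ i, a i = a i₀ + A := (Finset.add_sum_erase _ _ (Finset.mem_univ i₀)).symm
  have hS2 : ∑ i, a i ^ 2 ≤ a i₀ ^ 2 + A ^ 2 := by
    rw [← Finset.add_sum_erase _ _ (Finset.mem_univ i₀)]
    have := sum_sq_le (Finset.univ.erase i₀) a fun i _ => (ha i).le
    linarith
  have hS3 : ∑ i, a i ^ 2 ≤ a i₀ * ∑ i, a i := by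
    rw [Finset.mul_sum]
    refine Finset.sum_le_sum fun i _ => ?_
    rw [pow_two]
    exact mul_le_mul_of_nonneg_right (hmax i (Finset.mem_univ i)) (ha i).le
  have hpos : 0 < a i₀ + A := by linarith [ha i₀]
  rw [hS1] at hs hS3
  refine core_le (ha i₀) hA0 ?_ (hs.trans hS2) he0 he1 hf
  have h1 : s * (a i₀ + A) ^ 2 ≤ a i₀ * (a i₀ + A) := hs.trans hS3
  have h2 : (s * (a i₀ + A)) * (a i₀ + A) ≤ a i₀ * (a i₀ + A) := by
    calc _ = s * (a i₀ + A) ^ 2 := by ring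
      _ ≤ _ := h1
  exact le_of_mul_le_mul_right h2 hpos

/-- share form: excited part `≤ e ×` top. -/
theorem exists_top {k : ℕ} (a : Fin k → ℝ) (ha : ∀ i, 0 < a i) (hk : 0 < k) {s e : ℝ}
    (he0 : 0 < e) (he1 : e < 1) (hs : s * (∑ i, a i) ^ 2 ≤ ∑ i, a i ^ 2)
    (hf : 1 + e ^ 2 ≤ s * (1 + e) ^ 2) :
    ∃ i₀, (∑ i, a i) ≤ (1 + e) * a i₀ ∧ (∑ i, a i ^ 2) ≤ (1 + e ^ 2) * a i₀ ^ 2 := by
  obtain ⟨i₀, hi⟩ := exists_top' a ha hk he0 he1 hs hf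
  refine ⟨i₀, ?_, ?_⟩
  · rw [← Finset.add_sum_erase _ _ (Finset.mem_univ i₀)]
    linarith
  · rw [← Finset.add_sum_erase _ _ (Finset.mem_univ i₀)]
    have h1 := sum_sq_le (Finset.univ.erase i₀) a fun i _ => (ha i).le
    have h0 : 0 ≤ ∑ i ∈ Finset.univ.erase i₀, a i := Finset.sum_nonneg fun i _ => (ha i).le
    have h2 : (∑ i ∈ Finset.univ.erase i₀, a i) ^ 2 ≤ (e * a i₀) ^ 2 :=
      pow_le_pow_left₀ h0 hi 2
    nlinarith

theorem purity_double {k : ℕ} (x : Fin k → ℝ) (hx : ∀ i, 0 < x i) (β : ℝ) {s e : ℝ}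
    (he0 : 0 < e) (he1 : e ≤ 7 / 10) (hs : s * (∑ i, (x i) ^ β) ^ 2 ≤ ∑ i, (x i) ^ (2 * β))
    (hf : 1 + e ^ 2 ≤ s * (1 + e) ^ 2) :
    (1 + e ^ 4) * (∑ i, (x i) ^ (2 * β)) ^ 2 ≤ (1 + e ^ 2) ^ 2 * ∑ i, (x i) ^ (4 * β) := by
  have r2 : ∀ i, (x i) ^ (2 * β) = ((x i) ^ β) ^ 2 := by
    intro i
    rw [← Real.rpow_natCast, ← Real.rpow_mul (hx i).le]
    congr 1
    push_cast
    ring
  have r4 : ∀ i, (x i) ^ (4 * β) = ((x i) ^ β) ^ 4 := by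
    intro i
    rw [← Real.rpow_natCast, ← Real.rpow_mul (hx i).le]
    congr 1
    push_cast
    ring
  simp only [r2, r4] at hs ⊢
  rcases Nat.eq_zero_or_pos k with hk | hk
  · subst hk
    simp
  set a : Fin k → ℝ := fun i => (x i) ^ β with ha'
  have ha : ∀ i, 0 < a i := fun i => Real.rpow_pos_of_pos (hx i) β
  obtain ⟨i₀, hA⟩ := exists_top' a ha hk he0 (by linarith) hs hf
  set E := Finset.univ.erase i₀ with hE
  set A := ∑ i ∈ E, a i with hAdef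
  set S := ∑ i ∈ E, a i ^ 2 with hSdef
  set C := ∑ i ∈ E, a i ^ 3 with hCdef
  set Q := ∑ i ∈ E, a i ^ 4 with hQdef
  have hA0 : 0 ≤ A := Finset.sum_nonneg fun i _ => (ha i).le
  have hS0 : 0 ≤ S := Finset.sum_nonneg fun i _ => by positivity
  have hC0 : 0 ≤ C := Finset.sum_nonneg fun i _ => pow_nonneg (ha i).le 3
  have hQ0 : 0 ≤ Q := Finset.sum_nonneg fun i _ => by positivity
  have hSA : S ≤ A ^ 2 := sum_sq_le E a fun i _ => (ha i).le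
  -- Cauchy twice
  have hc1 : S ^ 2 ≤ A * C := by
    refine Finset.sum_sq_le_sum_mul_sum_of_sq_le_mul E (fun i _ => (ha i).le)
      (fun i _ => pow_nonneg (ha i).le 3) fun i _ => le_of_eq (by ring)
  have hc2 : C ^ 2 ≤ S * Q := by
    refine Finset.sum_sq_le_sum_mul_sum_of_sq_le_mul E (fun i _ => by positivity)
      (fun i _ => by positivity) fun i _ => le_of_eq (by ring)
  have hSQ : S ^ 3 ≤ A ^ 2 * Q := by
    rcases eq_or_lt_of_le hS0 with h0 | h0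
    · rw [← h0]
      have : (0 : ℝ) ^ 3 = 0 := by norm_num
      rw [this]
      positivity
    · have h3 : S * S ^ 3 ≤ S * (A ^ 2 * Q) := by
        calc S * S ^ 3 = (S ^ 2) ^ 2 := by ring
          _ ≤ (A * C) ^ 2 := pow_le_pow_left₀ (by positivity) hc1 2
          _ = A ^ 2 * C ^ 2 := by ring
          _ ≤ A ^ 2 * (S * Q) := mul_le_mul_of_nonneg_left hc2 (by positivity)
          _ = S * (A ^ 2 * Q) := by ring
      exact le_of_mul_le_mul_left h3 h0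
  -- scaling
  have ha0 : 0 < a i₀ := ha i₀
  set q := e ^ 2 with hq
  have hq0 : 0 < q := by positivity
  have hq1 : q ≤ 49 / 100 := by rw [hq]; nlinarith
  set t := S / a i₀ ^ 2 with ht
  set R := Q / a i₀ ^ 4 with hR
  have ht0 : 0 ≤ t := by positivity
  have hSt : S = t * a i₀ ^ 2 := by rw [ht]; field_simp
  have hQR : Q = R * a i₀ ^ 4 := by rw [hR]; field_simp
  have hA2 : A ^ 2 ≤ q * a i₀ ^ 2 := by
    calc A ^ 2 ≤ (e * a i₀) ^ 2 := pow_le_pow_left₀ hA0 hA 2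
      _ = q * a i₀ ^ 2 := by rw [hq]; ring
  have htq : t ≤ q := by
    rw [ht, div_le_iff₀ (by positivity)]
    linarith
  have htR : t ^ 3 ≤ q * R := by
    have h3 : S ^ 3 ≤ q * a i₀ ^ 2 * Q := hSQ.trans (mul_le_mul_of_nonneg_right hA2 hQ0)
    rw [hSt, hQR] at h3
    have h4 : t ^ 3 * a i₀ ^ 6 ≤ (q * R) * a i₀ ^ 6 := by
      calc t ^ 3 * a i₀ ^ 6 = (t * a i₀ ^ 2) ^ 3 := by ring
        _ ≤ q * a i₀ ^ 2 * (R * a i₀ ^ 4) := h3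
        _ = _ := by ring
    exact le_of_mul_le_mul_right h4 (by positivity)
  have hF : q * ((1 + q ^ 2) * (1 + t) ^ 2) ≤ q * ((1 + q) ^ 2 * (1 + R)) :=
    poly_ineq hq0 hq1 ht0 htq htR
  have hF' := le_of_mul_le_mul_left hF hq0
  have e4 : e ^ 4 = q ^ 2 := by rw [hq]; ring
  rw [← Finset.add_sum_erase _ _ (Finset.mem_univ i₀),
    ← Finset.add_sum_erase (Finset.univ) (fun i => a i ^ 4) (Finset.mem_univ i₀)]
  change (1 + e ^ 4) * (a i₀ ^ 2 + S) ^ 2 ≤ (1 + q) ^ 2 * (a i₀ ^ 4 + Q)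
  rw [e4, hSt, hQR]
  calc (1 + q ^ 2) * (a i₀ ^ 2 + t * a i₀ ^ 2) ^ 2
      = ((1 + q ^ 2) * (1 + t) ^ 2) * a i₀ ^ 4 := by ring
    _ ≤ ((1 + q) ^ 2 * (1 + R)) * a i₀ ^ 4 := mul_le_mul_of_nonneg_right hF' (by positivity)
    _ = _ := by ring

/-- trivial bound `Σ a² ≤ (Σ a)²` in rpow form -/
theorem levels_sq_le {k : ℕ} (x : Fin k → ℝ) (hx : ∀ i, 0 < x i) (β : ℝ) :
    (∑ i, (x i) ^ (2 * β)) ≤ (∑ i, (x i) ^ β) ^ 2 := by
  have r2 : ∀ i, (x i) ^ (2 * β) = ((x i) ^ β) ^ 2 := by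
    intro i
    rw [← Real.rpow_natCast, ← Real.rpow_mul (hx i).le]
    congr 1
    push_cast
    ring
  simp only [r2]
  exact sum_sq_le _ _ fun i _ => (Real.rpow_pos_of_pos (hx i) β).le

theorem top_double {z : ℕ → ℝ} {m : ℝ} (h : TopData z m) {L : ℕ} (hL : Even L) (h2 : 2 ≤ L)
    {s e : ℝ} (he0 : 0 < e) (he1 : e < 1) (hs : s * z L ^ 2 ≤ z (2 * L))
    (hf : 1 + e ^ 2 ≤ s * (1 + e) ^ 2) :
    z L ≤ (1 + e) * m ^ L ∧ z (2 * L) ≤ (1 + e ^ 2) * m ^ (2 * L) := by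
  obtain ⟨hm, hlow, hmul, hexc⟩ := h
  have hM : 0 < m ^ L := pow_pos hm L
  have h3 := hmul L L hL hL h2 h2
  have h4 := hexc L L hL hL h2 h2
  rw [← two_mul, ] at h3 h4
  have hzM := hlow L hL h2
  have hz : 0 < z L := lt_of_lt_of_le hM hzM
  have e1 : m ^ (2 * L) = (m ^ L) ^ 2 := by rw [mul_comm, pow_mul]
  rw [e1] at h4 ⊢
  have hA : z L - m ^ L ≤ e * m ^ L := by
    refine core_le hM (by linarith) ?_ ?_ he0 he1 hf
    · have h5 : (s * z L) * z L ≤ m ^ L * z L := by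
        calc _ = s * z L ^ 2 := by ring
          _ ≤ z (2 * L) := hs
          _ ≤ _ := h3
      have := le_of_mul_le_mul_right h5 hz
      rwa [add_sub_cancel]
    · rw [add_sub_cancel]
      nlinarith
  refine ⟨by linarith, ?_⟩
  have hA0 : 0 ≤ z L - m ^ L := by linarith
  have h6 : (z L - m ^ L) ^ 2 ≤ (e * m ^ L) ^ 2 := pow_le_pow_left₀ hA0 hA 2
  nlinarith

theorem ge_of_pow {a b K : ℝ} (hb : 0 < b) (ha : 0 < a)
    (h : ∀ j : ℕ, 1 ≤ j → a ^ (2 * j) ≤ K * b ^ (2 * j)) : a ≤ b := by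
  by_contra hcon
  push Not at hcon
  have h1 : 1 < (a / b) ^ 2 := by
    have : 1 < a / b := (one_lt_div hb).2 hcon
    exact one_lt_pow₀ this (by norm_num)
  obtain ⟨n, hn⟩ := pow_unbounded_of_one_lt K h1
  have h2 : K < ((a / b) ^ 2) ^ (n + 1) :=
    hn.trans_le (pow_le_pow_right₀ h1.le (Nat.le_succ n))
  have h3 := h (n + 1) (by omega)
  have h4 : ((a / b) ^ 2) ^ (n + 1) ≤ K := by
    rw [← pow_mul, div_pow, div_le_iff₀ (by positivity)]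
    exact h3
  linarith

theorem m_le_sq {z₁ z₂ : ℕ → ℝ} {m₁ m₂ : ℝ} (h1 : TopData z₁ m₁) (h2 : TopData z₂ m₂)
    (h : ∀ L, Even L → 2 ≤ L → z₂ L ≤ z₁ L ^ 2) : m₂ ≤ m₁ ^ 2 := by
  obtain ⟨hm1, hlow1, hmul1, -⟩ := h1
  obtain ⟨hm2, hlow2, -, -⟩ := h2
  refine ge_of_pow (K := z₁ 2 ^ 2 / m₂ ^ 2) (by positivity) hm2 fun j hj => ?_
  have hev : Even (2 * j) := even_two_mul j
  have hev2 : Even (2 * j + 2) := hev.add even_two
  have h3 := hlow2 (2 * j + 2) hev2 (by omega)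
  have h4 := h (2 * j + 2) hev2 (by omega)
  have h5 := hmul1 (2 * j) 2 hev even_two (by omega) le_rfl
  have h6 : 0 < z₁ (2 * j + 2) := lt_of_lt_of_le (pow_pos hm1 _) (hlow1 _ hev2 (by omega))
  have h7 : m₂ ^ (2 * j) * m₂ ^ 2 ≤ (m₁ ^ (2 * j) * z₁ 2) ^ 2 := by
    rw [← pow_add]
    exact (h3.trans h4).trans (pow_le_pow_left₀ h6.le h5 2)
  rw [div_mul_eq_mul_div, le_div_iff₀ (by positivity)]
  calc _ ≤ (m₁ ^ (2 * j) * z₁ 2) ^ 2 := h7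
    _ = _ := by ring

/-- `z L ≥ 1` for all even `L` forces `m ≥ 1` -/
theorem one_le_m {z : ℕ → ℝ} {m : ℝ} (h : TopData z m) (h1 : ∀ L, Even L → 2 ≤ L → 1 ≤ z L) :
    1 ≤ m := by
  obtain ⟨hm, -, hmul, -⟩ := h
  refine ge_of_pow (K := z 2) hm one_pos fun j hj => ?_
  have hev : Even (2 * j) := even_two_mul j
  have h3 := hmul (2 * j) 2 hev even_two (by omega) le_rfl
  have h4 := h1 (2 * j + 2) (hev.add even_two) (by omega)
  rw [one_pow]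
  linarith

theorem TopData.le_of {z : ℕ → ℝ} {m m' : ℝ} (h : TopData z m) (h' : TopData z m') :
    m ≤ m' := by
  obtain ⟨hm, hlow, -, -⟩ := h
  obtain ⟨hm', -, hmul', -⟩ := h'
  refine ge_of_pow (K := z 2 / m ^ 2) hm' hm fun j hj => ?_
  have hev : Even (2 * j) := even_two_mul j
  have h3 := hmul' (2 * j) 2 hev even_two (by omega) le_rfl
  have h4 := hlow (2 * j + 2) (hev.add even_two) (by omega)
  rw [div_mul_eq_mul_div, le_div_iff₀ (by positivity), ← pow_add]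
  linarith

theorem TopData.unique {z : ℕ → ℝ} {m m' : ℝ} (h : TopData z m) (h' : TopData z m') : m = m' :=
  le_antisymm (h.le_of h') (h'.le_of h)

end Crest.Agent.R347
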