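import Crest.Agent.R347.LDefs
import Crest.Agent.R347.RPurity
import Crest.Agent.R347.BondForm

/-!
# Row 347, piece S_GAP (1 h): purity of the Gibbs state bounds the spectral gap

`H` Hermitian with eigenvalues `E_i` (`Matrix.IsHermitian.spectral_theorem`, `eigenvalues`), `a_i = exp(-β E_i)`.
`(1+e²) (Σ a)² ≤ (1+e)² Σ a²` and `exists_top` (with `s = (1+e²)/(1+e)²`) give `Σ a_i ≤ (1+e) a_{i₀}`, so for `i ≠ i₀`
`a_i ≤ e a_{i₀}`, `E_i ≥ E_{i₀} + log(1/e)/β > E_{i₀} + c`.  The ground vector is the eigenvector `i₀`.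

`ringH_heis`, `openH_heis`: identification with the Prelude Hamiltonians (`finRotate`).
-/

set_option autoImplicit false

open Crest.MathPhysics.SpinChain Matrix

namespace Crest.Agent.R347

theorem sg_tbond_one {ι : Type*} [Fintype ι] [DecidableEq ι] (j k : ι) :
    tbond (1 : Matrix (Fin 3) (Fin 3) ℝ) j k = bond j k := by
  unfold tbond bond
  refine Finset.sum_congr rfl fun a _ => ?_
  rw [Finset.sum_eq_single a]
  · rw [Matrix.one_apply_eq]; simp
  · intro b _ hb
    rw [Matrix.one_apply_ne (Ne.symm hb)]; simp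
  · intro h; exact absurd (Finset.mem_univ _) h

theorem ringH_heis (L : ℕ) : heisenbergRing (L + 1) = ringH L 1 := by
  unfold heisenbergRing ringH
  rw [Fin.sum_univ_castSucc, sg_tbond_one, finRotate_last]
  congr 1
  refine Finset.sum_congr rfl fun j _ => ?_
  congr 1
  rw [finRotate_apply]
  exact Fin.coeSucc_eq_succ

theorem openH_heis (N : ℕ) (h : ℝ) : openChainEndField N h = openH N h h := by
  unfold openChainEndField openH
  rw [smul_add]

theorem sg_hbZ_symm (s t s' t' : Fin 3) : hbZ s t s' t' = hbZ s' t' s t := by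
  revert s t s' t'; decide

theorem sg_bond_isHermitian {ι : Type*} [Fintype ι] [DecidableEq ι] {j k : ι} (hjk : j ≠ k) :
    (bond j k : Matrix (ι → Fin 3) (ι → Fin 3) ℂ).IsHermitian := by
  ext σ τ
  rw [Matrix.conjTranspose_apply, bond_apply hjk, bond_apply hjk]
  have h : (∀ l, l ≠ j → l ≠ k → τ l = σ l) ↔ (∀ l, l ≠ j → l ≠ k → σ l = τ l) :=
    ⟨fun h l h1 h2 => (h l h1 h2).symm, fun h l h1 h2 => (h l h1 h2).symm⟩
  by_cases h1 : ∀ l, l ≠ j → l ≠ k → σ l = τ l
  · rw [if_pos h1, if_pos (h.2 h1), sg_hbZ_symm]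
    simp
  · rw [if_neg h1, if_neg (fun h2 => h1 (h.1 h2))]
    simp

theorem sg_onSite_spinZ_isHermitian {ι : Type*} [Fintype ι] [DecidableEq ι] (j : ι) :
    (onSite spinZ j : Matrix (ι → Fin 3) (ι → Fin 3) ℂ).IsHermitian := by
  ext σ τ
  rw [Matrix.conjTranspose_apply, onSite_spinZ_apply, onSite_spinZ_apply]
  by_cases h : σ = τ
  · subst h; simp
  · rw [if_neg h, if_neg (fun h' => h h'.symm)]; simp

theorem sg_sum_isHermitian {κ I : Type*} (s : Finset I) (f : I → Matrix κ κ ℂ)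
    (h : ∀ i ∈ s, (f i).IsHermitian) : (∑ i ∈ s, f i).IsHermitian := by
  unfold Matrix.IsHermitian
  rw [Matrix.conjTranspose_sum]
  exact Finset.sum_congr rfl h

theorem ringH_isHermitian (L : ℕ) (hL : 1 ≤ L) : (ringH L 1).IsHermitian := by
  unfold ringH
  rw [sg_tbond_one]
  refine Matrix.IsHermitian.add (sg_sum_isHermitian _ _ fun j _ => ?_) ?_
  · exact sg_bond_isHermitian (ne_of_lt (Fin.castSucc_lt_succ (i := j)))
  · refine sg_bond_isHermitian ?_
    intro h
    have := congrArg Fin.val h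
    simp at this
    omega

theorem openH_isHermitian (N : ℕ) (f₀ f₁ : ℝ) : (openH N f₀ f₁).IsHermitian := by
  unfold openH
  refine Matrix.IsHermitian.sub (sg_sum_isHermitian _ _ fun j _ => ?_) (Matrix.IsHermitian.add ?_ ?_)
  · exact sg_bond_isHermitian (ne_of_lt (Fin.castSucc_lt_succ (i := j)))
  · unfold Matrix.IsHermitian
    rw [Matrix.conjTranspose_smul, sg_onSite_spinZ_isHermitian]
    simp
  · unfold Matrix.IsHermitian
    rw [Matrix.conjTranspose_smul, sg_onSite_spinZ_isHermitian]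
    simp

theorem sg_tens_one {ι : Type*} [Fintype ι] [DecidableEq ι] :
    (tens 1 : Matrix (ι → Fin 3) (ι → Fin 3) ℂ) = 1 := by
  ext s s'
  unfold tens
  rw [Matrix.of_apply]
  by_cases h : s = s'
  · subst h
    rw [Matrix.one_apply_eq]
    exact Finset.prod_eq_one fun j _ => Matrix.one_apply_eq _
  · rw [Matrix.one_apply_ne h]
    obtain ⟨j, hj⟩ := Function.ne_iff.1 h
    exact Finset.prod_eq_zero (Finset.mem_univ j) (Matrix.one_apply_ne hj)

/-- the partition functions without insertion -/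
theorem zRing_one (L : ℕ) (β : ℝ) :
    zRing L β 1 1 = trace (NormedSpace.exp ((-(β : ℂ)) • ringH L 1)) := by
  unfold zRing
  rw [sg_tens_one, Matrix.one_mul]

theorem zOpen_one (N : ℕ) (β f₀ f₁ : ℝ) :
    zOpen N β f₀ f₁ 1 = trace (NormedSpace.exp ((-(β : ℂ)) • openH N f₀ f₁)) := by
  unfold zOpen
  rw [sg_tens_one, Matrix.one_mul]

/-- diagonalisation of a Hermitian matrix in elementary form -/
theorem sg_exists_diag {κ : Type*} [Fintype κ] [DecidableEq κ] (H : Matrix κ κ ℂ)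
    (hH : H.IsHermitian) : ∃ (U : Matrix κ κ ℂ) (E : κ → ℝ), Uᴴ * U = 1 ∧ U * Uᴴ = 1 ∧
      H = U * Matrix.diagonal (fun i => (E i : ℂ)) * Uᴴ := by
  refine ⟨(hH.eigenvectorUnitary : Matrix κ κ ℂ), hH.eigenvalues, ?_, ?_, ?_⟩
  · have := Unitary.coe_star_mul_self hH.eigenvectorUnitary
    simpa [Matrix.star_eq_conjTranspose] using this
  · have := Unitary.coe_mul_star_self hH.eigenvectorUnitary
    simpa [Matrix.star_eq_conjTranspose] using this
  · have := hH.spectral_theorem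
    rw [Unitary.conjStarAlgAut_apply] at this
    exact this

theorem sg_trace_exp_diag {κ : Type*} [Fintype κ] [DecidableEq κ] {H U : Matrix κ κ ℂ} {E : κ → ℝ}
    (h1 : Uᴴ * U = 1) (h2 : U * Uᴴ = 1) (hH : H = U * Matrix.diagonal (fun i => (E i : ℂ)) * Uᴴ)
    (β : ℝ) : trace (NormedSpace.exp ((-(β : ℂ)) • H)) = ((∑ i, Real.exp (-(β * E i)) : ℝ) : ℂ) := by
  have hinv : U⁻¹ = Uᴴ := Matrix.inv_eq_right_inv h2
  have hU : IsUnit U := by
    rw [Matrix.isUnit_iff_isUnit_det]
    exact (Matrix.isUnit_iff_isUnit_det U).1 ⟨⟨U, Uᴴ, h2, h1⟩, rfl⟩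
  have e1 : (-(β : ℂ)) • H = U * Matrix.diagonal (fun i => (-(β : ℂ)) * (E i : ℂ)) * U⁻¹ := by
    rw [hinv, hH, ← Matrix.smul_mul, ← Matrix.mul_smul]
    congr 2
    ext i j
    by_cases hij : i = j
    · subst hij; simp
    · simp [Matrix.diagonal_apply_ne _ hij]
  rw [e1, Matrix.exp_conj _ _ hU, Matrix.trace_mul_comm, ← Matrix.mul_assoc, hinv, h1, Matrix.one_mul,
    Matrix.exp_diagonal, Matrix.trace_diagonal]
  push_cast
  refine Finset.sum_congr rfl fun i _ => ?_
  rw [Pi.coe_exp, ← Complex.exp_eq_exp_ℂ]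
  congr 1
  ring

theorem gap_of_purity {κ : Type*} [Fintype κ] [DecidableEq κ] [Nonempty κ] (H : Matrix κ κ ℂ)
    (hH : H.IsHermitian) {β e c : ℝ} (hβ : 0 < β) (he0 : 0 < e) (he1 : e < 1)
    (hec : e < Real.exp (-(β * c)))
    (h : (1 + e ^ 2) * (trace (NormedSpace.exp ((-(β : ℂ)) • H))).re ^ 2 ≤
      (1 + e) ^ 2 * (trace (NormedSpace.exp ((-((2 * β : ℝ) : ℂ)) • H))).re) :
    HasSimpleGroundStateWithGap H c := by
  classical
  obtain ⟨U, E, hU1, hU2, hHU⟩ := sg_exists_diag H hH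
  rw [sg_trace_exp_diag hU1 hU2 hHU, sg_trace_exp_diag hU1 hU2 hHU, Complex.ofReal_re, Complex.ofReal_re] at h
  -- top level
  have hex : ∃ i₀, ∀ i, i ≠ i₀ → E i₀ + c < E i := by
    let φ : Fin (Fintype.card κ) ≃ κ := (Fintype.equivFin κ).symm
    have hk : 0 < Fintype.card κ := Fintype.card_pos
    have hsum1 : ∑ i, Real.exp (-(β * E (φ i))) = ∑ i, Real.exp (-(β * E i)) :=
      Equiv.sum_comp φ (fun i => Real.exp (-(β * E i)))
    have hsum2 : ∑ i, Real.exp (-(β * E (φ i))) ^ 2 = ∑ i, Real.exp (-(2 * β * E i)) := by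
      rw [← Equiv.sum_comp φ (fun i => Real.exp (-(2 * β * E i)))]
      refine Finset.sum_congr rfl fun i _ => ?_
      rw [← Real.exp_nat_mul]
      congr 1
      push_cast
      ring
    have h1e : (0 : ℝ) < (1 + e) ^ 2 := by positivity
    obtain ⟨j₀, hj⟩ := exists_top' (fun i => Real.exp (-(β * E (φ i)))) (fun i => Real.exp_pos _) hk
      (s := (1 + e ^ 2) / (1 + e) ^ 2) he0 he1
      (by
        rw [hsum1, hsum2, div_mul_eq_mul_div, div_le_iff₀ h1e]
        linarith)
      (by rw [div_mul_cancel₀ _ h1e.ne'])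
    refine ⟨φ j₀, fun i hi => ?_⟩
    have hi' : φ.symm i ∈ Finset.univ.erase j₀ := by
      rw [Finset.mem_erase]
      refine ⟨fun h' => hi ?_, Finset.mem_univ _⟩
      rw [← h', Equiv.apply_symm_apply]
    have h3 := Finset.single_le_sum (f := fun i => Real.exp (-(β * E (φ i))))
      (fun i _ => (Real.exp_pos _).le) hi'
    simp only [Equiv.apply_symm_apply] at h3
    have h4 : Real.exp (-(β * E i)) < Real.exp (-(β * c)) * Real.exp (-(β * E (φ j₀))) :=
      (h3.trans hj).trans_lt (mul_lt_mul_of_pos_right hec (Real.exp_pos _))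
    rw [← Real.exp_add] at h4
    have h5 := Real.exp_lt_exp.1 h4
    have h6 : β * (E (φ j₀) + c) < β * E i := by linarith
    exact lt_of_mul_lt_mul_left h6 hβ.le
  obtain ⟨i₀, hi₀⟩ := hex
  refine ⟨E i₀, fun j => U j i₀, ?_, ?_, ?_⟩
  · intro h0
    have h1 : (Uᴴ * U) i₀ i₀ = 1 := by rw [hU1, Matrix.one_apply_eq]
    rw [Matrix.mul_apply] at h1
    have h2 : ∀ j, U j i₀ = 0 := fun j => congrFun h0 j
    simp [h2] at h1
  · have h1 : H * U = U * Matrix.diagonal (fun i => (E i : ℂ)) := by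
      rw [hHU, Matrix.mul_assoc, Matrix.mul_assoc, hU1, Matrix.mul_one]
    funext j
    have h2 := congrFun (congrFun h1 j) i₀
    rw [Matrix.mul_diagonal, Matrix.mul_apply] at h2
    simp only [Matrix.mulVec, dotProduct, Pi.smul_apply, smul_eq_mul]
    rw [h2]; ring
  · intro ψ hψ hort
    set φ : κ → ℂ := Uᴴ.mulVec ψ with hφ
    have hφ0 : φ i₀ = 0 := by
      rw [hφ]
      simpa [Matrix.mulVec, dotProduct, Matrix.conjTranspose_apply] using hort
    have hψφ : ψ = U.mulVec φ := by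
      rw [hφ, Matrix.mulVec_mulVec, hU2, Matrix.one_mulVec]
    have hnorm : ∀ χ : κ → ℂ, star ψ ⬝ᵥ (U.mulVec χ) = star φ ⬝ᵥ χ := by
      intro χ
      rw [hφ, Matrix.star_mulVec, Matrix.conjTranspose_conjTranspose, Matrix.dotProduct_mulVec]
    have e1 : (star ψ ⬝ᵥ ψ).re = ∑ i, Complex.normSq (φ i) := by
      have h3 := hnorm φ
      rw [← hψφ] at h3
      rw [h3]
      simp only [dotProduct, Pi.star_apply, Complex.re_sum]
      refine Finset.sum_congr rfl fun i _ => ?_
      rw [mul_comm]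
      exact congrArg Complex.re (Complex.mul_conj (φ i))
    have e2 : (star ψ ⬝ᵥ H.mulVec ψ).re = ∑ i, E i * Complex.normSq (φ i) := by
      have h3 : H.mulVec ψ = U.mulVec ((Matrix.diagonal (fun i => (E i : ℂ))).mulVec φ) := by
        rw [hHU, ← Matrix.mulVec_mulVec, ← Matrix.mulVec_mulVec]
      rw [h3, hnorm]
      simp only [dotProduct, Pi.star_apply, Complex.re_sum, Matrix.mulVec_diagonal]
      refine Finset.sum_congr rfl fun i _ => ?_
      have h4 : star (φ i) * ((E i : ℂ) * φ i) = (E i : ℂ) * (φ i * star (φ i)) := by ring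
      rw [h4]
      have h5 : φ i * star (φ i) = (Complex.normSq (φ i) : ℂ) := Complex.mul_conj (φ i)
      rw [h5, ← Complex.ofReal_mul, Complex.ofReal_re]
    rw [e1, e2, Finset.mul_sum]
    have hne : ∃ i, φ i ≠ 0 := by
      by_contra hcon
      push Not at hcon
      apply hψ
      rw [hψφ]
      have : φ = 0 := funext hcon
      rw [this, Matrix.mulVec_zero]
    obtain ⟨i₁, hi₁⟩ := hne
    have hi₁' : i₁ ≠ i₀ := fun h' => hi₁ (by rw [h', hφ0])
    refine Finset.sum_lt_sum (fun i _ => ?_) ⟨i₁, Finset.mem_univ _, ?_⟩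
    · by_cases hi : i = i₀
      · rw [hi, hφ0]; simp
      · exact mul_le_mul_of_nonneg_right (hi₀ i hi).le (Complex.normSq_nonneg _)
    · exact mul_lt_mul_of_pos_right (hi₀ i₁ hi₁') (Complex.normSq_pos.2 hi₁)

end Crest.Agent.R347
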