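import Crest.Agent.R347.LProj
import Crest.Agent.R347.LLimit
import Crest.Agent.R347.LCov
import Crest.Agent.R347.RInit
import Crest.Agent.R347.SGap

/-!
# Row 347, piece S_LEVELS, first half: levels of the ring with its `V₄` symmetry
-/

set_option autoImplicit false

open Crest.MathPhysics.SpinChain Matrix Filter Topology

namespace Crest.Agent.R347

theorem cyc_one : cyc * 1 * cycᵀ = 1 := by
  ext i j
  fin_cases i <;> fin_cases j <;> simp [cyc, Matrix.mul_apply, Fin.sum_univ_three]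

theorem cyc_pz : cyc * pz * cycᵀ = px := by
  ext i j
  fin_cases i <;> fin_cases j <;> simp [cyc, pz, px, Matrix.mul_apply, Fin.sum_univ_three]

theorem cyc_px : cyc * px * cycᵀ = py := by
  ext i j
  fin_cases i <;> fin_cases j <;> simp [cyc, py, px, Matrix.mul_apply, Fin.sum_univ_three]

theorem pz_mul_px : pz * px = py := by
  ext i j
  fin_cases i <;> fin_cases j <;> simp [pz, py, px, Matrix.mul_apply, Fin.sum_univ_three]

theorem UC_mul_conj (A B : Matrix (Fin 3) (Fin 3) ℂ) :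
    UC * (A * B) * UCᴴ = (UC * A * UCᴴ) * (UC * B * UCᴴ) := by
  calc UC * (A * B) * UCᴴ = UC * A * 1 * (B * UCᴴ) := by
        simp only [Matrix.mul_assoc, Matrix.one_mul]
    _ = UC * A * (UCᴴ * UC) * (B * UCᴴ) := by rw [UC_ct_mul]
    _ = _ := by simp only [Matrix.mul_assoc]

theorem UC_conj_inj {A B : Matrix (Fin 3) (Fin 3) ℂ} (h : UC * A * UCᴴ = UC * B * UCᴴ) :
    A = B := by
  have h1 : ∀ X : Matrix (Fin 3) (Fin 3) ℂ, UCᴴ * (UC * X * UCᴴ) * UC = X := by
    intro X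
    calc UCᴴ * (UC * X * UCᴴ) * UC = (UCᴴ * UC) * X * (UCᴴ * UC) := by
          simp only [Matrix.mul_assoc]
      _ = X := by rw [UC_ct_mul, Matrix.one_mul, Matrix.mul_one]
  rw [← h1 A, h, h1]

theorem UC_wy : UC * (wz * wx) * UCᴴ = toC py := by
  rw [UC_mul_conj, UC_wz, UC_wx, ← UnitB.toC_mul, pz_mul_px]

theorem zRing_re_cov (L : ℕ) (hL : 1 ≤ L) (β : ℝ) (hβ : 0 ≤ β)
    {w w' : Matrix (Fin 3) (Fin 3) ℂ} {h h' : Matrix (Fin 3) (Fin 3) ℝ}
    (hw : UC * w * UCᴴ = toC h) (hw' : UC * w' * UCᴴ = toC h') (hc : cyc * h * cycᵀ = h') :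
    (zRing L β 1 w').re = (zRing L β 1 w).re := by
  have h1 := ring_limit L hL β hβ 1 hw
  have h2 := ring_limit L hL β hβ 1 hw'
  refine tendsto_nhds_unique h2 (h1.congr fun n => ?_)
  have h3 := trace_cov n (β / n) 1 h isRot_cyc (L + 1)
  rw [cyc_one, hc] at h3
  exact h3.symm

theorem zRing_wx_eq (L : ℕ) (hL : 1 ≤ L) (β : ℝ) (hβ : 0 ≤ β) :
    (zRing L β 1 wx).re = (zRing L β 1 wz).re :=
  zRing_re_cov L hL β hβ UC_wz UC_wx cyc_pz

theorem zRing_wy_eq (L : ℕ) (hL : 1 ≤ L) (β : ℝ) (hβ : 0 ≤ β) :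
    (zRing L β 1 (wz * wx)).re = (zRing L β 1 wz).re := by
  rw [zRing_re_cov L hL β hβ UC_wx UC_wy cyc_px, zRing_wx_eq L hL β hβ]

/-! ### commutation -/

section comm

variable {ι : Type*} [Fintype ι] [DecidableEq ι]

theorem tens_mul_tens (v w : Matrix (Fin 3) (Fin 3) ℂ) :
    tens (ι := ι) v * tens w = tens (v * w) := by
  rw [tens_eq_tensF, tens_eq_tensF, tens_eq_tensF, tensF_mul]

theorem tens_one : tens (ι := ι) 1 = 1 := by
  rw [tens_eq_tensF, tensF_one]

theorem tens_mul_onSite {w A A' : Matrix (Fin 3) (Fin 3) ℂ} (h : w * A = A' * w) (j : ι) :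
    tens w * onSite A j = onSite A' j * tens w := by
  rw [tens_eq_tensF, onSite_eq_tensF, onSite_eq_tensF, tensF_mul, tensF_mul]
  congr 1
  funext k
  by_cases hk : k = j
  · subst hk; simp [h]
  · simp [Function.update_of_ne hk]

theorem tens_bond_comm {w : Matrix (Fin 3) (Fin 3) ℂ} (s : Fin 3 → ℂ)
    (hs : ∀ a, s a * s a = 1) (h : ∀ a, w * spinOp a = (s a • spinOp a) * w) (j k : ι) :
    tens w * bond j k = bond j k * tens w := by
  unfold bond
  rw [Matrix.mul_sum, Matrix.sum_mul]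
  refine Finset.sum_congr rfl fun a _ => ?_
  rw [← Matrix.mul_assoc, tens_mul_onSite (h a) j, Matrix.mul_assoc, tens_mul_onSite (h a) k,
    UnitB.onSite_smul, UnitB.onSite_smul, ← Matrix.mul_assoc, Matrix.smul_mul, Matrix.mul_smul,
    smul_smul, hs, one_smul]

theorem tbond_one (j k : ι) : tbond 1 j k = bond j k := by
  unfold tbond bond
  refine Finset.sum_congr rfl fun a _ => ?_
  rw [Finset.sum_eq_single_of_mem a (Finset.mem_univ a)]
  · rw [Matrix.one_apply_eq]; simp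
  · intro b _ hb
    rw [Matrix.one_apply_ne (Ne.symm hb)]; simp

end comm

theorem tens_ring_comm {w : Matrix (Fin 3) (Fin 3) ℂ} (s : Fin 3 → ℂ)
    (hs : ∀ a, s a * s a = 1) (h : ∀ a, w * spinOp a = (s a • spinOp a) * w) (L : ℕ) :
    tens w * ringH L 1 = ringH L 1 * tens w := by
  unfold ringH
  rw [tbond_one, Matrix.mul_add, Matrix.add_mul, tens_bond_comm s hs h, Matrix.mul_sum,
    Matrix.sum_mul]
  congr 1
  exact Finset.sum_congr rfl fun j _ => tens_bond_comm s hs h _ _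

theorem comm_of_cart {w : Matrix (Fin 3) (Fin 3) ℂ} {h : Matrix (Fin 3) (Fin 3) ℝ}
    (hwh : UC * w * UCᴴ = toC h) (s : Fin 3 → ℝ) (hR : ∀ a, h * R a = (s a • R a) * h)
    (a : Fin 3) : w * spinOp a = (((s a : ℝ) : ℂ) • spinOp a) * w := by
  apply UC_conj_inj
  rw [UC_mul_conj, UC_mul_conj, hwh, Matrix.mul_smul, Matrix.smul_mul, UC_spin, Matrix.mul_smul,
    ← UnitB.toC_mul, hR, UnitB.toC_mul, UnitB.toC_smul]
  simp only [Matrix.smul_mul]
  exact smul_comm _ _ _

theorem wz_comm (a : Fin 3) : wz * spinOp a = ((((![-1, -1, 1] : Fin 3 → ℝ) a : ℝ) : ℂ) • spinOp a) * wz := by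
  refine comm_of_cart UC_wz ![-1, -1, 1] (fun a => ?_) a
  ext i j
  fin_cases a <;> fin_cases i <;> fin_cases j <;>
    simp [pz, R, Matrix.mul_apply, Fin.sum_univ_three]

theorem wx_comm (a : Fin 3) : wx * spinOp a = ((((![1, -1, -1] : Fin 3 → ℝ) a : ℝ) : ℂ) • spinOp a) * wx := by
  refine comm_of_cart UC_wx ![1, -1, -1] (fun a => ?_) a
  ext i j
  fin_cases a <;> fin_cases i <;> fin_cases j <;>
    simp [px, R, Matrix.mul_apply, Fin.sum_univ_three]

theorem tens_wz_ring (L : ℕ) : tens wz * ringH L 1 = ringH L 1 * tens wz :=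
  tens_ring_comm (fun a => (((![-1, -1, 1] : Fin 3 → ℝ) a : ℝ) : ℂ))
    (fun a => by fin_cases a <;> simp) wz_comm L

theorem tens_wx_ring (L : ℕ) : tens wx * ringH L 1 = ringH L 1 * tens wx :=
  tens_ring_comm (fun a => (((![1, -1, -1] : Fin 3 → ℝ) a : ℝ) : ℂ))
    (fun a => by fin_cases a <;> simp) wx_comm L

theorem wz_mul_wz : wz * wz = 1 := by
  ext i j
  fin_cases i <;> fin_cases j <;> simp [wz, Matrix.mul_apply, Fin.sum_univ_three, Matrix.diagonal]

theorem wx_mul_wx : wx * wx = 1 := by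
  ext i j
  fin_cases i <;> fin_cases j <;> simp [wx, Matrix.mul_apply, Fin.sum_univ_three]

theorem wz_mul_wx : wz * wx = wx * wz := by
  ext i j
  fin_cases i <;> fin_cases j <;>
    simp [wz, wx, Matrix.mul_apply, Fin.sum_univ_three, Matrix.diagonal]

theorem wz_ct : wzᴴ = wz := by
  ext i j
  fin_cases i <;> fin_cases j <;> simp [wz, Matrix.conjTranspose_apply, Matrix.diagonal]

theorem wx_ct : wxᴴ = wx := by
  ext i j
  fin_cases i <;> fin_cases j <;> simp [wx, Matrix.conjTranspose_apply]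

section proj

variable {ι : Type*} [Fintype ι] [DecidableEq ι]

theorem tens_ct' (w : Matrix (Fin 3) (Fin 3) ℂ) : (tens (ι := ι) w)ᴴ = tens wᴴ := by
  rw [UnitB.tens_ct, tens_eq_tensF]

/-- projections from two commuting involutions -/
theorem proj_idem {κ : Type*} [Fintype κ] [DecidableEq κ] {Z X : Matrix κ κ ℂ} (hZ : Z * Z = 1)
    (hX : X * X = 1) (hZX : Z * X = X * Z) (s : ℂ) (hs : s * s = 1) :
    (((1 / 4 : ℝ) : ℂ) • (1 + Z + s • X + s • (Z * X))) *
      (((1 / 4 : ℝ) : ℂ) • (1 + Z + s • X + s • (Z * X))) =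
      ((1 / 4 : ℝ) : ℂ) • (1 + Z + s • X + s • (Z * X)) := by
  have e1 : (1 + Z + s • X + s • (Z * X)) = (1 + Z) * (1 + s • X) := by
    rw [Matrix.add_mul, Matrix.mul_add, Matrix.mul_add, Matrix.mul_one, Matrix.mul_one,
      Matrix.one_mul, Matrix.mul_smul]
    abel
  have e2 : (1 + Z) * (1 + Z) = (2 : ℂ) • (1 + Z) := by
    rw [Matrix.add_mul, Matrix.mul_add, Matrix.mul_add, Matrix.one_mul, Matrix.one_mul,
      Matrix.mul_one, hZ, two_smul]
    abel
  have e3 : (1 + s • X) * (1 + s • X) = (2 : ℂ) • (1 + s • X) := by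
    rw [Matrix.add_mul, Matrix.mul_add, Matrix.mul_add, Matrix.one_mul, Matrix.one_mul,
      Matrix.mul_one, Matrix.smul_mul, Matrix.mul_smul, hX, smul_smul, hs, two_smul, one_smul]
    abel
  have e4 : (1 + s • X) * (1 + Z) = (1 + Z) * (1 + s • X) := by
    simp only [Matrix.add_mul, Matrix.mul_add, Matrix.smul_mul, Matrix.mul_smul, Matrix.one_mul,
      Matrix.mul_one, hZX, smul_add]
    abel
  rw [e1, Matrix.smul_mul, Matrix.mul_smul, smul_smul]
  have e5 : (1 + Z) * (1 + s • X) * ((1 + Z) * (1 + s • X)) =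
      (4 : ℂ) • ((1 + Z) * (1 + s • X)) := by
    calc (1 + Z) * (1 + s • X) * ((1 + Z) * (1 + s • X))
        = (1 + Z) * ((1 + s • X) * (1 + Z)) * (1 + s • X) := by simp only [Matrix.mul_assoc]
      _ = (1 + Z) * (1 + Z) * ((1 + s • X) * (1 + s • X)) := by
          rw [e4]; simp only [Matrix.mul_assoc]
      _ = _ := by
          rw [e2, e3, Matrix.smul_mul, Matrix.mul_smul, smul_smul]; norm_num
  rw [e5, smul_smul]
  congr 1
  push_cast
  norm_num

end proj

/-- levels of one symmetry sector -/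
theorem sector_levels (L : ℕ) (hL : 1 ≤ L) (s : ℝ) (hs : s * s = 1) :
    ∃ (k : ℕ) (x : Fin k → ℝ), (∀ i, 0 < x i) ∧ ∀ β, 0 < β →
      (1 / 4) * ((zRing L β 1 1).re + (zRing L β 1 wz).re + s * (zRing L β 1 wx).re +
        s * (zRing L β 1 (wz * wx)).re) * Real.exp (β * (L + 1) * eV) = ∑ i, x i ^ β := by
  have hZ : tens (ι := Fin (L + 1)) wz * tens wz = 1 := by
    rw [tens_mul_tens, wz_mul_wz, tens_one]
  have hX : tens (ι := Fin (L + 1)) wx * tens wx = 1 := by
    rw [tens_mul_tens, wx_mul_wx, tens_one]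
  have hZX : tens (ι := Fin (L + 1)) wz * tens wx = tens wx * tens wz := by
    rw [tens_mul_tens, tens_mul_tens, wz_mul_wx]
  have hs' : (s : ℂ) * (s : ℂ) = 1 := by exact_mod_cast hs
  obtain ⟨P, hP⟩ : ∃ P : Matrix (Fin (L + 1) → Fin 3) (Fin (L + 1) → Fin 3) ℂ,
      P = ((1 / 4 : ℝ) : ℂ) • (1 + tens wz + (s : ℂ) • tens wx + (s : ℂ) • (tens wz * tens wx)) :=
    ⟨_, rfl⟩
  have hPP : P * P = P := by rw [hP]; exact proj_idem hZ hX hZX s hs'
  have hzc : (tens (ι := Fin (L + 1)) wz)ᴴ = tens wz := by rw [tens_ct', wz_ct]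
  have hxc : (tens (ι := Fin (L + 1)) wx)ᴴ = tens wx := by rw [tens_ct', wx_ct]
  have hPh : P.IsHermitian := by
    unfold Matrix.IsHermitian
    rw [hP, Matrix.conjTranspose_smul, Matrix.conjTranspose_add, Matrix.conjTranspose_add,
      Matrix.conjTranspose_add, Matrix.conjTranspose_smul, Matrix.conjTranspose_smul,
      Matrix.conjTranspose_mul, hzc, hxc, Matrix.conjTranspose_one, ← hZX]
    simp only [RCLike.star_def, Complex.conj_ofReal]
  have hPH : P * ringH L 1 = ringH L 1 * P := by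
    rw [hP, Matrix.smul_mul, Matrix.mul_smul]
    congr 1
    simp only [Matrix.add_mul, Matrix.mul_add, Matrix.one_mul, Matrix.mul_one, Matrix.smul_mul,
      Matrix.mul_smul]
    rw [tens_wz_ring, tens_wx_ring, Matrix.mul_assoc, tens_wx_ring, ← Matrix.mul_assoc,
      tens_wz_ring, Matrix.mul_assoc]
  obtain ⟨k, E, hE, _⟩ := exists_levels_proj (ringH L 1) P (ringH_isHermitian L hL) hPh hPP hPH
  refine ⟨k, fun i => Real.exp ((L + 1) * eV - E i), fun i => Real.exp_pos _, fun β hβ => ?_⟩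
  have h1 := congrArg Complex.re (hE β)
  rw [Complex.ofReal_re, hP, Matrix.smul_mul, Matrix.trace_smul] at h1
  simp only [Matrix.add_mul, Matrix.smul_mul, Matrix.trace_add, Matrix.trace_smul, smul_eq_mul,
    Complex.re_ofReal_mul, Complex.add_re] at h1
  have h2 : (zRing L β 1 1) = trace (1 * NormedSpace.exp ((-(β : ℂ)) • ringH L 1)) := by
    unfold zRing; rw [tens_one]
  have h3 : (zRing L β 1 (wz * wx)) =
      trace (tens wz * tens wx * NormedSpace.exp ((-(β : ℂ)) • ringH L 1)) := by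
    unfold zRing; rw [tens_mul_tens]
  rw [h2, h3]
  unfold zRing
  rw [h1, Finset.sum_mul]
  refine Finset.sum_congr rfl fun i _ => ?_
  rw [← Real.exp_add, ← Real.exp_mul]
  congr 1
  ring

theorem ring_levels (L : ℕ) (hL : 2 ≤ L) :
    V4Lev (fun β => Zs β 1 1 L) (fun β => Zs β 1 wz L) := by
  obtain ⟨M, rfl⟩ : ∃ M, L = M + 1 := ⟨L - 1, by omega⟩
  have hM : 1 ≤ M := by omega
  obtain ⟨k, x, hx, hx'⟩ := sector_levels M hM 1 (by norm_num)
  obtain ⟨l, y, hy, hy'⟩ := sector_levels M hM (-1) (by norm_num)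
  refine ⟨k, l, x, y, hx, hy, fun β hβ => ?_⟩
  rw [← hx' β hβ, ← hy' β hβ, zRing_wx_eq M hM β hβ.le, zRing_wy_eq M hM β hβ.le]
  show Zs β 1 1 (M + 1) = _ ∧ Zs β 1 wz (M + 1) = _
  unfold Zs
  rw [Nat.add_sub_cancel]
  push_cast
  constructor <;> ring

theorem ring_levels_one (L : ℕ) (hL : 2 ≤ L) :
    ∃ (k : ℕ) (x : Fin k → ℝ), (∀ i, 0 < x i) ∧ ∀ β, 0 < β → Zs β 1 1 L = ∑ i, x i ^ β := by
  obtain ⟨M, rfl⟩ : ∃ M, L = M + 1 := ⟨L - 1, by omega⟩
  have hM : 1 ≤ M := by omega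
  obtain ⟨k, E, hE, _⟩ := exists_levels_proj (ringH M 1) 1 (ringH_isHermitian M hM)
    Matrix.isHermitian_one (by rw [Matrix.one_mul]) (by rw [Matrix.one_mul, Matrix.mul_one])
  refine ⟨k, fun i => Real.exp ((M + 1) * eV - E i), fun i => Real.exp_pos _, fun β hβ => ?_⟩
  have h1 := congrArg Complex.re (hE β)
  rw [Complex.ofReal_re] at h1
  unfold Zs zRing
  rw [Nat.add_sub_cancel, tens_one, h1, Finset.sum_mul]
  refine Finset.sum_congr rfl fun i _ => ?_
  rw [← Real.exp_add, ← Real.exp_mul]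
  congr 1
  push_cast
  ring

end Crest.Agent.R347
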