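import Crest.Agent.R347.LProj
import Crest.Agent.R347.LLimit
import Crest.Agent.R347.LCov
import Crest.Agent.R347.RInit
import Crest.Agent.R347.SGap
import Crest.Agent.R347.SLevelsA

/-!
# Row 347, piece S_LEVELS (2 h, may be split): levels of the Hamiltonians with their symmetries

* `comm_wz_ring` etc.: `wz S^a wz = ± S^a`, so `tens wz` commutes with every bond (and with `S^z` fields), `tens wx`
  commutes with the bonds.  `wz wx = wx wz`, `wz² = wx² = 1`.
* `zRing_w_eq`: `(zRing L β 1 wx).re = (zRing L β 1 wz).re` and the same for `wz * wx`: uniqueness of the limit in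
  `ring_limit` and `trace_cov` (`g = 1`, `k = cyc`, `cyc pz cycᵀ = px`, `cyc px cycᵀ = py`), `UC (wz wx) UCᴴ = toC py`.
* `ring_levels`: `P₀ = (1 + tens wz + tens wx + tens (wz wx))/4`, `P₁ = (1 + tens wz - tens wx - tens (wz wx))/4`,
  `trace (P₀ e^{-βH}) = (z + 3 zπ)/4`, `trace (P₁ e^{-βH}) = (z - zπ)/4`; `exists_levels_proj`; level `x = exp(-E + L eV)`.
* `open_parLev`: `P = (1 ± tens wz)/2` and the variational part of `exists_levels_proj`.
* `open_levels`, `ring_levels_one`: `P = 1`.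
-/

set_option autoImplicit false

open Crest.MathPhysics.SpinChain Matrix

namespace Crest.Agent.R347

/-! ### auxiliary lemmas for the open chain (helper4) -/

namespace SLevB

/-- diagonal entries of `wz` -/
noncomputable def ez (k : Fin 3) : ℂ := wz k k

theorem wz_diag (i j : Fin 3) : wz i j = if i = j then ez i else 0 := by
  unfold ez wz
  rw [Matrix.diagonal_apply, Matrix.diagonal_apply_eq]

theorem ez_sq (k : Fin 3) : ez k * ez k = 1 := by
  fin_cases k <;> simp [ez, wz]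

theorem ez_conj (k : Fin 3) : (starRingEnd ℂ) (ez k) = ez k := by
  fin_cases k <;> simp [ez, wz]

theorem tens_wz {ι : Type*} [Fintype ι] [DecidableEq ι] :
    (tens wz : Matrix (ι → Fin 3) (ι → Fin 3) ℂ) = Matrix.diagonal fun s => ∏ j, ez (s j) := by
  ext s s'
  unfold tens
  rw [Matrix.of_apply, Matrix.diagonal_apply]
  simp only [wz_diag]
  split_ifs with h
  · subst h
    simp
  · obtain ⟨t, ht⟩ := Function.ne_iff.1 h
    exact Finset.prod_eq_zero (Finset.mem_univ t) (if_neg ht)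

theorem tens_sq {ι : Type*} [Fintype ι] [DecidableEq ι] :
    (tens wz : Matrix (ι → Fin 3) (ι → Fin 3) ℂ) * tens wz = 1 := by
  rw [tens_wz, Matrix.diagonal_mul_diagonal, ← Matrix.diagonal_one]
  congr 1
  funext s
  rw [← Finset.prod_mul_distrib]
  exact Finset.prod_eq_one fun j _ => ez_sq _

theorem tens_herm {ι : Type*} [Fintype ι] [DecidableEq ι] :
    (tens wz : Matrix (ι → Fin 3) (ι → Fin 3) ℂ).IsHermitian := by
  unfold Matrix.IsHermitian
  rw [tens_wz, Matrix.diagonal_conjTranspose]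
  congr 1
  funext s
  rw [Pi.star_apply]
  show (starRingEnd ℂ) _ = _
  rw [map_prod]
  exact Finset.prod_congr rfl fun j _ => ez_conj _

theorem site_anti (a : Fin 3) (i j : Fin 3) :
    ez i * spinOp a i j = (![-1, -1, 1] a : ℂ) * (spinOp a i j * ez j) := by
  fin_cases a <;> fin_cases i <;> fin_cases j <;>
    simp [ez, wz, spinOp, spinX, spinY, spinZ, spinPlus, spinMinus, magneticNumber]

theorem tens_onSite {ι : Type*} [Fintype ι] [DecidableEq ι] (a : Fin 3) (j : ι) :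
    tens wz * onSite (spinOp a) j = (![-1, -1, 1] a : ℂ) • (onSite (spinOp a) j * tens wz) := by
  rw [tens_wz]
  ext s s'
  rw [Matrix.diagonal_mul, Matrix.smul_apply, Matrix.mul_diagonal, smul_eq_mul]
  unfold onSite
  rw [Matrix.of_apply]
  split_ifs with h
  · rw [← Finset.mul_prod_erase _ _ (Finset.mem_univ j), ← Finset.mul_prod_erase _ (fun k => ez (s' k)) (Finset.mem_univ j)]
    have h1 : ∏ k ∈ Finset.univ.erase j, ez (s k) = ∏ k ∈ Finset.univ.erase j, ez (s' k) :=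
      Finset.prod_congr rfl fun k hk => by rw [h k (Finset.ne_of_mem_erase hk)]
    rw [h1]
    have h2 := site_anti a (s j) (s' j)
    linear_combination (∏ k ∈ Finset.univ.erase j, ez (s' k)) * h2
  · simp

theorem sg_sq (a : Fin 3) : (![-1, -1, 1] a : ℂ) * (![-1, -1, 1] a : ℂ) = 1 := by
  fin_cases a <;> simp

theorem tens_bond {ι : Type*} [Fintype ι] [DecidableEq ι] (j k : ι) :
    tens wz * bond j k = bond j k * tens wz := by
  unfold bond
  rw [Matrix.mul_sum, Matrix.sum_mul]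
  refine Finset.sum_congr rfl fun a _ => ?_
  rw [← mul_assoc, tens_onSite, Matrix.smul_mul, mul_assoc, tens_onSite, Matrix.mul_smul, smul_smul,
    sg_sq, one_smul, mul_assoc]

theorem tens_spinZ {ι : Type*} [Fintype ι] [DecidableEq ι] (j : ι) :
    tens wz * onSite spinZ j = onSite spinZ j * tens wz := by
  have h := tens_onSite (2 : Fin 3) j
  have h2 : spinOp 2 = spinZ := rfl
  have h3 : (![-1, -1, 1] (2 : Fin 3) : ℂ) = 1 := by simp
  rw [h2, h3, one_smul] at h
  exact h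

theorem tens_openH (N : ℕ) (f₀ f₁ : ℝ) : tens wz * openH N f₀ f₁ = openH N f₀ f₁ * tens wz := by
  unfold openH
  rw [mul_sub, sub_mul, Matrix.mul_sum, Matrix.sum_mul, mul_add, add_mul, Matrix.mul_smul,
    Matrix.mul_smul, Matrix.smul_mul, Matrix.smul_mul, tens_spinZ, tens_spinZ]
  congr 1
  exact Finset.sum_congr rfl fun j _ => tens_bond _ _

/-- projection onto `tens wz = σ` -/
noncomputable def Pj (κ : Type*) [Fintype κ] [DecidableEq κ] (T : Matrix κ κ ℂ) (σ : ℝ) :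
    Matrix κ κ ℂ := (1 / 2 : ℂ) • (1 + (σ : ℂ) • T)

section Pj
variable {κ : Type*} [Fintype κ] [DecidableEq κ] {T : Matrix κ κ ℂ} {σ : ℝ}

theorem Pj_herm (hT : T.IsHermitian) : (Pj κ T σ).IsHermitian := by
  unfold Matrix.IsHermitian Pj
  rw [Matrix.conjTranspose_smul, Matrix.conjTranspose_add, Matrix.conjTranspose_one,
    Matrix.conjTranspose_smul, hT]
  have h1 : star (1 / 2 : ℂ) = 1 / 2 := by
    rw [show (1 / 2 : ℂ) = ((1 / 2 : ℝ) : ℂ) by norm_num]
    exact Complex.conj_ofReal _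
  have h2 : star (σ : ℂ) = (σ : ℂ) := by
    show (starRingEnd ℂ) _ = _
    simp
  rw [h1, h2]

theorem Pj_idem (hT : T * T = 1) (hσ : σ = 1 ∨ σ = -1) : Pj κ T σ * Pj κ T σ = Pj κ T σ := by
  have hs : (σ : ℂ) * (σ : ℂ) = 1 := by
    rcases hσ with h | h <;> rw [h] <;> simp
  unfold Pj
  rw [Matrix.smul_mul, Matrix.mul_smul, smul_smul, mul_add, add_mul, add_mul, one_mul, mul_one, one_mul,
    Matrix.mul_smul, Matrix.smul_mul, smul_smul, hT, hs, one_smul]
  rw [show (1 : Matrix κ κ ℂ) + (σ : ℂ) • T + ((σ : ℂ) • T + 1) = (2 : ℂ) • (1 + (σ : ℂ) • T) by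
    rw [two_smul]; abel]
  rw [smul_smul]
  norm_num

theorem Pj_comm {H : Matrix κ κ ℂ} (hTH : T * H = H * T) : Pj κ T σ * H = H * Pj κ T σ := by
  unfold Pj
  rw [Matrix.smul_mul, Matrix.mul_smul, add_mul, mul_add, one_mul, mul_one, Matrix.smul_mul,
    Matrix.mul_smul, hTH]

theorem Pj_fix {ψ : κ → ℂ} (hσ : σ = 1 ∨ σ = -1) (h : T.mulVec ψ = (σ : ℂ) • ψ) :
    (Pj κ T σ).mulVec ψ = ψ := by
  have hs : (σ : ℂ) * (σ : ℂ) = 1 := by
    rcases hσ with h | h <;> rw [h] <;> simp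
  unfold Pj
  rw [Matrix.smul_mulVec, Matrix.add_mulVec, Matrix.one_mulVec, Matrix.smul_mulVec, h, smul_smul,
    hs, one_smul, ← two_smul ℂ ψ, smul_smul]
  norm_num

theorem Pj_trace_add (A : Matrix κ κ ℂ) :
    trace (Pj κ T σ * A) + trace (Pj κ T (-σ) * A) = trace A := by
  unfold Pj
  simp only [Matrix.smul_mul, add_mul, one_mul, Matrix.trace_smul, Matrix.trace_add, smul_eq_mul]
  push_cast
  ring

theorem Pj_trace_sub (A : Matrix κ κ ℂ) :
    trace (Pj κ T σ * A) - trace (Pj κ T (-σ) * A) = (σ : ℂ) * trace (T * A) := by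
  unfold Pj
  simp only [Matrix.smul_mul, add_mul, one_mul, Matrix.trace_smul, Matrix.trace_add, smul_eq_mul]
  push_cast
  ring

end Pj

theorem exp_rpow_level (E s β : ℝ) :
    Real.exp (-(β * E)) * Real.exp (β * s) = Real.exp (-E + s) ^ β := by
  rw [← Real.exp_add, ← Real.exp_mul]
  congr 1
  ring

end SLevB

open SLevB

theorem open_levels (n : ℕ) (f₀ f₁ : ℝ) :
    ∃ (k : ℕ) (x : Fin k → ℝ), 0 < k ∧ (∀ i, 0 < x i) ∧
      ∀ β, 0 < β → Zo β f₀ f₁ 1 n = ∑ i, x i ^ β := by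
  classical
  obtain ⟨k, E, hE, -⟩ := exists_levels_proj (openH (n + 1) f₀ f₁) 1 (openH_isHermitian _ _ _)
    Matrix.isHermitian_one (one_mul 1) (by rw [one_mul, mul_one])
  refine ⟨k, fun i => Real.exp (-E i + ((n + 2) * eV + 403 / 1000)), ?_, fun i => Real.exp_pos _, ?_⟩
  · have h0 := hE 0
    rw [one_mul] at h0
    simp only [Complex.ofReal_zero, neg_zero, zero_smul, NormedSpace.exp_zero, Matrix.trace_one,
      zero_mul, Real.exp_zero, Finset.sum_const, Finset.card_univ, Fintype.card_fin, nsmul_eq_mul,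
      mul_one] at h0
    have h1 : (Fintype.card (Fin (n + 1 + 1) → Fin 3)) = k := by exact_mod_cast h0
    rw [← h1]
    exact Fintype.card_pos
  · intro β _
    unfold Zo
    rw [zOpen_one, ← one_mul (NormedSpace.exp _), hE β, Complex.ofReal_re, Finset.sum_mul]
    exact Finset.sum_congr rfl fun i _ => exp_rpow_level _ _ _

theorem open_parLev (n : ℕ) (f₀ f₁ E σ : ℝ) (hσ : σ = 1 ∨ σ = -1)
    (ψ : (Fin (n + 1 + 1) → Fin 3) → ℂ) (hψ : ψ ≠ 0) (hpar : (tens wz).mulVec ψ = (σ : ℂ) • ψ)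
    (hE : (star ψ ⬝ᵥ (openH (n + 1) f₀ f₁).mulVec ψ).re ≤ E * (star ψ ⬝ᵥ ψ).re) :
    ParLev (fun β => Zo β f₀ f₁ 1 n) (fun β => σ * Zo β f₀ f₁ wz n)
      (Real.exp (-E + ((n + 2) * eV + 403 / 1000))) := by
  classical
  have hσ' : -σ = 1 ∨ -σ = -1 := by
    rcases hσ with h | h
    · right; rw [h]
    · left; rw [h, neg_neg]
  obtain ⟨k, E1, hE1, hvar⟩ := exists_levels_proj (openH (n + 1) f₀ f₁)
    (Pj _ (tens wz) σ) (openH_isHermitian _ _ _) (Pj_herm tens_herm) (Pj_idem tens_sq hσ)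
    (Pj_comm (tens_openH _ _ _))
  obtain ⟨l, E2, hE2, -⟩ := exists_levels_proj (openH (n + 1) f₀ f₁)
    (Pj _ (tens wz) (-σ)) (openH_isHermitian _ _ _) (Pj_herm tens_herm) (Pj_idem tens_sq hσ')
    (Pj_comm (tens_openH _ _ _))
  obtain ⟨i₀, hi₀⟩ := hvar ψ E hψ (Pj_fix hσ hpar) hE
  have hx : ∀ β, (trace (Pj _ (tens wz) σ * NormedSpace.exp ((-(β : ℂ)) • openH (n + 1) f₀ f₁))).re *
      Real.exp (β * ((n + 2) * eV + 403 / 1000)) =
      ∑ i, Real.exp (-E1 i + ((n + 2) * eV + 403 / 1000)) ^ β := fun β => by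
    rw [hE1 β, Complex.ofReal_re, Finset.sum_mul]
    exact Finset.sum_congr rfl fun i _ => exp_rpow_level _ _ _
  have hy : ∀ β, (trace (Pj _ (tens wz) (-σ) * NormedSpace.exp ((-(β : ℂ)) • openH (n + 1) f₀ f₁))).re *
      Real.exp (β * ((n + 2) * eV + 403 / 1000)) =
      ∑ i, Real.exp (-E2 i + ((n + 2) * eV + 403 / 1000)) ^ β := fun β => by
    rw [hE2 β, Complex.ofReal_re, Finset.sum_mul]
    exact Finset.sum_congr rfl fun i _ => exp_rpow_level _ _ _
  refine ⟨k, l, fun i => Real.exp (-E1 i + ((n + 2) * eV + 403 / 1000)),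
    fun i => Real.exp (-E2 i + ((n + 2) * eV + 403 / 1000)), i₀, fun i => Real.exp_pos _,
    fun i => Real.exp_pos _, Real.exp_le_exp.2 (by linarith), ?_⟩
  intro β _
  have hadd := congrArg Complex.re (Pj_trace_add (T := tens wz) (σ := σ)
    (NormedSpace.exp ((-(β : ℂ)) • openH (n + 1) f₀ f₁)))
  have hsub := congrArg Complex.re (Pj_trace_sub (T := tens wz) (σ := σ)
    (NormedSpace.exp ((-(β : ℂ)) • openH (n + 1) f₀ f₁)))
  rw [Complex.add_re] at hadd
  rw [Complex.sub_re, Complex.re_ofReal_mul] at hsub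
  constructor
  · show Zo β f₀ f₁ 1 n = _
    unfold Zo
    rw [zOpen_one, ← hadd, add_mul, hx, hy]
  · show σ * Zo β f₀ f₁ wz n = _
    unfold Zo zOpen
    rw [← mul_assoc, ← hsub, sub_mul, hx, hy]

end Crest.Agent.R347
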