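import Crest.Agent.R347.MpsRing
import Crest.Agent.R347.SLevels
import Crest.Agent.R347.LSec

/-!
# Row 347, piece F_LOWER (0.8 h): `1 ≤ Zs β 1 1 L`

`mps_ring`: `⟨ψ, openH N 0 0 ψ⟩ ≤ (eV (N+1) + C) |ψ|²`; `ringH N 1 = openH N 0 0 + bond (last) 0` and `bond ≤ 1`
(`S·S ≤ 1`: as a form `Re ⟨ψ, bond j k ψ⟩ ≤ 1·|ψ|²` for `j ≠ k`; any constant instead of 1 is fine, e.g. 9).
Hence `trace exp(-β ringH) ≥ exp(-β (eV (N+1) + C'))` (`exists_levels_proj` with `P = 1`), `Zs β 1 1 (N+1) ≥ exp(-β C')`.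
For even `L ≥ 2`: `exp(-β C') ≤ Zs β 1 1 (kL) ≤ (Zs β 1 1 L)^k` (`IsPS.pow_le`) for all `k ≥ 1`, so `Zs β 1 1 L ≥ 1`.
-/

set_option autoImplicit false

open Crest.MathPhysics.SpinChain Matrix

namespace Crest.Agent.R347

namespace FLowerAux

open scoped Matrix.Norms.L2Operator

theorem form_le {κ : Type*} [Fintype κ] [DecidableEq κ] (M : Matrix κ κ ℂ) (ψ : κ → ℂ) :
    (star ψ ⬝ᵥ M.mulVec ψ).re ≤ ‖M‖ * (star ψ ⬝ᵥ ψ).re := by
  have h1 : ∀ v : κ → ℂ, star ψ ⬝ᵥ v = inner ℂ (WithLp.toLp 2 ψ) (WithLp.toLp 2 v) := by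
    intro v
    rw [EuclideanSpace.inner_eq_star_dotProduct, dotProduct_comm]
  have h2 : (star ψ ⬝ᵥ ψ).re = ‖(WithLp.toLp 2 ψ : EuclideanSpace ℂ κ)‖ ^ 2 := by
    rw [h1]
    have := inner_self_eq_norm_sq (𝕜 := ℂ) (WithLp.toLp 2 ψ : EuclideanSpace ℂ κ)
    exact this
  rw [h2, h1]
  refine (Complex.re_le_norm _).trans ((norm_inner_le_norm _ _).trans ?_)
  have h3 := Matrix.l2_opNorm_mulVec M (WithLp.toLp 2 ψ : EuclideanSpace ℂ κ)
  have h4 := mul_le_mul_of_nonneg_left h3 (norm_nonneg (WithLp.toLp 2 ψ : EuclideanSpace ℂ κ))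
  refine h4.trans (le_of_eq ?_)
  ring

theorem onSite_star {ι : Type*} [Fintype ι] [DecidableEq ι] (A : Matrix (Fin 3) (Fin 3) ℂ)
    (j : ι) : onSite (star A) j = star (onSite A j) := by
  ext s s'
  simp only [onSite, Matrix.of_apply, Matrix.star_apply]
  have : (∀ k, k ≠ j → s k = s' k) ↔ (∀ k, k ≠ j → s' k = s k) :=
    ⟨fun h k hk => (h k hk).symm, fun h k hk => (h k hk).symm⟩
  by_cases h : ∀ k, k ≠ j → s k = s' k
  · rw [if_pos h, if_pos (this.1 h)]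
  · rw [if_neg h, if_neg (fun h' => h (this.2 h')), star_zero]

theorem onSite_mul {ι : Type*} [Fintype ι] [DecidableEq ι] (A B : Matrix (Fin 3) (Fin 3) ℂ)
    (j : ι) : onSite (A * B) j = onSite A j * onSite B j := by
  rw [onSite_eq_tensF, onSite_eq_tensF, onSite_eq_tensF, tensF_mul]
  congr 1
  funext k
  by_cases h : k = j
  · subst h; simp
  · simp [h]

/-- the star homomorphism `A ↦ onSite A j` -/
noncomputable def onHom {ι : Type*} [Fintype ι] [DecidableEq ι] (j : ι) :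
    Matrix (Fin 3) (Fin 3) ℂ →⋆ₙₐ[ℂ] Matrix (ι → Fin 3) (ι → Fin 3) ℂ where
  toFun A := onSite A j
  map_smul' c A := by
    ext s s'
    simp only [onSite, Matrix.of_apply, Matrix.smul_apply, MonoidHom.id_apply]
    split_ifs <;> simp
  map_zero' := by
    ext s s'
    simp [onSite]
  map_add' A B := by
    ext s s'
    simp only [onSite, Matrix.of_apply, Matrix.add_apply]
    split_ifs <;> simp
  map_mul' A B := onSite_mul A B j
  map_star' A := onSite_star A j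

theorem onSite_norm_le {ι : Type*} [Fintype ι] [DecidableEq ι] (A : Matrix (Fin 3) (Fin 3) ℂ)
    (j : ι) : ‖onSite A j‖ ≤ ‖A‖ :=
  NonUnitalStarAlgHom.norm_apply_le (onHom j) A

theorem tbond_norm_le {ι : Type*} [Fintype ι] [DecidableEq ι] (j k : ι) :
    ‖tbond 1 j k‖ ≤ ∑ a : Fin 3, ∑ b : Fin 3, ‖spinOp a‖ * ‖spinOp b‖ := by
  unfold tbond
  refine (norm_sum_le _ _).trans (Finset.sum_le_sum fun a _ => ?_)
  refine (norm_sum_le _ _).trans (Finset.sum_le_sum fun b _ => ?_)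
  rw [norm_smul]
  have h1 : ‖(((1 : Matrix (Fin 3) (Fin 3) ℝ) a b : ℝ) : ℂ)‖ ≤ 1 := by
    rw [Matrix.one_apply]; split_ifs <;> simp
  refine (mul_le_mul h1 ((norm_mul_le _ _).trans (mul_le_mul (onSite_norm_le _ _)
    (onSite_norm_le _ _) (norm_nonneg _) (norm_nonneg _))) (norm_nonneg _) zero_le_one).trans ?_
  rw [one_mul]

theorem ringH_eq (N : ℕ) : ringH N 1 = openH N 0 0 + tbond 1 (Fin.last N) 0 := by
  unfold ringH openH
  simp

theorem lower : ∃ C : ℝ, ∀ β : ℝ, 0 < β → ∀ L : ℕ, 2 ≤ L →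
    Real.exp (-(β * C)) ≤ Zs β 1 1 L := by
  obtain ⟨C, hC⟩ := mps_ring
  refine ⟨C + ∑ a : Fin 3, ∑ b : Fin 3, ‖spinOp a‖ * ‖spinOp b‖, fun β hβ L hL => ?_⟩
  set K := ∑ a : Fin 3, ∑ b : Fin 3, ‖spinOp a‖ * ‖spinOp b‖ with hK
  obtain ⟨N, rfl⟩ : ∃ N, L = N + 1 := ⟨L - 1, by omega⟩
  obtain ⟨ψ, hψ, hE⟩ := hC N
  obtain ⟨k, E, hE1, hE2⟩ := exists_levels_proj (ringH N 1) 1 (ringH_isHermitian N (by omega))
    Matrix.isHermitian_one (by simp) (by simp)
  obtain ⟨i, hi⟩ := hE2 ψ ((-1401474 / 1000000 : ℝ) * (N + 1) + (C + K)) hψ (by simp) (by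
    rw [ringH_eq, Matrix.add_mulVec, dotProduct_add, Complex.add_re]
    have h1 := form_le (tbond 1 (Fin.last N) 0) ψ
    have h0 : 0 ≤ (star ψ ⬝ᵥ ψ).re := by
      have h9 : (star ψ ⬝ᵥ ψ).re = ‖(WithLp.toLp 2 ψ : EuclideanSpace ℂ (Fin (N + 1) → Fin 3))‖ ^ 2 := by
        rw [dotProduct_comm]
        have := inner_self_eq_norm_sq (𝕜 := ℂ)
          (WithLp.toLp 2 ψ : EuclideanSpace ℂ (Fin (N + 1) → Fin 3))
        exact this
      rw [h9]
      positivity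
    have h2 := mul_le_mul_of_nonneg_right (tbond_norm_le (Fin.last N) (0 : Fin (N + 1))) h0
    rw [← hK] at h2
    nlinarith [hE, h1, h2])
  unfold Zs
  rw [show N + 1 - 1 = N by omega, zRing_one]
  have h3 := hE1 β
  rw [one_mul] at h3
  rw [h3, Complex.ofReal_re]
  have h4 : Real.exp (-(β * E i)) ≤ ∑ i, Real.exp (-(β * E i)) :=
    Finset.single_le_sum (f := fun i => Real.exp (-(β * E i))) (fun _ _ => (Real.exp_pos _).le)
      (Finset.mem_univ i)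
  have h5 : Real.exp (-(β * ((-1401474 / 1000000 : ℝ) * (N + 1) + (C + K)))) ≤
      Real.exp (-(β * E i)) := by
    apply Real.exp_le_exp.2
    have := mul_le_mul_of_nonneg_left hi hβ.le
    linarith
  calc Real.exp (-(β * (C + K))) = Real.exp (-(β * ((-1401474 / 1000000 : ℝ) * (N + 1) + (C + K)))) *
        Real.exp (β * ((N + 1 : ℕ) : ℝ) * eV) := by
        rw [← Real.exp_add]
        congr 1
        unfold eV
        push_cast
        ring
    _ ≤ _ := mul_le_mul_of_nonneg_right (h5.trans h4) (Real.exp_pos _).le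

end FLowerAux

theorem Zs_ge_one (β : ℝ) (hβ : 0 < β) (L : ℕ) (hL : Even L) (h2 : 2 ≤ L) : 1 ≤ Zs β 1 1 L := by
  obtain ⟨C, hC⟩ := FLowerAux.lower
  by_contra hlt
  push Not at hlt
  have hpos : 0 ≤ Zs β 1 1 L := (Real.exp_pos _).le.trans (hC β hβ L h2)
  have ht := tendsto_pow_atTop_nhds_zero_of_lt_one hpos hlt
  have hev := (ht.eventually_lt_const (Real.exp_pos (-(β * C)))).and
    (Filter.eventually_ge_atTop 1)
  obtain ⟨k, hk, hk1⟩ := hev.exists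
  have h3 := (isPS_Zs β hβ.le).pow_le hL h2 k hk1
  have h4 := hC β hβ (k * L) (by nlinarith)
  exact absurd (h4.trans h3) (not_le.2 hk)

end Crest.Agent.R347
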