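import Crest.Agent.R347.NOS2m

/-! Row 347 numerics, open chain with 2 sites, s = true: run certificates (generated). -/

set_option autoImplicit false
set_option Elab.async false

namespace Crest.Agent.R347

def r2m_0 : List ℕ × ℕ := ([0, 1, 2, 5, 8],
  96852850042436693007125706265183798566256926835629741645137674285542052062488381962285615434530191689527258994254448600663104091643743011107950025734464731491698480272888370990278129915490691787096587124365484)
theorem t2m_0 : chkO 64 2 57 3255 true sch2m r2m_0 = true := by decide +kernel
def r2m_1 : List ℕ × ℕ := ([3, 4, 7],
  302125534260735741523650845739563062042461853680649455937355718734992431465832129722083708444227397540617895952241926953480880105253901768320717242576826267906853965261463399454747636020093844009179300916257625)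
theorem t2m_1 : chkO 64 2 57 3255 true sch2m r2m_1 = true := by decide +kernel
def r2m_2 : List ℕ × ℕ := ([6],
  175856884760733369681051696504017806299245217819461090889451498200302612985238319090683571599192764180555921124303915295193419407841844862567582547148992927812083111561455942312340510046922)
theorem t2m_2 : chkO 64 2 57 3255 true sch2m r2m_2 = true := by decide +kernel

/-- runs of this file -/
def rs2m_0 : List (List ℕ × ℕ) := [r2m_0, r2m_1, r2m_2]

theorem c2m_0 : ∀ r ∈ rs2m_0, chkO 64 2 57 3255 true sch2m r = true :=
  List.forall_mem_cons.2 ⟨t2m_0, List.forall_mem_cons.2 ⟨t2m_1, List.forall_mem_cons.2 ⟨t2m_2, fun _ h => by cases h⟩⟩⟩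

end Crest.Agent.R347
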