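import Crest.Agent.R347.NOE2
import Crest.Agent.R347.NOR2mx0

/-! Row 347 numerics, open chain with 2 sites, s = true: final certificate (generated). -/

set_option autoImplicit false
set_option Elab.async false

namespace Crest.Agent.R347

def rs2m : List (List ℕ × ℕ) := rs2m_0

theorem c2m : ∀ r ∈ rs2m, chkO 64 2 57 3255 true sch2m r = true := by
  unfold rs2m
  exact c2m_0

theorem par2m : ParO 1 64 57 399 1838342579928593 3255 sch2m where
  hW := by norm_num
  hn1 := by norm_num
  hn := by norm_num
  hB := by norm_num
  hBW := by norm_num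
  hWm := by norm_num
  hE := by norm_num
  hs := by norm_num
  hl := by decide +kernel
  sched := ⟨by decide +kernel, by decide +kernel, by decide +kernel, by decide +kernel⟩
  err := by decide +kernel

theorem part2m : partOK 2 (rs2m.map Prod.fst) = true := by decide +kernel

theorem chk2m : numCheckO 1 399 (totSh sch2m) (totsO rs2m) 1317405310000 (131740531000000000) (131738581000000000) = true := by decide +kernel

theorem res2m :
    |Real.exp (17 / 2 * ((1 + 1 : ℕ) : ℝ)) * (zOpen 1 (17 / 2) (3 / 5) (fO true) 1).re - (131740531000000000 : ℤ)| ≤ (1317405310000 : ℤ) ∧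
      |Real.exp (17 / 2 * ((1 + 1 : ℕ) : ℝ)) * (zOpen 1 (17 / 2) (3 / 5) (fO true) wz).re - (131738581000000000 : ℤ)| ≤ (1317405310000 : ℤ) :=
  numO_of_cert (n := 1) par2m true rs2m part2m c2m 1317405310000 (131740531000000000) (131738581000000000) chk2m

end Crest.Agent.R347
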