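import Crest.Agent.R347.NOS3m

/-! Row 347 numerics, open chain with 3 sites, s = true: run certificates (generated). -/

set_option autoImplicit false
set_option Elab.async false

namespace Crest.Agent.R347

def r3m_0 : List ℕ × ℕ := ([0, 1, 2, 5, 8, 17, 26],
  1927132511141835471289765015996452867587833097968908440584635831551133399695318101191104103004870136041226265704574432455623950418170891677206332050145496912435234683856889712855137511110658614947390953858694339364)
theorem t3m_0 : chkO 64 3 57 16142720 true sch3m r3m_0 = true := by decide +kernel
def r3m_1 : List ℕ × ℕ := ([3, 4, 7, 14, 23],
  9887750118245539688874217163871357016138896546071048284977965895331782704219181754514702070783922189950812291323824306546562646756843642438791192246457343860493149302126797601154682699328626761709678075573229012256)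
theorem t3m_1 : chkO 64 3 57 16142720 true sch3m r3m_1 = true := by decide +kernel
def r3m_2 : List ℕ × ℕ := ([9, 6, 11, 16, 25],
  9887749112845063591052826735834670803477220636683894404509098638673859621130252578676501361899022110756998360782722642533570058700189759103322055015134762020452395869254730598231171662945721156192323523944688725635)
theorem t3m_2 : chkO 64 3 57 16142720 true sch3m r3m_2 = true := by decide +kernel
def r3m_3 : List ℕ × ℕ := ([10, 13, 20],
  61247924997001395891903619861019026380904537300544125454314172496242503143608857153822512856238619331898620355047899434994465849912507189724179381091683764596920705778041783149988507595711836909118916843740898340483)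
theorem t3m_3 : chkO 64 3 57 16142720 true sch3m r3m_3 = true := by decide +kernel
def r3m_4 : List ℕ × ℕ := ([12, 15, 22],
  97759845056036648888832816847433942240997940065776360409697445809834431236776750106271622241352638385205822107579715018318494269946763857199408928769204740246206501148262642198613647940604237423135124458780665458398)
theorem t3m_4 : chkO 64 3 57 16142720 true sch3m r3m_4 = true := by decide +kernel
def r3m_5 : List ℕ × ℕ := ([18, 19, 24],
  97759845056036648888832816847433942240997940065776360409697435708245088565633089268525870671869457740649847505962862706075120691446740954077638903158020104939465830850869577499761925276651874975431292159575399598110)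
theorem t3m_5 : chkO 64 3 57 16142720 true sch3m r3m_5 = true := by decide +kernel
def r3m_6 : List ℕ × ℕ := ([21],
  86163334851080963960075190334876427820357666638642901014422336998638542895270061325169465099143137330278499927083756836666277037507521197468287109403418383053438143130742718897407693877628171610493086395119366569984)
theorem t3m_6 : chkO 64 3 57 16142720 true sch3m r3m_6 = true := by decide +kernel

/-- runs of this file -/
def rs3m_0 : List (List ℕ × ℕ) := [r3m_0, r3m_1, r3m_2, r3m_3, r3m_4, r3m_5, r3m_6]

theorem c3m_0 : ∀ r ∈ rs3m_0, chkO 64 3 57 16142720 true sch3m r = true :=
  List.forall_mem_cons.2 ⟨t3m_0, List.forall_mem_cons.2 ⟨t3m_1, List.forall_mem_cons.2 ⟨t3m_2, List.forall_mem_cons.2 ⟨t3m_3, List.forall_mem_cons.2 ⟨t3m_4, List.forall_mem_cons.2 ⟨t3m_5, List.forall_mem_cons.2 ⟨t3m_6, fun _ h => by cases h⟩⟩⟩⟩⟩⟩⟩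

end Crest.Agent.R347
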