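import Crest.Agent.R347.NOE2
import Crest.Agent.R347.NOR4mx0

/-! Row 347 numerics, open chain with 4 sites, s = true: final certificate (generated). -/

set_option autoImplicit false
set_option Elab.async false

namespace Crest.Agent.R347

def rs4m : List (List ℕ × ℕ) := rs4m_0

theorem c4m : ∀ r ∈ rs4m, chkO 64 4 57 13630943 true sch4m r = true := by
  unfold rs4m
  exact c4m_0

theorem par4m : ParO 3 64 57 667 1186686275126416 13630943 sch4m where
  hW := by norm_num
  hn1 := by norm_num
  hn := by norm_num
  hB := by norm_num
  hBW := by norm_num
  hWm := by norm_num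
  hE := by norm_num
  hs := by norm_num
  hl := by decide +kernel
  sched := ⟨by decide +kernel, by decide +kernel, by decide +kernel, by decide +kernel⟩
  err := by decide +kernel

theorem part4m : partOK 4 (rs4m.map Prod.fst) = true := by decide +kernel

theorem chk4m : numCheckO 3 667 (totSh sch4m) (totsO rs4m) 341170911000000000000000000000 (34117091100000000000000000000000000) (34094620500000000000000000000000000) = true := by decide +kernel

theorem res4m :
    |Real.exp (17 / 2 * ((3 + 1 : ℕ) : ℝ)) * (zOpen 3 (17 / 2) (3 / 5) (fO true) 1).re - (34117091100000000000000000000000000 : ℤ)| ≤ (341170911000000000000000000000 : ℤ) ∧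
      |Real.exp (17 / 2 * ((3 + 1 : ℕ) : ℝ)) * (zOpen 3 (17 / 2) (3 / 5) (fO true) wz).re - (34094620500000000000000000000000000 : ℤ)| ≤ (341170911000000000000000000000 : ℤ) :=
  numO_of_cert (n := 3) par4m true rs4m part4m c4m 341170911000000000000000000000 (34117091100000000000000000000000000) (34094620500000000000000000000000000) chk4m

end Crest.Agent.R347
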