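import Crest.Agent.R347.NOE2
import Crest.Agent.R347.NOR6mx0

/-! Row 347 numerics, open chain with 6 sites, s = true: final certificate (generated). -/

set_option autoImplicit false
set_option Elab.async false

namespace Crest.Agent.R347

def rs6m : List (List ℕ × ℕ) := rs6m_0

theorem c6m : ∀ r ∈ rs6m, chkO 64 6 57 717099184 true sch6m r = true := by
  unfold rs6m
  exact c6m_0

theorem par6m : ParO 5 64 57 957 1088036180762364 717099184 sch6m where
  hW := by norm_num
  hn1 := by norm_num
  hn := by norm_num
  hB := by norm_num
  hBW := by norm_num
  hWm := by norm_num
  hE := by norm_num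
  hs := by norm_num
  hl := by decide +kernel
  sched := ⟨by decide +kernel, by decide +kernel, by decide +kernel, by decide +kernel⟩
  err := by decide +kernel

theorem part6m : partOK 6 (rs6m.map Prod.fst) = true := by decide +kernel

theorem chk6m : numCheckO 5 957 (totSh sch6m) (totsO rs6m) 125503839000000000000000000000000000000000000000 (12550383900000000000000000000000000000000000000000000) (12504976000000000000000000000000000000000000000000000) = true := by decide +kernel

theorem res6m :
    |Real.exp (17 / 2 * ((5 + 1 : ℕ) : ℝ)) * (zOpen 5 (17 / 2) (3 / 5) (fO true) 1).re - (12550383900000000000000000000000000000000000000000000 : ℤ)| ≤ (125503839000000000000000000000000000000000000000 : ℤ) ∧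
      |Real.exp (17 / 2 * ((5 + 1 : ℕ) : ℝ)) * (zOpen 5 (17 / 2) (3 / 5) (fO true) wz).re - (12504976000000000000000000000000000000000000000000000 : ℤ)| ≤ (125503839000000000000000000000000000000000000000 : ℤ) :=
  numO_of_cert (n := 5) par6m true rs6m part6m c6m 125503839000000000000000000000000000000000000000 (12550383900000000000000000000000000000000000000000000) (12504976000000000000000000000000000000000000000000000) chk6m

end Crest.Agent.R347
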