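import Crest.Agent.R347.NOT6p
import Crest.Agent.R347.NOT6m

/-! Row 347 numerics: open chain with 6 sites. -/

set_option autoImplicit false

open Crest.MathPhysics.SpinChain Matrix

namespace Crest.Agent.R347

theorem numOpen6 : NumOpen6 := by
  have h1 := res6p
  have h2 := res6m
  simp only [fO, if_true, Bool.false_eq_true, if_false] at h1 h2
  unfold NumOpen6 NumO
  norm_num at h1 h2 ⊢
  exact ⟨h1.1, h2.1, h1.2, h2.2⟩

end Crest.Agent.R347
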