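import Crest.Agent.R347.NOE2
import Crest.Agent.R347.NOR7mx0
import Crest.Agent.R347.NOR7mx1
import Crest.Agent.R347.NOR7mx2
import Crest.Agent.R347.NOR7mx3

/-! Row 347 numerics, open chain with 7 sites, s = true: final certificate (generated). -/

set_option autoImplicit false
set_option Elab.async false

namespace Crest.Agent.R347

def rs7m : List (List ℕ × ℕ) := rs7m_0 ++ rs7m_1 ++ rs7m_2 ++ rs7m_3

theorem c7m : ∀ r ∈ rs7m, chkO 64 7 57 2729928293 true sch7m r = true := by
  unfold rs7m
  simp only [List.forall_mem_append]
  exact ⟨⟨⟨c7m_0, c7m_1⟩, c7m_2⟩, c7m_3⟩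

theorem par7m : ParO 6 64 57 1146 749591104031068 2729928293 sch7m where
  hW := by norm_num
  hn1 := by norm_num
  hn := by norm_num
  hB := by norm_num
  hBW := by norm_num
  hWm := by norm_num
  hE := by norm_num
  hs := by norm_num
  hl := by decide +kernel
  sched := ⟨by decide +kernel, by decide +kernel, by decide +kernel, by decide +kernel⟩
  err := by decide +kernel

theorem part7m : partOK 7 (rs7m.map Prod.fst) = true := by decide +kernel

theorem chk7m : numCheckO 6 1146 (totSh sch7m) (totsO rs7m) 79300184600000000000000000000000000000000000000000000000 (966562368000000000000000000000000000000000000000000000000000) (862023882000000000000000000000000000000000000000000000000000) = true := by decide +kernel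

theorem res7m :
    |Real.exp (17 / 2 * ((6 + 1 : ℕ) : ℝ)) * (zOpen 6 (17 / 2) (3 / 5) (fO true) 1).re - (966562368000000000000000000000000000000000000000000000000000 : ℤ)| ≤ (79300184600000000000000000000000000000000000000000000000 : ℤ) ∧
      |Real.exp (17 / 2 * ((6 + 1 : ℕ) : ℝ)) * (zOpen 6 (17 / 2) (3 / 5) (fO true) wz).re - (862023882000000000000000000000000000000000000000000000000000 : ℤ)| ≤ (79300184600000000000000000000000000000000000000000000000 : ℤ) :=
  numO_of_cert (n := 6) par7m true rs7m part7m c7m 79300184600000000000000000000000000000000000000000000000 (966562368000000000000000000000000000000000000000000000000000) (862023882000000000000000000000000000000000000000000000000000) chk7m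

end Crest.Agent.R347
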