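import Crest.Agent.R347.NOE2
import Crest.Agent.R347.NOR8mx0
import Crest.Agent.R347.NOR8mx1
import Crest.Agent.R347.NOR8mx2
import Crest.Agent.R347.NOR8mx3
import Crest.Agent.R347.NOR8mx4
import Crest.Agent.R347.NOR8mx5
import Crest.Agent.R347.NOR8mx6
import Crest.Agent.R347.NOR8mx7
import Crest.Agent.R347.NOR8mx8
import Crest.Agent.R347.NOR8mx9
import Crest.Agent.R347.NOR8mx10
import Crest.Agent.R347.NOR8mx11
import Crest.Agent.R347.NOR8mx12
import Crest.Agent.R347.NOR8mx13
import Crest.Agent.R347.NOR8mx14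
import Crest.Agent.R347.NOR8mx15
import Crest.Agent.R347.NOR8mx16
import Crest.Agent.R347.NOR8mx17
import Crest.Agent.R347.NOR8mx18

/-! Row 347 numerics, open chain with 8 sites, s = true: final certificate (generated). -/

set_option autoImplicit false
set_option Elab.async false

namespace Crest.Agent.R347

def rs8m : List (List ℕ × ℕ) := rs8m_0 ++ rs8m_1 ++ rs8m_2 ++ rs8m_3 ++ rs8m_4 ++ rs8m_5 ++ rs8m_6 ++ rs8m_7 ++ rs8m_8 ++ rs8m_9 ++ rs8m_10 ++ rs8m_11 ++ rs8m_12 ++ rs8m_13 ++ rs8m_14 ++ rs8m_15 ++ rs8m_16 ++ rs8m_17 ++ rs8m_18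

theorem c8m : ∀ r ∈ rs8m, chkO 64 8 57 2830087906 true sch8m r = true := by
  unfold rs8m
  simp only [List.forall_mem_append]
  exact ⟨⟨⟨⟨⟨⟨⟨⟨⟨⟨⟨⟨⟨⟨⟨⟨⟨⟨c8m_0, c8m_1⟩, c8m_2⟩, c8m_3⟩, c8m_4⟩, c8m_5⟩, c8m_6⟩, c8m_7⟩, c8m_8⟩, c8m_9⟩, c8m_10⟩, c8m_11⟩, c8m_12⟩, c8m_13⟩, c8m_14⟩, c8m_15⟩, c8m_16⟩, c8m_17⟩, c8m_18⟩

theorem par8m : ParO 7 64 57 1309 654641307914697 2830087906 sch8m where
  hW := by norm_num
  hn1 := by norm_num
  hn := by norm_num
  hB := by norm_num
  hBW := by norm_num
  hWm := by norm_num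
  hE := by norm_num
  hs := by norm_num
  hl := by decide +kernel
  sched := ⟨by decide +kernel, by decide +kernel, by decide +kernel, by decide +kernel⟩
  err := by decide +kernel

theorem part8m : partOK 8 (rs8m.map Prod.fst) = true := by decide +kernel

theorem chk8m : numCheckO 7 1309 (totSh sch8m) (totsO rs8m) 52754515200000000000000000000000000000000000000000000000000000000 (5275451520000000000000000000000000000000000000000000000000000000000000) (5225493150000000000000000000000000000000000000000000000000000000000000) = true := by decide +kernel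

theorem res8m :
    |Real.exp (17 / 2 * ((7 + 1 : ℕ) : ℝ)) * (zOpen 7 (17 / 2) (3 / 5) (fO true) 1).re - (5275451520000000000000000000000000000000000000000000000000000000000000 : ℤ)| ≤ (52754515200000000000000000000000000000000000000000000000000000000 : ℤ) ∧
      |Real.exp (17 / 2 * ((7 + 1 : ℕ) : ℝ)) * (zOpen 7 (17 / 2) (3 / 5) (fO true) wz).re - (5225493150000000000000000000000000000000000000000000000000000000000000 : ℤ)| ≤ (52754515200000000000000000000000000000000000000000000000000000000 : ℤ) :=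
  numO_of_cert (n := 7) par8m true rs8m part8m c8m 52754515200000000000000000000000000000000000000000000000000000000 (5275451520000000000000000000000000000000000000000000000000000000000000) (5225493150000000000000000000000000000000000000000000000000000000000000) chk8m

end Crest.Agent.R347
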