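import Crest.Agent.R347.NE1
import Crest.Agent.R347.NA4
import Crest.Agent.R347.NumChk

/-!
# Row 347 numerics, piece NE2: from the run certificates to `NumL`

`ring_trace`/`ring_trace_wx` + `orbit_sum` (with `inv_diag`, `inv_flip`) + `run_diag`/`run_flip` (with `dsR_inj`) + `run_cert`, summed over the runs
with the weights `sz`; then `numCheck`.  `(cfgOf n i)` for the start indices of a run are distinct, so the list sum is the
`Finset` sum over `A`.
-/

set_option autoImplicit false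

open Crest.MathPhysics.SpinChain Matrix

namespace Crest.Agent.R347

variable {n : ℕ}

theorem ne2_inI {σ T : ℕ} {lo hi d a : ℤ} (h : inI σ T lo hi d a = true) {X : ℝ}
    (h1 : (lo : ℝ) * 2 ^ (2 * T) ≤ X * 2 ^ (2 * σ))
    (h2 : X * 2 ^ (2 * σ) ≤ (hi : ℝ) * 2 ^ (2 * T)) : |X - (a : ℝ)| ≤ (d : ℝ) := by
  unfold inI at h
  simp only [Bool.and_eq_true, decide_eq_true_eq] at h
  obtain ⟨h3, h4⟩ := h
  have h3' : ((a : ℝ) - d) * 2 ^ (2 * σ) ≤ (lo : ℝ) * 2 ^ (2 * T) := by exact_mod_cast h3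
  have h4' : (hi : ℝ) * 2 ^ (2 * T) ≤ ((a : ℝ) + d) * 2 ^ (2 * σ) := by exact_mod_cast h4
  have hp : (0 : ℝ) < 2 ^ (2 * σ) := by positivity
  have h5 := le_of_mul_le_mul_right (h3'.trans h1) hp
  have h6 := le_of_mul_le_mul_right (h2.trans h4') hp
  rw [abs_le]
  constructor <;> linarith

/-- totals of the exact sums -/
noncomputable def ne2E (e : ℕ × List ℕ × ℕ → ℕ → ℝ) (rs : List (ℕ × List ℕ × ℕ)) (i : ℕ) : ℝ :=
  (rs.map fun r => (r.1 : ℝ) * e r i).sum

theorem ne2_tots (e : ℕ × List ℕ × ℕ → ℕ → ℝ) (P S : ℝ) (rs : List (ℕ × List ℕ × ℕ)) (i : ℕ)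
    (h : ∀ r ∈ rs, ((r.2.2 >>> (200 * i) % 2 ^ 200 : ℕ) : ℝ) * P ≤ e r i * S ∧
      e r i * S ≤ ((r.2.2 >>> (200 * (13 + i)) % 2 ^ 200 : ℕ) : ℝ) * P) :
    (tots rs i : ℝ) * P ≤ ne2E e rs i * S ∧ ne2E e rs i * S ≤ (tots rs (13 + i) : ℝ) * P := by
  induction rs with
  | nil => simp [tots, ne2E]
  | cons r l ih =>
    have h1 := h r (List.mem_cons_self ..)
    have h2 := ih (fun r' hr' => h r' (List.mem_cons_of_mem _ hr'))
    have h3 : ne2E e (r :: l) i = (r.1 : ℝ) * e r i + ne2E e l i := by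
      simp [ne2E]
    have h4 : (tots (r :: l) i : ℝ) =
        (r.1 : ℝ) * ((r.2.2 >>> (200 * i) % 2 ^ 200 : ℕ) : ℝ) + (tots l i : ℝ) := by
      rw [tots]
      push_cast
      rfl
    have h5 : (tots (r :: l) (13 + i) : ℝ) =
        (r.1 : ℝ) * ((r.2.2 >>> (200 * (13 + i)) % 2 ^ 200 : ℕ) : ℝ) +
          (tots l (13 + i) : ℝ) := by
      rw [tots]
      push_cast
      rfl
    have hr : (0 : ℝ) ≤ (r.1 : ℝ) := Nat.cast_nonneg _
    have h6 := mul_le_mul_of_nonneg_left h1.1 hr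
    have h7 := mul_le_mul_of_nonneg_left h1.2 hr
    rw [h3, h4, h5]
    constructor
    · calc _ = (r.1 : ℝ) * (((r.2.2 >>> (200 * i) % 2 ^ 200 : ℕ) : ℝ) * P) + (tots l i : ℝ) * P := by
            ring
        _ ≤ (r.1 : ℝ) * (e r i * S) + ne2E e l i * S := add_le_add h6 h2.1
        _ = _ := by ring
    · calc _ = (r.1 : ℝ) * (e r i * S) + ne2E e l i * S := by ring
        _ ≤ (r.1 : ℝ) * (((r.2.2 >>> (200 * (13 + i)) % 2 ^ 200 : ℕ) : ℝ) * P) +
            (tots l (13 + i) : ℝ) * P := add_le_add h7 h2.2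
        _ = _ := by ring

theorem ne2_kap (n : ℕ) (κ : Fin 3) :
    (kap n κ = 0 ↔ kapN n κ = 0) ∧ (kap n κ = 2 ↔ kapN n κ = 2) := by
  unfold kap kapN
  rcases Nat.even_or_odd n with h | h
  · rw [if_pos h, if_pos (Nat.even_iff.1 h)]
    fin_cases κ <;> decide
  · rw [if_neg (Nat.not_even_iff_odd.2 h), if_neg (by rw [Nat.odd_iff.1 h]; decide)]
    fin_cases κ <;> decide

theorem ne2_comb (κ : Fin 3) (tot : ℕ → ℕ) (E : ℕ → ℝ) (P S : ℝ)
    (hE : ∀ i < 13, (tot i : ℝ) * P ≤ E i * S ∧ E i * S ≤ (tot (13 + i) : ℝ) * P)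
    (q : ℕ) (hq : q < 2) :
    (cmbI (kapN n κ) tot 0 13 q : ℝ) * P ≤ combq (kap n κ) E q * S ∧
      combq (kap n κ) E q * S ≤ (cmbI (kapN n κ) tot 13 0 q : ℝ) * P := by
  have hk := ne2_kap n κ
  have e0 := hE (5 * q) (by omega)
  have e1 := hE (5 * q + 1) (by omega)
  have e2 := hE (5 * q + 2) (by omega)
  have e3 := hE (5 * q + 3) (by omega)
  have e4 := hE (5 * q + 4) (by omega)
  simp only [← add_assoc] at e0 e1 e2 e3 e4
  unfold cmbI combq
  simp only [zero_add]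
  by_cases h0 : kap n κ = 0
  · rw [if_pos h0, if_pos (hk.1.1 h0), if_pos (hk.1.1 h0)]
    push_cast
    constructor <;> nlinarith
  · rw [if_neg h0, if_neg (fun h => h0 (hk.1.2 h)), if_neg (fun h => h0 (hk.1.2 h))]
    by_cases h2 : kap n κ = 2
    · rw [if_pos h2, if_pos (hk.2.1 h2), if_pos (hk.2.1 h2)]
      push_cast
      constructor <;> nlinarith
    · rw [if_neg h2, if_neg (fun h => h2 (hk.2.2 h)), if_neg (fun h => h2 (hk.2.2 h))]
      push_cast
      constructor <;> nlinarith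

theorem ne2_cls (κ : Fin 3) (ε : Bool) (tot : ℕ → ℕ) (E : ℕ → ℝ) (P S : ℝ)
    (hE : ∀ i < 13, (tot i : ℝ) * P ≤ E i * S ∧ E i * S ≤ (tot (13 + i) : ℝ) * P)
    (q : ℕ) (hq : q < 2) :
    (clsI n ε (kapN n κ) tot 0 13 q : ℝ) * P ≤ sgq n ε q * combq (kap n κ) E q * S ∧
      sgq n ε q * combq (kap n κ) E q * S ≤ (clsI n ε (kapN n κ) tot 13 0 q : ℝ) * P := by
  have h := ne2_comb (n := n) κ tot E P S hE q hq
  unfold clsI sgq
  by_cases h1 : ε = true ∧ (n + 1 + q) % 2 = 1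
  · rw [if_pos h1, if_pos (by simp [h1.1, h1.2]), if_pos (by simp [h1.1, h1.2])]
    push_cast
    constructor <;> linarith
  · have h2 : ¬ ((ε && Nat.beq ((n + 1 + q) % 2) 1) = true) := by
      intro h2
      apply h1
      simp only [Bool.and_eq_true, Nat.beq_eq] at h2
      exact h2
    rw [if_neg h1, if_neg h2, if_neg h2]
    constructor <;> linarith

theorem ne2_tr (κ : Fin 3) (ε : Bool) (tot : ℕ → ℕ) (E : ℕ → ℝ) (P S : ℝ)
    (hE : ∀ i < 13, (tot i : ℝ) * P ≤ E i * S ∧ E i * S ≤ (tot (13 + i) : ℝ) * P) :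
    (trI n ε κ tot 0 13 : ℝ) * P ≤
        (sgq n ε 0 * combq (kap n κ) E 0 + sgq n ε 1 * combq (kap n κ) E 1) * S ∧
      (sgq n ε 0 * combq (kap n κ) E 0 + sgq n ε 1 * combq (kap n κ) E 1) * S ≤
        (trI n ε κ tot 13 0 : ℝ) * P := by
  have h0 := ne2_cls (n := n) κ ε tot E P S hE 0 (by omega)
  have h1 := ne2_cls (n := n) κ ε tot E P S hE 1 (by omega)
  unfold trI
  push_cast
  constructor <;> linarith [h0.1, h0.2, h1.1, h1.2]

theorem ne2_comb_sum (k : ZMod 4) (e : ℕ × List ℕ × ℕ → ℕ → ℝ) (rs : List (ℕ × List ℕ × ℕ))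
    (a b : ℝ) :
    (rs.map fun r => (r.1 : ℝ) * (a * combq k (e r) 0 + b * combq k (e r) 1)).sum =
      a * combq k (ne2E e rs) 0 + b * combq k (ne2E e rs) 1 := by
  induction rs with
  | nil =>
    simp only [List.map_nil, List.sum_nil, ne2E, combq]
    split_ifs <;> ring
  | cons r l ih =>
    rw [List.map_cons, List.sum_cons, ih]
    have h3 : ∀ i, ne2E e (r :: l) i = (r.1 : ℝ) * e r i + ne2E e l i := by
      intro i
      simp [ne2E]
    unfold combq
    simp only [h3]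
    split_ifs <;> ring

theorem ne2_flip_sum (c : ℝ) (e : ℕ × List ℕ × ℕ → ℕ → ℝ) (rs : List (ℕ × List ℕ × ℕ)) :
    (rs.map fun r => (r.1 : ℝ) * (e r 10 + e r 11 + c * e r 12)).sum =
      ne2E e rs 10 + ne2E e rs 11 + c * ne2E e rs 12 := by
  induction rs with
  | nil => simp [ne2E]
  | cons r l ih =>
    rw [List.map_cons, List.sum_cons, ih]
    have h3 : ∀ i, ne2E e (r :: l) i = (r.1 : ℝ) * e r i + ne2E e l i := by
      intro i
      simp [ne2E]
    simp only [h3]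
    ring

theorem ne2_chkL {L sz : ℕ} {l : List ℕ} (h : chkL L sz l = true) : ∀ i ∈ l, i < 3 ^ L := by
  induction l with
  | nil => intro i hi; simp at hi
  | cons j l ih =>
    unfold chkL at h
    simp only [Bool.and_eq_true] at h
    intro i hi
    rcases List.mem_cons.1 hi with rfl | hi
    · exact of_decide_eq_true (by simpa [Nat.blt_eq] using h.2.1)
    · exact ih h.2.2 i hi

theorem ne2_chkR {L : ℕ} {rs : List (ℕ × List ℕ)} (h : chkR L rs = true) :
    ∀ r ∈ rs, ∀ i ∈ r.2, i < 3 ^ L := by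
  induction rs with
  | nil => intro i hi; simp at hi
  | cons j l ih =>
    unfold chkR at h
    simp only [Bool.and_eq_true] at h
    intro r hr
    rcases List.mem_cons.1 hr with rfl | hr
    · exact ne2_chkL h.1
    · exact ih h.2 r hr

/-- set of start configurations of a run -/
noncomputable def ne2A (n : ℕ) (r : ℕ × List ℕ × ℕ) : Finset (Cfg n) :=
  (r.2.1.map (cfgOf n)).toFinset

theorem ne2_sum {rs : List (ℕ × List ℕ × ℕ)}
    (horb : orbOK (n + 1) (rs.map fun r => (r.1, r.2.1)) = true)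
    (hds : dsR (n + 1) (rs.map fun r => (r.1, r.2.1)) = true)
    (F : Cfg n → ℝ) (hF : Inv3 F) :
    ∑ c, F c = (rs.map fun r => (r.1 : ℝ) * ∑ c ∈ ne2A n r, F c).sum := by
  rw [orbit_sum _ horb F hF, List.map_map]
  congr 1
  apply List.map_congr_left
  intro r hr
  simp only [Function.comp]
  congr 1
  have h1 := (dsR_inj _ hds (r.1, r.2.1) (List.mem_map.2 ⟨r, hr, rfl⟩)).1
  unfold ne2A
  rw [List.sum_toFinset _ h1, List.map_map]
  rfl

theorem num_of_cert {W B σ e0 EM : ℕ} {l : List (ℕ × ℕ)} (hp : ParOK n W B σ e0 EM l)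
    (rs : List (ℕ × List ℕ × ℕ)) (horb : orbOK (n + 1) (rs.map fun r => (r.1, r.2.1)) = true)
    (hds : dsR (n + 1) (rs.map fun r => (r.1, r.2.1)) = true)
    (hrun : ∀ r ∈ rs, r.2.2 ≠ 0 ∧
      runP W (n + 1) B (stP W r.2.1) (res26 W (n + 1) EM) l 0 0 0 0 = r.2.2)
    (d a0 a1 a2 b0 b1 b2 dd : ℤ)
    (hc : numCheck n σ (totSh l) (tots rs) d a0 a1 a2 b0 b1 b2 dd = true) :
    NumL (n + 1) d a0 a1 a2 b0 b1 b2 dd := by
  have hn1 : 1 ≤ n := le_trans (by norm_num) hp.hn1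
  -- bounds of the totals
  have hlt : ∀ r ∈ rs, ∀ i ∈ r.2.1, i < 3 ^ (n + 1) := by
    intro r hr
    have h1 : chkR (n + 1) (rs.map fun r => (r.1, r.2.1)) = true := by
      unfold orbOK at horb
      simp only [Bool.and_eq_true] at horb
      exact horb.1
    exact ne2_chkR h1 (r.1, r.2.1) (List.mem_map.2 ⟨r, hr, rfl⟩)
  have hdr : ∀ r ∈ rs, (r.2.1.map (cfgOf n)).Nodup ∧
      ∀ c ∈ ne2A n r, ∀ c' ∈ ne2A n r, Mtot c = Mtot c' → c = c' := by
    intro r hr
    exact dsR_inj _ hds (r.1, r.2.1) (List.mem_map.2 ⟨r, hr, rfl⟩)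
  set e : ℕ × List ℕ × ℕ → ℕ → ℝ := fun r i => exq n (vA n (ne2A n r)) i with he
  have hE : ∀ i < 13, (tots rs i : ℝ) * 2 ^ (2 * totSh l) ≤ ne2E e rs i * 2 ^ (2 * σ) ∧
      ne2E e rs i * 2 ^ (2 * σ) ≤ (tots rs (13 + i) : ℝ) * 2 ^ (2 * totSh l) := by
    intro i hi
    apply ne2_tots
    intro r hr
    exact run_cert hp r.2.1 (hdr r hr).1 (hlt r hr) r.2.2 (hrun r hr).1 (hrun r hr).2 i hi
  -- the traces
  have hdiag : ∀ (κ : Fin 3) (ε : Bool),
      Real.exp (17 / 2 * ((n + 1 : ℕ) : ℝ)) *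
        (zRing (n + 1 - 1) (17 / 2) (gk κ) (if ε then wz else 1)).re =
      sgq n ε 0 * combq (kap n κ) (ne2E e rs) 0 + sgq n ε 1 * combq (kap n κ) (ne2E e rs) 1 := by
    intro κ ε
    have h1 := ring_trace hn1 κ ε (17 / 2)
    have h2 : ((n + 1 : ℕ) : ℝ) = (n : ℝ) + 1 := by push_cast; rfl
    rw [h2, Nat.add_sub_cancel, h1,
      ne2_sum horb hds (fun c => sgM ε c * ∑ j : ZMod 4, chiR (kap n κ) j * Ex n (17 / 2) (c, 0) (c, j))
        (inv_diag hp.hn1 (kap n κ) ε), ← ne2_comb_sum]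
    congr 1
    apply List.map_congr_left
    intro r hr
    congr 1
    exact run_diag (kap n κ) ε (ne2A n r) (hdr r hr).2
  have hflip : Real.exp (17 / 2 * ((n + 1 : ℕ) : ℝ)) * (zRing (n + 1 - 1) (17 / 2) pz wx).re =
      (-1) ^ (n + 1) * (ne2E e rs 10 + ne2E e rs 11 + (if Even n then 2 else -2) * ne2E e rs 12) := by
    have h1 := ring_trace_wx hn1 (17 / 2)
    have h2 : ((n + 1 : ℕ) : ℝ) = (n : ℝ) + 1 := by push_cast; rfl
    rw [h2, Nat.add_sub_cancel, h1,
      ne2_sum horb hds (fun c => ∑ j : ZMod 4, chiR (kap n 2) j * Ex n (17 / 2) (flp c, 0) (c, j))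
        (inv_flip hp.hn1), ← ne2_flip_sum]
    congr 2
    apply List.map_congr_left
    intro r hr
    congr 1
    exact run_flip (ne2A n r) (hdr r hr).2
  unfold numCheck at hc
  simp only [Bool.and_eq_true] at hc
  obtain ⟨c0, c1, c2, c3, c4', c5, c6⟩ := hc
  refine ⟨?_, ?_, ?_, ?_, ?_, ?_, ?_⟩
  · have h := ne2_tr (n := n) 0 false _ _ _ _ hE
    rw [← hdiag] at h
    exact ne2_inI c0 h.1 h.2
  · have h := ne2_tr (n := n) 1 false _ _ _ _ hE
    rw [← hdiag] at h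
    exact ne2_inI c1 h.1 h.2
  · have h := ne2_tr (n := n) 2 false _ _ _ _ hE
    rw [← hdiag] at h
    exact ne2_inI c2 h.1 h.2
  · have h := ne2_tr (n := n) 0 true _ _ _ _ hE
    rw [← hdiag] at h
    exact ne2_inI c3 h.1 h.2
  · have h := ne2_tr (n := n) 1 true _ _ _ _ hE
    rw [← hdiag] at h
    exact ne2_inI c4' h.1 h.2
  · have h := ne2_tr (n := n) 2 true _ _ _ _ hE
    rw [← hdiag] at h
    exact ne2_inI c5 h.1 h.2
  · apply ne2_inI c6
    · rw [hflip]
      have h0 := hE 10 (by norm_num)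
      have h1 := hE 11 (by norm_num)
      have h2 := hE 12 (by norm_num)
      norm_num at h0 h1 h2
      unfold flI
      rcases Nat.even_or_odd n with h | h
      · rw [if_pos (Nat.even_iff.1 h), if_pos h, Odd.neg_one_pow h.add_one]
        push_cast
        norm_num
        linarith [h0.1, h0.2, h1.1, h1.2, h2.1, h2.2]
      · have h3 : ¬ Even n := Nat.not_even_iff_odd.2 h
        have h4 : ¬ (n % 2 = 0) := by rw [Nat.odd_iff.1 h]; decide
        rw [if_neg h4, if_neg h3, Even.neg_one_pow h.add_one]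
        push_cast
        norm_num
        linarith [h0.1, h0.2, h1.1, h1.2, h2.1, h2.2]
    · rw [hflip]
      have h0 := hE 10 (by norm_num)
      have h1 := hE 11 (by norm_num)
      have h2 := hE 12 (by norm_num)
      norm_num at h0 h1 h2
      unfold flI
      rcases Nat.even_or_odd n with h | h
      · rw [if_pos (Nat.even_iff.1 h), if_pos h, Odd.neg_one_pow h.add_one]
        push_cast
        norm_num
        linarith [h0.1, h0.2, h1.1, h1.2, h2.1, h2.2]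
      · have h3 : ¬ Even n := Nat.not_even_iff_odd.2 h
        have h4 : ¬ (n % 2 = 0) := by rw [Nat.odd_iff.1 h]; decide
        rw [if_neg h4, if_neg h3, Even.neg_one_pow h.add_one]
        push_cast
        norm_num
        linarith [h0.1, h0.2, h1.1, h1.2, h2.1, h2.2]

end Crest.Agent.R347
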