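import Crest.Agent.R347.NumRun
import Crest.Agent.R347.OrbCore
import Crest.Agent.R347.NumChk

/-!
# Row 347, numerics: Boolean checks for the parameters of the certificates (definitions)
-/

set_option autoImplicit false

namespace Crest.Agent.R347

/-- check of the schedule; `t` = sum of the shifts so far -/
def schedC (σ : ℕ) : List (ℕ × ℕ) → ℕ → Bool
  | [], _ => true
  | p :: l, t => (Nat.ble (p.2 * (4 ^ l.length * fct l.length * 2 ^ (t + p.1))) (17 ^ l.length * 2 ^ σ) &&
      Nat.ble (17 ^ l.length * 2 ^ σ) ((p.2 + 1) * (4 ^ l.length * fct l.length * 2 ^ (t + p.1)))) &&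
      schedC σ l (t + p.1)
where
  /-- factorial -/
  fct : ℕ → ℕ
    | 0 => 1
    | n + 1 => (n + 1) * fct n

/-- check of the list entries -/
def entC (W B : ℕ) : List (ℕ × ℕ) → Bool
  | [] => true
  | p :: l => (Nat.ble p.1 W && Nat.blt p.2 (2 ^ B)) && entC W B l

/-- all checks of the parameters except `errOK` -/
def parC (n W B σ e0 EM : ℕ) (l : List (ℕ × ℕ)) : Bool :=
  (Nat.ble 7 W && (Nat.ble 2 n && (Nat.ble (n + 1) 15 && (Nat.ble 2 B &&
    (Nat.ble (3 * (n + 1) * 2 ^ B + 2 ^ B) (2 ^ W) && (Nat.ble (3 * W + 2) 200 &&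
    (Nat.blt EM (2 ^ B) && Nat.blt (3 ^ (n + 1) * 2 ^ (2 * (B + 2))) (2 ^ (3 * W))))))))) &&
  ((entC W B l && schedC σ l 0) &&
  (Nat.blt (17 * (3 * (n + 1))) (4 * l.length) &&
    Nat.ble (17 ^ l.length * 2 ^ σ * (4 * l.length))
      (e0 * (4 ^ l.length * schedC.fct l.length * (4 * l.length - 17 * (3 * (n + 1)))))))

/-- one segment of the error recursion -/
def errSeg (W L B : ℕ) (l : List (ℕ × ℕ)) (S S' : ℕ) : Bool :=
  (bif Nat.beq S' 0 then false else true) && Nat.beq (errP W L B l S) S'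

/-- last segment of the error recursion -/
def errEnd (W L B EM : ℕ) (l : List (ℕ × ℕ)) (S : ℕ) : Bool :=
  (fun r => (bif Nat.beq r 0 then false else true) &&
    (Nat.beq ((r + (2 ^ (W - 1) - 1 - EM) * ones W L) &&&
      (2 ^ (W - 1) * ones W L)) 0)) (errP W L B l S)

/-- chain of segments of the error recursion -/
def errCh (W L B EM : ℕ) : ℕ → List (List (ℕ × ℕ)) → List ℕ → Prop
  | S, [l], [] => errEnd W L B EM l S = true
  | S, l :: ls, S' :: Ss => errSeg W L B l S S' = true ∧ errCh W L B EM S' ls Ss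
  | _, _, _ => False

/-- start of the error chain -/
def errSt (W L B e0 S : ℕ) : Bool := Nat.blt e0 (2 ^ B) && Nat.beq (e0 * ones W L) S

/-- all run certificates of a list -/
def allRC (W L B EM : ℕ) (l : List (ℕ × ℕ)) : List (ℕ × List ℕ × ℕ) → Prop
  | [] => True
  | r :: rs => RunC W L B EM l r ∧ allRC W L B EM l rs

end Crest.Agent.R347
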