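import Crest.Agent.R347.NumCore

/-!
# Row 347, numerics: run certificates (definitions)
-/

set_option autoImplicit false

namespace Crest.Agent.R347

/-- certificate of a whole run -/
def chkRun (W L B EM : ℕ) (l : List (ℕ × ℕ)) (r : ℕ × List ℕ × ℕ) : Bool :=
  (bif Nat.beq r.2.2 0 then false else true) &&
    Nat.beq (runP W L B (stP W r.2.1) (res26 W L EM) l 0 0 0 0) r.2.2

/-- packing with size check -/
def pack4c (X a b c d : ℕ) : ℕ :=
  bif Nat.ble (2 ^ X) a || (Nat.ble (2 ^ X) b || (Nat.ble (2 ^ X) c || Nat.ble (2 ^ X) d)) then 0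
  else pack4 X a b c d

/-- certificate of an inner segment -/
def segOK (W L B X st : ℕ) (l : List (ℕ × ℕ)) (S S' : ℕ) : Bool :=
  (bif Nat.beq S' 0 then false else true) &&
    Nat.beq (runP W L B st (pack4c X) l (un4 X S 0) (un4 X S 1) (un4 X S 2) (un4 X S 3)) S'

/-- certificate of the last segment -/
def segEnd (W L B X EM st : ℕ) (l : List (ℕ × ℕ)) (S v : ℕ) : Bool :=
  (bif Nat.beq v 0 then false else true) &&
    Nat.beq (runP W L B st (res26 W L EM) l (un4 X S 0) (un4 X S 1) (un4 X S 2) (un4 X S 3)) v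

/-- chain of segments -/
def chainP (W L B X EM st : ℕ) : ℕ → List (List (ℕ × ℕ)) → List ℕ → ℕ → Prop
  | S, [l], [], v => segEnd W L B X EM st l S v = true
  | S, l :: ls, S' :: Ss, v => segOK W L B X st l S S' = true ∧ chainP W L B X EM st S' ls Ss v
  | _, _, _, _ => False

/-- certificate of a run, whole or in segments -/
def RunC (W L B EM : ℕ) (l : List (ℕ × ℕ)) (r : ℕ × List ℕ × ℕ) : Prop :=
  r.2.2 ≠ 0 ∧ runP W L B (stP W r.2.1) (res26 W L EM) l 0 0 0 0 = r.2.2

end Crest.Agent.R347
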