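import Mathlib
import Crest.Agent.R347.NumRun
import Crest.Agent.R347.ND3

/-!
# Row 347, numerics: soundness of the segmented run certificates
-/

set_option autoImplicit false

namespace Crest.Agent.R347

theorem runC_of_chkRun {W L B EM : ℕ} {l : List (ℕ × ℕ)} {r : ℕ × List ℕ × ℕ}
    (h : chkRun W L B EM l r = true) : RunC W L B EM l r := by
  unfold chkRun at h
  rw [Bool.and_eq_true] at h
  refine ⟨?_, Nat.eq_of_beq_eq_true h.2⟩
  intro h0
  rw [h0] at h
  simp at h

theorem un4_pack4 {X a b c d : ℕ} (ha : a < 2 ^ X) (hb : b < 2 ^ X) (hc : c < 2 ^ X) (hd : d < 2 ^ X) :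
    un4 X (pack4 X a b c d) 0 = a ∧ un4 X (pack4 X a b c d) 1 = b ∧
      un4 X (pack4 X a b c d) 2 = c ∧ un4 X (pack4 X a b c d) 3 = d := by
  have e : pack4 X a b c d = a + 2 ^ X * (b + 2 ^ X * (c + 2 ^ X * d)) := by
    unfold pack4
    simp only [Nat.shiftLeft_eq]
    rw [show 2 * X = X + X by ring, show 3 * X = X + X + X by ring, pow_add, pow_add]
    ring
  have hX : 0 < 2 ^ X := by positivity
  have d1 : (a + 2 ^ X * (b + 2 ^ X * (c + 2 ^ X * d))) / 2 ^ X = b + 2 ^ X * (c + 2 ^ X * d) := by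
    rw [Nat.add_mul_div_left _ _ hX, Nat.div_eq_of_lt ha, zero_add]
  have d2 : (b + 2 ^ X * (c + 2 ^ X * d)) / 2 ^ X = c + 2 ^ X * d := by
    rw [Nat.add_mul_div_left _ _ hX, Nat.div_eq_of_lt hb, zero_add]
  have d3 : (c + 2 ^ X * d) / 2 ^ X = d := by
    rw [Nat.add_mul_div_left _ _ hX, Nat.div_eq_of_lt hc, zero_add]
  rw [e]
  unfold un4
  simp only [Nat.shiftRight_eq_div_pow]
  refine ⟨?_, ?_, ?_, ?_⟩
  · rw [Nat.mul_zero, pow_zero, Nat.div_one, Nat.add_mul_mod_self_left, Nat.mod_eq_of_lt ha]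
  · rw [Nat.mul_one, d1, Nat.add_mul_mod_self_left, Nat.mod_eq_of_lt hb]
  · rw [show X * 2 = X + X by ring, pow_add, ← Nat.div_div_eq_div_mul, d1, d2,
      Nat.add_mul_mod_self_left, Nat.mod_eq_of_lt hc]
  · rw [show X * 3 = X + X + X by ring, pow_add, pow_add, ← Nat.div_div_eq_div_mul,
      ← Nat.div_div_eq_div_mul, d1, d2, d3, Nat.mod_eq_of_lt hd]

theorem seg_step {W L B X st : ℕ} (l l2 : List (ℕ × ℕ)) (S' : ℕ) (hS : S' ≠ 0)
    (k : ℕ → ℕ → ℕ → ℕ → ℕ) : ∀ (a b c d : ℕ),
    runP W L B st (pack4c X) l a b c d = S' →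
    runP W L B st k (l ++ l2) a b c d =
      runP W L B st k l2 (un4 X S' 0) (un4 X S' 1) (un4 X S' 2) (un4 X S' 3) := by
  induction l with
  | nil =>
    intro a b c d h
    simp only [runP] at h
    unfold pack4c at h
    rw [List.nil_append]
    by_cases h1 : (Nat.ble (2 ^ X) a || (Nat.ble (2 ^ X) b || (Nat.ble (2 ^ X) c ||
      Nat.ble (2 ^ X) d))) = true
    · rw [h1] at h
      exact absurd h.symm hS
    · rw [Bool.not_eq_true] at h1
      rw [h1] at h
      simp only [Bool.or_eq_false_iff] at h1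
      obtain ⟨ha, hb, hc, hd⟩ := h1
      have hlt : ∀ y, Nat.ble (2 ^ X) y = false → y < 2 ^ X := by
        intro y hy
        by_contra hcon
        rw [not_lt] at hcon
        rw [Nat.ble_eq_true_of_le hcon] at hy
        exact absurd hy (by simp)
      obtain ⟨e0, e1, e2, e3⟩ := un4_pack4 (hlt a ha) (hlt b hb) (hlt c hc) (hlt d hd)
      rw [← h]
      simp only [cond_false]
      rw [e0, e1, e2, e3]
  | cons p l ih =>
    intro a b c d h
    obtain ⟨s, t⟩ := p
    rw [List.cons_append]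
    simp only [runP] at h ⊢
    cases hc : Nat.beq ((shP W L s (KP W L d a b) + t * st ||| (shP W L s (KP W L a b c) |||
      (shP W L s (KP W L b c d) ||| shP W L s (KP W L c d a)))) &&& hiM W L B) 0 with
    | false =>
      rw [hc] at h
      exact absurd h.symm hS
    | true =>
      rw [hc] at h
      simp only [cond_true] at h ⊢
      exact ih _ _ _ _ h

theorem chainP_run {W L B X EM st : ℕ} : ∀ (ls : List (List (ℕ × ℕ))) (Ss : List ℕ) (S v : ℕ),
    chainP W L B X EM st S ls Ss v →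
    v ≠ 0 ∧ runP W L B st (res26 W L EM) ls.flatten (un4 X S 0) (un4 X S 1) (un4 X S 2)
      (un4 X S 3) = v
  | [], _, _, _, h => by simp [chainP] at h
  | [l], [], S, v, h => by
    unfold chainP segEnd at h
    rw [Bool.and_eq_true] at h
    refine ⟨?_, ?_⟩
    · rintro rfl
      simp at h
    · simpa using Nat.eq_of_beq_eq_true h.2
  | l :: ls, S' :: Ss, S, v, h => by
    have h' : segOK W L B X st l S S' = true ∧ chainP W L B X EM st S' ls Ss v := by
      cases ls <;> simpa [chainP] using h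
    obtain ⟨h1, h2⟩ := h'
    have ih := chainP_run ls Ss S' v h2
    refine ⟨ih.1, ?_⟩
    unfold segOK at h1
    rw [Bool.and_eq_true] at h1
    have hS : S' ≠ 0 := by
      rintro rfl
      simp at h1
    rw [List.flatten_cons, seg_step l ls.flatten S' hS _ _ _ _ _ (Nat.eq_of_beq_eq_true h1.2)]
    exact ih.2
  | _ :: _ :: _, [], _, _, h => by simp [chainP] at h

theorem runC_of_chain {W L B X EM : ℕ} {ls : List (List (ℕ × ℕ))} {Ss : List ℕ}
    {r : ℕ × List ℕ × ℕ} (h : chainP W L B X EM (stP W r.2.1) 0 ls Ss r.2.2) :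
    RunC W L B EM ls.flatten r := by
  have h1 := chainP_run ls Ss 0 r.2.2 h
  have e : ∀ i, un4 X 0 i = 0 := by intro i; simp [un4]
  rw [e, e, e, e] at h1
  exact h1

end Crest.Agent.R347
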