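import Mathlib
import Crest.Agent.R347.NumFin
import Crest.Agent.R347.NumSeg
import Crest.Agent.R347.NE2

/-!
# Row 347, numerics: soundness of the Boolean checks
-/

set_option autoImplicit false

namespace Crest.Agent.R347

theorem fct_eq (n : ℕ) : schedC.fct n = n.factorial := by
  induction n with
  | zero => rfl
  | succ n ih => rw [schedC.fct, ih, Nat.factorial_succ]

theorem schedC_sound {σ : ℕ} : ∀ (l : List (ℕ × ℕ)) (t : ℕ), schedC σ l t = true →
    ∀ i (h : i < l.length),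
      (l.get ⟨i, h⟩).2 * (4 ^ (l.length - 1 - i) * (l.length - 1 - i).factorial *
        2 ^ (t + totSh (l.take (i + 1)))) ≤ 17 ^ (l.length - 1 - i) * 2 ^ σ ∧
      17 ^ (l.length - 1 - i) * 2 ^ σ ≤ ((l.get ⟨i, h⟩).2 + 1) *
        (4 ^ (l.length - 1 - i) * (l.length - 1 - i).factorial *
          2 ^ (t + totSh (l.take (i + 1))))
  | [], _, _, i, h => by simp at h
  | p :: l, t, hc, i, h => by
    unfold schedC at hc
    simp only [Bool.and_eq_true] at hc
    obtain ⟨⟨h1, h2⟩, h3⟩ := hc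
    have h1' := Nat.le_of_ble_eq_true h1
    have h2' := Nat.le_of_ble_eq_true h2
    rw [fct_eq] at h1' h2'
    cases i with
    | zero =>
      have e1 : (p :: l).length - 1 - 0 = l.length := by simp
      have e2 : totSh ((p :: l).take (0 + 1)) = p.1 := by simp [totSh]
      rw [e1, e2]
      exact ⟨h1', h2'⟩
    | succ i =>
      have hi : i < l.length := by simpa using h
      have ih := schedC_sound l (t + p.1) h3 i hi
      have e1 : (p :: l).length - 1 - (i + 1) = l.length - 1 - i := by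
        simp only [List.length_cons]; omega
      have e2 : t + totSh ((p :: l).take (i + 1 + 1)) = t + p.1 + totSh (l.take (i + 1)) := by
        rw [List.take_succ_cons]
        simp only [totSh, List.map_cons, List.sum_cons]
        omega
      rw [e1, e2]
      exact ih

theorem entC_sound {W B : ℕ} : ∀ (l : List (ℕ × ℕ)), entC W B l = true →
    ∀ p ∈ l, p.1 ≤ W ∧ p.2 < 2 ^ B
  | [], _ => by simp
  | q :: l, h => by
    unfold entC at h
    simp only [Bool.and_eq_true] at h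
    obtain ⟨⟨h1, h2⟩, h3⟩ := h
    intro p hp
    rcases List.mem_cons.1 hp with rfl | hp
    · exact ⟨Nat.le_of_ble_eq_true h1, Nat.le_of_ble_eq_true h2⟩
    · exact entC_sound l h3 p hp

theorem parOK_of {n W B σ e0 EM : ℕ} {l : List (ℕ × ℕ)} (h : parC n W B σ e0 EM l = true)
    (he : errOK W (n + 1) B e0 EM l = true) : ParOK n W B σ e0 EM l := by
  unfold parC at h
  simp only [Bool.and_eq_true] at h
  obtain ⟨⟨h1, h2, h3, h4, h5, h6, h7, h8⟩, ⟨h9, h10⟩, h11, h12⟩ := h
  have hs := schedC_sound l 0 h10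
  refine ⟨Nat.le_of_ble_eq_true h1, Nat.le_of_ble_eq_true h2, Nat.le_of_ble_eq_true h3,
    Nat.le_of_ble_eq_true h4, Nat.le_of_ble_eq_true h5, Nat.le_of_ble_eq_true h6,
    Nat.le_of_ble_eq_true h7, Nat.le_of_ble_eq_true h8, entC_sound l h9,
    ⟨Nat.le_of_ble_eq_true h11, ?_, ?_, ?_⟩, he⟩
  · have := Nat.le_of_ble_eq_true h12
    rwa [fct_eq] at this
  · intro i hi
    have := (hs i hi).1
    rwa [zero_add] at this
  · intro i hi
    have := (hs i hi).2
    rwa [zero_add] at this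

theorem errP_append {W L B : ℕ} (l2 : List (ℕ × ℕ)) (S' : ℕ) (hS : S' ≠ 0) :
    ∀ (l : List (ℕ × ℕ)) (a : ℕ), errP W L B l a = S' → errP W L B (l ++ l2) a = errP W L B l2 S'
  | [], a, h => by
    simp only [errP] at h
    rw [h, List.nil_append]
  | p :: l, a, h => by
    obtain ⟨s, t⟩ := p
    rw [List.cons_append]
    simp only [errP] at h ⊢
    cases hc : Nat.beq ((shP W L s (KP W L a a a) + 3 * ones W L) &&& hiM W L B) 0 with
    | false =>
      rw [hc] at h
      exact absurd h.symm hS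
    | true =>
      rw [hc] at h
      simp only [cond_true] at h ⊢
      exact errP_append l2 S' hS l _ h

theorem errCh_end {W L B EM : ℕ} : ∀ (ls : List (List (ℕ × ℕ))) (Ss : List ℕ) (S : ℕ),
    errCh W L B EM S ls Ss → errEnd W L B EM ls.flatten S = true
  | [], _, _, h => by simp [errCh] at h
  | [l], [], S, h => by
    unfold errCh at h
    rw [List.flatten_cons, List.flatten_nil, List.append_nil]
    exact h
  | l :: ls, S' :: Ss, S, h => by
    have h' : errSeg W L B l S S' = true ∧ errCh W L B EM S' ls Ss := by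
      cases ls <;> simpa [errCh] using h
    obtain ⟨h1, h2⟩ := h'
    have ih := errCh_end ls Ss S' h2
    unfold errSeg at h1
    rw [Bool.and_eq_true] at h1
    have hS : S' ≠ 0 := by
      rintro rfl
      simp at h1
    unfold errEnd at ih ⊢
    rw [List.flatten_cons, errP_append ls.flatten S' hS l S (Nat.eq_of_beq_eq_true h1.2)]
    exact ih
  | _ :: _ :: _, [], _, h => by simp [errCh] at h

theorem errOK_of {W L B e0 EM S : ℕ} {ls : List (List (ℕ × ℕ))} {Ss : List ℕ}
    (h0 : errSt W L B e0 S = true) (h : errCh W L B EM S ls Ss) :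
    errOK W L B e0 EM ls.flatten = true := by
  have h1 := errCh_end ls Ss S h
  unfold errSt at h0
  simp only [Bool.and_eq_true] at h0
  have h2 := Nat.eq_of_beq_eq_true h0.2
  unfold errOK
  unfold errEnd at h1
  rw [h2]
  simp only [Bool.and_eq_true] at h1 ⊢
  exact ⟨h1.1, h0.1, h1.2⟩

theorem allRC_mem {W L B EM : ℕ} {l : List (ℕ × ℕ)} : ∀ {rs : List (ℕ × List ℕ × ℕ)},
    allRC W L B EM l rs → ∀ r ∈ rs, RunC W L B EM l r
  | [], _ => by simp
  | r :: rs, h => by
    intro q hq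
    unfold allRC at h
    rcases List.mem_cons.1 hq with rfl | hq
    · exact h.1
    · exact allRC_mem h.2 q hq

theorem allRC_append {W L B EM : ℕ} {l : List (ℕ × ℕ)} : ∀ {rs rs' : List (ℕ × List ℕ × ℕ)},
    allRC W L B EM l rs → allRC W L B EM l rs' → allRC W L B EM l (rs ++ rs')
  | [], _, _, h' => h'
  | _ :: _, _, h, h' => ⟨h.1, allRC_append h.2 h'⟩

theorem allRC_nil {W L B EM : ℕ} {l : List (ℕ × ℕ)} : allRC W L B EM l [] := trivial

theorem allRC_cons {W L B EM : ℕ} {l : List (ℕ × ℕ)} {r : ℕ × List ℕ × ℕ}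
    {rs : List (ℕ × List ℕ × ℕ)} (h : RunC W L B EM l r) (h' : allRC W L B EM l rs) :
    allRC W L B EM l (r :: rs) := ⟨h, h'⟩

theorem chain_last {W L B X EM st : ℕ} {l : List (ℕ × ℕ)} {S v : ℕ}
    (h : segEnd W L B X EM st l S v = true) : chainP W L B X EM st S [l] [] v := h

theorem chain_cons {W L B X EM st : ℕ} {l : List (ℕ × ℕ)} {S S' v : ℕ}
    {ls : List (List (ℕ × ℕ))} {Ss : List ℕ}
    (h : segOK W L B X st l S S' = true) (h' : chainP W L B X EM st S' ls Ss v) :
    chainP W L B X EM st S (l :: ls) (S' :: Ss) v := by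
  cases ls <;> exact ⟨h, h'⟩

theorem errCh_last {W L B EM : ℕ} {l : List (ℕ × ℕ)} {S : ℕ}
    (h : errEnd W L B EM l S = true) : errCh W L B EM S [l] [] := h

theorem errCh_cons {W L B EM : ℕ} {l : List (ℕ × ℕ)} {S S' : ℕ}
    {ls : List (List (ℕ × ℕ))} {Ss : List ℕ}
    (h : errSeg W L B l S S' = true) (h' : errCh W L B EM S' ls Ss) :
    errCh W L B EM S (l :: ls) (S' :: Ss) := by
  cases ls <;> exact ⟨h, h'⟩

theorem NumL_congr {L : ℕ} {d a0 a1 a2 b0 b1 b2 dd : ℝ} {d' a0' a1' a2' b0' b1' b2' dd' : ℤ}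
    (hd : (d' : ℝ) = d) (h0 : (a0' : ℝ) = a0) (h1 : (a1' : ℝ) = a1) (h2 : (a2' : ℝ) = a2)
    (h3 : (b0' : ℝ) = b0) (h4 : (b1' : ℝ) = b1) (h5 : (b2' : ℝ) = b2) (h6 : (dd' : ℝ) = dd)
    (h : NumL L d' a0' a1' a2' b0' b1' b2' dd') : NumL L d a0 a1 a2 b0 b1 b2 dd := by
  subst hd h0 h1 h2 h3 h4 h5 h6
  exact h

theorem num_final {n W B σ e0 EM T : ℕ} {l : List (ℕ × ℕ)} {rs : List (ℕ × List ℕ × ℕ)}
    {d a0 a1 a2 b0 b1 b2 dd : ℤ}
    (hp : parC n W B σ e0 EM l = true) (he : errOK W (n + 1) B e0 EM l = true)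
    (horb : orbOK (n + 1) (rs.map fun r => (r.1, r.2.1)) = true)
    (hds : dsR (n + 1) (rs.map fun r => (r.1, r.2.1)) = true)
    (hr : allRC W (n + 1) B EM l rs) (hT : totSh l = T)
    (hc : numCheck n σ T (tots rs) d a0 a1 a2 b0 b1 b2 dd = true) :
    NumL (n + 1) d a0 a1 a2 b0 b1 b2 dd := by
  subst hT
  exact num_of_cert (parOK_of hp he) rs horb hds (allRC_mem hr) d a0 a1 a2 b0 b1 b2 dd hc

end Crest.Agent.R347
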