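import Crest.Agent.R347.D10n0
import Crest.Agent.R347.D10n1
import Crest.Agent.R347.D10n2
import Crest.Agent.R347.D10n3
import Crest.Agent.R347.D10n4
import Crest.Agent.R347.D10n5
import Crest.Agent.R347.D10n6
import Crest.Agent.R347.D10n7
import Crest.Agent.R347.D10n8
import Crest.Agent.R347.D10n9
import Crest.Agent.R347.D10n10
import Crest.Agent.R347.D10n11
import Crest.Agent.R347.D10n12
import Crest.Agent.R347.D10n13
import Crest.Agent.R347.D10n14
import Crest.Agent.R347.D10n15
import Crest.Agent.R347.D10n16
import Crest.Agent.R347.D10n17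
import Crest.Agent.R347.D10n18
import Crest.Agent.R347.D10n19
import Crest.Agent.R347.D10n20
import Crest.Agent.R347.D10n21
import Crest.Agent.R347.D10n22
import Crest.Agent.R347.D10n23
import Crest.Agent.R347.D10n24
import Crest.Agent.R347.D10n25
import Crest.Agent.R347.D10n26
import Crest.Agent.R347.D10n27
import Crest.Agent.R347.D10n28
import Crest.Agent.R347.D10n29
import Crest.Agent.R347.D10n30
import Crest.Agent.R347.D10n31
import Crest.Agent.R347.D10n32
import Crest.Agent.R347.D10n33
import Crest.Agent.R347.D10n34
import Crest.Agent.R347.D10n35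
import Crest.Agent.R347.D10n36
import Crest.Agent.R347.D10n37
import Crest.Agent.R347.D10n38
import Crest.Agent.R347.D10n39
import Crest.Agent.R347.D10n40
import Crest.Agent.R347.D10n41
import Crest.Agent.R347.D10n42
import Crest.Agent.R347.D10n43
import Crest.Agent.R347.D10n44
import Crest.Agent.R347.D10n45
import Crest.Agent.R347.D10n46
import Crest.Agent.R347.D10n47
import Crest.Agent.R347.D10n48
import Crest.Agent.R347.D10n49
import Crest.Agent.R347.D10n50
import Crest.Agent.R347.D10n51
import Crest.Agent.R347.D10n52
import Crest.Agent.R347.D10n53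
import Crest.Agent.R347.D10n54
import Crest.Agent.R347.D10n55
import Crest.Agent.R347.D10n56
import Crest.Agent.R347.D10n57
import Crest.Agent.R347.D10n58
import Crest.Agent.R347.D10n59
import Crest.Agent.R347.D10n60
import Crest.Agent.R347.D10n61
import Crest.Agent.R347.D10n62
import Crest.Agent.R347.D10n63
import Crest.Agent.R347.D10n64
import Crest.Agent.R347.D10n65
import Crest.Agent.R347.D10n66
import Crest.Agent.R347.D10n67
import Crest.Agent.R347.D10n68
import Crest.Agent.R347.D10n69
import Crest.Agent.R347.D10n70
import Crest.Agent.R347.D10n71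
import Crest.Agent.R347.D10n72
import Crest.Agent.R347.D10n73
import Crest.Agent.R347.D10n74
import Crest.Agent.R347.D10n75
import Crest.Agent.R347.D10n76
import Crest.Agent.R347.D10n77
import Crest.Agent.R347.D10n78
import Crest.Agent.R347.D10n79
import Crest.Agent.R347.D10n80
import Crest.Agent.R347.D10n81
import Crest.Agent.R347.D10n82
import Crest.Agent.R347.D10n83
import Crest.Agent.R347.D10n84
import Crest.Agent.R347.D10n85
import Crest.Agent.R347.D10n86
import Crest.Agent.R347.D10n87
import Crest.Agent.R347.D10n88
import Crest.Agent.R347.D10n89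
import Crest.Agent.R347.D10n90
import Crest.Agent.R347.D10n91
import Crest.Agent.R347.D10n92
import Crest.Agent.R347.D10n93
import Crest.Agent.R347.D10n94
import Crest.Agent.R347.D10n95
import Crest.Agent.R347.D10n96
import Crest.Agent.R347.D10n97
import Crest.Agent.R347.D10n98
import Crest.Agent.R347.D10n99
import Crest.Agent.R347.D10n100
import Crest.Agent.R347.D10n101
import Crest.Agent.R347.D10n102
import Crest.Agent.R347.D10n103
import Crest.Agent.R347.D10n104
import Crest.Agent.R347.D10n105
import Crest.Agent.R347.D10n106
import Crest.Agent.R347.D10n107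
import Crest.Agent.R347.D10n108
import Crest.Agent.R347.D10n109

/-! Row 347, Chebyshev numerics, ring with 10 sites: orbit and final checks (generated). W = 52, B = 43, r = 5, s = 5, h = 3, D = 50, sigma = 111, N0 = 320, tau = 1880 -/

set_option autoImplicit false
set_option Elab.async false

namespace Crest.Agent.R347

/-- all runs -/
def rds10 : List CRun :=
  rds10_0 ++ (rds10_1 ++ (rds10_2 ++ (rds10_3 ++ (rds10_4 ++ (rds10_5 ++ (rds10_6 ++ (rds10_7 ++ (rds10_8 ++ (rds10_9 ++ (rds10_10 ++ (rds10_11 ++ (rds10_12 ++ (rds10_13 ++ (rds10_14 ++ (rds10_15 ++ (rds10_16 ++ (rds10_17 ++ (rds10_18 ++ (rds10_19 ++ (rds10_20 ++ (rds10_21 ++ (rds10_22 ++ (rds10_23 ++ (rds10_24 ++ (rds10_25 ++ (rds10_26 ++ (rds10_27 ++ (rds10_28 ++ (rds10_29 ++ (rds10_30 ++ (rds10_31 ++ (rds10_32 ++ (rds10_33 ++ (rds10_34 ++ (rds10_35 ++ (rds10_36 ++ (rds10_37 ++ (rds10_38 ++ (rds10_39 ++ (rds10_40 ++ (rds10_41 ++ (rds10_42 ++ (rds10_43 ++ (rds10_44 ++ (rds10_45 ++ (rds10_46 ++ (rds10_47 ++ (rds10_48 ++ (rds10_49 ++ (rds10_50 ++ (rds10_51 ++ (rds10_52 ++ (rds10_53 ++ (rds10_54 ++ (rds10_55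 ++ (rds10_56 ++ (rds10_57 ++ (rds10_58 ++ (rds10_59 ++ (rds10_60 ++ (rds10_61 ++ (rds10_62 ++ (rds10_63 ++ (rds10_64 ++ (rds10_65 ++ (rds10_66 ++ (rds10_67 ++ (rds10_68 ++ (rds10_69 ++ (rds10_70 ++ (rds10_71 ++ (rds10_72 ++ (rds10_73 ++ (rds10_74 ++ (rds10_75 ++ (rds10_76 ++ (rds10_77 ++ (rds10_78 ++ (rds10_79 ++ (rds10_80 ++ (rds10_81 ++ (rds10_82 ++ (rds10_83 ++ (rds10_84 ++ (rds10_85 ++ (rds10_86 ++ (rds10_87 ++ (rds10_88 ++ (rds10_89 ++ (rds10_90 ++ (rds10_91 ++ (rds10_92 ++ (rds10_93 ++ (rds10_94 ++ (rds10_95 ++ (rds10_96 ++ (rds10_97 ++ (rds10_98 ++ (rds10_99 ++ (rds10_100 ++ (rds10_101 ++ (rds10_102 ++ (rds10_103 ++ (rds10_104 ++ (rds10_105 ++ (rds10_106 ++ (rds10_107 ++ (rds10_108 ++ (rds10_109)))))))))))))))))))))))))))))))))))))))))))))))))))))))))))))))))))))))))))))))))))))))))))))))))))))))))))))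

theorem ac10 : allC 52 10 43 5 5 3 gs10 rds10 :=
  allC_append ac10_0 (allC_append ac10_1 (allC_append ac10_2 (allC_append ac10_3 (allC_append ac10_4 (allC_append ac10_5 (allC_append ac10_6 (allC_append ac10_7 (allC_append ac10_8 (allC_append ac10_9 (allC_append ac10_10 (allC_append ac10_11 (allC_append ac10_12 (allC_append ac10_13 (allC_append ac10_14 (allC_append ac10_15 (allC_append ac10_16 (allC_append ac10_17 (allC_append ac10_18 (allC_append ac10_19 (allC_append ac10_20 (allC_append ac10_21 (allC_append ac10_22 (allC_append ac10_23 (allC_append ac10_24 (allC_append ac10_25 (allC_append ac10_26 (allC_append ac10_27 (allC_append ac10_28 (allC_append ac10_29 (allC_append ac10_30 (allC_append ac10_31 (allC_append ac10_32 (allC_append ac10_33 (allC_append ac10_34 (allC_append ac10_35 (allC_append ac10_36 (allC_append ac10_37 (allC_append ac10_38 (allC_append ac10_39 (allC_append ac10_40 (allC_append ac10_41 (allC_append ac10_42 (allC_append ac10_43 (allC_append ac10_44 (allC_append ac10_45 (allC_append ac10_46 (allC_append ac10_47 (allC_append ac10_48 (allC_append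 ac10_49 (allC_append ac10_50 (allC_append ac10_51 (allC_append ac10_52 (allC_append ac10_53 (allC_append ac10_54 (allC_append ac10_55 (allC_append ac10_56 (allC_append ac10_57 (allC_append ac10_58 (allC_append ac10_59 (allC_append ac10_60 (allC_append ac10_61 (allC_append ac10_62 (allC_append ac10_63 (allC_append ac10_64 (allC_append ac10_65 (allC_append ac10_66 (allC_append ac10_67 (allC_append ac10_68 (allC_append ac10_69 (allC_append ac10_70 (allC_append ac10_71 (allC_append ac10_72 (allC_append ac10_73 (allC_append ac10_74 (allC_append ac10_75 (allC_append ac10_76 (allC_append ac10_77 (allC_append ac10_78 (allC_append ac10_79 (allC_append ac10_80 (allC_append ac10_81 (allC_append ac10_82 (allC_append ac10_83 (allC_append ac10_84 (allC_append ac10_85 (allC_append ac10_86 (allC_append ac10_87 (allC_append ac10_88 (allC_append ac10_89 (allC_append ac10_90 (allC_append ac10_91 (allC_append ac10_92 (allC_append ac10_93 (allC_append ac10_94 (allC_append ac10_95 (allC_append ac10_96 (allC_append ac10_97 (allC_append ac10_98 (allC_append ac10_99 (allC_append ac10_100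 (allC_append ac10_101 (allC_append ac10_102 (allC_append ac10_103 (allC_append ac10_104 (allC_append ac10_105 (allC_append ac10_106 (allC_append ac10_107 (allC_append ac10_108 (ac10_109)))))))))))))))))))))))))))))))))))))))))))))))))))))))))))))))))))))))))))))))))))))))))))))))))))))))))))))

set_option maxRecDepth 100000 in
theorem orbd10 : orbOK 10 (orbL rds10) = true := by decide +kernel

set_option maxRecDepth 100000 in
theorem metad10 : metaL 10 rds10 = true := by decide +kernel

set_option maxRecDepth 100000 in
theorem find10 : finC 9 111 10043 14203 rds10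
    1635434840000000000000000000000000000000000000000000000000000000000000000000000000000
    90857491200000000000000000000000000000000000000000000000000000000000000000000000000000000
    58627048000000000000000000000000000000000000000000000000000000000000000000000000000000000
    35192691600000000000000000000000000000000000000000000000000000000000000000000000000000000
    86797927300000000000000000000000000000000000000000000000000000000000000000000000000000000
    56974836600000000000000000000000000000000000000000000000000000000000000000000000000000000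
    34924837000000000000000000000000000000000000000000000000000000000000000000000000000000000
    (-32733807400000000000000000000000000000000000000000000000000000000000000000000000000000000) = true := by
  decide +kernel

set_option maxRecDepth 100000 in
theorem gBd10 : gs10.all (fun g => Nat.blt g (2 ^ 43)) = true := by decide +kernel

end Crest.Agent.R347
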