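import Crest.Agent.R347.C6n0

/-! Row 347, numerics, ring with 6 sites: checks of parameters, orbits and totals (generated). N = 124, B = 39, W = 44, sigma = 462, e0 = 17177009417, EM = 1527 -/

set_option autoImplicit false
set_option Elab.async false

namespace Crest.Agent.R347

/-- all runs -/
noncomputable def rs6 : List (ℕ × List ℕ × ℕ) :=
  rs6_0

set_option maxRecDepth 100000 in
theorem par6 : parC 5 44 39 462 17177009417 1527 sched6 = true := by decide +kernel

set_option maxRecDepth 100000 in
theorem orb6 : orbOK 6 (rs6.map fun r => (r.1, r.2.1)) = true := by decide +kernel

set_option maxRecDepth 100000 in
theorem ds6 : dsR 6 (rs6.map fun r => (r.1, r.2.1)) = true := by decide +kernel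

set_option maxRecDepth 100000 in
theorem chk6 : numCheck 5 462 510 (tots rs6)
    918549899000000000000000000000000000000000000000
    918549899000000000000000000000000000000000000000000000
    295284895000000000000000000000000000000000000000000000
    67595286200000000000000000000000000000000000000000000
    910567611000000000000000000000000000000000000000000000
    293820289000000000000000000000000000000000000000000000
    67569069400000000000000000000000000000000000000000000
    (-61655045300000000000000000000000000000000000000000000) = true := by
  decide +kernel

end Crest.Agent.R347
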