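import Mathlib
import Crest.Agent.R347.NumFinS
import Crest.Agent.R347.NumStmt
import Crest.Agent.R347.P6
import Crest.Agent.R347.E6

/-! Row 347, numerics, ring with 6 sites: the result `num6 : Num6` (generated) -/

set_option autoImplicit false

namespace Crest.Agent.R347

theorem all6_0 : allRC 44 6 39 1527 sched6 rs6_0 :=
  allRC_cons (runC_of_chkRun rc6_0)
    (allRC_cons (runC_of_chkRun rc6_1)
    (allRC_cons (runC_of_chkRun rc6_2)
    (allRC_cons (runC_of_chkRun rc6_3)
    (allRC_cons (runC_of_chkRun rc6_4)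
    (allRC_cons (runC_of_chkRun rc6_5)
    (allRC_cons (runC_of_chkRun rc6_6)
    (allRC_cons (runC_of_chkRun rc6_7)
    (allRC_cons (runC_of_chkRun rc6_8)
    (allRC_cons (runC_of_chkRun rc6_9)
    (allRC_cons (runC_of_chkRun rc6_10)
    (allRC_cons (runC_of_chkRun rc6_11)
    (allRC_cons (runC_of_chkRun rc6_12)
    (allRC_cons (runC_of_chkRun rc6_13)
    (allRC_cons (runC_of_chkRun rc6_14)
    (allRC_cons (runC_of_chkRun rc6_15)
    (allRC_cons (runC_of_chkRun rc6_16)
    (allRC_cons (runC_of_chkRun rc6_17)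
    (allRC_cons (runC_of_chkRun rc6_18)
    (allRC_nil)))))))))))))))))))

theorem errok6 : errOK 44 6 39 17177009417 1527 sched6 = true := err6

theorem all6 : allRC 44 6 39 1527 sched6 rs6 :=
  all6_0

theorem tot6 : totSh sched6 = 510 := by decide +kernel

theorem num6 : Num6 :=
  NumL_congr (by norm_num) (by norm_num) (by norm_num) (by norm_num) (by norm_num) (by norm_num)
    (by norm_num) (by norm_num) (num_final par6 errok6 orb6 ds6 all6 tot6 chk6)

end Crest.Agent.R347
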