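import Crest.Agent.R347.C7n0
import Crest.Agent.R347.C7n1

/-! Row 347, numerics, ring with 7 sites: checks of parameters, orbits and totals (generated). N = 140, B = 39, W = 44, sigma = 542, e0 = 27815691265, EM = 2789 -/

set_option autoImplicit false
set_option Elab.async false

namespace Crest.Agent.R347

/-- all runs -/
noncomputable def rs7 : List (ℕ × List ℕ × ℕ) :=
  rs7_0 ++ (rs7_1)

set_option maxRecDepth 100000 in
theorem par7 : parC 6 44 39 542 27815691265 2789 sched7 = true := by decide +kernel

set_option maxRecDepth 100000 in
theorem orb7 : orbOK 7 (rs7.map fun r => (r.1, r.2.1)) = true := by decide +kernel

set_option maxRecDepth 100000 in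
theorem ds7 : dsR 7 (rs7.map fun r => (r.1, r.2.1)) = true := by decide +kernel

set_option maxRecDepth 100000 in
theorem chk7 : numCheck 6 542 601 (tots rs7)
    182551959000000000000000000000000000000000000000000000000
    15071554300000000000000000000000000000000000000000000000000000
    64246941300000000000000000000000000000000000000000000000000000
    182551959000000000000000000000000000000000000000000000000000000
    14986755300000000000000000000000000000000000000000000000000000
    62170658600000000000000000000000000000000000000000000000000000
    174101423000000000000000000000000000000000000000000000000000000
    (-178298251000000000000000000000000000000000000000000000000000000) = true := by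
  decide +kernel

end Crest.Agent.R347
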