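import Mathlib
import Crest.Agent.R347.NumFinS
import Crest.Agent.R347.NumStmt
import Crest.Agent.R347.P7
import Crest.Agent.R347.E7

/-! Row 347, numerics, ring with 7 sites: the result `num7 : Num7` (generated) -/

set_option autoImplicit false

namespace Crest.Agent.R347

theorem all7_0 : allRC 44 7 39 2789 sched7 rs7_0 :=
  allRC_cons (runC_of_chkRun rc7_0)
    (allRC_cons (runC_of_chkRun rc7_1)
    (allRC_cons (runC_of_chkRun rc7_2)
    (allRC_cons (runC_of_chkRun rc7_3)
    (allRC_cons (runC_of_chkRun rc7_4)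
    (allRC_cons (runC_of_chkRun rc7_5)
    (allRC_cons (runC_of_chkRun rc7_6)
    (allRC_cons (runC_of_chkRun rc7_7)
    (allRC_cons (runC_of_chkRun rc7_8)
    (allRC_cons (runC_of_chkRun rc7_9)
    (allRC_cons (runC_of_chkRun rc7_10)
    (allRC_cons (runC_of_chkRun rc7_11)
    (allRC_cons (runC_of_chkRun rc7_12)
    (allRC_cons (runC_of_chkRun rc7_13)
    (allRC_nil))))))))))))))

theorem all7_1 : allRC 44 7 39 2789 sched7 rs7_1 :=
  allRC_cons (runC_of_chkRun rc7_14)
    (allRC_cons (runC_of_chkRun rc7_15)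
    (allRC_cons (runC_of_chkRun rc7_16)
    (allRC_cons (runC_of_chkRun rc7_17)
    (allRC_cons (runC_of_chkRun rc7_18)
    (allRC_cons (runC_of_chkRun rc7_19)
    (allRC_cons (runC_of_chkRun rc7_20)
    (allRC_cons (runC_of_chkRun rc7_21)
    (allRC_cons (runC_of_chkRun rc7_22)
    (allRC_cons (runC_of_chkRun rc7_23)
    (allRC_cons (runC_of_chkRun rc7_24)
    (allRC_cons (runC_of_chkRun rc7_25)
    (allRC_cons (runC_of_chkRun rc7_26)
    (allRC_cons (runC_of_chkRun rc7_27)
    (allRC_nil))))))))))))))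

theorem errok7 : errOK 44 7 39 27815691265 2789 sched7 = true := err7

theorem all7 : allRC 44 7 39 2789 sched7 rs7 :=
  allRC_append all7_0 (all7_1)

theorem tot7 : totSh sched7 = 601 := by decide +kernel

theorem num7 : Num7 :=
  NumL_congr (by norm_num) (by norm_num) (by norm_num) (by norm_num) (by norm_num) (by norm_num)
    (by norm_num) (by norm_num) (num_final par7 errok7 orb7 ds7 all7 tot7 chk7)

end Crest.Agent.R347
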