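import Crest.Agent.R347.D8n0
import Crest.Agent.R347.D8n1
import Crest.Agent.R347.D8n2
import Crest.Agent.R347.D8n3
import Crest.Agent.R347.D8n4
import Crest.Agent.R347.D8n5
import Crest.Agent.R347.D8n6
import Crest.Agent.R347.D8n7
import Crest.Agent.R347.D8n8
import Crest.Agent.R347.D8n9

/-! Row 347, Chebyshev numerics, ring with 8 sites: orbit and final checks (generated). W = 58, B = 50, r = 3, s = 4, h = 2, D = 53, sigma = 78, N0 = 320, tau = 202 -/

set_option autoImplicit false
set_option Elab.async false

namespace Crest.Agent.R347

/-- all runs -/
def rds8 : List CRun :=
  rds8_0 ++ (rds8_1 ++ (rds8_2 ++ (rds8_3 ++ (rds8_4 ++ (rds8_5 ++ (rds8_6 ++ (rds8_7 ++ (rds8_8 ++ (rds8_9)))))))))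

theorem ac8 : allC 58 8 50 3 4 2 gs8 rds8 :=
  allC_append ac8_0 (allC_append ac8_1 (allC_append ac8_2 (allC_append ac8_3 (allC_append ac8_4 (allC_append ac8_5 (allC_append ac8_6 (allC_append ac8_7 (allC_append ac8_8 (ac8_9)))))))))

set_option maxRecDepth 100000 in
theorem orbd8 : orbOK 8 (orbL rds8) = true := by decide +kernel

set_option maxRecDepth 100000 in
theorem metad8 : metaL 8 rds8 = true := by decide +kernel

set_option maxRecDepth 100000 in
theorem find8 : finC 7 78 3568 5046 rds8
    245892220000000000000000000000000000000000000000000000000000000000
    245892220000000000000000000000000000000000000000000000000000000000000000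
    124152361000000000000000000000000000000000000000000000000000000000000000
    53910955000000000000000000000000000000000000000000000000000000000000000
    239677587000000000000000000000000000000000000000000000000000000000000000
    122279463000000000000000000000000000000000000000000000000000000000000000
    53778901300000000000000000000000000000000000000000000000000000000000000
    (-49949333600000000000000000000000000000000000000000000000000000000000000) = true := by
  decide +kernel

set_option maxRecDepth 100000 in
theorem gBd8 : gs8.all (fun g => Nat.blt g (2 ^ 50)) = true := by decide +kernel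

end Crest.Agent.R347
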