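import Mathlib
import Crest.Agent.R347.ChZ4
import Crest.Agent.R347.ChSK
import Crest.Agent.R347.NumFinS
import Crest.Agent.R347.NumStmt
import Crest.Agent.R347.Q8

/-! Row 347, Chebyshev numerics, ring with 8 sites: the result `num8 : Num8` (generated) -/

set_option autoImplicit false

namespace Crest.Agent.R347

theorem chOK8 : ChOK 7 58 50 3 4 2 where
  hn1 := by norm_num
  hn := by norm_num
  hB1 := by norm_num
  hB := by norm_num
  hrW := by norm_num
  hr0 := by norm_num
  hs := by norm_num
  hc := by norm_num
  hh := by norm_num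
  hh2 := by norm_num
  hW3 := by norm_num
  hcf := by norm_num

theorem chPar8 : ChPar 7 58 50 3 4 2 53 320 78 202 58 2123 10 3568 5046 gs8 where
  ok := chOK8
  hL := by norm_num
  hm1 := by norm_num
  hm2 := by norm_num
  hD := by norm_num
  hE := by norm_num
  hM := fun _ _ h1 h2 => card_inS7 h1 h2
  gam := gam8
  gB := fun g hg => Nat.le_of_ble_eq_true (List.all_eq_true.1 gBd8 g hg)
  h02 := by norm_num
  h1 := by norm_num

theorem num8 : Num8 :=
  NumL_congr (by norm_num) (by norm_num) (by norm_num) (by norm_num) (by norm_num) (by norm_num)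
    (by norm_num) (by norm_num)
    (numL_cheb chPar8 (kSpec 7 (by norm_num)) rds8 orbd8 metad8 ac8 _ _ _ _ _ _ _ _ find8)

end Crest.Agent.R347
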