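import Crest.Agent.R347.FAsm
import Crest.Agent.R347.R6num
import Crest.Agent.R347.R7num
import Crest.Agent.R347.R8num
import Crest.Agent.R347.R9num
import Crest.Agent.R347.R10num
import Crest.Agent.R347.NOpen2
import Crest.Agent.R347.NOpen3
import Crest.Agent.R347.NOpen4
import Crest.Agent.R347.NOpen5
import Crest.Agent.R347.NOpen6
import Crest.Agent.R347.NOpen7
import Crest.Agent.R347.NOpen8

/-! # Row 347: the kernel-certified numbers -/

set_option autoImplicit false

namespace Crest.Agent.R347

theorem allNum : AllNum where
  n6 := num6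
  n7 := num7
  n8 := num8
  n9 := num9
  n10 := num10
  o2 := numOpen2
  o3 := numOpen3
  o4 := numOpen4
  o5 := numOpen5
  o6 := numOpen6
  o7 := numOpen7
  o8 := numOpen8

end Crest.Agent.R347
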