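import Crest.Agent.R347.ChRunL

/-! Row 347, Chebyshev numerics, ring with 10 sites: coefficients (generated). W = 52, B = 43, r = 5, s = 5, h = 3, D = 50, sigma = 111, N0 = 320, tau = 1880 -/

set_option autoImplicit false
set_option Elab.async false

namespace Crest.Agent.R347

/-- coefficients -/
def gs10 : List ℕ :=
  [1246, 2831, 6347, 14033, 30596, 65778, 139420, 291311, 599950, 1217705, 2435463, 4799269, 9316768, 17815342, 33550873, 62220909, 113614543, 204239088, 361404614, 629420988, 1078759417, 1819229168, 3018378751, 4926383766, 7908539107, 12486016736, 19384657431, 29590126234, 44405720056, 65506517457, 94980604858, 135345197500, 189523206053, 260764966211, 352501309935, 468118677938, 610654992622, 782426394729, 984608784221, 1216812623062, 1476702124430, 1759717815867, 2058961695857, 2365294785237, 2667677265587, 2953753005587, 3210646568085, 3425906912659, 3588503948157, 3689767497082, 3724157164962]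

set_option maxRecDepth 100000 in
theorem gam10 : gamC 5 5 50 320 111 1880 gs10 = true := by decide +kernel

end Crest.Agent.R347
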