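import Crest.Agent.R347.ChRunL

/-! Row 347, Chebyshev numerics, ring with 8 sites: coefficients (generated). W = 58, B = 50, r = 3, s = 4, h = 2, D = 53, sigma = 78, N0 = 320, tau = 202 -/

set_option autoImplicit false
set_option Elab.async false

namespace Crest.Agent.R347

/-- coefficients -/
def gs8 : List ℕ :=
  [177, 479, 1278, 3355, 8680, 22121, 55525, 137254, 334070, 800482, 1887947, 4382030, 10007593, 22484000, 49685240, 107971841, 230696857, 484550535, 1000277119, 2029096087, 4043921249, 7916569671, 15220254903, 28732506525, 53248572364, 96859356462, 172898365641, 302811821417, 520241337266, 876607413990, 1448413893256, 2346321511560, 3725725948594, 5798097022757, 8841693909851, 13209516917780, 19331604403382, 27708220220317, 38890348088312, 53444479984641, 71900173961179, 94681344462376, 122025591617731, 153899646276864, 189922494386936, 229310048459912, 270855452666906, 312956585312928, 353696901720328, 390977960692412, 422693012430754, 446922624102365, 462127361616256, 467310595938376]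

set_option maxRecDepth 100000 in
theorem gam8 : gamC 3 4 53 320 78 202 gs8 = true := by decide +kernel

end Crest.Agent.R347
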