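import Crest.Agent.R347.ChRunL

/-! Row 347, Chebyshev numerics, ring with 9 sites: coefficients (generated). W = 53, B = 40, r = 91, s = 9, h = 2, D = 47, sigma = 95, N0 = 320, tau = 242 -/

set_option autoImplicit false
set_option Elab.async false

namespace Crest.Agent.R347

/-- coefficients -/
def gs9 : List ℕ :=
  [173, 413, 969, 2237, 5086, 11385, 25084, 54394, 116075, 243710, 503369, 1022592, 2042897, 4012771, 7748557, 14706208, 27428925, 50265491, 90491788, 160011736, 277858473, 473751750, 792976415, 1302805677, 2100571820, 3323254583, 5158088215, 7853174886, 11726460593, 17170753180, 24651871305, 34696692936, 47868040843, 64724209366, 85762637687, 111349761013, 141642205255, 176507779148, 215457498924, 257601387428, 301640316042, 345903263035, 388434057594, 427124538864, 459883199205, 484821282147, 500433508650, 505749337886]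

set_option maxRecDepth 100000 in
theorem gam9 : gamC 91 9 47 320 95 242 gs9 = true := by decide +kernel

end Crest.Agent.R347
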