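import Crest.Agent.R347.Defs

/-!
# Row 347: definitions of the lattice group (Cartesian form of the Hamiltonians, one-slice operators,
rotations, normalised partition functions, sector sums)
-/

set_option autoImplicit false

open Crest.MathPhysics.SpinChain Matrix

namespace Crest.Agent.R347

/-- tensor product of a family of single-site matrices -/
def tensF {ι : Type*} [Fintype ι] {A : Type*} [CommRing A] (w : ι → Matrix (Fin 3) (Fin 3) A) :
    Matrix (ι → Fin 3) (ι → Fin 3) A :=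
  Matrix.of fun s s' => ∏ j, w j (s j) (s' j)

/-- real-to-complex matrices -/
noncomputable def toC {m n : Type*} (A : Matrix m n ℝ) : Matrix m n ℂ := A.map (fun x : ℝ => (x : ℂ))

/-- real on-site matrices -/
noncomputable def onR {ι : Type*} [Fintype ι] [DecidableEq ι] (A : Matrix (Fin 3) (Fin 3) ℝ)
    (j : ι) : Matrix (ι → Fin 3) (ι → Fin 3) ℝ :=
  Matrix.of fun σ τ => if (∀ k, k ≠ j → σ k = τ k) then A (σ j) (τ j) else 0

/-- the twisted ring with `L + 1` sites in the Cartesian basis (`S^a = - i R_a`) -/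
noncomputable def HR (L : ℕ) (g : Matrix (Fin 3) (Fin 3) ℝ) :
    Matrix (Fin (L + 1) → Fin 3) (Fin (L + 1) → Fin 3) ℝ :=
  -((∑ j : Fin L, ∑ c : Fin 3, onR (R c) (Fin.castSucc j) * onR (R c) (Fin.succ j)) +
    ∑ a : Fin 3, ∑ b : Fin 3, g a b • (onR (R a) (Fin.last L) * onR (R b) 0))

/-- the open chain with `M + 2` sites and end fields in the Cartesian basis -/
noncomputable def HO (M : ℕ) (f₀ f₁ : ℝ) :
    Matrix (Fin (M + 2) → Fin 3) (Fin (M + 2) → Fin 3) ℂ :=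
  toC (-(∑ j : Fin (M + 1), ∑ c : Fin 3, onR (R c) (Fin.castSucc j) * onR (R c) (Fin.succ j))) +
    (Complex.I * (f₀ : ℂ)) • toC (onR (R 2) (0 : Fin (M + 2))) +
    (Complex.I * (f₁ : ℂ)) • toC (onR (R 2) (Fin.last (M + 1)))

/-- one time slice of the ring with `L + 1` sites: sum over the `L + 1` bond variables
(`a 0` and `a (L+1)` are joined by the twist) -/
noncomputable def WR (L : ℕ) (τ : ℝ) (g : Matrix (Fin 3) (Fin 3) ℝ) :
    Matrix (Fin (L + 1) → Fin 3) (Fin (L + 1) → Fin 3) ℝ :=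
  Matrix.of fun s s' => ∑ a : Fin (L + 2) → Fin 4,
    Q4 g (a (Fin.last (L + 1))) (a 0) *
      ∏ x : Fin (L + 1), TR τ (a (Fin.castSucc x)) (a (Fin.succ x)) (s x) (s' x)

/-- one time slice of the open chain with `M + 2` sites: sum over the `M + 1` bond variables -/
noncomputable def WO (M : ℕ) (τ f₀ f₁ : ℝ) :
    Matrix (Fin (M + 2) → Fin 3) (Fin (M + 2) → Fin 3) ℂ :=
  Matrix.of fun s s' => ∑ a : Fin (M + 1) → Fin 4,
    AE τ f₀ (a 0) (s 0) (s' 0) *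
      (∏ x : Fin M, ((TR τ (a (Fin.castSucc x)) (a (Fin.succ x))
        (s (Fin.succ (Fin.castSucc x))) (s' (Fin.succ (Fin.castSucc x))) : ℝ) : ℂ)) *
      AE τ f₁ (a (Fin.last M)) (s (Fin.last (M + 1))) (s' (Fin.last (M + 1)))

/-! ## Rotations -/

/-- proper rotations acting on the `R a` -/
structure IsRot (k : Matrix (Fin 3) (Fin 3) ℝ) : Prop where
  mul_t : k * kᵀ = 1
  t_mul : kᵀ * k = 1
  cov : ∀ a, kᵀ * R a * k = ∑ b, k a b • R b

/-- rotation by `π/4` about `z` -/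
noncomputable def k8 : Matrix (Fin 3) (Fin 3) ℝ :=
  !![Real.sqrt 2 / 2, -(Real.sqrt 2 / 2), 0; Real.sqrt 2 / 2, Real.sqrt 2 / 2, 0; 0, 0, 1]

/-- cyclic permutation of the axes -/
def cyc : Matrix (Fin 3) (Fin 3) ℝ := !![0, 0, 1; 1, 0, 0; 0, 1, 0]

/-- rotation by `π/2` about `y` -/
def y4 : Matrix (Fin 3) (Fin 3) ℝ := !![0, 0, 1; 0, 1, 0; -1, 0, 0]

/-- rotation by `π` about `y` -/
def py : Matrix (Fin 3) (Fin 3) ℝ := !![-1, 0, 0; 0, 1, 0; 0, 0, -1]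

/-! ## Normalised partition functions -/

/-- variational energy per site -/
noncomputable def eV : ℝ := -1401474 / 1000000

/-- normalised ring partition function, `L ≥ 2` sites -/
noncomputable def Zs (β : ℝ) (g : Matrix (Fin 3) (Fin 3) ℝ) (w : Matrix (Fin 3) (Fin 3) ℂ)
    (L : ℕ) : ℝ :=
  (zRing (L - 1) β g w).re * Real.exp (β * L * eV)

/-- normalised open-chain partition function, `n + 2` sites -/
noncomputable def Zo (β f₀ f₁ : ℝ) (w : Matrix (Fin 3) (Fin 3) ℂ) (n : ℕ) : ℝ :=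
  (zOpen (n + 1) β f₀ f₁ w).re * Real.exp (β * ((n + 2) * eV + 403 / 1000))

noncomputable def sA1 (β : ℝ) (L : ℕ) : ℝ := (Zs β 1 1 L + 5 * Zs β pz 1 L + 2 * Zs β c4 1 L) / 8
noncomputable def sA2 (β : ℝ) (L : ℕ) : ℝ := (Zs β 1 1 L - 3 * Zs β pz 1 L + 2 * Zs β c4 1 L) / 8
noncomputable def sB (β : ℝ) (L : ℕ) : ℝ := (Zs β 1 1 L + Zs β pz 1 L - 2 * Zs β c4 1 L) / 8
noncomputable def sPA1 (β : ℝ) (L : ℕ) : ℝ :=
  (Zs β 1 wz L + Zs β pz wz L + 2 * Zs β c4 wz L + 4 * Zs β pz wx L) / 8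
noncomputable def sPA2 (β : ℝ) (L : ℕ) : ℝ :=
  (Zs β 1 wz L + Zs β pz wz L + 2 * Zs β c4 wz L - 4 * Zs β pz wx L) / 8
noncomputable def sPB (β : ℝ) (L : ℕ) : ℝ := (Zs β 1 wz L + Zs β pz wz L - 2 * Zs β c4 wz L) / 8
noncomputable def sPE (β : ℝ) (L : ℕ) : ℝ := (Zs β 1 wz L - Zs β pz wz L) / 4

/-- `(Z_{+-} + Z_{++})/2` -/
noncomputable def oR (β : ℝ) (n : ℕ) : ℝ :=
  (Zo β (3 / 5) (-(3 / 5)) 1 n + Zo β (3 / 5) (3 / 5) 1 n) / 2
/-- `(Z_{+-} - Z_{++})/2` -/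
noncomputable def oI (β : ℝ) (n : ℕ) : ℝ :=
  (Zo β (3 / 5) (-(3 / 5)) 1 n - Zo β (3 / 5) (3 / 5) 1 n) / 2
/-- the same with the parity inserted -/
noncomputable def oP (β : ℝ) (n : ℕ) : ℝ :=
  (Zo β (3 / 5) (-(3 / 5)) wz n - Zo β (3 / 5) (3 / 5) wz n) / 2

end Crest.Agent.R347
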