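import Crest.Agent.R347.LUnit

/-!
# Row 347, piece L_DUAL (1.5 h): exact space-time duality at finite Trotter number

`BR n τ h a a' = trace (h * Π_t TR (a_t) (a'_t))`.
Ring: `trace (QG n g * BR^(L+1)) = Σ_{a^0..a^{L+1} : Fin n → Fin 4} QG(a^{L+1}, a^0) Π_x BR(a^x, a^{x+1})` and for fixed `a`
`Π_x trace (h * Π_t TR(a^x_t, a^{x+1}_t)) = trace (Π = tensF (fun _ => h) * Π_t tensF (fun x => TR (a^x_t) (a^{x+1}_t)))`
(`trace_tensF`, `tensF_mul`), and the sum over `a` factorises over `t`:
`Σ_{a : Fin n → κ} (List.ofFn fun t => F t (a t)).prod = (List.ofFn fun t => Σ_i F t i).prod` (`ofFn_sum_prod`), here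
`κ = Fin (L+2) → Fin 4` and the scalar `Q4 g (a_{L+1,t}) (a_{0,t})` goes with the slice `t`.
Useful: matrix power entries `(B^m) i j = Σ over paths` : induct on `m` with `Fin.cons`/`Fin.snoc`, or prove a general
lemma `trace (A * B^m) = Σ_{p : Fin (m+1) → I} A (p last) (p 0) * Π_{x : Fin m} B (p x.castSucc) (p x.succ)`.
-/

set_option autoImplicit false

open Crest.MathPhysics.SpinChain Matrix

namespace Crest.Agent.R347

theorem ofFn_sum_prod {n : ℕ} {κ : Type*} [Fintype κ] [DecidableEq κ] {A : Type*} [Semiring A]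
    (F : Fin n → κ → A) :
    (List.ofFn fun t => ∑ i, F t i).prod = ∑ a : Fin n → κ, (List.ofFn fun t => F t (a t)).prod := by
  induction n with
  | zero => simp
  | succ n ih =>
    rw [List.ofFn_succ, List.prod_cons, ih (fun t => F t.succ), Finset.sum_mul_sum,
      ← (Fin.consEquiv (fun _ : Fin (n + 1) => κ)).sum_comp, Fintype.sum_prod_type]
    refine Finset.sum_congr rfl fun i _ => Finset.sum_congr rfl fun a _ => ?_
    rw [List.ofFn_succ, List.prod_cons]
    simp [Fin.consEquiv]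

theorem pow_path {I A : Type*} [Fintype I] [DecidableEq I] [CommRing A] (B : Matrix I I A) (m : ℕ)
    (i j : I) :
    (B ^ m) i j = ∑ p : Fin (m + 1) → I, if p 0 = i ∧ p (Fin.last m) = j then
      ∏ x : Fin m, B (p (Fin.castSucc x)) (p (Fin.succ x)) else 0 := by
  induction m generalizing i with
  | zero =>
    rw [pow_zero, ← (Equiv.funUnique (Fin 1) I).symm.sum_comp]
    simp only [Fin.last_zero, Finset.univ_eq_empty, Finset.prod_empty]
    by_cases h : i = j
    · subst h
      rw [Matrix.one_apply_eq]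
      rw [Finset.sum_eq_single i]
      · simp
      · intro b _ hb
        simp [hb]
      · simp
    · rw [Matrix.one_apply_ne h]
      symm
      apply Finset.sum_eq_zero
      intro b _
      rw [if_neg]
      rintro ⟨h1, h2⟩
      exact h (h1.symm.trans h2)
  | succ m ih =>
    have hL : (B ^ (m + 1)) i j = ∑ p : Fin (m + 1) → I, if p (Fin.last m) = j then
        B i (p 0) * ∏ x : Fin m, B (p (Fin.castSucc x)) (p (Fin.succ x)) else 0 := by
      rw [pow_succ', Matrix.mul_apply]
      simp_rw [ih, Finset.mul_sum]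
      rw [Finset.sum_comm]
      refine Finset.sum_congr rfl fun p _ => ?_
      rw [Finset.sum_eq_single (p 0)]
      · by_cases h : p (Fin.last m) = j
        · rw [if_pos h, if_pos ⟨rfl, h⟩]
        · rw [if_neg h, if_neg (fun h' => h h'.2), mul_zero]
      · intro b _ hb
        rw [if_neg (fun h => hb h.1.symm), mul_zero]
      · intro h
        exact absurd (Finset.mem_univ _) h
    rw [hL, ← (Fin.consEquiv (fun _ : Fin (m + 2) => I)).sum_comp, Fintype.sum_prod_type,
      Finset.sum_comm]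
    refine Finset.sum_congr rfl fun p _ => ?_
    rw [Finset.sum_eq_single i]
    · have e1 : (Fin.consEquiv (fun _ : Fin (m + 2) => I)) (i, p) 0 = i := rfl
      have e2 : (Fin.consEquiv (fun _ : Fin (m + 2) => I)) (i, p) (Fin.last (m + 1)) =
          p (Fin.last m) := rfl
      rw [e1, e2, Fin.prod_univ_succ]
      by_cases h : p (Fin.last m) = j
      · rw [if_pos h, if_pos ⟨rfl, h⟩]
        rfl
      · rw [if_neg h, if_neg (fun h' => h h'.2)]
    · intro b _ hb
      rw [if_neg]
      rintro ⟨h1, h2⟩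
      exact hb h1
    · intro h
      exact absurd (Finset.mem_univ _) h

/-! ### slices -/

private theorem dual_ofFn_tensF {N n : ℕ} {A : Type*} [CommRing A]
    (T : Fin n → Fin N → Matrix (Fin 3) (Fin 3) A) :
    (List.ofFn fun t => tensF (T t)).prod = tensF (fun x => (List.ofFn fun t => T t x).prod) := by
  induction n with
  | zero => simp [tensF_one]
  | succ n ih =>
    rw [List.ofFn_succ, List.prod_cons, ih (fun t => T t.succ), tensF_mul]
    congr 1
    funext x
    rw [List.ofFn_succ, List.prod_cons]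

/-- sites versus time slices -/
private theorem dual_slice {N n : ℕ} {A : Type*} [CommRing A] (h : Matrix (Fin 3) (Fin 3) A)
    (T : Fin n → Fin N → Matrix (Fin 3) (Fin 3) A) :
    ∏ x, trace (h * (List.ofFn fun t => T t x).prod) =
      trace (tensF (fun _ : Fin N => h) * (List.ofFn fun t => tensF (T t)).prod) := by
  rw [dual_ofFn_tensF, tensF_mul, trace_tensF]

private theorem dual_smul_prod {n : ℕ} {A B : Type*} [CommRing A] [Ring B] [Algebra A B]
    (c : Fin n → A) (M : Fin n → B) :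
    (∏ t, c t) • (List.ofFn M).prod = (List.ofFn fun t => c t • M t).prod := by
  induction n with
  | zero => simp
  | succ n ih =>
    rw [List.ofFn_succ, List.prod_cons, List.ofFn_succ, List.prod_cons, Fin.prod_univ_succ,
      ← ih (fun t => c t.succ) (fun t => M t.succ), smul_mul_smul_comm]

private theorem dual_const {n : ℕ} {B : Type*} [Monoid B] (W : B) :
    (List.ofFn fun _ : Fin n => W).prod = W ^ n := by
  rw [List.ofFn_const, List.prod_replicate]

theorem duality_ring (L n : ℕ) (τ : ℝ) (g h : Matrix (Fin 3) (Fin 3) ℝ) :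
    trace (QG n g * BR n τ h ^ (L + 1)) = trace (tensF (fun _ => h) * WR L τ g ^ n) := by
  -- the slice operators
  let F : Fin n → (Fin (L + 2) → Fin 4) → Matrix (Fin (L + 1) → Fin 3) (Fin (L + 1) → Fin 3) ℝ :=
    fun _ a => Q4 g (a (Fin.last (L + 1))) (a 0) •
      tensF (fun x : Fin (L + 1) => TR τ (a (Fin.castSucc x)) (a (Fin.succ x)))
  have hW : ∀ t, ∑ a, F t a = WR L τ g := by
    intro t
    ext s s'
    rw [Matrix.sum_apply]
    rfl
  have hR : trace (tensF (fun _ => h) * WR L τ g ^ n) =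
      ∑ p : Fin (L + 2) → Fin n → Fin 4, trace (tensF (fun _ : Fin (L + 1) => h) *
        (List.ofFn fun t => F t (fun x => p x t)).prod) := by
    have hWf : (fun _ : Fin n => WR L τ g) = fun t => ∑ a, F t a := funext fun t => (hW t).symm
    rw [← dual_const (n := n) (WR L τ g), hWf, ofFn_sum_prod, Matrix.mul_sum, Matrix.trace_sum,
      ← (Equiv.piComm (fun (_ : Fin (L + 2)) (_ : Fin n) => Fin 4)).sum_comp]
    rfl
  have hL : trace (QG n g * BR n τ h ^ (L + 1)) = ∑ p : Fin (L + 2) → Fin n → Fin 4,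
      QG n g (p (Fin.last (L + 1))) (p 0) *
        ∏ x : Fin (L + 1), BR n τ h (p (Fin.castSucc x)) (p (Fin.succ x)) := by
    have e : trace (QG n g * BR n τ h ^ (L + 1)) =
        ∑ a', ∑ a, QG n g a' a * (BR n τ h ^ (L + 1)) a a' := rfl
    rw [e]
    simp_rw [pow_path, Finset.mul_sum]
    rw [Finset.sum_congr rfl fun a' _ => Finset.sum_comm, Finset.sum_comm]
    refine Finset.sum_congr rfl fun p _ => ?_
    rw [Finset.sum_eq_single (p (Fin.last (L + 1))), Finset.sum_eq_single (p 0)]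
    · rw [if_pos ⟨rfl, rfl⟩]
    · intro b _ hb
      rw [if_neg (fun h => hb h.1.symm), mul_zero]
    · intro h
      exact absurd (Finset.mem_univ _) h
    · intro b _ hb
      refine Finset.sum_eq_zero fun a _ => ?_
      rw [if_neg (fun h => hb h.2.symm), mul_zero]
    · intro h
      exact absurd (Finset.mem_univ _) h
  rw [hL, hR]
  refine Finset.sum_congr rfl fun p _ => ?_
  have e1 : (List.ofFn fun t => F t (fun x => p x t)).prod =
      (∏ t, Q4 g (p (Fin.last (L + 1)) t) (p 0 t)) • (List.ofFn fun t =>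
        tensF (fun x : Fin (L + 1) => TR τ (p (Fin.castSucc x) t) (p (Fin.succ x) t))).prod := by
    rw [dual_smul_prod]
  rw [e1, Matrix.mul_smul, Matrix.trace_smul, smul_eq_mul, ← dual_slice]
  rfl

private theorem dual_toC_mul (A B : Matrix (Fin 3) (Fin 3) ℝ) : toC (A * B) = toC A * toC B :=
  map_mul (Complex.ofRealHom.mapMatrix (m := Fin 3)) A B

private theorem dual_toC_prod {n : ℕ} (T : Fin n → Matrix (Fin 3) (Fin 3) ℝ) :
    toC (List.ofFn T).prod = (List.ofFn fun t => toC (T t)).prod := by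
  have h := map_list_prod (Complex.ofRealHom.mapMatrix (m := Fin 3)) (List.ofFn T)
  rw [List.map_ofFn] at h
  exact h

private theorem dual_trace_toC (A : Matrix (Fin 3) (Fin 3) ℝ) :
    ((trace A : ℝ) : ℂ) = trace (toC A) := by
  simp [Matrix.trace, toC]

private theorem dual_BR (n : ℕ) (τ : ℝ) (h : Matrix (Fin 3) (Fin 3) ℝ) (a a' : Fin n → Fin 4) :
    ((BR n τ h a a' : ℝ) : ℂ) =
      trace (toC h * (List.ofFn fun t => toC (TR τ (a t) (a' t))).prod) := by
  have e : BR n τ h a a' = trace (h * (List.ofFn fun t => TR τ (a t) (a' t)).prod) := rfl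
  rw [e, dual_trace_toC, dual_toC_mul, dual_toC_prod]

/-- the single-site operators of one slice of the open chain -/
private noncomputable def dualS (M : ℕ) (τ f₀ f₁ : ℝ) (b : Fin (M + 1) → Fin 4) :
    Fin (M + 2) → Matrix (Fin 3) (Fin 3) ℂ :=
  Fin.cons (AE τ f₀ (b 0)) (Fin.snoc (α := fun _ => Matrix (Fin 3) (Fin 3) ℂ)
    (fun x : Fin M => toC (TR τ (b (Fin.castSucc x)) (b (Fin.succ x)))) (AE τ f₁ (b (Fin.last M))))

private theorem dualS_zero (M : ℕ) (τ f₀ f₁ : ℝ) (b : Fin (M + 1) → Fin 4) :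
    dualS M τ f₀ f₁ b 0 = AE τ f₀ (b 0) := rfl

private theorem dualS_mid (M : ℕ) (τ f₀ f₁ : ℝ) (b : Fin (M + 1) → Fin 4) (x : Fin M) :
    dualS M τ f₀ f₁ b (Fin.succ (Fin.castSucc x)) =
      toC (TR τ (b (Fin.castSucc x)) (b (Fin.succ x))) := by
  unfold dualS
  rw [Fin.cons_succ, Fin.snoc_castSucc]

private theorem dualS_last (M : ℕ) (τ f₀ f₁ : ℝ) (b : Fin (M + 1) → Fin 4) :
    dualS M τ f₀ f₁ b (Fin.succ (Fin.last M)) = AE τ f₁ (b (Fin.last M)) := by
  unfold dualS
  rw [Fin.cons_succ, Fin.snoc_last]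

private theorem dual_prod_sites {M : ℕ} (G : Fin (M + 2) → ℂ) :
    ∏ y, G y = G 0 * ((∏ x : Fin M, G (Fin.succ (Fin.castSucc x))) * G (Fin.succ (Fin.last M))) := by
  rw [Fin.prod_univ_succ, Fin.prod_univ_castSucc]

theorem duality_open (M n : ℕ) (τ f₀ f₁ : ℝ) (h : Matrix (Fin 3) (Fin 3) ℝ) :
    ∑ a, ∑ a', vE n τ f₀ h a * (((BR n τ h ^ M) a a' : ℝ) : ℂ) * vE n τ f₁ h a' =
      trace (tensF (fun _ => toC h) * WO M τ f₀ f₁ ^ n) := by
  have hW : ∀ _t : Fin n, ∑ b : Fin (M + 1) → Fin 4, tensF (dualS M τ f₀ f₁ b) =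
      WO M τ f₀ f₁ := by
    intro _
    ext s s'
    rw [Matrix.sum_apply]
    refine Finset.sum_congr rfl fun b _ => ?_
    show ∏ y, dualS M τ f₀ f₁ b y (s y) (s' y) = _
    have e : ∏ x : Fin M, dualS M τ f₀ f₁ b (Fin.succ (Fin.castSucc x))
        (s (Fin.succ (Fin.castSucc x))) (s' (Fin.succ (Fin.castSucc x))) =
        ∏ x : Fin M, ((TR τ (b (Fin.castSucc x)) (b (Fin.succ x))
          (s (Fin.succ (Fin.castSucc x))) (s' (Fin.succ (Fin.castSucc x))) : ℝ) : ℂ) :=
      Finset.prod_congr rfl fun x _ => by rw [dualS_mid]; rfl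
    rw [dual_prod_sites, dualS_zero, dualS_last, ← mul_assoc, e]
    rfl
  have hR : trace (tensF (fun _ => toC h) * WO M τ f₀ f₁ ^ n) =
      ∑ p : Fin (M + 1) → Fin n → Fin 4, trace (tensF (fun _ : Fin (M + 2) => toC h) *
        (List.ofFn fun t => tensF (dualS M τ f₀ f₁ (fun x => p x t))).prod) := by
    have hWf : (fun _ : Fin n => WO M τ f₀ f₁) = fun _t => ∑ b : Fin (M + 1) → Fin 4,
        tensF (dualS M τ f₀ f₁ b) := funext fun t => (hW t).symm
    rw [← dual_const (n := n) (WO M τ f₀ f₁), hWf, ofFn_sum_prod, Matrix.mul_sum,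
      Matrix.trace_sum, ← (Equiv.piComm (fun (_ : Fin (M + 1)) (_ : Fin n) => Fin 4)).sum_comp]
    rfl
  have hL : ∑ a, ∑ a', vE n τ f₀ h a * (((BR n τ h ^ M) a a' : ℝ) : ℂ) * vE n τ f₁ h a' =
      ∑ p : Fin (M + 1) → Fin n → Fin 4, vE n τ f₀ h (p 0) *
        (∏ x : Fin M, ((BR n τ h (p (Fin.castSucc x)) (p (Fin.succ x)) : ℝ) : ℂ)) *
          vE n τ f₁ h (p (Fin.last M)) := by
    have e : ∀ a a', vE n τ f₀ h a * (((BR n τ h ^ M) a a' : ℝ) : ℂ) * vE n τ f₁ h a' =
        ∑ p : Fin (M + 1) → Fin n → Fin 4, if p 0 = a ∧ p (Fin.last M) = a' then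
          vE n τ f₀ h (p 0) *
        (∏ x : Fin M, ((BR n τ h (p (Fin.castSucc x)) (p (Fin.succ x)) : ℝ) : ℂ)) *
          vE n τ f₁ h (p (Fin.last M)) else 0 := by
      intro a a'
      rw [pow_path, Complex.ofReal_sum, Finset.mul_sum, Finset.sum_mul]
      refine Finset.sum_congr rfl fun p _ => ?_
      by_cases hp : p 0 = a ∧ p (Fin.last M) = a'
      · rw [if_pos hp, if_pos hp, hp.1, hp.2, Complex.ofReal_prod]
      · rw [if_neg hp, if_neg hp]; simp
    simp_rw [e]
    rw [Finset.sum_congr rfl fun a _ => Finset.sum_comm, Finset.sum_comm]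
    refine Finset.sum_congr rfl fun p _ => ?_
    rw [Finset.sum_eq_single (p 0), Finset.sum_eq_single (p (Fin.last M))]
    · rw [if_pos ⟨rfl, rfl⟩]
    · intro b _ hb
      rw [if_neg (fun h => hb h.2.symm)]
    · intro h
      exact absurd (Finset.mem_univ _) h
    · intro b _ hb
      refine Finset.sum_eq_zero fun a _ => ?_
      rw [if_neg (fun h => hb h.1.symm)]
    · intro h
      exact absurd (Finset.mem_univ _) h
  rw [hL, hR]
  refine Finset.sum_congr rfl fun p _ => ?_
  rw [← dual_slice, dual_prod_sites]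
  simp_rw [dualS_zero, dualS_mid, dualS_last, dual_BR]
  rw [← mul_assoc]
  rfl

end Crest.Agent.R347
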