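import Mathlib

/-!
# Row 347, piece PROJ_C: Hermitian matrix commuting with an orthogonal projection
-/

set_option autoImplicit false

open Matrix

namespace Crest.Agent.R347

section

open scoped Matrix.Norms.Operator

private theorem lpc_exp_mulVec {κ : Type*} [Fintype κ] [DecidableEq κ] (A : Matrix κ κ ℂ)
    (u : κ → ℂ) (a : ℂ) (h : A.mulVec u = a • u) :
    (NormedSpace.exp A).mulVec u = Complex.exp a • u := by
  have hpow : ∀ n : ℕ, (A ^ n).mulVec u = a ^ n • u := by
    intro n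
    induction n with
    | zero => simp
    | succ n ih =>
      rw [pow_succ, ← Matrix.mulVec_mulVec, h, Matrix.mulVec_smul, ih, smul_smul, pow_succ, mul_comm]
  have h1 := NormedSpace.exp_series_hasSum_exp' (𝕂 := ℂ) A
  have h2 : HasSum (fun n : ℕ => ((n.factorial : ℂ)⁻¹ • A ^ n).mulVec u)
      ((NormedSpace.exp A).mulVec u) := by
    have hc : Continuous (fun X : Matrix κ κ ℂ => X.mulVec u) := by fun_prop
    exact h1.map (⟨⟨fun X : Matrix κ κ ℂ => X.mulVec u, Matrix.zero_mulVec u⟩,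
      fun X Y => Matrix.add_mulVec X Y u⟩ : Matrix κ κ ℂ →+ (κ → ℂ)) hc
  have h3 := NormedSpace.exp_series_hasSum_exp' (𝕂 := ℂ) a
  rw [← Complex.exp_eq_exp_ℂ] at h3
  have h4 := h3.smul_const u
  have he : (fun n : ℕ => ((n.factorial : ℂ)⁻¹ • A ^ n).mulVec u) =
      fun n : ℕ => ((n.factorial : ℂ)⁻¹ • a ^ n) • u := by
    funext n
    rw [Matrix.smul_mulVec, hpow, smul_assoc]
  rw [he] at h2
  exact h2.unique h4

end

private theorem lpc_key {κ : Type*} [Fintype κ] [DecidableEq κ] (H P : Matrix κ κ ℂ)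
    (hH : H.IsHermitian) (hP : P.IsHermitian) (hPP : P * P = P) (hPH : P * H = H * P) :
    ∃ (k : ℕ) (E : Fin k → ℝ) (u : Fin k → κ → ℂ),
      (∀ i, H.mulVec (u i) = (E i : ℂ) • u i) ∧
      (∀ i j, star (u i) ⬝ᵥ u j = if i = j then 1 else 0) ∧
      (∀ x : κ → ℂ, P.mulVec x = ∑ i, (star (u i) ⬝ᵥ x) • u i) := by
  set HE := Matrix.toEuclideanLin H with hHE
  set PE := Matrix.toEuclideanLin P with hPE
  have hsH : HE.IsSymmetric := isSymmetric_toEuclideanLin_iff.mpr hH
  have hsP : PE.IsSymmetric := isSymmetric_toEuclideanLin_iff.mpr hP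
  set V : Submodule ℂ (EuclideanSpace ℂ κ) := LinearMap.range PE with hVdef
  have aP : ∀ x, WithLp.ofLp (PE x) = P.mulVec (WithLp.ofLp x) := fun x => rfl
  have aH : ∀ x, WithLp.ofLp (HE x) = H.mulVec (WithLp.ofLp x) := fun x => rfl
  have hPE2 : ∀ x, PE (PE x) = PE x := by
    intro x
    apply (WithLp.ofLp_injective 2)
    rw [aP, aP, Matrix.mulVec_mulVec, hPP]
  have hcomm : ∀ x, PE (HE x) = HE (PE x) := by
    intro x
    apply (WithLp.ofLp_injective 2)
    rw [aP, aH, aH, aP, Matrix.mulVec_mulVec, Matrix.mulVec_mulVec, hPH]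
  have hfix : ∀ v ∈ V, PE v = v := by
    rintro _ ⟨w, rfl⟩
    exact hPE2 w
  have hV : ∀ v ∈ V, HE v ∈ V := by
    rintro _ ⟨w, rfl⟩
    exact ⟨HE w, hcomm w⟩
  have hR := hsH.restrict_invariant hV
  let b := hR.eigenvectorBasis rfl
  refine ⟨Module.finrank ℂ V, hR.eigenvalues rfl,
    fun i => WithLp.ofLp ((b i : V) : EuclideanSpace ℂ κ), fun i => ?_, fun i j => ?_, fun x => ?_⟩
  · have h := hR.apply_eigenvectorBasis rfl i
    have h2 := congrArg (fun v : V => WithLp.ofLp (v : EuclideanSpace ℂ κ)) h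
    have h3 : WithLp.ofLp (HE ((b i : V) : EuclideanSpace ℂ κ)) =
        WithLp.ofLp (((((hR.eigenvalues rfl i : ℝ) : ℂ) • b i : V)) : EuclideanSpace ℂ κ) := h2
    rw [aH] at h3
    rw [h3]
    simp
  · have h := orthonormal_iff_ite.mp b.orthonormal i j
    rw [Submodule.coe_inner, EuclideanSpace.inner_eq_star_dotProduct, dotProduct_comm] at h
    exact h
  · have hy : PE (WithLp.toLp 2 x) ∈ V := ⟨_, rfl⟩
    have h := b.sum_repr' ⟨PE (WithLp.toLp 2 x), hy⟩
    have h2 := congrArg (fun v : V => WithLp.ofLp (v : EuclideanSpace ℂ κ)) h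
    simp only [Submodule.coe_inner] at h2
    have h3 : P.mulVec x = WithLp.ofLp (PE (WithLp.toLp 2 x)) := (aP _).symm
    rw [h3]
    have hin : ∀ i, inner ℂ ((b i : V) : EuclideanSpace ℂ κ) (PE (WithLp.toLp 2 x)) =
        star (WithLp.ofLp ((b i : V) : EuclideanSpace ℂ κ)) ⬝ᵥ x := by
      intro i
      rw [← hsP, hfix _ (b i).2, EuclideanSpace.inner_eq_star_dotProduct, dotProduct_comm]
    simp only [hin] at h2
    rw [← h2]
    simp

theorem exists_levels_proj {κ : Type*} [Fintype κ] [DecidableEq κ] (H P : Matrix κ κ ℂ)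
    (hH : H.IsHermitian) (hP : P.IsHermitian) (hPP : P * P = P) (hPH : P * H = H * P) :
    ∃ (k : ℕ) (E : Fin k → ℝ),
      (∀ β : ℝ, trace (P * NormedSpace.exp ((-(β : ℂ)) • H)) =
        ((∑ i, Real.exp (-(β * E i)) : ℝ) : ℂ)) ∧
      (∀ (ψ : κ → ℂ) (e : ℝ), ψ ≠ 0 → P.mulVec ψ = ψ →
        (star ψ ⬝ᵥ H.mulVec ψ).re ≤ e * (star ψ ⬝ᵥ ψ).re → ∃ i, E i ≤ e) := by
  obtain ⟨k, E, u, hu, hon, hPx⟩ := lpc_key H P hH hP hPP hPH
  refine ⟨k, E, fun β => ?_, fun ψ e hψ hPψ hle => ?_⟩
  · -- trace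
    set X := NormedSpace.exp ((-(β : ℂ)) • H) with hX
    have hXu : ∀ i, X.mulVec (u i) = Complex.exp (-(β : ℂ) * (E i : ℂ)) • u i := by
      intro i
      apply lpc_exp_mulVec
      rw [Matrix.smul_mulVec, hu, smul_smul]
    have htr : trace (P * X) = ∑ i, star (u i) ⬝ᵥ X.mulVec (u i) := by
      have h1 : ∀ j, (P * X) j j = ∑ i, (∑ l, star (u i l) * X l j) * u i j := by
        intro j
        have h2 : (P * X) j j = (P.mulVec (fun l => X l j)) j := rfl
        rw [h2, hPx, Finset.sum_apply]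
        refine Finset.sum_congr rfl fun i _ => ?_
        rfl
      unfold trace
      simp only [diag_apply, h1]
      rw [Finset.sum_comm]
      refine Finset.sum_congr rfl fun i _ => ?_
      simp only [dotProduct, mulVec, Finset.sum_mul, Finset.mul_sum, Pi.star_apply]
      rw [Finset.sum_comm]
      refine Finset.sum_congr rfl fun l _ => Finset.sum_congr rfl fun j _ => ?_
      ring
    rw [htr]
    push_cast
    refine Finset.sum_congr rfl fun i _ => ?_
    rw [hXu, dotProduct_smul, hon, if_pos rfl, smul_eq_mul, mul_one]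
    congr 1
    ring
  · -- variational principle
    by_contra hcon
    push Not at hcon
    set c : Fin k → ℂ := fun i => star (u i) ⬝ᵥ ψ with hc
    have hψs : ψ = ∑ i, c i • u i := by
      have h := hPx ψ
      rw [hPψ] at h
      exact h
    have hdot : ∀ i, star ψ ⬝ᵥ u i = star (c i) := by
      intro i
      rw [hc]
      simp only
      rw [star_dotProduct, dotProduct_comm]
    have hcc : ∀ z : ℂ, z * star z = (Complex.normSq z : ℂ) := fun z => Complex.mul_conj z
    have h1 : star ψ ⬝ᵥ ψ = ∑ i, (Complex.normSq (c i) : ℂ) := by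
      have e1 : star ψ ⬝ᵥ ψ = star ψ ⬝ᵥ (∑ i, c i • u i) := by rw [← hψs]
      rw [e1, dotProduct_sum]
      refine Finset.sum_congr rfl fun i _ => ?_
      rw [dotProduct_smul, hdot, smul_eq_mul, hcc]
    have h2 : star ψ ⬝ᵥ H.mulVec ψ = ∑ i, ((E i : ℂ) * Complex.normSq (c i)) := by
      have e1 : H.mulVec ψ = ∑ i, c i • ((E i : ℂ) • u i) := by
        conv_lhs => rw [hψs]
        rw [Matrix.mulVec_sum]
        refine Finset.sum_congr rfl fun i _ => ?_
        rw [Matrix.mulVec_smul, hu]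
      rw [e1, dotProduct_sum]
      refine Finset.sum_congr rfl fun i _ => ?_
      rw [dotProduct_smul, dotProduct_smul, hdot, smul_eq_mul, smul_eq_mul, ← hcc]
      ring
    have r1 : (star ψ ⬝ᵥ ψ).re = ∑ i, Complex.normSq (c i) := by
      rw [h1]
      simp
    have r2 : (star ψ ⬝ᵥ H.mulVec ψ).re = ∑ i, E i * Complex.normSq (c i) := by
      rw [h2, Complex.re_sum]
      refine Finset.sum_congr rfl fun i _ => ?_
      rw [← Complex.ofReal_mul, Complex.ofReal_re]
    rw [r1, r2, Finset.mul_sum] at hle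
    have hterm : ∀ i ∈ Finset.univ, e * Complex.normSq (c i) ≤ E i * Complex.normSq (c i) :=
      fun i _ => mul_le_mul_of_nonneg_right (hcon i).le (Complex.normSq_nonneg _)
    have heq : ∀ i ∈ Finset.univ, e * Complex.normSq (c i) = E i * Complex.normSq (c i) :=
      (Finset.sum_eq_sum_iff_of_le hterm).mp (le_antisymm (Finset.sum_le_sum hterm) hle)
    apply hψ
    rw [hψs]
    refine Finset.sum_eq_zero fun i hi => ?_
    have h3 := heq i hi
    have h4 : Complex.normSq (c i) = 0 := by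
      by_contra h0
      exact (hcon i).ne (mul_right_cancel₀ h0 h3)
    rw [Complex.normSq_eq_zero.mp h4, zero_smul]

end Crest.Agent.R347
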