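import Crest.Agent.R347.LProjR
import Mathlib
import Crest.Agent.R347.LProjC

/-!
# Row 347, piece L_PROJ (1 h): simultaneous diagonalisation with a projection

Real symmetric `B` commuting with an orthogonal projection `P`; eigenvalues `μ` of `B` on the range of `P`
(an orthonormal eigenbasis `u_i` of the restriction of `B` to the range of `P`), `c_i = ⟨u_i, v⟩²`.
Complex version for Hermitian `H`, with the variational principle on the range of `P`.
-/

set_option autoImplicit false

open Matrix

namespace Crest.Agent.R347

end Crest.Agent.R347
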