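import Mathlib

/-!
# Row 347, piece L_PROJ, real part: simultaneous diagonalisation with a projection

Real symmetric `B` commuting with an orthogonal projection `P`; eigenvalues `μ` of `B` on the range of `P`
(an orthonormal eigenbasis `u_i` of the restriction of `B` to the range of `P`), `c_i = ⟨u_i, v⟩²`.
-/

set_option autoImplicit false

open Matrix

namespace Crest.Agent.R347

private theorem lpr_inner {I : Type*} [Fintype I] (x y : EuclideanSpace ℝ I) :
    inner ℝ x y = WithLp.ofLp x ⬝ᵥ WithLp.ofLp y := by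
  rw [PiLp.inner_apply]
  simp [dotProduct, mul_comm]

/-- orthonormal eigenbasis of the range -/
private theorem lpr_basis {I : Type*} [Fintype I] [DecidableEq I] (B P : Matrix I I ℝ)
    (hB : Bᵀ = B) (hP : Pᵀ = P) (hPP : P * P = P) (hPB : P * B = B * P) :
    ∃ (k : ℕ) (μ : Fin k → ℝ) (U : Fin k → I → ℝ),
      (∀ i, B *ᵥ U i = μ i • U i) ∧ (∀ i j, U i ⬝ᵥ U j = if i = j then 1 else 0) ∧
      (∀ x, P *ᵥ x = ∑ i, (U i ⬝ᵥ x) • U i) := by
  have hBs : (toEuclideanLin B).IsSymmetric :=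
    Matrix.isSymmetric_toEuclideanLin_iff.2 (by
      rw [Matrix.IsHermitian, Matrix.conjTranspose_eq_transpose_of_trivial]; exact hB)
  let V : Submodule ℝ (EuclideanSpace ℝ I) := LinearMap.range (toEuclideanLin P)
  have hV : ∀ x ∈ V, toEuclideanLin B x ∈ V := by
    rintro x ⟨y, rfl⟩
    refine ⟨toEuclideanLin B y, ?_⟩
    rw [toEuclideanLin_apply, toEuclideanLin_apply, toEuclideanLin_apply, toEuclideanLin_apply]
    simp only [Matrix.mulVec_mulVec, hPB]
  have hS := hBs.restrict_invariant hV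
  let b := hS.eigenvectorBasis (rfl : Module.finrank ℝ V = Module.finrank ℝ V)
  let μ := hS.eigenvalues (rfl : Module.finrank ℝ V = Module.finrank ℝ V)
  let U : Fin (Module.finrank ℝ V) → I → ℝ := fun i => WithLp.ofLp ((b i : V) : EuclideanSpace ℝ I)
  have hPU : ∀ i, P *ᵥ U i = U i := by
    intro i
    obtain ⟨y, hy⟩ := (b i : V).2
    have h1 : U i = P *ᵥ WithLp.ofLp y := by
      show WithLp.ofLp ((b i : V) : EuclideanSpace ℝ I) = _
      rw [← hy, toEuclideanLin_apply]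
    rw [h1, Matrix.mulVec_mulVec, hPP]
  refine ⟨Module.finrank ℝ V, μ, U, ?_, ?_, ?_⟩
  · intro i
    have h := hS.apply_eigenvectorBasis (rfl : Module.finrank ℝ V = Module.finrank ℝ V) i
    have h1 := congrArg (fun z : V => WithLp.ofLp (z : EuclideanSpace ℝ I)) h
    exact h1
  · intro i j
    have h := b.orthonormal
    rw [orthonormal_iff_ite] at h
    have h1 := h i j
    rw [Submodule.coe_inner, lpr_inner] at h1
    exact h1
  · intro x
    let px : V := ⟨toEuclideanLin P (WithLp.toLp 2 x), ⟨_, rfl⟩⟩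
    have h := b.sum_repr' px
    have h1 := congrArg (fun z : V => WithLp.ofLp (z : EuclideanSpace ℝ I)) h
    have h2 : WithLp.ofLp ((px : V) : EuclideanSpace ℝ I) = P *ᵥ x := rfl
    have h3 : WithLp.ofLp ((∑ i, (inner ℝ (b i) px) • b i : V) : EuclideanSpace ℝ I) =
        ∑ i, (inner ℝ (b i) px) • U i := by
      rw [Submodule.coe_sum, WithLp.ofLp_sum]
      rfl
    have h4 : ∀ i, inner ℝ (b i) px = U i ⬝ᵥ x := by
      intro i
      rw [Submodule.coe_inner, lpr_inner, h2]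
      show U i ⬝ᵥ (P *ᵥ x) = U i ⬝ᵥ x
      rw [Matrix.dotProduct_mulVec, ← Matrix.mulVec_transpose, hP, hPU]
    rw [← h2, ← h1]
    show _ = _
    rw [h3]
    exact Finset.sum_congr rfl fun i _ => by rw [h4]

theorem exists_eig_proj {I : Type*} [Fintype I] [DecidableEq I] (B P : Matrix I I ℝ)
    (hB : Bᵀ = B) (hP : Pᵀ = P) (hPP : P * P = P) (hPB : P * B = B * P) (v : I → ℝ)
    (hv : P.mulVec v = v) :
    ∃ (k : ℕ) (μ c : Fin k → ℝ), (∀ i, 0 ≤ c i) ∧
      (∀ L, trace (P * B ^ L) = ∑ i, μ i ^ L) ∧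
      (∀ n, v ⬝ᵥ (B ^ n).mulVec v = ∑ i, c i * μ i ^ n) := by
  obtain ⟨k, μ, U, h1, h2, h3⟩ := lpr_basis B P hB hP hPP hPB
  have hpow : ∀ (n : ℕ) (i : Fin k), (B ^ n) *ᵥ U i = (μ i ^ n) • U i := by
    intro n i
    induction n with
    | zero => simp
    | succ n ih =>
      rw [pow_succ', ← Matrix.mulVec_mulVec, ih, Matrix.mulVec_smul, h1, smul_smul, pow_succ]
  have hBP : ∀ (n : ℕ) (x : I → ℝ), (B ^ n) *ᵥ (P *ᵥ x) = ∑ i, ((U i ⬝ᵥ x) * μ i ^ n) • U i := by
    intro n x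
    rw [h3, Matrix.mulVec_sum]
    refine Finset.sum_congr rfl fun i _ => ?_
    rw [Matrix.mulVec_smul, hpow, smul_smul]
  refine ⟨k, μ, fun i => (U i ⬝ᵥ v) ^ 2, fun i => sq_nonneg _, fun L => ?_, fun n => ?_⟩
  · have hc : P * B ^ L = B ^ L * P := (Commute.pow_right hPB L : Commute P (B ^ L))
    rw [hc]
    have e1 : trace (B ^ L * P) = ∑ x, ((B ^ L) *ᵥ (P *ᵥ Pi.single x 1)) x := by
      unfold trace
      refine Finset.sum_congr rfl fun x _ => ?_
      rw [Matrix.mulVec_mulVec, Matrix.mulVec_single_one]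
      rfl
    rw [e1]
    have e2 : ∀ x, ((B ^ L) *ᵥ (P *ᵥ Pi.single x 1)) x = ∑ i, μ i ^ L * (U i x * U i x) := by
      intro x
      rw [hBP, Finset.sum_apply]
      refine Finset.sum_congr rfl fun i _ => ?_
      rw [Pi.smul_apply, smul_eq_mul, dotProduct_single_one]
      ring
    rw [Finset.sum_congr rfl fun x _ => e2 x, Finset.sum_comm]
    refine Finset.sum_congr rfl fun i _ => ?_
    rw [← Finset.mul_sum]
    have e3 : ∑ x, U i x * U i x = U i ⬝ᵥ U i := rfl
    rw [e3, h2, if_pos rfl, mul_one]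
  · have e1 : (B ^ n) *ᵥ v = ∑ i, ((U i ⬝ᵥ v) * μ i ^ n) • U i := by
      rw [← hBP, hv]
    rw [e1, dotProduct_sum]
    refine Finset.sum_congr rfl fun i _ => ?_
    rw [dotProduct_smul, smul_eq_mul, dotProduct_comm v (U i)]
    ring

end Crest.Agent.R347
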