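import Crest.Agent.R347.LProj
import Crest.Agent.R347.LLimit
import Crest.Agent.R347.LCov
import Crest.Agent.R347.RTop

/-!
# Row 347: common part of the pieces SEC1, SEC2 (helper28): `D₄` projections on the time channel
-/

set_option autoImplicit false

open Crest.MathPhysics.SpinChain Matrix Filter Topology

namespace Crest.Agent.R347.Sec2

theorem isPS_of_proj (B P : (n : ℕ) → Matrix (Fin n → Fin 4) (Fin n → Fin 4) ℝ)
    (hB : ∀ n, (B n)ᵀ = B n) (hP : ∀ n, (P n)ᵀ = P n) (hPP : ∀ n, P n * P n = P n)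
    (hPB : ∀ n, P n * B n = B n * P n) (z : ℕ → ℝ)
    (hz : ∀ L, 2 ≤ L → Tendsto (fun n => trace (P n * B n ^ L)) atTop (𝓝 (z L))) : IsPS z := by
  have h := fun n => exists_eig_proj (B n) (P n) (hB n) (hP n) (hPP n) (hPB n) 0 (by simp)
  choose k μ c h1 h2 h3 using h
  exact ⟨k, μ, fun L hL => (hz L hL).congr (fun n => h2 n L)⟩

section algebra

variable {I : Type*} [Fintype I] [DecidableEq I]

/-- the four-term sum -/
def S4 (C : Matrix I I ℝ) : Matrix I I ℝ := 1 + C + C ^ 2 + C ^ 3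

theorem S4_mul_left (C : Matrix I I ℝ) (hC : C ^ 4 = 1) : C * S4 C = S4 C := by
  unfold S4
  calc C * (1 + C + C ^ 2 + C ^ 3) = C + C ^ 2 + C ^ 3 + C ^ 4 := by
        rw [mul_add, mul_add, mul_add, mul_one, ← pow_succ', ← pow_succ', ← pow_two]
    _ = 1 + C + C ^ 2 + C ^ 3 := by
        rw [hC, add_comm _ (1 : Matrix I I ℝ), ← add_assoc, ← add_assoc]

theorem S4_sq (C : Matrix I I ℝ) (hC : C ^ 4 = 1) : S4 C * S4 C = (4 : ℝ) • S4 C := by
  have h1 := S4_mul_left C hC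
  have h2 : C ^ 2 * S4 C = S4 C := by rw [pow_two, mul_assoc, h1, h1]
  have h3 : C ^ 3 * S4 C = S4 C := by rw [pow_succ, mul_assoc, h1, h2]
  conv_lhs => rw [show S4 C * S4 C = (1 + C + C ^ 2 + C ^ 3) * S4 C from rfl]
  rw [add_mul, add_mul, add_mul, one_mul, h1, h2, h3]
  rw [show (4 : ℝ) = 1 + 1 + 1 + 1 by norm_num, add_smul, add_smul, add_smul, one_smul]

theorem X_pow2 (C X : Matrix I I ℝ) (hC : C ^ 4 = 1) (hXC : X * C = C ^ 3 * X) :
    X * C ^ 2 = C ^ 2 * X := by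
  have h6 : C ^ 3 * C ^ 3 = C ^ 2 := by
    rw [← pow_add, show C ^ (3 + 3) = C ^ 4 * C ^ 2 by rw [← pow_add], hC, one_mul]
  rw [pow_two, ← mul_assoc, hXC, mul_assoc, hXC, ← mul_assoc, h6, pow_two]

theorem X_pow3 (C X : Matrix I I ℝ) (hC : C ^ 4 = 1) (hXC : X * C = C ^ 3 * X) :
    X * C ^ 3 = C * X := by
  have h5 : C ^ 2 * C ^ 3 = C := by
    rw [← pow_add, show C ^ (2 + 3) = C ^ 4 * C by rw [← pow_succ], hC, one_mul]
  rw [pow_succ C 2, ← mul_assoc, X_pow2 C X hC hXC, mul_assoc, hXC, ← mul_assoc, h5]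

theorem X_S4 (C X : Matrix I I ℝ) (hC : C ^ 4 = 1) (hXC : X * C = C ^ 3 * X) :
    X * S4 C = S4 C * X := by
  unfold S4
  rw [mul_add, mul_add, mul_add, X_pow2 C X hC hXC, X_pow3 C X hC hXC, hXC]
  noncomm_ring

/-- the projection `(1+X)/2 (1+C+C²+C³)/4` -/
noncomputable def P8 (C X : Matrix I I ℝ) : Matrix I I ℝ := (1 / 8 : ℝ) • ((1 + X) * S4 C)

/-- the projection `(1+X)/2 (1-C²)/2` -/
noncomputable def P4 (C X : Matrix I I ℝ) : Matrix I I ℝ := (1 / 4 : ℝ) • ((1 + X) * (1 - C ^ 2))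

theorem P8_comm (C X : Matrix I I ℝ) (hC : C ^ 4 = 1) (hXC : X * C = C ^ 3 * X) :
    (1 + X) * S4 C = S4 C * (1 + X) := by
  rw [add_mul, mul_add, one_mul, mul_one, X_S4 C X hC hXC]

theorem P4_comm (C X : Matrix I I ℝ) (hC : C ^ 4 = 1) (hXC : X * C = C ^ 3 * X) :
    (1 + X) * (1 - C ^ 2) = (1 - C ^ 2) * (1 + X) := by
  rw [add_mul, mul_add, one_mul, mul_one, mul_sub, sub_mul, X_pow2 C X hC hXC, mul_one, one_mul]

theorem one_add_sq (X : Matrix I I ℝ) (hX : X * X = 1) : (1 + X) * (1 + X) = (2 : ℝ) • (1 + X) := by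
  rw [add_mul, mul_add, mul_add, one_mul, mul_one, one_mul, hX, two_smul]
  abel

theorem P8_mul_self (C X : Matrix I I ℝ) (hC : C ^ 4 = 1) (hX : X * X = 1)
    (hXC : X * C = C ^ 3 * X) : P8 C X * P8 C X = P8 C X := by
  unfold P8
  rw [smul_mul_smul_comm]
  have h1 : (1 + X) * S4 C * ((1 + X) * S4 C) = (8 : ℝ) • ((1 + X) * S4 C) := by
    calc (1 + X) * S4 C * ((1 + X) * S4 C) = (1 + X) * (S4 C * (1 + X)) * S4 C := by
          simp only [mul_assoc]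
      _ = (1 + X) * (1 + X) * (S4 C * S4 C) := by
          rw [← P8_comm C X hC hXC]; simp only [mul_assoc]
      _ = (8 : ℝ) • ((1 + X) * S4 C) := by
          rw [one_add_sq X hX, S4_sq C hC, smul_mul_smul_comm]
          norm_num
  rw [h1, smul_smul]
  norm_num

theorem P4_mul_self (C X : Matrix I I ℝ) (hC : C ^ 4 = 1) (hX : X * X = 1)
    (hXC : X * C = C ^ 3 * X) : P4 C X * P4 C X = P4 C X := by
  unfold P4
  rw [smul_mul_smul_comm]
  have h2 : (1 - C ^ 2) * (1 - C ^ 2) = (2 : ℝ) • (1 - C ^ 2) := by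
    have : (1 - C ^ 2) * (1 - C ^ 2) = 1 - C ^ 2 - C ^ 2 + C ^ 4 := by noncomm_ring
    rw [this, hC, two_smul]
    abel
  have h1 : (1 + X) * (1 - C ^ 2) * ((1 + X) * (1 - C ^ 2)) = (4 : ℝ) • ((1 + X) * (1 - C ^ 2)) := by
    calc (1 + X) * (1 - C ^ 2) * ((1 + X) * (1 - C ^ 2))
        = (1 + X) * ((1 - C ^ 2) * (1 + X)) * (1 - C ^ 2) := by
          simp only [mul_assoc]
      _ = (1 + X) * (1 + X) * ((1 - C ^ 2) * (1 - C ^ 2)) := by
          rw [← P4_comm C X hC hXC]; simp only [mul_assoc]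
      _ = (4 : ℝ) • ((1 + X) * (1 - C ^ 2)) := by
          rw [one_add_sq X hX, h2, smul_mul_smul_comm]
          norm_num
  rw [h1, smul_smul]
  norm_num

theorem pow3_pow (C : Matrix I I ℝ) (hC : C ^ 4 = 1) : (C ^ 3) ^ 2 = C ^ 2 ∧ (C ^ 3) ^ 3 = C := by
  constructor
  · rw [← pow_mul, show 3 * 2 = 4 + 2 by norm_num, pow_add, hC, one_mul]
  · rw [← pow_mul, show 3 * 3 = 4 + 4 + 1 by norm_num, pow_add, pow_add, hC, one_mul, one_mul,
      pow_one]

theorem S4_transpose (C : Matrix I I ℝ) (hC : C ^ 4 = 1) (hCt : Cᵀ = C ^ 3) :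
    (S4 C)ᵀ = S4 C := by
  unfold S4
  rw [transpose_add, transpose_add, transpose_add, transpose_one, transpose_pow, transpose_pow, hCt,
    (pow3_pow C hC).1, (pow3_pow C hC).2]
  abel

theorem P8_transpose (C X : Matrix I I ℝ) (hC : C ^ 4 = 1) (hXC : X * C = C ^ 3 * X)
    (hCt : Cᵀ = C ^ 3) (hXt : Xᵀ = X) : (P8 C X)ᵀ = P8 C X := by
  unfold P8
  rw [transpose_smul, transpose_mul, S4_transpose C hC hCt, transpose_add, transpose_one, hXt,
    P8_comm C X hC hXC]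

theorem P4_transpose (C X : Matrix I I ℝ) (hC : C ^ 4 = 1) (hXC : X * C = C ^ 3 * X)
    (hCt : Cᵀ = C ^ 3) (hXt : Xᵀ = X) : (P4 C X)ᵀ = P4 C X := by
  unfold P4
  rw [transpose_smul, transpose_mul, transpose_sub, transpose_pow, hCt, (pow3_pow C hC).1,
    transpose_add, transpose_one, hXt, P4_comm C X hC hXC]

theorem P8_commB (C X B : Matrix I I ℝ) (hCB : C * B = B * C) (hXB : X * B = B * X) :
    P8 C X * B = B * P8 C X := by
  have h1 : Commute X B := hXB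
  have h2 : Commute C B := hCB
  have h3 : Commute (S4 C) B := by
    unfold S4
    exact (((Commute.one_left B).add_left h2).add_left (h2.pow_left 2)).add_left (h2.pow_left 3)
  have h4 : Commute ((1 + X) * S4 C) B := ((Commute.one_left B).add_left h1).mul_left h3
  exact h4.smul_left _

theorem P4_commB (C X B : Matrix I I ℝ) (hCB : C * B = B * C) (hXB : X * B = B * X) :
    P4 C X * B = B * P4 C X := by
  have h1 : Commute X B := hXB
  have h2 : Commute C B := hCB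
  have h3 : Commute (1 - C ^ 2) B := (Commute.one_left B).sub_left (h2.pow_left 2)
  have h4 : Commute ((1 + X) * (1 - C ^ 2)) B := ((Commute.one_left B).add_left h1).mul_left h3
  exact h4.smul_left _

end algebra

/-! ### the matrices `QG n g`, `g ∈ D₄` -/

theorem c4_sq : c4 * c4 = pz := by
  ext i j; fin_cases i <;> fin_cases j <;> simp [c4, pz, Matrix.mul_apply, Fin.sum_univ_three]

theorem c4_pz : pz * c4 = c4ᵀ := by
  ext i j; fin_cases i <;> fin_cases j <;> simp [c4, pz, Matrix.mul_apply, Fin.sum_univ_three]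

theorem px_sq : px * px = 1 := by
  ext i j; fin_cases i <;> fin_cases j <;> simp [px, Matrix.mul_apply, Fin.sum_univ_three]

theorem px_t : pxᵀ = px := by
  ext i j; fin_cases i <;> fin_cases j <;> simp [px]

theorem pz_sq : pz * pz = 1 := by
  ext i j; fin_cases i <;> fin_cases j <;> simp [pz, Matrix.mul_apply, Fin.sum_univ_three]

theorem px_c4 : px * c4 = c4ᵀ * px := by
  ext i j; fin_cases i <;> fin_cases j <;> simp [c4, px, Matrix.mul_apply, Fin.sum_univ_three]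

theorem QG_c4_2 (n : ℕ) : QG n c4 ^ 2 = QG n pz := by rw [pow_two, ← QG_mul, c4_sq]

theorem QG_c4_3 (n : ℕ) : QG n c4 ^ 3 = QG n c4ᵀ := by
  rw [pow_succ, QG_c4_2, ← QG_mul, c4_pz]

theorem QG_c4_4 (n : ℕ) : QG n c4 ^ 4 = 1 := by
  calc QG n c4 ^ 4 = QG n c4 ^ 2 * QG n c4 ^ 2 := by rw [← pow_add]
    _ = 1 := by rw [QG_c4_2, ← QG_mul, pz_sq, QG_one]

theorem QG_px_2 (n : ℕ) : QG n px * QG n px = 1 := by rw [← QG_mul, px_sq, QG_one]

theorem QG_px_c4 (n : ℕ) : QG n px * QG n c4 = QG n c4 ^ 3 * QG n px := by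
  rw [QG_c4_3, ← QG_mul, ← QG_mul, px_c4]

theorem QG_c4_t (n : ℕ) : (QG n c4)ᵀ = QG n c4 ^ 3 := by rw [QG_transpose, QG_c4_3]

theorem QG_px_t (n : ℕ) : (QG n px)ᵀ = QG n px := by rw [QG_transpose, px_t]

/-- a rotation fixing `h` commutes with the transfer matrix -/
theorem QG_comm_BR (n : ℕ) (τ : ℝ) (h : Matrix (Fin 3) (Fin 3) ℝ) {k : Matrix (Fin 3) (Fin 3) ℝ}
    (hk : IsRot k) (hh : k * h * kᵀ = h) : QG n k * BR n τ h = BR n τ h * QG n k := by
  have h1 := BR_cov n τ h hk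
  rw [hh] at h1
  calc QG n k * BR n τ h = QG n k * BR n τ h * (QG n kᵀ * QG n k) := by
        rw [← QG_mul, hk.t_mul, QG_one, mul_one]
    _ = QG n k * BR n τ h * QG n kᵀ * QG n k := by simp only [mul_assoc]
    _ = BR n τ h * QG n k := by rw [h1]

/-- the twisted traces -/
noncomputable def tt (n : ℕ) (τ : ℝ) (h g : Matrix (Fin 3) (Fin 3) ℝ) (L : ℕ) : ℝ :=
  trace (QG n g * BR n τ h ^ L)

theorem tt_cov (n : ℕ) (τ : ℝ) (g h g' h' : Matrix (Fin 3) (Fin 3) ℝ)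
    {k : Matrix (Fin 3) (Fin 3) ℝ} (hk : IsRot k) (hg : k * g * kᵀ = g') (hh : k * h * kᵀ = h')
    (L : ℕ) : tt n τ h' g' L = tt n τ h g L := by
  have := trace_cov n τ g h hk L
  rw [hg, hh] at this
  exact this

theorem tt_c4t (n : ℕ) (τ : ℝ) (h : Matrix (Fin 3) (Fin 3) ℝ) (hx : px * h * pxᵀ = h) (L : ℕ) :
    tt n τ h c4ᵀ L = tt n τ h c4 L := by
  refine tt_cov n τ c4 h _ _ isRot_px ?_ hx L
  ext i j; fin_cases i <;> fin_cases j <;> simp [c4, px, Matrix.mul_apply, Fin.sum_univ_three]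

theorem tt_pxpz (n : ℕ) (τ : ℝ) (h : Matrix (Fin 3) (Fin 3) ℝ) (hc : c4 * h * c4ᵀ = h) (L : ℕ) :
    tt n τ h (px * pz) L = tt n τ h px L := by
  refine tt_cov n τ px h _ _ isRot_c4 ?_ hc L
  ext i j; fin_cases i <;> fin_cases j <;> simp [c4, px, pz, Matrix.mul_apply, Fin.sum_univ_three]

theorem tt_pxc4t (n : ℕ) (τ : ℝ) (h : Matrix (Fin 3) (Fin 3) ℝ) (h8 : k8 * h * k8ᵀ = h) (L : ℕ) :
    tt n τ h (px * c4ᵀ) L = tt n τ h px L := by
  refine tt_cov n τ px h _ _ isRot_k8 ?_ h8 L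
  have h2 : Real.sqrt 2 * Real.sqrt 2 = 2 := Real.mul_self_sqrt (by norm_num)
  ext i j
  fin_cases i <;> fin_cases j <;> simp [k8, c4, px, Matrix.mul_apply, Fin.sum_univ_three] <;>
    nlinarith

theorem tt_pxc4 (n : ℕ) (τ : ℝ) (h : Matrix (Fin 3) (Fin 3) ℝ) (hc : c4 * h * c4ᵀ = h)
    (h8 : k8 * h * k8ᵀ = h) (L : ℕ) :
    tt n τ h (px * c4) L = tt n τ h px L := by
  rw [← tt_pxc4t n τ h h8 L]
  refine (tt_cov n τ (px * c4) h _ _ isRot_c4 ?_ hc L).symm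
  ext i j; fin_cases i <;> fin_cases j <;> simp [c4, px, Matrix.mul_apply, Fin.sum_univ_three]

/-- trace of the projection of type `A`, `B` (signs `s` of `C`, `r` of `X`) -/
theorem trace_P8 (n : ℕ) (τ : ℝ) (h : Matrix (Fin 3) (Fin 3) ℝ) (hc : c4 * h * c4ᵀ = h)
    (hx : px * h * pxᵀ = h) (h8 : k8 * h * k8ᵀ = h) (s r : ℝ) (hs : s * s = 1) (L : ℕ) :
    trace (P8 (s • QG n c4) (r • QG n px) * BR n τ h ^ L) =
      (tt n τ h 1 L + tt n τ h pz L + 2 * s * tt n τ h c4 L +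
        (2 * r + 2 * r * s) * tt n τ h px L) / 8 := by
  have e2 : (s • QG n c4) ^ 2 = QG n pz := by
    rw [smul_pow, QG_c4_2, pow_two, hs, one_smul]
  have e3 : (s • QG n c4) ^ 3 = s • QG n c4ᵀ := by
    rw [smul_pow, QG_c4_3, pow_succ, pow_two, hs, one_mul]
  have e : P8 (s • QG n c4) (r • QG n px) * BR n τ h ^ L = (1 / 8 : ℝ) •
      (QG n 1 * BR n τ h ^ L + s • (QG n c4 * BR n τ h ^ L) + QG n pz * BR n τ h ^ L +
        s • (QG n c4ᵀ * BR n τ h ^ L) +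
        (r • (QG n px * BR n τ h ^ L) + (r * s) • (QG n (px * c4) * BR n τ h ^ L) +
        r • (QG n (px * pz) * BR n τ h ^ L) + (r * s) • (QG n (px * c4ᵀ) * BR n τ h ^ L))) := by
    unfold P8 S4
    rw [e2, e3, QG_mul, QG_mul, QG_mul, QG_one, smul_mul_assoc]
    congr 1
    simp only [add_mul, mul_add, one_mul, mul_one, smul_mul_assoc, mul_smul_comm, smul_smul,
      smul_add, mul_comm s r]
    abel
  rw [e, trace_smul]
  simp only [trace_add, trace_smul, smul_eq_mul]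
  have f1 := tt_c4t n τ h hx L
  have f2 := tt_pxpz n τ h hc L
  have f3 := tt_pxc4t n τ h h8 L
  have f4 := tt_pxc4 n τ h hc h8 L
  unfold tt at f1 f2 f3 f4 ⊢
  rw [f1, f2, f3, f4]
  ring

theorem trace_P4 (n : ℕ) (τ : ℝ) (h : Matrix (Fin 3) (Fin 3) ℝ) (hc : c4 * h * c4ᵀ = h)
    (L : ℕ) :
    trace (P4 (QG n c4) (QG n px) * BR n τ h ^ L) = (tt n τ h 1 L - tt n τ h pz L) / 4 := by
  have e : P4 (QG n c4) (QG n px) * BR n τ h ^ L = (1 / 4 : ℝ) •
      (QG n 1 * BR n τ h ^ L - QG n pz * BR n τ h ^ L +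
        (QG n px * BR n τ h ^ L - QG n (px * pz) * BR n τ h ^ L)) := by
    unfold P4
    rw [QG_c4_2, QG_mul, QG_one, smul_mul_assoc]
    congr 1
    simp only [add_mul, mul_sub, sub_mul, one_mul, mul_one]
    abel
  rw [e, trace_smul]
  simp only [trace_add, trace_sub, smul_eq_mul]
  have f2 := tt_pxpz n τ h hc L
  unfold tt at f2 ⊢
  rw [f2]
  ring

theorem smul_rel (n : ℕ) (s r : ℝ) (hs : s * s = 1) (hr : r * r = 1) :
    (s • QG n c4) ^ 4 = 1 ∧ (r • QG n px) * (r • QG n px) = 1 ∧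
    (r • QG n px) * (s • QG n c4) = (s • QG n c4) ^ 3 * (r • QG n px) ∧
    (s • QG n c4)ᵀ = (s • QG n c4) ^ 3 ∧ (r • QG n px)ᵀ = r • QG n px := by
  have hs3 : s ^ 3 = s := by rw [pow_succ, pow_two, hs, one_mul]
  have hs4 : s ^ 4 = 1 := by rw [pow_succ, hs3, hs]
  refine ⟨?_, ?_, ?_, ?_, ?_⟩
  · rw [smul_pow, hs4, QG_c4_4, one_smul]
  · rw [smul_mul_smul_comm, hr, QG_px_2, one_smul]
  · rw [smul_pow, hs3, smul_mul_smul_comm, smul_mul_smul_comm, QG_px_c4, mul_comm]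
  · rw [transpose_smul, QG_c4_t, smul_pow, hs3]
  · rw [transpose_smul, QG_px_t]

/-- the sector sums of type `A₁` (`s = r = 1`), `A₂` (`s = 1`, `r = -1`), `B` (`s = -1`, `r = 1`) -/
theorem isPS_d4 (β : ℝ) (h : Matrix (Fin 3) (Fin 3) ℝ) (hc : c4 * h * c4ᵀ = h)
    (hx : px * h * pxᵀ = h) (h8 : k8 * h * k8ᵀ = h) (s r : ℝ) (hs : s * s = 1) (hr : r * r = 1)
    (z z1 zp zc zx : ℕ → ℝ)
    (H1 : ∀ L, 2 ≤ L → Tendsto (fun n : ℕ => tt n (β / n) h 1 L) atTop (𝓝 (z1 L)))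
    (Hp : ∀ L, 2 ≤ L → Tendsto (fun n : ℕ => tt n (β / n) h pz L) atTop (𝓝 (zp L)))
    (Hc : ∀ L, 2 ≤ L → Tendsto (fun n : ℕ => tt n (β / n) h c4 L) atTop (𝓝 (zc L)))
    (Hx : ∀ L, 2 ≤ L → Tendsto (fun n : ℕ => tt n (β / n) h px L) atTop (𝓝 (zx L)))
    (hz : ∀ L, z L = (z1 L + zp L + 2 * s * zc L + (2 * r + 2 * r * s) * zx L) / 8) :
    IsPS z := by
  refine isPS_of_proj (fun n => BR n (β / n) h)
    (fun n => P8 (s • QG n c4) (r • QG n px)) (fun n => BR_transpose n _ h)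
    (fun n => ?_) (fun n => ?_) (fun n => ?_) z (fun L hL => ?_)
  · obtain ⟨a, b, c, d, e⟩ := smul_rel n s r hs hr
    exact P8_transpose _ _ a c d e
  · obtain ⟨a, b, c, d, e⟩ := smul_rel n s r hs hr
    exact P8_mul_self _ _ a b c
  · refine P8_commB _ _ _ ?_ ?_
    · rw [smul_mul_assoc, QG_comm_BR n _ h isRot_c4 hc, mul_smul_comm]
    · rw [smul_mul_assoc, QG_comm_BR n _ h isRot_px hx, mul_smul_comm]
  · rw [hz L]
    have := ((((H1 L hL).add (Hp L hL)).add ((Hc L hL).const_mul (2 * s))).add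
      ((Hx L hL).const_mul (2 * r + 2 * r * s))).div_const 8
    exact this.congr fun n => (trace_P8 n (β / n) h hc hx h8 s r hs L).symm

/-- the sector sum of type `E` -/
theorem isPS_d4E (β : ℝ) (h : Matrix (Fin 3) (Fin 3) ℝ) (hc : c4 * h * c4ᵀ = h)
    (hx : px * h * pxᵀ = h) (z z1 zp : ℕ → ℝ)
    (H1 : ∀ L, 2 ≤ L → Tendsto (fun n : ℕ => tt n (β / n) h 1 L) atTop (𝓝 (z1 L)))
    (Hp : ∀ L, 2 ≤ L → Tendsto (fun n : ℕ => tt n (β / n) h pz L) atTop (𝓝 (zp L)))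
    (hz : ∀ L, z L = (z1 L - zp L) / 4) : IsPS z := by
  refine isPS_of_proj (fun n => BR n (β / n) h)
    (fun n => P4 (QG n c4) (QG n px)) (fun n => BR_transpose n _ h)
    (fun n => ?_) (fun n => ?_) (fun n => ?_) z (fun L hL => ?_)
  · exact P4_transpose _ _ (QG_c4_4 n) (QG_px_c4 n) (QG_c4_t n) (QG_px_t n)
  · exact P4_mul_self _ _ (QG_c4_4 n) (QG_px_2 n) (QG_px_c4 n)
  · exact P4_commB _ _ _ (QG_comm_BR n _ h isRot_c4 hc) (QG_comm_BR n _ h isRot_px hx)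
  · rw [hz L]
    have := ((H1 L hL).sub (Hp L hL)).div_const 4
    exact this.congr fun n => (trace_P4 n (β / n) h hc L).symm

/-- the limits of the twisted traces -/
theorem tt_limit (β : ℝ) (hβ : 0 ≤ β) (g : Matrix (Fin 3) (Fin 3) ℝ)
    {w : Matrix (Fin 3) (Fin 3) ℂ} {h : Matrix (Fin 3) (Fin 3) ℝ} (hwh : UC * w * UCᴴ = toC h)
    (L : ℕ) (hL : 2 ≤ L) :
    Tendsto (fun n : ℕ => tt n (β / n) h g L) atTop (𝓝 ((zRing (L - 1) β g w).re)) := by
  have := ring_limit (L - 1) (by omega) β hβ g hwh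
  rw [show L - 1 + 1 = L by omega] at this
  exact this

theorem Zs_eq (β : ℝ) (g : Matrix (Fin 3) (Fin 3) ℝ) (w : Matrix (Fin 3) (Fin 3) ℂ) (L : ℕ) :
    Zs β g w L = (zRing (L - 1) β g w).re * Real.exp (β * eV) ^ L := by
  unfold Zs
  congr 1
  rw [← Real.exp_nat_mul]
  congr 1
  ring

end Crest.Agent.R347.Sec2
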