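import Crest.Agent.R347.LProj
import Crest.Agent.R347.LLimit
import Crest.Agent.R347.LCov
import Crest.Agent.R347.RTop

/-!
# Row 347: shared lemmas for LSec1 / LSec2 (helper3): projections of `D₄`, limits
-/

set_option autoImplicit false

open Crest.MathPhysics.SpinChain Matrix Filter Topology

namespace Crest.Agent.R347.SP

/-- limits of `trace (P B^L)` are limits of power sums -/
theorem isPS_of_proj (z : ℕ → ℝ) (B P : ∀ n : ℕ, Matrix (Fin n → Fin 4) (Fin n → Fin 4) ℝ)
    (hB : ∀ n, (B n)ᵀ = B n) (hP : ∀ n, (P n)ᵀ = P n) (hPP : ∀ n, P n * P n = P n)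
    (hPB : ∀ n, P n * B n = B n * P n)
    (hlim : ∀ L, 2 ≤ L → Tendsto (fun n => trace (P n * B n ^ L)) atTop (𝓝 (z L))) : IsPS z := by
  have h := fun n => exists_eig_proj (B n) (P n) (hB n) (hP n) (hPP n) (hPB n) 0 (by simp)
  choose κ μ c _ hμ _ using h
  exact ⟨κ, μ, fun L hL => (hlim L hL).congr fun n => hμ n L⟩

/-- a representation of `D₄` commuting with `B` -/
structure D4Data {I : Type*} [Fintype I] [DecidableEq I] (B C X : Matrix I I ℝ) : Prop where
  bt : Bᵀ = B
  ct : Cᵀ = C * C * C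
  xt : Xᵀ = X
  c4 : C * C * C * C = 1
  x2 : X * X = 1
  xc : X * C = C * C * C * X
  cb : C * B = B * C
  xb : X * B = B * X

/-- the projection for the one-dimensional character `X ↦ ε`, `C ↦ δ` -/
noncomputable def prj {I : Type*} [Fintype I] [DecidableEq I] (ε δ : ℝ) (C X : Matrix I I ℝ) :
    Matrix I I ℝ :=
  (1 / 8 : ℝ) • ((1 + δ • C + C * C + δ • (C * C * C)) +
    ε • (X + δ • (C * X) + C * C * X + δ • (C * C * C * X)))

theorem prj_spec {I : Type*} [Fintype I] [DecidableEq I] {B C X : Matrix I I ℝ}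
    (D : D4Data B C X) {ε δ : ℝ} (hε : ε * ε = 1) (hδ : δ * δ = 1) :
    (prj ε δ C X)ᵀ = prj ε δ C X ∧ prj ε δ C X * prj ε δ C X = prj ε δ C X ∧
      prj ε δ C X * B = B * prj ε δ C X := by
  obtain ⟨S, hS⟩ : ∃ S : Matrix I I ℝ, S = 1 + δ • C + C * C + δ • (C * C * C) := ⟨_, rfl⟩
  obtain ⟨T, hT⟩ : ∃ T : Matrix I I ℝ, T = 1 + ε • X := ⟨_, rfl⟩
  have hP : prj ε δ C X = (1 / 8 : ℝ) • (S * T) := by
    unfold prj
    rw [hS, hT]
    congr 1
    simp only [Matrix.add_mul, Matrix.mul_add, Matrix.mul_one, Matrix.one_mul, Matrix.smul_mul,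
      Matrix.mul_smul, smul_add]
  -- words
  have w1 : C * (C * C * C) = 1 := by rw [← D.c4]; simp only [Matrix.mul_assoc]
  have w2 : C * C * (C * C) = 1 := by rw [← D.c4]; simp only [Matrix.mul_assoc]
  have w3 : C * C * (C * C * C) = C := by
    calc C * C * (C * C * C) = C * C * C * C * C := by simp only [Matrix.mul_assoc]
      _ = C := by rw [D.c4, Matrix.one_mul]
  have w4 : C * C * C * (C * C) = C := by
    calc C * C * C * (C * C) = C * C * C * C * C := by simp only [Matrix.mul_assoc]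
      _ = C := by rw [D.c4, Matrix.one_mul]
  have w5 : C * C * C * (C * C * C) = C * C := by
    calc C * C * C * (C * C * C) = C * C * C * C * (C * C) := by simp only [Matrix.mul_assoc]
      _ = C * C := by rw [D.c4, Matrix.one_mul]
  have w6 : C * (C * C) = C * C * C := by simp only [Matrix.mul_assoc]
  have hXC2 : X * (C * C) = C * C * X := by
    calc X * (C * C) = X * C * C := (Matrix.mul_assoc X C C).symm
      _ = C * C * C * X * C := by rw [D.xc]
      _ = C * C * C * (X * C) := Matrix.mul_assoc _ X C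
      _ = C * C * C * (C * C * C * X) := by rw [D.xc]
      _ = C * C * C * (C * C * C) * X := (Matrix.mul_assoc _ _ X).symm
      _ = C * C * X := by rw [w5]
  have hXC3 : X * (C * C * C) = C * X := by
    calc X * (C * C * C) = X * (C * C) * C := (Matrix.mul_assoc X (C * C) C).symm
      _ = C * C * X * C := by rw [hXC2]
      _ = C * C * (X * C) := Matrix.mul_assoc _ X C
      _ = C * C * (C * C * C * X) := by rw [D.xc]
      _ = C * C * (C * C * C) * X := (Matrix.mul_assoc _ _ X).symm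
      _ = C * X := by rw [w3]
  have hXS : X * S = S * X := by
    rw [hS]
    simp only [Matrix.add_mul, Matrix.mul_add, Matrix.mul_one, Matrix.one_mul, Matrix.smul_mul,
      Matrix.mul_smul, hXC2, hXC3, D.xc]
    abel
  have hTS : T * S = S * T := by
    rw [hT, Matrix.add_mul, Matrix.mul_add, Matrix.smul_mul, Matrix.mul_smul, hXS, Matrix.mul_one,
      Matrix.one_mul]
  have hCS : C * S = δ • S := by
    rw [hS]
    simp only [Matrix.mul_add, Matrix.mul_one, Matrix.mul_smul, w1, w6, smul_add, smul_smul, hδ,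
      one_smul]
    abel
  have hSS : S * S = (4 : ℝ) • S := by
    have e : S * S = S + δ • (C * S) + C * (C * S) + δ • (C * (C * (C * S))) := by
      nth_rewrite 1 [hS]
      simp only [Matrix.add_mul, Matrix.one_mul, Matrix.smul_mul, Matrix.mul_assoc]
    have e1 : C * (C * S) = S := by rw [hCS, Matrix.mul_smul, hCS, smul_smul, hδ, one_smul]
    rw [e, e1, hCS, smul_smul, hδ, one_smul]
    module
  have hTT : T * T = (2 : ℝ) • T := by
    rw [hT]
    simp only [Matrix.add_mul, Matrix.mul_add, Matrix.mul_one, Matrix.one_mul, Matrix.smul_mul,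
      Matrix.mul_smul, D.x2, smul_add, smul_smul, hε, one_smul]
    module
  have hSt : Sᵀ = S := by
    rw [hS]
    simp only [Matrix.transpose_add, Matrix.transpose_one, Matrix.transpose_smul,
      Matrix.transpose_mul, D.ct, w5]
    simp only [← Matrix.mul_assoc]
    have e1 : C * C * C * C = 1 := D.c4
    simp only [e1, Matrix.one_mul]
    abel
  have hTt : Tᵀ = T := by
    rw [hT, Matrix.transpose_add, Matrix.transpose_one, Matrix.transpose_smul, D.xt]
  have hCB2 : C * C * B = B * (C * C) := by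
    rw [Matrix.mul_assoc, D.cb, ← Matrix.mul_assoc, D.cb, Matrix.mul_assoc]
  have hSB : S * B = B * S := by
    have hCB3 : C * C * C * B = B * (C * C * C) := by
      rw [Matrix.mul_assoc (C * C), D.cb, ← Matrix.mul_assoc, hCB2, Matrix.mul_assoc]
    rw [hS]
    simp only [Matrix.add_mul, Matrix.mul_add, Matrix.mul_one, Matrix.one_mul, Matrix.smul_mul,
      Matrix.mul_smul, D.cb, hCB2, hCB3]
  have hTB : T * B = B * T := by
    rw [hT, Matrix.add_mul, Matrix.mul_add, Matrix.smul_mul, Matrix.mul_smul, D.xb, Matrix.mul_one,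
      Matrix.one_mul]
  rw [hP]
  refine ⟨?_, ?_, ?_⟩
  · rw [Matrix.transpose_smul, Matrix.transpose_mul, hSt, hTt, hTS]
  · rw [Matrix.smul_mul, Matrix.mul_smul, smul_smul]
    have : S * T * (S * T) = (8 : ℝ) • (S * T) := by
      calc S * T * (S * T) = S * (T * S) * T := by simp only [Matrix.mul_assoc]
        _ = (S * S) * (T * T) := by rw [hTS]; simp only [Matrix.mul_assoc]
        _ = (8 : ℝ) • (S * T) := by
          rw [hSS, hTT, Matrix.smul_mul, Matrix.mul_smul, smul_smul]; norm_num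
    rw [this, smul_smul]
    norm_num
  · rw [Matrix.smul_mul, Matrix.mul_smul, Matrix.mul_assoc, hTB, ← Matrix.mul_assoc, hSB,
      Matrix.mul_assoc]

/-! 3×3 facts -/

theorem c4_mul_c4 : c4 * c4 = pz := by
  ext i j; fin_cases i <;> fin_cases j <;> simp [c4, pz, Matrix.mul_apply, Fin.sum_univ_three]

theorem c4_cube : c4 * c4 * c4 = c4ᵀ := by
  rw [c4_mul_c4]
  ext i j; fin_cases i <;> fin_cases j <;> simp [c4, pz, Matrix.mul_apply, Fin.sum_univ_three]

theorem pz_mul_pz : pz * pz = 1 := by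
  ext i j; fin_cases i <;> fin_cases j <;> simp [pz, Matrix.mul_apply, Fin.sum_univ_three]

theorem px_mul_px : px * px = 1 := by
  ext i j; fin_cases i <;> fin_cases j <;> simp [px, Matrix.mul_apply, Fin.sum_univ_three]

theorem px_t : pxᵀ = px := by
  ext i j; fin_cases i <;> fin_cases j <;> simp [px]

theorem pz_t : pzᵀ = pz := by
  ext i j; fin_cases i <;> fin_cases j <;> simp [pz]

theorem pz_mul_px : pz * px = py := by
  ext i j; fin_cases i <;> fin_cases j <;> simp [pz, px, py, Matrix.mul_apply, Fin.sum_univ_three]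

theorem px_mul_c4 : px * c4 = c4ᵀ * px := by
  ext i j; fin_cases i <;> fin_cases j <;> simp [px, c4, Matrix.mul_apply, Fin.sum_univ_three]

/-- rotations fixing `h` commute with `BR` -/
theorem QG_comm_BR (n : ℕ) (τ : ℝ) (h : Matrix (Fin 3) (Fin 3) ℝ) {k : Matrix (Fin 3) (Fin 3) ℝ}
    (hk : IsRot k) (hh : k * h * kᵀ = h) : QG n k * BR n τ h = BR n τ h * QG n k := by
  have h1 := BR_cov n τ h hk
  rw [hh] at h1
  calc QG n k * BR n τ h = QG n k * BR n τ h * (QG n kᵀ * QG n k) := by
        rw [← QG_mul, hk.t_mul, QG_one, Matrix.mul_one]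
    _ = (QG n k * BR n τ h * QG n kᵀ) * QG n k := by simp only [Matrix.mul_assoc]
    _ = BR n τ h * QG n k := by rw [h1]

theorem d4data (n : ℕ) (τ : ℝ) (h : Matrix (Fin 3) (Fin 3) ℝ) (h1 : c4 * h * c4ᵀ = h)
    (h2 : px * h * pxᵀ = h) : D4Data (BR n τ h) (QG n c4) (QG n px) where
  bt := BR_transpose n τ h
  ct := by rw [QG_transpose, ← QG_mul, ← QG_mul, c4_cube]
  xt := by rw [QG_transpose, px_t]
  c4 := by rw [← QG_mul, ← QG_mul, ← QG_mul, Matrix.mul_assoc (c4 * c4), c4_mul_c4, pz_mul_pz,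
    QG_one]
  x2 := by rw [← QG_mul, px_mul_px, QG_one]
  xc := by rw [← QG_mul, ← QG_mul, ← QG_mul, ← QG_mul, c4_cube, px_mul_c4]
  cb := QG_comm_BR n τ h isRot_c4 h1
  xb := QG_comm_BR n τ h isRot_px h2

/-- traces with the projections -/
theorem trace_prj (n : ℕ) (ε δ : ℝ) (A : Matrix (Fin n → Fin 4) (Fin n → Fin 4) ℝ) :
    trace (prj ε δ (QG n c4) (QG n px) * A) =
      (trace (QG n 1 * A) + δ * trace (QG n c4 * A) + trace (QG n pz * A) +
        δ * trace (QG n c4ᵀ * A) + ε * (trace (QG n px * A) + δ * trace (QG n (c4 * px) * A) +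
          trace (QG n py * A) + δ * trace (QG n (c4ᵀ * px) * A))) / 8 := by
  unfold prj
  rw [← QG_mul, ← QG_mul, ← QG_mul, ← QG_mul, ← QG_mul, c4_cube, c4_mul_c4, pz_mul_px, QG_one]
  simp only [Matrix.smul_mul, Matrix.add_mul, Matrix.trace_smul, Matrix.trace_add, smul_eq_mul]
  ring

end Crest.Agent.R347.SP
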