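import Crest.Agent.R347.LDefs

/-!
# Row 347, piece L_UNIT, first half: 3×3 facts, tensor powers (helper31)
-/

set_option autoImplicit false

open Crest.MathPhysics.SpinChain Matrix

namespace Crest.Agent.R347

private theorem sqi : ((Real.sqrt 2 : ℝ) : ℂ)⁻¹ * ((Real.sqrt 2 : ℝ) : ℂ)⁻¹ = 1 / 2 := by
  rw [← mul_inv, ← Complex.ofReal_mul, Real.mul_self_sqrt (by norm_num)]
  norm_num

private theorem sqs : ((Real.sqrt 2 : ℝ) : ℂ) * ((Real.sqrt 2 : ℝ) : ℂ) = 2 := by
  rw [← Complex.ofReal_mul, Real.mul_self_sqrt (by norm_num)]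
  norm_num

private theorem sqh : (1 / 2 : ℂ) * ((Real.sqrt 2 : ℝ) : ℂ) = ((Real.sqrt 2 : ℝ) : ℂ)⁻¹ := by
  refine eq_inv_of_mul_eq_one_left ?_
  rw [mul_assoc, sqs]
  norm_num

theorem UC_mul_ct : UC * UCᴴ = 1 := by
  have h := sqi
  have hI := Complex.I_mul_I
  ext i j
  fin_cases i <;> fin_cases j <;>
    simp [UC, Matrix.mul_apply, Fin.sum_univ_three]
  · linear_combination 2 * h
  · linear_combination (-2 * Complex.I * Complex.I) * h - hI

theorem UC_ct_mul : UCᴴ * UC = 1 := mul_eq_one_comm.1 UC_mul_ct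

private theorem spinX_eq : spinX = !![0, ((Real.sqrt 2 : ℝ) : ℂ)⁻¹, 0;
    ((Real.sqrt 2 : ℝ) : ℂ)⁻¹, 0, ((Real.sqrt 2 : ℝ) : ℂ)⁻¹; 0, ((Real.sqrt 2 : ℝ) : ℂ)⁻¹, 0] := by
  have h := sqh
  ext i j
  fin_cases i <;> fin_cases j <;> simp [spinX, spinPlus, spinMinus] <;> linear_combination h

private theorem spinY_eq : spinY = !![0, -Complex.I * ((Real.sqrt 2 : ℝ) : ℂ)⁻¹, 0;
    Complex.I * ((Real.sqrt 2 : ℝ) : ℂ)⁻¹, 0, -Complex.I * ((Real.sqrt 2 : ℝ) : ℂ)⁻¹;
    0, Complex.I * ((Real.sqrt 2 : ℝ) : ℂ)⁻¹, 0] := by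
  have h := sqh
  ext i j
  fin_cases i <;> fin_cases j <;> simp [spinY, spinPlus, spinMinus] <;>
    linear_combination Complex.I * h

private theorem spinZ_eq : spinZ = !![1, 0, 0; 0, 0, 0; 0, 0, -1] := by
  ext i j
  fin_cases i <;> fin_cases j <;> simp [spinZ, magneticNumber]
  norm_num

theorem UC_spin (a : Fin 3) : UC * spinOp a * UCᴴ = (-Complex.I) • toC (R a) := by
  have h := sqi
  have hI := Complex.I_mul_I
  fin_cases a
  · show UC * spinX * UCᴴ = _
    rw [spinX_eq]
    ext i j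
    fin_cases i <;> fin_cases j <;>
      simp [UC, Matrix.mul_apply, Fin.sum_univ_three, toC, R]
    · linear_combination (-2 * Complex.I) * h
    · linear_combination (2 * Complex.I) * h
  · show UC * spinY * UCᴴ = _
    rw [spinY_eq]
    ext i j
    fin_cases i <;> fin_cases j <;>
      simp [UC, Matrix.mul_apply, Fin.sum_univ_three, toC, R]
    · linear_combination (2 * Complex.I) * h
    · linear_combination (-2 * Complex.I) * h
  · show UC * spinZ * UCᴴ = _
    rw [spinZ_eq]
    ext i j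
    fin_cases i <;> fin_cases j <;>
      simp [UC, Matrix.mul_apply, Fin.sum_univ_three, toC, R]
    · linear_combination (-2 * Complex.I) * h
    · linear_combination (2 * Complex.I) * h

theorem UC_one : UC * 1 * UCᴴ = toC 1 := by
  rw [mul_one, UC_mul_ct]
  ext i j
  fin_cases i <;> fin_cases j <;> simp [toC]

private theorem wz_eq : wz = !![-1, 0, 0; 0, 1, 0; 0, 0, -1] := by
  ext i j
  fin_cases i <;> fin_cases j <;> simp [wz]

theorem UC_wz : UC * wz * UCᴴ = toC pz := by
  have h := sqi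
  have hI := Complex.I_mul_I
  rw [wz_eq]
  ext i j
  fin_cases i <;> fin_cases j <;>
    simp [UC, Matrix.mul_apply, Fin.sum_univ_three, toC, pz]
  · linear_combination (-2 : ℂ) * h
  · linear_combination (2 * Complex.I * Complex.I) * h + hI

theorem UC_wx : UC * wx * UCᴴ = toC px := by
  have h := sqi
  have hI := Complex.I_mul_I
  ext i j
  fin_cases i <;> fin_cases j <;>
    simp [UC, Matrix.mul_apply, Fin.sum_univ_three, toC, wx, px]
  · linear_combination 2 * h
  · linear_combination (2 * Complex.I * Complex.I) * h + hI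

theorem tensF_mul {ι : Type*} [Fintype ι] [DecidableEq ι] {A : Type*} [CommRing A]
    (v w : ι → Matrix (Fin 3) (Fin 3) A) : tensF v * tensF w = tensF (fun j => v j * w j) := by
  ext s s'
  simp only [tensF, Matrix.mul_apply, Matrix.of_apply]
  rw [Finset.prod_univ_sum]
  rw [Fintype.piFinset_univ]
  refine Finset.sum_congr rfl fun x _ => ?_
  rw [Finset.prod_mul_distrib]

theorem tensF_one {ι : Type*} [Fintype ι] [DecidableEq ι] {A : Type*} [CommRing A] :
    tensF (fun _ : ι => (1 : Matrix (Fin 3) (Fin 3) A)) = 1 := by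
  ext s s'
  simp only [tensF, Matrix.of_apply, Matrix.one_apply]
  by_cases h : s = s'
  · subst h; simp
  · rw [if_neg h]
    obtain ⟨j, hj⟩ := Function.ne_iff.1 h
    exact Finset.prod_eq_zero (Finset.mem_univ j) (if_neg hj)

theorem trace_tensF {ι : Type*} [Fintype ι] [DecidableEq ι] {A : Type*} [CommRing A]
    (w : ι → Matrix (Fin 3) (Fin 3) A) : trace (tensF w) = ∏ j, trace (w j) := by
  simp only [Matrix.trace, Matrix.diag, tensF, Matrix.of_apply]
  rw [Finset.prod_univ_sum, Fintype.piFinset_univ]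

private theorem on_aux {ι : Type*} [Fintype ι] [DecidableEq ι] {A : Type*} [CommRing A]
    (B : Matrix (Fin 3) (Fin 3) A) (j : ι) (s s' : ι → Fin 3) :
    (if (∀ k, k ≠ j → s k = s' k) then B (s j) (s' j) else 0) =
      ∏ k, (Function.update (fun _ : ι => (1 : Matrix (Fin 3) (Fin 3) A)) j B) k (s k) (s' k) := by
  rw [← Finset.mul_prod_erase _ _ (Finset.mem_univ j), Function.update_self]
  by_cases h : ∀ k, k ≠ j → s k = s' k
  · rw [if_pos h, Finset.prod_eq_one, mul_one]
    intro k hk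
    have hkj := Finset.ne_of_mem_erase hk
    rw [Function.update_of_ne hkj, h k hkj, Matrix.one_apply_eq]
  · rw [if_neg h]
    push Not at h
    obtain ⟨k, hkj, hk⟩ := h
    rw [Finset.prod_eq_zero (Finset.mem_erase.2 ⟨hkj, Finset.mem_univ k⟩), mul_zero]
    rw [Function.update_of_ne hkj, Matrix.one_apply_ne hk]

theorem onR_eq_tensF {ι : Type*} [Fintype ι] [DecidableEq ι] (A : Matrix (Fin 3) (Fin 3) ℝ) (j : ι) :
    onR A j = tensF (Function.update (fun _ => 1) j A) := by
  ext s s'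
  exact on_aux A j s s'

theorem onSite_eq_tensF {ι : Type*} [Fintype ι] [DecidableEq ι] (A : Matrix (Fin 3) (Fin 3) ℂ)
    (j : ι) : onSite A j = tensF (Function.update (fun _ => 1) j A) := by
  ext s s'
  exact on_aux A j s s'

end Crest.Agent.R347
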