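import Crest.Agent.R347.LDefs
import Crest.Agent.R347.LUnitA

/-!
# Row 347, piece L_UNIT (0.7 h): 3×3 facts, tensor powers, change of basis

`tens w = tensF (fun _ => w)`; `tensF_mul` by `Finset.prod_univ_sum` (`Fintype.piFinset`), `trace_tensF` similarly.
3×3 facts: `ext i j; fin_cases i <;> fin_cases j <;> simp [...]`, with `(√2)⁻¹² = 1/2`.
`onSite A j = tensF (Function.update 1 j A)`, so conjugation by `tens UC` acts site by site.
-/

set_option autoImplicit false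

open Crest.MathPhysics.SpinChain Matrix

namespace Crest.Agent.R347

theorem tens_eq_tensF {ι : Type*} [Fintype ι] (w : Matrix (Fin 3) (Fin 3) ℂ) :
    tens (ι := ι) w = tensF (fun _ => w) := rfl

namespace UnitB

theorem toC_mul {m n o : Type*} [Fintype n] (A : Matrix m n ℝ) (B : Matrix n o ℝ) :
    toC (A * B) = toC A * toC B := by
  unfold toC
  exact Matrix.map_mul (f := Complex.ofRealHom)

theorem toC_add {m n : Type*} (A B : Matrix m n ℝ) : toC (A + B) = toC A + toC B := by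
  ext i j; simp [toC]

theorem toC_neg {m n : Type*} (A : Matrix m n ℝ) : toC (-A) = -toC A := by
  ext i j; simp [toC]

theorem toC_smul {m n : Type*} (r : ℝ) (A : Matrix m n ℝ) : toC (r • A) = (r : ℂ) • toC A := by
  ext i j; simp [toC]

theorem toC_zero {m n : Type*} : toC (0 : Matrix m n ℝ) = 0 := by
  ext i j; simp [toC]

theorem toC_sum {m n κ : Type*} (s : Finset κ) (f : κ → Matrix m n ℝ) :
    toC (∑ k ∈ s, f k) = ∑ k ∈ s, toC (f k) := by
  classical
  induction s using Finset.induction_on with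
  | empty => simp [toC_zero]
  | insert a s ha ih => rw [Finset.sum_insert ha, Finset.sum_insert ha, toC_add, ih]

theorem onSite_toC {ι : Type*} [Fintype ι] [DecidableEq ι] (A : Matrix (Fin 3) (Fin 3) ℝ) (j : ι) :
    onSite (toC A) j = toC (onR A j) := by
  ext s s'
  simp only [onSite, onR, toC, Matrix.of_apply, Matrix.map_apply]
  split_ifs <;> simp

theorem onSite_smul {ι : Type*} [Fintype ι] [DecidableEq ι] (z : ℂ)
    (A : Matrix (Fin 3) (Fin 3) ℂ) (j : ι) : onSite (z • A) j = z • onSite A j := by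
  ext s s'
  simp only [onSite, Matrix.of_apply, Matrix.smul_apply]
  split_ifs <;> simp

variable {ι : Type*} [Fintype ι] [DecidableEq ι]

omit [DecidableEq ι] in
theorem tens_ct (w : Matrix (Fin 3) (Fin 3) ℂ) :
    (tens (ι := ι) w)ᴴ = tensF (fun _ => wᴴ) := by
  ext s s'
  simp [tens, tensF, Matrix.conjTranspose_apply]

theorem U_mul_ct : tens (ι := ι) UC * (tens UC)ᴴ = 1 := by
  rw [tens_ct, tens_eq_tensF, tensF_mul, UC_mul_ct, tensF_one]

theorem U_ct_mul : (tens (ι := ι) UC)ᴴ * tens UC = 1 := by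
  rw [tens_ct, tens_eq_tensF, tensF_mul, UC_ct_mul, tensF_one]

/-- conjugation -/
noncomputable def cj (X : Matrix (ι → Fin 3) (ι → Fin 3) ℂ) : Matrix (ι → Fin 3) (ι → Fin 3) ℂ :=
  tens UC * X * (tens UC)ᴴ

theorem cj_mul (X Y : Matrix (ι → Fin 3) (ι → Fin 3) ℂ) : cj (X * Y) = cj X * cj Y := by
  unfold cj
  calc tens UC * (X * Y) * (tens UC)ᴴ = tens UC * X * 1 * (Y * (tens UC)ᴴ) := by
        simp only [Matrix.mul_assoc, Matrix.one_mul]
    _ = tens UC * X * ((tens UC)ᴴ * tens UC) * (Y * (tens UC)ᴴ) := by rw [U_ct_mul]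
    _ = _ := by simp only [Matrix.mul_assoc]

theorem cj_add (X Y : Matrix (ι → Fin 3) (ι → Fin 3) ℂ) : cj (X + Y) = cj X + cj Y := by
  unfold cj
  rw [Matrix.mul_add, Matrix.add_mul]

theorem cj_sub (X Y : Matrix (ι → Fin 3) (ι → Fin 3) ℂ) : cj (X - Y) = cj X - cj Y := by
  unfold cj
  rw [Matrix.mul_sub, Matrix.sub_mul]

theorem cj_smul (z : ℂ) (X : Matrix (ι → Fin 3) (ι → Fin 3) ℂ) : cj (z • X) = z • cj X := by
  unfold cj
  rw [Matrix.mul_smul, Matrix.smul_mul]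

theorem cj_sum {κ : Type*} (s : Finset κ) (f : κ → Matrix (ι → Fin 3) (ι → Fin 3) ℂ) :
    cj (∑ k ∈ s, f k) = ∑ k ∈ s, cj (f k) := by
  unfold cj
  rw [Matrix.mul_sum, Matrix.sum_mul]

theorem cj_tens (w : Matrix (Fin 3) (Fin 3) ℂ) :
    cj (tens (ι := ι) w) = tensF (fun _ => UC * w * UCᴴ) := by
  unfold cj
  rw [tens_ct, tens_eq_tensF, tens_eq_tensF, tensF_mul, tensF_mul]

theorem cj_onSite (A : Matrix (Fin 3) (Fin 3) ℂ) (j : ι) :
    cj (onSite A j) = onSite (UC * A * UCᴴ) j := by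
  unfold cj
  rw [tens_ct, tens_eq_tensF, onSite_eq_tensF, onSite_eq_tensF, tensF_mul, tensF_mul]
  congr 1
  funext k
  by_cases hk : k = j
  · subst hk; simp
  · simp [Function.update_of_ne hk, UC_mul_ct]

theorem cj_spin (a : Fin 3) (j : ι) :
    cj (onSite (spinOp a) j) = (-Complex.I) • toC (onR (R a) j) := by
  rw [cj_onSite, UC_spin, onSite_smul, onSite_toC]

theorem cj_spin_mul (a b : Fin 3) (j k : ι) :
    cj (onSite (spinOp a) j * onSite (spinOp b) k) = -toC (onR (R a) j * onR (R b) k) := by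
  rw [cj_mul, cj_spin, cj_spin, Matrix.smul_mul, Matrix.mul_smul, smul_smul, toC_mul]
  rw [show -Complex.I * -Complex.I = -1 by rw [neg_mul_neg, Complex.I_mul_I], neg_one_smul]

theorem cj_bond (j k : ι) : cj (bond j k) = -toC (∑ c : Fin 3, onR (R c) j * onR (R c) k) := by
  unfold bond
  rw [cj_sum, toC_sum, ← Finset.sum_neg_distrib]
  exact Finset.sum_congr rfl fun c _ => cj_spin_mul c c j k

theorem cj_tbond (g : Matrix (Fin 3) (Fin 3) ℝ) (j k : ι) :
    cj (tbond g j k) = -toC (∑ a : Fin 3, ∑ b : Fin 3, g a b • (onR (R a) j * onR (R b) k)) := by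
  unfold tbond
  rw [cj_sum, toC_sum, ← Finset.sum_neg_distrib]
  refine Finset.sum_congr rfl fun a _ => ?_
  rw [cj_sum, toC_sum, ← Finset.sum_neg_distrib]
  refine Finset.sum_congr rfl fun b _ => ?_
  rw [cj_smul, cj_spin_mul, toC_smul, smul_neg]

theorem trace_cj (X : Matrix (ι → Fin 3) (ι → Fin 3) ℂ) : trace (cj X) = trace X := by
  unfold cj
  rw [Matrix.trace_mul_cycle, U_ct_mul, Matrix.one_mul]

theorem exp_cj (X : Matrix (ι → Fin 3) (ι → Fin 3) ℂ) :
    NormedSpace.exp (cj X) = cj (NormedSpace.exp X) := by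
  let u : (Matrix (ι → Fin 3) (ι → Fin 3) ℂ)ˣ := ⟨tens UC, (tens UC)ᴴ, U_mul_ct, U_ct_mul⟩
  exact Matrix.exp_units_conj u X

/-- change of basis in the partition functions -/
theorem trace_cart (H : Matrix (ι → Fin 3) (ι → Fin 3) ℂ) (β : ℝ) {w : Matrix (Fin 3) (Fin 3) ℂ}
    {h : Matrix (Fin 3) (Fin 3) ℝ} (hwh : UC * w * UCᴴ = toC h) :
    trace (tens w * NormedSpace.exp ((-(β : ℂ)) • H)) =
      trace (tensF (fun _ : ι => toC h) *
        NormedSpace.exp ((-(β : ℂ)) • (tens UC * H * (tens UC)ᴴ))) := by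
  rw [← trace_cj, cj_mul, cj_tens, hwh, ← exp_cj, cj_smul]
  rfl

end UnitB

/-- the Cartesian form of the ring -/
theorem ringH_cart (L : ℕ) (hL : 1 ≤ L) (g : Matrix (Fin 3) (Fin 3) ℝ) :
    tens UC * ringH L g * (tens UC)ᴴ = toC (HR L g) := by
  show UnitB.cj (ringH L g) = toC (HR L g)
  unfold ringH HR
  rw [UnitB.cj_add, UnitB.cj_sum, UnitB.cj_tbond, UnitB.toC_neg, UnitB.toC_add, neg_add]
  congr 1
  rw [UnitB.toC_sum, ← Finset.sum_neg_distrib]
  exact Finset.sum_congr rfl fun j _ => UnitB.cj_bond (Fin.castSucc j) (Fin.succ j)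

/-- the Cartesian form of the open chain -/
theorem openH_cart (M : ℕ) (f₀ f₁ : ℝ) :
    tens UC * openH (M + 1) f₀ f₁ * (tens UC)ᴴ = HO M f₀ f₁ := by
  show UnitB.cj (openH (M + 1) f₀ f₁) = HO M f₀ f₁
  have hz : ∀ j : Fin (M + 2), UnitB.cj (onSite spinZ j) = (-Complex.I) • toC (onR (R 2) j) :=
    fun j => UnitB.cj_spin 2 j
  unfold openH HO
  rw [UnitB.cj_sub, UnitB.cj_sum, UnitB.cj_add, UnitB.cj_smul, UnitB.cj_smul, hz, hz,
    UnitB.toC_neg, UnitB.toC_sum, ← Finset.sum_neg_distrib]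
  have e : ∑ j : Fin (M + 1), UnitB.cj (bond (Fin.castSucc j) (Fin.succ j)) =
      ∑ j : Fin (M + 1),
        -toC (∑ c : Fin 3, onR (R c) (Fin.castSucc j) * onR (R c) (Fin.succ j)) :=
    Finset.sum_congr rfl fun j _ => UnitB.cj_bond (Fin.castSucc j) (Fin.succ j)
  rw [e, smul_smul, smul_smul, sub_eq_add_neg, neg_add, ← neg_smul, ← neg_smul, ← add_assoc]
  congr 2
  · congr 1
    congr 1
    ring
  · congr 1
    ring

theorem zRing_cart (L : ℕ) (hL : 1 ≤ L) (β : ℝ) (g : Matrix (Fin 3) (Fin 3) ℝ)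
    {w : Matrix (Fin 3) (Fin 3) ℂ} {h : Matrix (Fin 3) (Fin 3) ℝ} (hwh : UC * w * UCᴴ = toC h) :
    zRing L β g w =
      trace (tensF (fun _ => toC h) * NormedSpace.exp ((-(β : ℂ)) • toC (HR L g))) := by
  unfold zRing
  rw [UnitB.trace_cart _ β hwh, ringH_cart L hL g]

theorem zOpen_cart (M : ℕ) (β f₀ f₁ : ℝ) {w : Matrix (Fin 3) (Fin 3) ℂ}
    {h : Matrix (Fin 3) (Fin 3) ℝ} (hwh : UC * w * UCᴴ = toC h) :
    zOpen (M + 1) β f₀ f₁ w =
      trace (tensF (fun _ => toC h) * NormedSpace.exp ((-(β : ℂ)) • HO M f₀ f₁)) := by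
  unfold zOpen
  rw [UnitB.trace_cart _ β hwh, openH_cart M f₀ f₁]

end Crest.Agent.R347
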