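import Mathlib

/-!
# Row 347: kernel evaluation of matrix product states (definitions only)

The environments `G, Z, T, X` (Gram matrix, last-site `S^z`, last-site `S^+/√2`, five times the Hamiltonian) of an
integer matrix product state, computed by functional recursion in `ℕ` (positive part = `false`, negative part =
`true`); the kernel caches the closed terms, so the recursion is evaluated in polynomial time.
-/

set_option autoImplicit false

namespace Crest.Agent.R347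

/-- sparse entry: row index, absolute value -/
abbrev Ent := ℕ × ℕ
/-- sparse column: positive entries, negative entries -/
abbrev Col := List Ent × List Ent

noncomputable def ls (L : List Ent) (f : ℕ → ℕ) : ℕ :=
  List.rec (motive := fun _ => ℕ) 0
    (fun h _ ih => Prod.rec (motive := fun _ => ℕ) (fun a u => Nat.add (Nat.mul u (f a)) ih) h) L

/-- column sum: positive part for `c = false` -/
noncomputable def cs (L : Col) (f : Bool → ℕ → ℕ) (c : Bool) : ℕ :=
  Prod.rec (motive := fun _ => ℕ) (fun p n =>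
   Bool.rec (motive := fun _ => ℕ) (Nat.add (ls p (f false)) (ls n (f true)))
    (Nat.add (ls p (f true)) (ls n (f false))) c) L

structure S4 where
  G : Bool → ℕ → ℕ → ℕ
  Z : Bool → ℕ → ℕ → ℕ
  T : Bool → ℕ → ℕ → ℕ
  X : Bool → ℕ → ℕ → ℕ

noncomputable def rr (D : ℕ → ℕ → Col) (M : Bool → ℕ → ℕ → ℕ) (t : ℕ)
    (b' : ℕ) (c : Bool) (a : ℕ) : ℕ := cs (D t b') (fun c b => M c a b) c

/-- `(Aˢ)ᵀ M Aᵗ` -/
noncomputable def lr (D : ℕ → ℕ → Col) (M : Bool → ℕ → ℕ → ℕ) (s t : ℕ)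
    (a' b' : ℕ) (c : Bool) : ℕ := cs (D s a') (rr D M t b') c

noncomputable def stG (D : ℕ → ℕ → Col) (S : S4) (c : Bool) (a b : ℕ) : ℕ :=
  Nat.add (lr D S.G 0 0 a b c) (Nat.add (lr D S.G 1 1 a b c) (lr D S.G 2 2 a b c))
noncomputable def stZ (D : ℕ → ℕ → Col) (M : Bool → ℕ → ℕ → ℕ) (c : Bool) (a b : ℕ) : ℕ :=
  Bool.rec (motive := fun _ => ℕ) (Nat.add (lr D M 0 0 a b false) (lr D M 2 2 a b true))
    (Nat.add (lr D M 0 0 a b true) (lr D M 2 2 a b false)) c
noncomputable def stT (D : ℕ → ℕ → Col) (S : S4) (c : Bool) (a b : ℕ) : ℕ :=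
  Nat.add (lr D S.G 0 1 a b c) (lr D S.G 1 2 a b c)
noncomputable def stX (D : ℕ → ℕ → Col) (p q : ℕ) (S : S4) (c : Bool) (a b : ℕ) : ℕ :=
  Nat.add (Nat.add (lr D S.X 0 0 a b c) (Nat.add (lr D S.X 1 1 a b c) (lr D S.X 2 2 a b c)))
  (Nat.add (Nat.mul 5 (stZ D S.Z c a b))
   (Nat.add (Nat.mul 10 (Nat.add (lr D S.T 1 0 a b c) (lr D S.T 2 1 a b c)))
     (Nat.add (Nat.mul p (stZ D S.G c a b))
      (Nat.mul q (Bool.rec (motive := fun _ => ℕ) (stZ D S.G true a b) (stZ D S.G false a b) c)))))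

noncomputable def step (D : ℕ → ℕ → Col) (p q : ℕ) (S : S4) : S4 :=
  ⟨stG D S, stZ D S.G, stT D S, stX D p q S⟩

def dget (dat : List (List (List Col))) (n s b : ℕ) : Col :=
  ((dat.getD n []).getD s []).getD b ([], [])

noncomputable def g0 (c : Bool) (a b : ℕ) : ℕ := Bool.rec (motive := fun _ => ℕ)
    (Nat.rec (motive := fun _ => ℕ) (Nat.rec (motive := fun _ => ℕ) 1 (fun _ _ => 0) b) (fun _ _ => 0) a) 0 c
noncomputable def st0 : S4 := ⟨g0, fun _ _ _ => 0, fun _ _ _ => 0, fun _ _ _ => 0⟩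

noncomputable def st (dat : List (List (List Col))) (f : ℕ → ℕ × ℕ) (n : ℕ) : S4 :=
  Nat.rec (motive := fun _ => S4) st0 (fun n ih => step (dget dat n) (f n).1 (f n).2 ih) n

/-- field (positive part, negative part) of `-5 f` : `-3` at site `0`, `e` at site `N` -/
def fldMps (N : ℕ) (e : ℕ × ℕ) (n : ℕ) : ℕ × ℕ :=
  if n = 0 then (0, 3) else if n = N then e else (0, 0)

/-- the final check: `0 < ⟨ψ,ψ⟩` and `10000 ⟨ψ,5Hψ⟩ + K ⟨ψ,ψ⟩ ≤ 0` -/
noncomputable def chk (dat : List (List (List Col))) (N : ℕ) (e : ℕ × ℕ) (K : ℕ) : Bool :=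
  Bool.rec (motive := fun _ => Bool) false
    (Nat.ble (Nat.add (Nat.mul 10000 ((st dat (fldMps N e) (N + 1)).X false 0 0))
        (Nat.mul K ((st dat (fldMps N e) (N + 1)).G false 0 0)))
      (Nat.add (Nat.mul 10000 ((st dat (fldMps N e) (N + 1)).X true 0 0))
        (Nat.mul K ((st dat (fldMps N e) (N + 1)).G true 0 0))))
    (Nat.ble (Nat.succ ((st dat (fldMps N e) (N + 1)).G true 0 0)) ((st dat (fldMps N e) (N + 1)).G false 0 0))

end Crest.Agent.R347
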