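import Crest.Agent.R347.MpsTheory

/-!
# Row 347: the integer Hamiltonian of `MpsTheory` is the open chain with end fields
-/

set_option autoImplicit false

open Crest.MathPhysics.SpinChain Matrix

namespace Crest.Agent.R347

section
variable {R : Type*} [CommRing R] {n : ℕ}

theorem ext_apply (M : Matrix (Fin n → Fin 3) (Fin n → Fin 3) R) (O : Matrix (Fin 3) (Fin 3) R)
    (σ τ : Fin (n + 1) → Fin 3) :
    ext M O σ τ = M (Fin.init σ) (Fin.init τ) * O (σ (Fin.last n)) (τ (Fin.last n)) := rfl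

theorem ext_mul (M M' : Matrix (Fin n → Fin 3) (Fin n → Fin 3) R) (O O' : Matrix (Fin 3) (Fin 3) R) :
    ext M O * ext M' O' = ext (M * M') (O * O') := by
  ext σ τ
  rw [Matrix.mul_apply, sum_cfg_succ, ext_apply, Matrix.mul_apply, Matrix.mul_apply,
    Finset.sum_mul_sum, Finset.sum_comm]
  refine Finset.sum_congr rfl fun ρ _ => Finset.sum_congr rfl fun s _ => ?_
  simp only [ext_apply, Fin.init_snoc, Fin.snoc_last]
  ring

theorem ext_transpose (M : Matrix (Fin n → Fin 3) (Fin n → Fin 3) R) (O : Matrix (Fin 3) (Fin 3) R) :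
    (ext M O)ᵀ = ext Mᵀ Oᵀ := rfl

theorem ext_add (M M' : Matrix (Fin n → Fin 3) (Fin n → Fin 3) R) (O : Matrix (Fin 3) (Fin 3) R) :
    ext (M + M') O = ext M O + ext M' O := by
  ext σ τ; simp only [ext_apply, Matrix.add_apply]; ring

theorem ext_smul (c : R) (M : Matrix (Fin n → Fin 3) (Fin n → Fin 3) R) (O : Matrix (Fin 3) (Fin 3) R) :
    ext (c • M) O = c • ext M O := by
  ext σ τ; simp only [ext_apply, Matrix.smul_apply, smul_eq_mul]; ring

theorem ext_zero (O : Matrix (Fin 3) (Fin 3) R) :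
    ext (0 : Matrix (Fin n → Fin 3) (Fin n → Fin 3) R) O = 0 := by
  ext σ τ; simp [ext_apply]

theorem ext_sum {ι : Type*} (s : Finset ι) (M : ι → Matrix (Fin n → Fin 3) (Fin n → Fin 3) R)
    (O : Matrix (Fin 3) (Fin 3) R) : ext (∑ i ∈ s, M i) O = ∑ i ∈ s, ext (M i) O := by
  classical
  induction s using Finset.induction_on with
  | empty => simpa using ext_zero O
  | insert i s hi ih => rw [Finset.sum_insert hi, Finset.sum_insert hi, ext_add, ih]

end

theorem onSite_last (n : ℕ) (A : Matrix (Fin 3) (Fin 3) ℂ) :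
    onSite A (Fin.last n) = ext (1 : Matrix (Fin n → Fin 3) (Fin n → Fin 3) ℂ) A := by
  ext σ τ
  rw [ext_apply, Matrix.one_apply]
  simp only [onSite, Matrix.of_apply]
  have h : (∀ k, k ≠ Fin.last n → σ k = τ k) ↔ Fin.init σ = Fin.init τ := by
    constructor
    · intro h; funext k; exact h _ (Fin.castSucc_lt_last k).ne
    · intro h k hk
      obtain ⟨j, rfl⟩ := Fin.exists_castSucc_eq.mpr hk
      exact congrFun h j
  simp only [h]
  split_ifs <;> simp

theorem onSite_castSucc (n : ℕ) (A : Matrix (Fin 3) (Fin 3) ℂ) (i : Fin n) :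
    onSite A (Fin.castSucc i) = ext (onSite A i) 1 := by
  ext σ τ
  rw [ext_apply, Matrix.one_apply]
  simp only [onSite, Matrix.of_apply]
  have h : (∀ k, k ≠ Fin.castSucc i → σ k = τ k) ↔
      (∀ k, k ≠ i → Fin.init σ k = Fin.init τ k) ∧ σ (Fin.last n) = τ (Fin.last n) := by
    constructor
    · intro h
      refine ⟨fun k hk => h _ (fun e => hk (Fin.castSucc_injective _ e)), h _ (Fin.castSucc_lt_last i).ne'⟩
    · rintro ⟨h1, h2⟩ k hk
      rcases eq_or_ne k (Fin.last n) with rfl | hk'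
      · exact h2
      · obtain ⟨j, rfl⟩ := Fin.exists_castSucc_eq.mpr hk'
        exact h1 j fun e => hk (by rw [e])
  simp only [h]
  by_cases h1 : ∀ k, k ≠ i → Fin.init σ k = Fin.init τ k
  · by_cases h2 : σ (Fin.last n) = τ (Fin.last n)
    · rw [if_pos ⟨h1, h2⟩, if_pos h1, if_pos h2, mul_one]
      rfl
    · rw [if_neg (fun h => h2 h.2), if_neg h2, mul_zero]
  · rw [if_neg (fun h => h1 h.1), if_neg h1, zero_mul]

/-- cast to `ℂ` -/
def cC {α β : Type*} (M : Matrix α β ℤ) : Matrix α β ℂ := M.map fun x => (x : ℂ)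

theorem cC_ext {n : ℕ} (M : Matrix (Fin n → Fin 3) (Fin n → Fin 3) ℤ) (O : Matrix (Fin 3) (Fin 3) ℤ) :
    cC (ext M O) = ext (cC M) (cC O) := by
  ext σ τ; simp [cC, ext_apply]

theorem cC_one {α : Type*} [DecidableEq α] : cC (1 : Matrix α α ℤ) = 1 := by
  ext σ τ; simp only [cC, Matrix.map_apply, Matrix.one_apply]; split_ifs <;> simp

theorem cC_Zm : cC Zm = spinZ := by
  ext i j
  fin_cases i <;> fin_cases j <;> simp [cC, Zm, spinZ, magneticNumber, Matrix.diagonal] <;> norm_num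

theorem spinPlus_eq : spinPlus = ((Real.sqrt 2 : ℝ) : ℂ) • cC Tm := by
  ext i j
  fin_cases i <;> fin_cases j <;> simp [cC, Tm, spinPlus]

theorem spinMinus_eq : spinMinus = ((Real.sqrt 2 : ℝ) : ℂ) • (cC Tm)ᵀ := by
  rw [spinMinus, spinPlus_eq]
  ext i j
  fin_cases i <;> fin_cases j <;> simp [cC, Tm]

theorem spin_sum (i j k l : Fin 3) :
    ∑ a : Fin 3, spinOp a i j * spinOp a k l =
      spinZ i j * spinZ k l + cC Tm i j * (cC Tm)ᵀ k l + (cC Tm)ᵀ i j * cC Tm k l := by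
  have h2 : (((Real.sqrt 2 : ℝ) : ℂ)) * ((Real.sqrt 2 : ℝ) : ℂ) = 2 := by
    rw [← Complex.ofReal_mul, Real.mul_self_sqrt (by norm_num)]; norm_num
  have hx : ∀ i j, spinX i j = (1 / 2 : ℂ) * (((Real.sqrt 2 : ℝ) : ℂ) * (cC Tm i j + (cC Tm)ᵀ i j)) := by
    intro i j; rw [spinX, spinPlus_eq, spinMinus_eq]
    simp only [Matrix.smul_apply, Matrix.add_apply, smul_eq_mul]; ring
  have hy : ∀ i j, spinY i j = (1 / (2 * Complex.I) : ℂ) * (((Real.sqrt 2 : ℝ) : ℂ) * (cC Tm i j - (cC Tm)ᵀ i j)) := by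
    intro i j; rw [spinY, spinPlus_eq, spinMinus_eq]
    simp only [Matrix.smul_apply, Matrix.sub_apply, smul_eq_mul]; ring
  have hI : (1 / (2 * Complex.I) : ℂ) * (1 / (2 * Complex.I)) = - (1 / 4) := by
    rw [div_mul_div_comm, one_mul, show (2 * Complex.I) * (2 * Complex.I) = 4 * (Complex.I * Complex.I) by ring,
      Complex.I_mul_I]; norm_num
  have e0 : spinOp 0 = spinX := rfl
  have e1 : spinOp 1 = spinY := rfl
  have e2 : spinOp 2 = spinZ := rfl
  rw [Fin.sum_univ_three, e0, e1, e2, hx, hx, hy, hy]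
  generalize cC Tm i j = a
  generalize cC Tm k l = b
  generalize (cC Tm)ᵀ i j = c
  generalize (cC Tm)ᵀ k l = d
  generalize spinZ i j * spinZ k l = z
  have e3 : (1 / (2 * Complex.I) : ℂ) * (((Real.sqrt 2 : ℝ) : ℂ) * (a - c)) *
      ((1 / (2 * Complex.I) : ℂ) * (((Real.sqrt 2 : ℝ) : ℂ) * (b - d))) =
      ((1 / (2 * Complex.I) : ℂ) * (1 / (2 * Complex.I))) * ((((Real.sqrt 2 : ℝ) : ℂ)) * ((Real.sqrt 2 : ℝ) : ℂ)) *
        ((a - c) * (b - d)) := by ring
  have e4 : (1 / 2 : ℂ) * (((Real.sqrt 2 : ℝ) : ℂ) * (a + c)) *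
      ((1 / 2 : ℂ) * (((Real.sqrt 2 : ℝ) : ℂ) * (b + d))) =
      (1 / 4) * ((((Real.sqrt 2 : ℝ) : ℂ)) * ((Real.sqrt 2 : ℝ) : ℂ)) *
        ((a + c) * (b + d)) := by ring
  rw [e3, e4, hI, h2]
  ring

/-- bonds of the chain with `N + 1` sites -/
noncomputable def bonds (N : ℕ) : Matrix (Fin (N + 1) → Fin 3) (Fin (N + 1) → Fin 3) ℂ :=
  ∑ j : Fin N, bond (Fin.castSucc j) (Fin.succ j)

theorem bonds_succ (N : ℕ) : bonds (N + 1) = ext (bonds N) 1 +
    (ext (cC (lst Zm (N + 1))) spinZ + ext (cC (lst Tm (N + 1))) (cC Tm)ᵀ +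
      ext (cC (lst Tm (N + 1)))ᵀ (cC Tm)) := by
  unfold bonds
  rw [Fin.sum_univ_castSucc, ext_sum]
  congr 1
  · refine Finset.sum_congr rfl fun j _ => ?_
    unfold bond
    rw [ext_sum]
    refine Finset.sum_congr rfl fun a _ => ?_
    rw [Fin.succ_castSucc, onSite_castSucc (N + 1) (spinOp a) (Fin.castSucc j),
      onSite_castSucc (N + 1) (spinOp a) (Fin.succ j), ext_mul, one_mul]
  · unfold bond
    have hl : Fin.succ (Fin.last N) = Fin.last (N + 1) := rfl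
    rw [hl]
    have h : ∀ a : Fin 3, onSite (spinOp a) (Fin.castSucc (Fin.last N)) * onSite (spinOp a) (Fin.last (N + 1)) =
        ext (ext (1 : Matrix (Fin N → Fin 3) (Fin N → Fin 3) ℂ) (spinOp a)) (spinOp a) := by
      intro a
      rw [onSite_castSucc, onSite_last, onSite_last, ext_mul, one_mul, mul_one]
    simp only [h]
    ext σ τ
    rw [Matrix.sum_apply]
    simp only [Matrix.add_apply, lst, cC_ext, cC_one, ext_transpose, Matrix.transpose_one, ext_apply, cC_Zm]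
    have := spin_sum (Fin.init σ (Fin.last N)) (Fin.init τ (Fin.last N)) (σ (Fin.last (N + 1))) (τ (Fin.last (N + 1)))
    calc _ = (1 : Matrix (Fin N → Fin 3) (Fin N → Fin 3) ℂ) (Fin.init (Fin.init σ)) (Fin.init (Fin.init τ)) *
        ∑ a : Fin 3, spinOp a (Fin.init σ (Fin.last N)) (Fin.init τ (Fin.last N)) *
          spinOp a (σ (Fin.last (N + 1))) (τ (Fin.last (N + 1))) := by
          rw [Finset.mul_sum]; refine Finset.sum_congr rfl fun a _ => ?_; ring
      _ = _ := by rw [this]; ring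

/-- the field term -/
noncomputable def flds (w : ℕ → ℤ) (N : ℕ) : Matrix (Fin (N + 1) → Fin 3) (Fin (N + 1) → Fin 3) ℂ :=
  ∑ j : Fin (N + 1), (w j : ℂ) • onSite spinZ j

theorem flds_succ (w : ℕ → ℤ) (N : ℕ) : flds w (N + 1) = ext (flds w N) 1 +
    ((w (N + 1) : ℤ) : ℂ) • ext 1 spinZ := by
  unfold flds
  rw [Fin.sum_univ_castSucc, ext_sum]
  congr 1
  · refine Finset.sum_congr rfl fun j _ => ?_
    rw [ext_smul, onSite_castSucc]; rfl
  · rw [onSite_last]; rfl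

theorem cC_add {α β : Type*} (M M' : Matrix α β ℤ) : cC (M + M') = cC M + cC M' := by
  ext σ τ; simp [cC]

theorem cC_smul {α β : Type*} (c : ℤ) (M : Matrix α β ℤ) : cC (c • M) = (c : ℂ) • cC M := by
  ext σ τ; simp [cC]

theorem cC_transpose {α β : Type*} (M : Matrix α β ℤ) : cC Mᵀ = (cC M)ᵀ := rfl

theorem cC_Hz_succ (w : ℕ → ℤ) (n : ℕ) : cC (Hz w (n + 1)) = ext (cC (Hz w n)) 1 +
    (5 : ℂ) • ext (cC (lst Zm n)) spinZ + (10 : ℂ) • ext (cC (lst Tm n)) (cC Tm)ᵀ +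
      (w n : ℂ) • ext 1 spinZ := by
  rw [Hz, cC_add, cC_add, cC_add, cC_smul, cC_smul, cC_smul, cC_ext, cC_ext, cC_ext, cC_ext, cC_one,
    cC_Zm, cC_transpose, cC_one]
  norm_num

theorem spinZ_transpose : (spinZ)ᵀ = spinZ := by
  rw [spinZ, Matrix.diagonal_transpose]

theorem Hz_eq (w : ℕ → ℤ) (N : ℕ) : cC (Hz w (N + 1)) + (cC (Hz w (N + 1)))ᵀ =
    (10 : ℂ) • bonds N + (2 : ℂ) • flds w N := by
  induction N with
  | zero =>
    have h0 : bonds 0 = 0 := by simp [bonds]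
    have h1 : flds w 0 = (w 0 : ℂ) • ext 1 spinZ := by
      rw [flds, Fin.sum_univ_one]
      have : (0 : Fin 1) = Fin.last 0 := rfl
      rw [this, onSite_last]; rfl
    have hz : cC (0 : Matrix (Fin 0 → Fin 3) (Fin 0 → Fin 3) ℤ) = 0 := by ext σ τ; simp [cC]
    rw [h0, h1, cC_Hz_succ, Hz, lst, lst, hz, ext_zero, ext_zero, ext_zero]
    simp only [smul_zero, zero_add, add_zero, Matrix.transpose_smul, ext_transpose, Matrix.transpose_one,
      spinZ_transpose]
    rw [two_smul]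
  | succ N ih =>
    rw [bonds_succ, flds_succ, cC_Hz_succ]
    simp only [Matrix.transpose_add, Matrix.transpose_smul, ext_transpose, Matrix.transpose_one,
      spinZ_transpose, Matrix.transpose_transpose]
    have hZ : (cC (lst Zm (N + 1)))ᵀ = cC (lst Zm (N + 1)) := by
      rw [lst, cC_ext, cC_one, cC_Zm, ext_transpose, Matrix.transpose_one, spinZ_transpose]
    rw [hZ]
    have h3 := congrArg (fun M => ext M (1 : Matrix (Fin 3) (Fin 3) ℂ)) ih
    simp only [ext_add, ext_smul] at h3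
    have h4 : ext (cC (Hz w (N + 1))) (1 : Matrix (Fin 3) (Fin 3) ℂ) =
        (10 : ℂ) • ext (bonds N) 1 + (2 : ℂ) • ext (flds w N) 1 - ext (cC (Hz w (N + 1)))ᵀ 1 := by
      rw [← h3]; abel
    rw [h4]
    module

/-! ## quadratic forms -/

/-- the vector -/
noncomputable def vec (D : ℕ → ℕ → ℕ → Col) (n : ℕ) (σ : Fin n → Fin 3) : ℂ := ((amp D n σ 0 : ℤ) : ℂ)

theorem quad_eq (D : ℕ → ℕ → ℕ → Col) (n : ℕ) (M : Matrix (Fin n → Fin 3) (Fin n → Fin 3) ℂ) :
    star (vec D n) ⬝ᵥ M.mulVec (vec D n) = ∑ σ, ∑ τ, vec D n σ * M σ τ * vec D n τ := by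
  simp only [dotProduct, Matrix.mulVec, Finset.mul_sum]
  refine Finset.sum_congr rfl fun σ _ => Finset.sum_congr rfl fun τ _ => ?_
  simp only [Pi.star_apply, vec]
  rw [show star (((amp D n σ 0 : ℤ) : ℂ)) = ((amp D n σ 0 : ℤ) : ℂ) by simp]
  ring

theorem quad_cC (D : ℕ → ℕ → ℕ → Col) (n : ℕ) (M : Matrix (Fin n → Fin 3) (Fin n → Fin 3) ℤ) :
    star (vec D n) ⬝ᵥ (cC M).mulVec (vec D n) = ((env D n M 0 0 : ℤ) : ℂ) := by
  rw [quad_eq]
  simp only [vec, env, cC, Matrix.map_apply]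
  push_cast
  rfl

theorem quad_cC_transpose (D : ℕ → ℕ → ℕ → Col) (n : ℕ) (M : Matrix (Fin n → Fin 3) (Fin n → Fin 3) ℤ) :
    star (vec D n) ⬝ᵥ ((cC M)ᵀ).mulVec (vec D n) = ((env D n M 0 0 : ℤ) : ℂ) := by
  rw [← quad_cC, quad_eq, quad_eq, Finset.sum_comm]
  refine Finset.sum_congr rfl fun σ _ => Finset.sum_congr rfl fun τ _ => ?_
  simp only [Matrix.transpose_apply]
  ring

theorem quad_openH (D : ℕ → ℕ → ℕ → Col) (w : ℕ → ℤ) (N : ℕ) (f₀ f₁ : ℝ)
    (h : (10 : ℂ) • openH N f₀ f₁ = (10 : ℂ) • bonds N + (2 : ℂ) • flds w N) :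
    (star (vec D (N + 1)) ⬝ᵥ (openH N f₀ f₁).mulVec (vec D (N + 1))).re =
      ((env D (N + 1) (Hz w (N + 1)) 0 0 : ℤ) : ℝ) / 5 := by
  have h1 : (10 : ℂ) * (star (vec D (N + 1)) ⬝ᵥ (openH N f₀ f₁).mulVec (vec D (N + 1))) =
      2 * ((env D (N + 1) (Hz w (N + 1)) 0 0 : ℤ) : ℂ) := by
    rw [← smul_eq_mul, ← dotProduct_smul, ← Matrix.smul_mulVec, h, ← Hz_eq, Matrix.add_mulVec,
      dotProduct_add, quad_cC, quad_cC_transpose]
    ring
  have h2 : star (vec D (N + 1)) ⬝ᵥ (openH N f₀ f₁).mulVec (vec D (N + 1)) =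
      ((((env D (N + 1) (Hz w (N + 1)) 0 0 : ℤ) : ℝ) / 5 : ℝ) : ℂ) := by
    push_cast
    linear_combination (1 / 10 : ℂ) * h1
  rw [h2, Complex.ofReal_re]

theorem norm_vec (D : ℕ → ℕ → ℕ → Col) (n : ℕ) :
    (star (vec D n) ⬝ᵥ vec D n).re = ((env D n 1 0 0 : ℤ) : ℝ) := by
  have h := quad_cC D n 1
  rw [cC_one, Matrix.one_mulVec] at h
  rw [h]
  exact Complex.intCast_re _

theorem fields_eq (N : ℕ) (hN : N ≠ 0) (w : ℕ → ℤ) (f₀ f₁ : ℝ) (h0 : (w 0 : ℝ) = -5 * f₀)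
    (h1 : (w N : ℝ) = -5 * f₁) (h2 : ∀ j, j ≠ 0 → j ≠ N → w j = 0) :
    (10 : ℂ) • openH N f₀ f₁ = (10 : ℂ) • bonds N + (2 : ℂ) • flds w N := by
  have h3 : flds w N = ((w 0 : ℤ) : ℂ) • onSite spinZ (0 : Fin (N + 1)) +
      ((w N : ℤ) : ℂ) • onSite spinZ (Fin.last N) := by
    unfold flds
    rw [← Finset.sum_subset (Finset.subset_univ {(0 : Fin (N + 1)), Fin.last N})]
    · rw [Finset.sum_pair]
      · rfl
      · intro e
        apply hN
        have := congrArg Fin.val e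
        simpa using this.symm
    · intro j _ hj
      simp only [Finset.mem_insert, Finset.mem_singleton, not_or] at hj
      rw [h2]
      · simp
      · intro e; exact hj.1 (Fin.ext e)
      · intro e; exact hj.2 (Fin.ext e)
  have h0' : ((w 0 : ℤ) : ℂ) = -5 * (f₀ : ℂ) := by
    have := congrArg (fun x : ℝ => (x : ℂ)) h0; push_cast at this; exact this
  have h1' : ((w N : ℤ) : ℂ) = -5 * (f₁ : ℂ) := by
    have := congrArg (fun x : ℝ => (x : ℂ)) h1; push_cast at this; exact this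
  rw [h3, h0', h1']
  unfold openH bonds
  module

/-- final reduction to the kernel check -/
theorem chk_sound (dat : List (List (List Col))) (N : ℕ) (hN : N ≠ 0) (e : ℕ × ℕ) (K : ℕ) (f₁ : ℝ)
    (he : ((e.1 : ℝ) - e.2) = -5 * f₁) (h : chk dat N e K = true) :
    vec (dget dat) (N + 1) ≠ 0 ∧
    (star (vec (dget dat) (N + 1)) ⬝ᵥ (openH N (3 / 5) f₁).mulVec (vec (dget dat) (N + 1))).re ≤
      (-(K : ℝ) / 50000) * (star (vec (dget dat) (N + 1)) ⬝ᵥ vec (dget dat) (N + 1)).re := by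
  have hg := good_st dat (fldMps N e) (N + 1)
  set S := st dat (fldMps N e) (N + 1) with hS
  set w : ℕ → ℤ := fun n => ((fldMps N e n).1 : ℤ) - (fldMps N e n).2 with hw
  have hc : chk dat N e K = Bool.rec (motive := fun _ => Bool) false
    (Nat.ble (Nat.add (Nat.mul 10000 (S.X false 0 0)) (Nat.mul K (S.G false 0 0)))
      (Nat.add (Nat.mul 10000 (S.X true 0 0)) (Nat.mul K (S.G true 0 0))))
    (Nat.ble (Nat.succ (S.G true 0 0)) (S.G false 0 0)) := rfl
  rw [hc] at h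
  have hb : Nat.ble (Nat.succ (S.G true 0 0)) (S.G false 0 0) = true := by
    cases hb : Nat.ble (Nat.succ (S.G true 0 0)) (S.G false 0 0) with
    | true => rfl
    | false => rw [hb] at h; exact absurd h (by simp)
  have hpos : S.G true 0 0 + 1 ≤ S.G false 0 0 := Nat.le_of_ble_eq_true hb
  rw [hb] at h
  have hle : 10000 * S.X false 0 0 + K * S.G false 0 0 ≤ 10000 * S.X true 0 0 + K * S.G true 0 0 :=
    Nat.le_of_ble_eq_true h
  have hGpos : 0 < env (dget dat) (N + 1) 1 0 0 := by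
    rw [← hg.G]; unfold sv; omega
  have hEle : 10000 * env (dget dat) (N + 1) (Hz w (N + 1)) 0 0 + K * env (dget dat) (N + 1) 1 0 0 ≤ 0 := by
    rw [← hg.G, ← hg.X]; unfold sv
    have : ((10000 * S.X false 0 0 + K * S.G false 0 0 : ℕ) : ℤ) ≤ (10000 * S.X true 0 0 + K * S.G true 0 0 : ℕ) := by
      exact_mod_cast hle
    push_cast at this
    linarith
  refine ⟨?_, ?_⟩
  · intro h0
    have := norm_vec (dget dat) (N + 1)
    rw [h0] at this
    simp only [dotProduct_zero, Complex.zero_re] at this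
    have h2 : (0 : ℝ) < ((env (dget dat) (N + 1) 1 0 0 : ℤ) : ℝ) := by exact_mod_cast hGpos
    linarith
  · rw [quad_openH (dget dat) w N (3 / 5) f₁ (fields_eq N hN w _ _ ?_ ?_ ?_), norm_vec]
    · have : (10000 * ((env (dget dat) (N + 1) (Hz w (N + 1)) 0 0 : ℤ) : ℝ) +
          K * ((env (dget dat) (N + 1) 1 0 0 : ℤ) : ℝ)) ≤ 0 := by exact_mod_cast hEle
      rw [div_mul_eq_mul_div, div_le_div_iff₀ (by norm_num) (by norm_num)]
      nlinarith
    · simp [hw, fldMps]; norm_num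
    · simp only [hw, fldMps, if_neg hN, if_true]
      push_cast
      exact he
    · intro j hj hj'
      simp [hw, fldMps, hj, hj']

end Crest.Agent.R347
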