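import Crest.Agent.R347.MpsHam

/-!
# Row 347: parity of the magnetisation of a matrix product state
-/

set_option autoImplicit false

open Crest.MathPhysics.SpinChain Matrix

namespace Crest.Agent.R347

def lget (lab : List (List Bool)) (n b : ℕ) : Bool := (lab.getD n []).getD b false

def entOK (lab : List (List Bool)) (n s b : ℕ) (e : Ent) : Bool :=
  xor (lget lab n e.1) (!(s == 1)) == lget lab (n + 1) b

def pchk (dat : List (List (List Col))) (lab : List (List Bool)) : Bool :=
  (List.range dat.length).all fun n => (List.range (dat.getD n []).length).all fun s =>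
    (List.range ((dat.getD n []).getD s []).length).all fun b =>
      (dget dat n s b).1.all (entOK lab n s b) && (dget dat n s b).2.all (entOK lab n s b)

theorem pchk_sound (dat : List (List (List Col))) (lab : List (List Bool)) (h : pchk dat lab = true)
    (n s b : ℕ) (e : Ent) (he : e ∈ (dget dat n s b).1 ∨ e ∈ (dget dat n s b).2) :
    xor (lget lab n e.1) (!(s == 1)) = lget lab (n + 1) b := by
  simp only [pchk, List.all_eq_true, List.mem_range, Bool.and_eq_true] at h
  by_cases hn : n < dat.length
  · by_cases hs : s < (dat.getD n []).length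
    · by_cases hb : b < ((dat.getD n []).getD s []).length
      · have h1 := h n hn s hs b hb
        rcases he with he | he
        · have := h1.1 e he
          simpa [entOK] using this
        · have := h1.2 e he
          simpa [entOK] using this
      · exfalso
        have : dget dat n s b = ([], []) := by
          unfold dget; rw [List.getD_eq_default _ _ (not_lt.mp hb)]
        rw [this] at he; simp at he
    · exfalso
      have : dget dat n s b = ([], []) := by
        unfold dget; rw [List.getD_eq_default _ _ (not_lt.mp hs)]; simp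
      rw [this] at he; simp at he
  · exfalso
    have : dget dat n s b = ([], []) := by
      unfold dget; rw [List.getD_eq_default _ _ (not_lt.mp hn)]; simp
    rw [this] at he; simp at he

def sg (b : Bool) : ℤ := if b then -1 else 1

theorem sg_xor (a b : Bool) : sg (xor a b) = sg a * sg b := by
  cases a <;> cases b <;> simp [sg]

def par {n : ℕ} (σ : Fin n → Fin 3) : ℤ := ∏ j, sg (!((σ j : ℕ) == 1))

theorem lsZ_congr (L : List Ent) (f g : ℕ → ℤ) (h : ∀ e ∈ L, f e.1 = g e.1) : lsZ L f = lsZ L g := by
  unfold lsZ
  congr 1
  apply List.map_congr_left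
  intro e he
  rw [h e he]

theorem csZ_congr (L : Col) (f g : ℕ → ℤ) (h : ∀ e : Ent, e ∈ L.1 ∨ e ∈ L.2 → f e.1 = g e.1) :
    csZ L f = csZ L g := by
  unfold csZ
  rw [lsZ_congr L.1 f g fun e he => h e (Or.inl he), lsZ_congr L.2 f g fun e he => h e (Or.inr he)]

theorem amp_par (dat : List (List (List Col))) (lab : List (List Bool)) (h : pchk dat lab = true)
    (h0 : lget lab 0 0 = false) (n : ℕ) : ∀ (σ : Fin n → Fin 3) (b : ℕ),
    par σ * amp (dget dat) n σ b = sg (lget lab n b) * amp (dget dat) n σ b := by
  induction n with
  | zero =>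
    intro σ b
    rcases b with _ | b
    · simp [amp, par, h0, sg]
    · simp [amp]
  | succ n ih =>
    intro σ b
    have h1 : par σ = par (Fin.init σ) * sg (!((σ (Fin.last n) : ℕ) == 1)) := by
      unfold par; rw [Fin.prod_univ_castSucc]; rfl
    rw [amp, h1, ← csZ_mul, ← csZ_mul]
    apply csZ_congr
    intro e he
    have h2 := pchk_sound dat lab h n (σ (Fin.last n)) b e he
    rw [← h2, sg_xor]
    have h3 := ih (Fin.init σ) e.1
    calc par (Fin.init σ) * sg (!((σ (Fin.last n) : ℕ) == 1)) * amp (dget dat) n (Fin.init σ) e.1
        = sg (!((σ (Fin.last n) : ℕ) == 1)) * (par (Fin.init σ) * amp (dget dat) n (Fin.init σ) e.1) := by ring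
      _ = _ := by rw [h3]; ring

theorem tens_wz_apply {n : ℕ} (σ τ : Fin n → Fin 3) :
    tens wz σ τ = if σ = τ then ((par σ : ℤ) : ℂ) else 0 := by
  simp only [tens, Matrix.of_apply]
  by_cases h : σ = τ
  · subst h
    rw [if_pos rfl, par]
    push_cast
    refine Finset.prod_congr rfl fun j _ => ?_
    generalize σ j = s
    fin_cases s <;> simp [wz, sg]
  · rw [if_neg h]
    obtain ⟨j, hj⟩ := Function.ne_iff.mp h
    apply Finset.prod_eq_zero (Finset.mem_univ j)
    exact Matrix.diagonal_apply_ne _ hj

theorem tens_wz_vec (dat : List (List (List Col))) (lab : List (List Bool)) (h : pchk dat lab = true)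
    (h0 : lget lab 0 0 = false) (n : ℕ) :
    (tens wz).mulVec (vec (dget dat) n) = ((sg (lget lab n 0) : ℤ) : ℂ) • vec (dget dat) n := by
  funext σ
  simp only [Matrix.mulVec, dotProduct, tens_wz_apply, ite_mul, zero_mul, Finset.sum_ite_eq,
    Finset.mem_univ, if_true, Pi.smul_apply, smul_eq_mul, vec]
  exact_mod_cast amp_par dat lab h h0 n σ 0

end Crest.Agent.R347
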