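import Crest.Agent.R347.RingData

/-! # Row 347: kernel evaluation of the certificate -/

set_option autoImplicit false

namespace Crest.Agent.R347.Ring

def isoL : List (List Int) :=
  addL (mulT c0 c0) (addL (mulT c1 c1) (addL (mulT c2 c2) (diagL 24 (-(q * q)))))

theorem iso_check : isZero isoL = true := by decide +kernel

/-- `2^24 q² Z_{st}` -/
def Z00 : List (List Int) :=
  addL (smulL 16777216 (addL (mulT c0 c0) (smulL (-1) (mulT c2 c2)))) (smulL (q * q) yl)
def Z11 : List (List Int) := smulL (q * q) yl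
def Z22 : List (List Int) :=
  addL (smulL 16777216 (addL (mulT c2 c2) (smulL (-1) (mulT c0 c0)))) (smulL (q * q) yl)
def Z01 : List (List Int) := smulL 16777216 (addL (mulT c1 c0) (mulT c2 c1))
def Z10 : List (List Int) := smulL 16777216 (addL (mulT c0 c1) (mulT c1 c2))

/-- `2^24 q⁴ Σ A_sᵀ Z_{st} A_t` -/
def Ml : List (List Int) :=
  addL (mulT c0 (mulT c0 Z00)) (addL (mulT c1 (mulT c1 Z11)) (addL (mulT c2 (mulT c2 Z22))
    (addL (addL (mulT c0 (mulT c1 Z01)) (mulT c1 (mulT c2 Z01)))
      (addL (mulT c1 (mulT c0 Z10)) (mulT c2 (mulT c1 Z10))))))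

/-- `5 (10^6 (e + Y - M) - 6)`, scaled by `2^24 q⁴` -/
def Rl : List (List Int) :=
  addL (smulL (-5000000) Ml) (addL (smulL (5000000 * q ^ 4) yl)
    (diagL 24 ((-7007370 - 30) * (16777216 * q ^ 4))))

theorem cert_check : allLe Rl (16777216 * q ^ 4) = true := by decide +kernel

end Crest.Agent.R347.Ring
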