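import Crest.Agent.R347.RingLists

/-! # Row 347: lists of rows as real matrices -/

set_option autoImplicit false

open Matrix

namespace Crest.Agent.R347.Ring

/-- entry of a list of rows -/
def entZ (L : List (List Int)) (i j : ℕ) : Int := (L.getD i []).getD j 0

/-- square shape -/
def Sh (n : ℕ) (M : List (List Int)) : Prop := M.length = n ∧ ∀ r ∈ M, r.length = n

theorem sh_of_shape {n : ℕ} {M : List (List Int)} (h : shape n M = true) : Sh n M := by
  unfold shape at h
  rw [Bool.and_eq_true, List.all_eq_true] at h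
  refine ⟨by simpa using h.1, fun r hr => ?_⟩
  have := h.2 r hr
  simpa using this

theorem dot_cons (a : Int) (l : List Int) (b : Int) (m : List Int) :
    dot (a :: l) (b :: m) = a * b + dot l m := by
  cases a with
  | ofNat n =>
    cases n with
    | zero =>
      show dot l m = _
      simp
    | succ k => rfl
  | negSucc n => rfl

theorem dot_eq_sum (l : List Int) : ∀ (m : List Int) (n : ℕ), l.length ≤ n →
    dot l m = ∑ i ∈ Finset.range n, l.getD i 0 * m.getD i 0 := by
  induction l with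
  | nil =>
    intro m n _
    show (0 : Int) = _
    simp
  | cons a l ih =>
    intro m n hn
    cases n with
    | zero => simp at hn
    | succ n =>
      cases m with
      | nil =>
        show (0 : Int) = _
        simp
      | cons b m =>
        rw [dot_cons, ih m n (by simpa using hn), Finset.sum_range_succ']
        simp only [List.getD_cons_succ, List.getD_cons_zero]
        ring

theorem row_length {n : ℕ} {M : List (List Int)} (h : Sh n M) {i : ℕ} (hi : i < n) :
    (M.getD i []).length = n := by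
  have hi' : i < M.length := by rw [h.1]; exact hi
  rw [List.getD_eq_getElem _ _ hi']
  exact h.2 _ (List.getElem_mem hi')

theorem sh_mulT {n : ℕ} {A B : List (List Int)} (hA : Sh n A) (hB : Sh n B) : Sh n (mulT A B) := by
  refine ⟨by rw [mulT, List.length_map, hA.1], fun r hr => ?_⟩
  rw [mulT, List.mem_map] at hr
  obtain ⟨a, _, rfl⟩ := hr
  rw [List.length_map, hB.1]

theorem sh_smulL {n : ℕ} {A : List (List Int)} (k : Int) (hA : Sh n A) : Sh n (smulL k A) := by
  refine ⟨by rw [smulL, List.length_map, hA.1], fun r hr => ?_⟩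
  rw [smulL, List.mem_map] at hr
  obtain ⟨a, ha, rfl⟩ := hr
  rw [List.length_map, hA.2 a ha]

theorem sh_addL {n : ℕ} {A B : List (List Int)} (hA : Sh n A) (hB : Sh n B) : Sh n (addL A B) := by
  refine ⟨by rw [addL, List.length_zipWith, hA.1, hB.1, min_self], fun r hr => ?_⟩
  rw [addL] at hr
  obtain ⟨i, hi, rfl⟩ := List.getElem_of_mem hr
  rw [List.getElem_zipWith, List.length_zipWith]
  rw [List.length_zipWith] at hi
  rw [hA.2 _ (List.getElem_mem _), hB.2 _ (List.getElem_mem _), min_self]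

theorem sh_diagL (n : ℕ) (v : Int) : Sh n (diagL n v) := by
  refine ⟨by rw [diagL, List.length_map, List.length_range], fun r hr => ?_⟩
  rw [diagL, List.mem_map] at hr
  obtain ⟨a, _, rfl⟩ := hr
  rw [List.length_map, List.length_range]

theorem entZ_eq {n : ℕ} {M : List (List Int)} (h : Sh n M) {i j : ℕ} (hi : i < n) (hj : j < n) :
    entZ M i j = (M[i]'(by rw [h.1]; exact hi))[j]'(by rw [h.2 _ (List.getElem_mem _)]; exact hj) := by
  have hi' : i < M.length := by rw [h.1]; exact hi
  have hj' : j < (M[i]).length := by rw [h.2 _ (List.getElem_mem _)]; exact hj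
  rw [entZ, List.getD_eq_getElem _ _ hi', List.getD_eq_getElem _ _ hj']

theorem entZ_mulT {n : ℕ} {A B : List (List Int)} (hA : Sh n A) (hB : Sh n B) {i j : ℕ} (hi : i < n)
    (hj : j < n) : entZ (mulT A B) i j = ∑ k ∈ Finset.range n, entZ A i k * entZ B j k := by
  rw [entZ_eq (sh_mulT hA hB) hi hj]
  have e : ((mulT A B)[i]'(by rw [(sh_mulT hA hB).1]; exact hi))[j]'(by
      rw [(sh_mulT hA hB).2 _ (List.getElem_mem _)]; exact hj) =
      dot (A[i]'(by rw [hA.1]; exact hi)) (B[j]'(by rw [hB.1]; exact hj)) := by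
    simp [mulT]
  rw [e, dot_eq_sum _ _ n (by rw [hA.2 _ (List.getElem_mem _)])]
  apply Finset.sum_congr rfl
  intro k _
  rw [entZ, entZ, List.getD_eq_getElem _ _ (by rw [hA.1]; exact hi : i < A.length),
    List.getD_eq_getElem _ _ (by rw [hB.1]; exact hj : j < B.length)]

theorem entZ_addL {n : ℕ} {A B : List (List Int)} (hA : Sh n A) (hB : Sh n B) {i j : ℕ} (hi : i < n)
    (hj : j < n) : entZ (addL A B) i j = entZ A i j + entZ B i j := by
  rw [entZ_eq (sh_addL hA hB) hi hj, entZ_eq hA hi hj, entZ_eq hB hi hj]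
  simp [addL]

theorem entZ_smulL {n : ℕ} {A : List (List Int)} (k : Int) (hA : Sh n A) {i j : ℕ} (hi : i < n)
    (hj : j < n) : entZ (smulL k A) i j = k * entZ A i j := by
  rw [entZ_eq (sh_smulL k hA) hi hj, entZ_eq hA hi hj]
  simp [smulL]

theorem entZ_diagL {n : ℕ} (v : Int) {i j : ℕ} (hi : i < n)
    (hj : j < n) : entZ (diagL n v) i j = if i = j then v else 0 := by
  rw [entZ_eq (sh_diagL n v) hi hj]
  simp [diagL]

/-- the real matrix of a list of rows -/
def toM (n : ℕ) (A : List (List Int)) : Matrix (Fin n) (Fin n) ℝ :=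
  Matrix.of fun i j => ((entZ A i j : Int) : ℝ)

theorem toM_mulT {n : ℕ} {A B : List (List Int)} (hA : Sh n A) (hB : Sh n B) :
    toM n (mulT A B) = toM n A * (toM n B)ᵀ := by
  ext i j
  rw [Matrix.mul_apply]
  simp only [toM, Matrix.of_apply, Matrix.transpose_apply]
  rw [entZ_mulT hA hB i.2 j.2, Int.cast_sum, Finset.sum_range]
  apply Finset.sum_congr rfl
  intro k _
  push_cast
  rfl

theorem toM_addL {n : ℕ} {A B : List (List Int)} (hA : Sh n A) (hB : Sh n B) :
    toM n (addL A B) = toM n A + toM n B := by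
  ext i j
  simp only [toM, Matrix.of_apply, Matrix.add_apply]
  rw [entZ_addL hA hB i.2 j.2]
  push_cast
  rfl

theorem toM_smulL {n : ℕ} {A : List (List Int)} (k : Int) (hA : Sh n A) :
    toM n (smulL k A) = (k : ℝ) • toM n A := by
  ext i j
  simp only [toM, Matrix.of_apply, Matrix.smul_apply, smul_eq_mul]
  rw [entZ_smulL k hA i.2 j.2]
  push_cast
  rfl

theorem toM_diagL {n : ℕ} (v : Int) : toM n (diagL n v) = (v : ℝ) • (1 : Matrix (Fin n) (Fin n) ℝ) := by
  ext i j
  simp only [toM, Matrix.of_apply, Matrix.smul_apply, smul_eq_mul, Matrix.one_apply]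
  rw [entZ_diagL v i.2 j.2]
  by_cases h : i = j
  · rw [if_pos h, if_pos (congrArg Fin.val h)]
    simp
  · rw [if_neg h, if_neg (fun h' => h (Fin.ext h'))]
    simp

theorem toM_of_isZero {n : ℕ} {M : List (List Int)} (h : isZero M = true) : toM n M = 0 := by
  ext i j
  simp only [toM, Matrix.of_apply, Matrix.zero_apply]
  unfold isZero at h
  rw [List.all_eq_true] at h
  have : entZ M i j = 0 := by
    unfold entZ
    by_cases hi : (i : ℕ) < M.length
    · rw [List.getD_eq_getElem _ _ hi]
      have h1 := h _ (List.getElem_mem hi)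
      rw [List.all_eq_true] at h1
      by_cases hj : (j : ℕ) < (M[(i : ℕ)]).length
      · rw [List.getD_eq_getElem _ _ hj]
        exact of_decide_eq_true (h1 _ (List.getElem_mem hj))
      · rw [List.getD_eq_default _ _ (not_lt.mp hj)]
    · rw [List.getD_eq_default _ _ (not_lt.mp hi)]
      rfl
  rw [this, Int.cast_zero]

theorem abs_toM_le {n : ℕ} {M : List (List Int)} {b : Int} (hb : 0 ≤ b) (h : allLe M b = true)
    (i j : Fin n) : |toM n M i j| ≤ b := by
  simp only [toM, Matrix.of_apply]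
  unfold allLe at h
  rw [List.all_eq_true] at h
  have : |entZ M i j| ≤ b := by
    unfold entZ
    by_cases hi : (i : ℕ) < M.length
    · rw [List.getD_eq_getElem _ _ hi]
      have h1 := h _ (List.getElem_mem hi)
      rw [List.all_eq_true] at h1
      by_cases hj : (j : ℕ) < (M[(i : ℕ)]).length
      · rw [List.getD_eq_getElem _ _ hj]
        have h2 := h1 _ (List.getElem_mem hj)
        rw [Bool.and_eq_true] at h2
        exact abs_le.mpr ⟨of_decide_eq_true h2.1, of_decide_eq_true h2.2⟩
      · rw [List.getD_eq_default _ _ (not_lt.mp hj), abs_zero]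
        exact hb
    · rw [List.getD_eq_default _ _ (not_lt.mp hi)]
      show |(0 : Int)| ≤ b
      rw [abs_zero]
      exact hb
  exact_mod_cast this

/-- quadratic form of a matrix with small entries -/
theorem quad_abs_le {n : ℕ} (E : Matrix (Fin n) (Fin n) ℝ) (δ : ℝ) (hE : ∀ i j, |E i j| ≤ δ)
    (x : Fin n → ℝ) : |x ⬝ᵥ (E *ᵥ x)| ≤ δ * n * (x ⬝ᵥ x) := by
  have h1 : |x ⬝ᵥ (E *ᵥ x)| ≤ ∑ i, ∑ j, |x i| * (δ * |x j|) := by
    rw [dotProduct]
    refine (Finset.abs_sum_le_sum_abs _ _).trans (Finset.sum_le_sum fun i _ => ?_)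
    rw [abs_mul, mulVec, dotProduct, ← Finset.mul_sum]
    apply mul_le_mul_of_nonneg_left _ (abs_nonneg _)
    refine (Finset.abs_sum_le_sum_abs _ _).trans (Finset.sum_le_sum fun j _ => ?_)
    rw [abs_mul]
    exact mul_le_mul_of_nonneg_right (hE i j) (abs_nonneg _)
  have h2 : ∑ i, ∑ j, |x i| * (δ * |x j|) = δ * (∑ i, |x i|) ^ 2 := by
    rw [sq, Finset.sum_mul_sum, Finset.mul_sum]
    apply Finset.sum_congr rfl
    intro i _
    rw [Finset.mul_sum]
    apply Finset.sum_congr rfl
    intro j _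
    ring
  have h3 : (∑ i, |x i|) ^ 2 ≤ (n : ℝ) * ∑ i, |x i| ^ 2 := by
    have := sq_sum_le_card_mul_sum_sq (s := (Finset.univ : Finset (Fin n))) (f := fun i => |x i|)
    simpa using this
  have h4 : ∑ i, |x i| ^ 2 = x ⬝ᵥ x := by
    rw [dotProduct]
    apply Finset.sum_congr rfl
    intro i _
    rw [sq_abs, sq]
  rcases Nat.eq_zero_or_pos n with hn | hn
  · subst hn
    simp [dotProduct]
  · have hδ : 0 ≤ δ := (abs_nonneg _).trans (hE ⟨0, hn⟩ ⟨0, hn⟩)
    calc |x ⬝ᵥ (E *ᵥ x)| ≤ δ * (∑ i, |x i|) ^ 2 := by rw [← h2]; exact h1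
      _ ≤ δ * ((n : ℝ) * ∑ i, |x i| ^ 2) := mul_le_mul_of_nonneg_left h3 hδ
      _ = δ * n * (x ⬝ᵥ x) := by rw [h4]; ring

end Crest.Agent.R347.Ring
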