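import Crest.Agent.R347.RingTheory
import Crest.Agent.R347.RingMat
import Crest.Agent.R347.RingCheck

/-!
# Row 347, piece MPS_RING : variational energy of the long open chain by a uniform MPS

Target: `mps_ring` below.  `-1.401474` is `1.0e-5` above the true energy per site
`e_∞ = -1.401484038971`.

Suggested route.  Real matrices `A^s` (`s = 0,1,2`, i.e. `m = 1,0,-1`; `D × D`, `D` about 22..30, built on
half-integer spin multiplets, e.g. `½,½,3/2,3/2,3/2,5/2` = 22 whose optimum is about `8e-6` above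
`e_∞`) with EXACT isometry `Σ_s A^sᵀ A^s = 1` over ℚ (e.g. product of rational Householder reflections
inside the `S^z` blocks; or a Cayley transform), real symmetric rational `Y` with
`K + Σ_s A^sᵀ Y A^s - Y ≤ eV • 1` (PSD order; check by rational LDLᵀ in the `S^z` blocks, `S^z` is conserved and
`m ↦ -m` is a symmetry so only the blocks `m = 1/2, 3/2, 5/2` matter), where
`K = Σ h_{(s,t),(s',t')} (A^s A^t)ᵀ (A^{s'} A^{t'})` is the bond energy (`h` = matrix of `S·S`, real in the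
`m`-basis).  With `ψ_m : 3^m × D`, `ψ_{m+1}(σ s; b) = Σ_a ψ_m(σ; a) A^s(a,b)`, `ψ_mᵀψ_m = 1` and
`X_m = ψ_mᵀ H_m ψ_m` satisfies `X_{m+1} = Σ A^sᵀ X_m A^s + K`, so `X_m ≤ m eV + C + Y` by induction and any
column of `ψ_m` is the wanted unit vector.  (Start from any isometry `ψ_{m0} : 3^{m0} × D`, or from an
arbitrary `C`: small `N` are trivial because `C` is free; e.g. take `D` extra copies / a start vector with
`ψ_{m0}` any isometry with `3^{m0} ≥ D`.)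
-/

set_option autoImplicit false

open Crest.MathPhysics.SpinChain Matrix

namespace Crest.Agent.R347

namespace Ring

/-- scale of `Y` -/
abbrev SS : ℝ := 16777216

theorem sh0 : Sh 24 c0 := sh_of_shape (by decide +kernel)
theorem sh1 : Sh 24 c1 := sh_of_shape (by decide +kernel)
theorem sh2 : Sh 24 c2 := sh_of_shape (by decide +kernel)
theorem shY : Sh 24 yl := sh_of_shape (by decide +kernel)
theorem q_pos : (0 : Int) < q := by decide +kernel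

noncomputable def C0 : Matrix (Fin 24) (Fin 24) ℝ := toM 24 c0
noncomputable def C1 : Matrix (Fin 24) (Fin 24) ℝ := toM 24 c1
noncomputable def C2 : Matrix (Fin 24) (Fin 24) ℝ := toM 24 c2
noncomputable def YL : Matrix (Fin 24) (Fin 24) ℝ := toM 24 yl
noncomputable def qr : ℝ := ((q : Int) : ℝ)

theorem qr_pos : 0 < qr := by
  have := q_pos
  unfold qr
  exact_mod_cast this

/-- the exact isometry relation -/
theorem iso_real : C0 * C0ᵀ + (C1 * C1ᵀ + (C2 * C2ᵀ + (-(qr * qr)) • (1 : Matrix (Fin 24) (Fin 24) ℝ))) = 0 := by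
  have h := toM_of_isZero (n := 24) iso_check
  unfold isoL at h
  rw [toM_addL (sh_mulT sh0 sh0) (sh_addL (sh_mulT sh1 sh1) (sh_addL (sh_mulT sh2 sh2) (sh_diagL _ _))),
    toM_addL (sh_mulT sh1 sh1) (sh_addL (sh_mulT sh2 sh2) (sh_diagL _ _)),
    toM_addL (sh_mulT sh2 sh2) (sh_diagL _ _), toM_mulT sh0 sh0, toM_mulT sh1 sh1, toM_mulT sh2 sh2,
    toM_diagL] at h
  unfold C0 C1 C2 qr
  push_cast at h
  exact h

theorem shZ00 : Sh 24 Z00 :=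
  sh_addL (sh_smulL _ (sh_addL (sh_mulT sh0 sh0) (sh_smulL _ (sh_mulT sh2 sh2)))) (sh_smulL _ shY)
theorem shZ11 : Sh 24 Z11 := sh_smulL _ shY
theorem shZ22 : Sh 24 Z22 :=
  sh_addL (sh_smulL _ (sh_addL (sh_mulT sh2 sh2) (sh_smulL _ (sh_mulT sh0 sh0)))) (sh_smulL _ shY)
theorem shZ01 : Sh 24 Z01 := sh_smulL _ (sh_addL (sh_mulT sh1 sh0) (sh_mulT sh2 sh1))
theorem shZ10 : Sh 24 Z10 := sh_smulL _ (sh_addL (sh_mulT sh0 sh1) (sh_mulT sh1 sh2))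

theorem rZ00 : toM 24 Z00 = SS • (C0 * C0ᵀ - C2 * C2ᵀ) + (qr * qr) • YL := by
  unfold Z00
  rw [toM_addL (sh_smulL _ (sh_addL (sh_mulT sh0 sh0) (sh_smulL _ (sh_mulT sh2 sh2)))) (sh_smulL _ shY),
    toM_smulL _ (sh_addL (sh_mulT sh0 sh0) (sh_smulL _ (sh_mulT sh2 sh2))),
    toM_addL (sh_mulT sh0 sh0) (sh_smulL _ (sh_mulT sh2 sh2)), toM_smulL _ (sh_mulT sh2 sh2),
    toM_smulL _ shY, toM_mulT sh0 sh0, toM_mulT sh2 sh2]
  unfold C0 C2 qr YL SS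
  push_cast
  rw [neg_one_smul, sub_eq_add_neg]

theorem rZ22 : toM 24 Z22 = SS • (C2 * C2ᵀ - C0 * C0ᵀ) + (qr * qr) • YL := by
  unfold Z22
  rw [toM_addL (sh_smulL _ (sh_addL (sh_mulT sh2 sh2) (sh_smulL _ (sh_mulT sh0 sh0)))) (sh_smulL _ shY),
    toM_smulL _ (sh_addL (sh_mulT sh2 sh2) (sh_smulL _ (sh_mulT sh0 sh0))),
    toM_addL (sh_mulT sh2 sh2) (sh_smulL _ (sh_mulT sh0 sh0)), toM_smulL _ (sh_mulT sh0 sh0),
    toM_smulL _ shY, toM_mulT sh0 sh0, toM_mulT sh2 sh2]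
  unfold C0 C2 qr YL SS
  push_cast
  rw [neg_one_smul, sub_eq_add_neg]

theorem rZ11 : toM 24 Z11 = (qr * qr) • YL := by
  unfold Z11
  rw [toM_smulL _ shY]
  unfold qr YL
  push_cast
  rfl

theorem rZ01 : toM 24 Z01 = SS • (C1 * C0ᵀ + C2 * C1ᵀ) := by
  unfold Z01
  rw [toM_smulL _ (sh_addL (sh_mulT sh1 sh0) (sh_mulT sh2 sh1)),
    toM_addL (sh_mulT sh1 sh0) (sh_mulT sh2 sh1), toM_mulT sh1 sh0, toM_mulT sh2 sh1]
  unfold C0 C1 C2 SS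
  push_cast
  rfl

theorem rZ10 : toM 24 Z10 = SS • (C0 * C1ᵀ + C1 * C2ᵀ) := by
  unfold Z10
  rw [toM_smulL _ (sh_addL (sh_mulT sh0 sh1) (sh_mulT sh1 sh2)),
    toM_addL (sh_mulT sh0 sh1) (sh_mulT sh1 sh2), toM_mulT sh0 sh1, toM_mulT sh1 sh2]
  unfold C0 C1 C2 SS
  push_cast
  rfl

theorem sand {a b z : List (List Int)} (ha : Sh 24 a) (hb : Sh 24 b) (hz : Sh 24 z) :
    toM 24 (mulT a (mulT b z)) = toM 24 a * toM 24 z * (toM 24 b)ᵀ := by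
  rw [toM_mulT ha (sh_mulT hb hz), toM_mulT hb hz, Matrix.transpose_mul, Matrix.transpose_transpose,
    Matrix.mul_assoc]

theorem shs {a b z : List (List Int)} (ha : Sh 24 a) (hb : Sh 24 b) (hz : Sh 24 z) :
    Sh 24 (mulT a (mulT b z)) := sh_mulT ha (sh_mulT hb hz)

theorem rMl : toM 24 Ml = C0 * toM 24 Z00 * C0ᵀ + (C1 * toM 24 Z11 * C1ᵀ + (C2 * toM 24 Z22 * C2ᵀ +
    ((C0 * toM 24 Z01 * C1ᵀ + C1 * toM 24 Z01 * C2ᵀ) + (C1 * toM 24 Z10 * C0ᵀ + C2 * toM 24 Z10 * C1ᵀ)))) := by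
  unfold Ml
  have a00 := shs sh0 sh0 shZ00
  have a11 := shs sh1 sh1 shZ11
  have a22 := shs sh2 sh2 shZ22
  have a01 := shs sh0 sh1 shZ01
  have a12 := shs sh1 sh2 shZ01
  have a10 := shs sh1 sh0 shZ10
  have a21 := shs sh2 sh1 shZ10
  rw [toM_addL a00 (sh_addL a11 (sh_addL a22 (sh_addL (sh_addL a01 a12) (sh_addL a10 a21)))),
    toM_addL a11 (sh_addL a22 (sh_addL (sh_addL a01 a12) (sh_addL a10 a21))),
    toM_addL a22 (sh_addL (sh_addL a01 a12) (sh_addL a10 a21)),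
    toM_addL (sh_addL a01 a12) (sh_addL a10 a21), toM_addL a01 a12, toM_addL a10 a21,
    sand sh0 sh0 shZ00, sand sh1 sh1 shZ11, sand sh2 sh2 shZ22, sand sh0 sh1 shZ01, sand sh1 sh2 shZ01,
    sand sh1 sh0 shZ10, sand sh2 sh1 shZ10]
  rfl

theorem shMl : Sh 24 Ml :=
  sh_addL (shs sh0 sh0 shZ00) (sh_addL (shs sh1 sh1 shZ11) (sh_addL (shs sh2 sh2 shZ22)
    (sh_addL (sh_addL (shs sh0 sh1 shZ01) (shs sh1 sh2 shZ01)) (sh_addL (shs sh1 sh0 shZ10) (shs sh2 sh1 shZ10)))))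

theorem rRl : toM 24 Rl = (-5000000 : ℝ) • toM 24 Ml + ((5000000 * qr ^ 4) • YL +
    ((-7007400) * (SS * qr ^ 4)) • (1 : Matrix (Fin 24) (Fin 24) ℝ)) := by
  unfold Rl
  rw [toM_addL (sh_smulL _ shMl) (sh_addL (sh_smulL _ shY) (sh_diagL _ _)), toM_smulL _ shMl,
    toM_addL (sh_smulL _ shY) (sh_diagL _ _), toM_smulL _ shY, toM_diagL]
  unfold YL qr SS
  push_cast
  norm_num

/-- the tensors -/
noncomputable def A : Fin 3 → Matrix (Fin 24) (Fin 24) ℝ := ![qr⁻¹ • C0ᵀ, qr⁻¹ • C1ᵀ, qr⁻¹ • C2ᵀ]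

noncomputable def Ym : Matrix (Fin 24) (Fin 24) ℝ := SS⁻¹ • YL

theorem A0 : A 0 = qr⁻¹ • C0ᵀ := rfl
theorem A1 : A 1 = qr⁻¹ • C1ᵀ := rfl
theorem A2 : A 2 = qr⁻¹ • C2ᵀ := rfl

theorem C0_eq : C0ᵀ = qr • A 0 := by rw [A0, smul_smul, mul_inv_cancel₀ qr_pos.ne', one_smul]
theorem C1_eq : C1ᵀ = qr • A 1 := by rw [A1, smul_smul, mul_inv_cancel₀ qr_pos.ne', one_smul]
theorem C2_eq : C2ᵀ = qr • A 2 := by rw [A2, smul_smul, mul_inv_cancel₀ qr_pos.ne', one_smul]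
theorem C0_eq' : C0 = qr • (A 0)ᵀ := by rw [← Matrix.transpose_smul, ← C0_eq, Matrix.transpose_transpose]
theorem C1_eq' : C1 = qr • (A 1)ᵀ := by rw [← Matrix.transpose_smul, ← C1_eq, Matrix.transpose_transpose]
theorem C2_eq' : C2 = qr • (A 2)ᵀ := by rw [← Matrix.transpose_smul, ← C2_eq, Matrix.transpose_transpose]
theorem YL_eq : YL = SS • Ym := by
  rw [Ym, smul_smul, mul_inv_cancel₀ (by norm_num), one_smul]

theorem iso_A : (A 0)ᵀ * A 0 + (A 1)ᵀ * A 1 + (A 2)ᵀ * A 2 = 1 := by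
  have h := iso_real
  rw [C0_eq, C1_eq, C2_eq, C0_eq', C1_eq', C2_eq'] at h
  simp only [Matrix.smul_mul, Matrix.mul_smul, smul_smul] at h
  have h2 : (qr * qr) • ((A 0)ᵀ * A 0 + (A 1)ᵀ * A 1 + (A 2)ᵀ * A 2 - 1) = 0 := by
    rw [smul_sub, smul_add, smul_add]
    rw [neg_smul] at h
    rw [← h]
    abel
  have h3 : (qr * qr) ≠ 0 := (mul_pos qr_pos qr_pos).ne'
  have h4 := (smul_eq_zero.mp h2).resolve_left h3
  exact sub_eq_zero.mp h4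

theorem dot_mulVec_mulVec {n : Type*} [Fintype n] (B C : Matrix n n ℝ) (x y : n → ℝ) :
    (B *ᵥ x) ⬝ᵥ (C *ᵥ y) = x ⬝ᵥ ((Bᵀ * C) *ᵥ y) := by
  rw [← Matrix.mulVec_mulVec, Matrix.dotProduct_mulVec x, Matrix.vecMul_transpose]

theorem hiso (x y : Fin 24 → ℝ) : ∑ s, (A s *ᵥ x) ⬝ᵥ (A s *ᵥ y) = x ⬝ᵥ y := by
  rw [Fin.sum_univ_three, dot_mulVec_mulVec, dot_mulVec_mulVec, dot_mulVec_mulVec, ← dotProduct_add,
    ← dotProduct_add, ← Matrix.add_mulVec, ← Matrix.add_mulVec, iso_A, Matrix.one_mulVec]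

/-- the matrix `K + Σ Aᵀ Y A` -/
noncomputable def Mm : Matrix (Fin 24) (Fin 24) ℝ :=
  (A 0)ᵀ * ((A 0)ᵀ * A 0 - (A 2)ᵀ * A 2 + Ym) * A 0 + ((A 1)ᵀ * Ym * A 1 +
    ((A 2)ᵀ * ((A 2)ᵀ * A 2 - (A 0)ᵀ * A 0 + Ym) * A 2 +
    (((A 0)ᵀ * ((A 1)ᵀ * A 0 + (A 2)ᵀ * A 1) * A 1 + (A 1)ᵀ * ((A 1)ᵀ * A 0 + (A 2)ᵀ * A 1) * A 2) +
     ((A 1)ᵀ * ((A 0)ᵀ * A 1 + (A 1)ᵀ * A 2) * A 0 + (A 2)ᵀ * ((A 0)ᵀ * A 1 + (A 1)ᵀ * A 2) * A 1))))

theorem rMl_eq : toM 24 Ml = (SS * qr ^ 4) • Mm := by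
  rw [rMl, rZ00, rZ11, rZ22, rZ01, rZ10, Mm, YL_eq, C0_eq, C1_eq, C2_eq, C0_eq', C1_eq', C2_eq']
  simp only [Matrix.smul_mul, Matrix.mul_smul, smul_smul, smul_add, smul_sub, Matrix.mul_add, Matrix.mul_sub,
    Matrix.add_mul, Matrix.sub_mul]
  have e1 : qr * (SS * (qr * qr) * qr) = SS * qr ^ 4 := by ring
  have e2 : qr * (qr * qr * SS * qr) = SS * qr ^ 4 := by ring
  simp only [e1, e2]

theorem kform_eq (x : Fin 24 → ℝ) :
    kform A x + ∑ s, (A s *ᵥ x) ⬝ᵥ (Ym *ᵥ (A s *ᵥ x)) = x ⬝ᵥ (Mm *ᵥ x) := by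
  have hs : ∀ (B C Z : Matrix (Fin 24) (Fin 24) ℝ), x ⬝ᵥ ((Bᵀ * Z * C) *ᵥ x) = (B *ᵥ x) ⬝ᵥ (Z *ᵥ (C *ᵥ x)) := by
    intro B C Z
    rw [Matrix.mulVec_mulVec, dot_mulVec_mulVec, Matrix.mul_assoc]
  have hu : ∀ (B C : Matrix (Fin 24) (Fin 24) ℝ) (v w : Fin 24 → ℝ),
      v ⬝ᵥ ((Bᵀ * C) *ᵥ w) = (B *ᵥ v) ⬝ᵥ (C *ᵥ w) := fun B C v w => (dot_mulVec_mulVec B C v w).symm
  rw [Mm]
  simp only [Matrix.add_mulVec, dotProduct_add, hs, Matrix.sub_mulVec, dotProduct_sub, hu]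
  rw [Fin.sum_univ_three]
  simp [kform, Fin.sum_univ_three, hbZ]
  ring

theorem hcert (x : Fin 24 → ℝ) : kform A x + ∑ s, (A s *ᵥ x) ⬝ᵥ (Ym *ᵥ (A s *ᵥ x)) ≤
    x ⬝ᵥ (Ym *ᵥ x) + (-1401474 / 1000000 : ℝ) * (x ⬝ᵥ x) := by
  rw [kform_eq]
  have hb : ∀ i j, |toM 24 Rl i j| ≤ SS * qr ^ 4 := by
    intro i j
    have h0 : (0 : Int) ≤ 16777216 * q ^ 4 := by
      have := q_pos
      positivity
    have h := abs_toM_le h0 cert_check i j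
    unfold qr SS
    push_cast at h
    exact h
  have hs : 0 < SS * qr ^ 4 := by
    have := qr_pos
    unfold SS
    positivity
  have hR : toM 24 Rl = (SS * qr ^ 4) • ((-5000000 : ℝ) • Mm + ((5000000 : ℝ) • Ym +
      (-7007400 : ℝ) • (1 : Matrix (Fin 24) (Fin 24) ℝ))) := by
    rw [rRl, rMl_eq, YL_eq]
    simp only [smul_add, smul_smul]
    congr 1
    · congr 1
      ring
    · congr 1
      · congr 1
        ring
      · congr 1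
        ring
  set E : Matrix (Fin 24) (Fin 24) ℝ := (-5000000 : ℝ) • Mm + ((5000000 : ℝ) • Ym +
      (-7007400 : ℝ) • (1 : Matrix (Fin 24) (Fin 24) ℝ)) with hE
  have hEb : ∀ i j, |E i j| ≤ 1 := by
    intro i j
    have h := hb i j
    rw [hR, Matrix.smul_apply, smul_eq_mul, abs_mul, abs_of_pos hs] at h
    exact le_of_mul_le_mul_left (by rw [mul_one]; exact h) hs
  have hq := quad_abs_le E 1 hEb x
  rw [hE] at hq
  simp only [Matrix.add_mulVec, Matrix.smul_mulVec, dotProduct_add, dotProduct_smul, Matrix.one_mulVec,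
    smul_eq_mul] at hq
  have h1 := (abs_le.mp hq).1
  have hxx : 0 ≤ x ⬝ᵥ x := by
    rw [dotProduct]
    exact Finset.sum_nonneg fun i _ => mul_self_nonneg _
  push_cast at h1
  linarith

theorem exists_bound {n : ℕ} (Y : Matrix (Fin n) (Fin n) ℝ) : ∃ B : ℝ, ∀ x : Fin n → ℝ,
    |x ⬝ᵥ (Y *ᵥ x)| ≤ B * (x ⬝ᵥ x) := by
  refine ⟨(∑ i, ∑ j, |Y i j|) * n, fun x => quad_abs_le Y _ (fun i j => ?_) x⟩
  calc |Y i j| ≤ ∑ j, |Y i j| := Finset.single_le_sum (f := fun j => |Y i j|) (fun _ _ => abs_nonneg _)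
        (Finset.mem_univ j)
    _ ≤ ∑ i, ∑ j, |Y i j| := Finset.single_le_sum (f := fun i => ∑ j, |Y i j|)
        (fun _ _ => Finset.sum_nonneg fun _ _ => abs_nonneg _) (Finset.mem_univ i)

end Ring

theorem mps_ring : ∃ C : ℝ, ∀ N : ℕ, ∃ ψ : (Fin (N + 1) → Fin 3) → ℂ, ψ ≠ 0 ∧
    (star ψ ⬝ᵥ (openH N 0 0).mulVec ψ).re ≤
      ((-1401474 / 1000000 : ℝ) * (N + 1) + C) * (star ψ ⬝ᵥ ψ).re := by
  obtain ⟨B, hB⟩ := Ring.exists_bound Ring.Ym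
  refine Ring.ring_of_cert Ring.A Ring.hiso (fun x => x ⬝ᵥ (Ring.Ym *ᵥ x)) (-1401474 / 1000000)
    (1401474 / 1000000 + B) (fun x => ?_) Ring.hcert 0
  have h1 := (abs_le.mp (hB x)).1
  linarith

end Crest.Agent.R347
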