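import Crest.Agent.R347.MpsEval
import Crest.Agent.R347.Defs

/-!
# Row 347: correctness of the kernel evaluation of matrix product states
-/

set_option autoImplicit false

open Crest.MathPhysics.SpinChain Matrix

namespace Crest.Agent.R347

/-! ## sparse columns -/

theorem ls_nil (f : ℕ → ℕ) : ls [] f = 0 := rfl
theorem ls_cons (h : Ent) (L : List Ent) (f : ℕ → ℕ) : ls (h :: L) f = h.2 * f h.1 + ls L f := rfl

/-- integer column sum -/
def lsZ (L : List Ent) (f : ℕ → ℤ) : ℤ := (L.map fun e => (e.2 : ℤ) * f e.1).sum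

def csZ (L : Col) (f : ℕ → ℤ) : ℤ := lsZ L.1 f - lsZ L.2 f

theorem ls_cast (L : List Ent) (f : ℕ → ℕ) : ((ls L f : ℕ) : ℤ) = lsZ L fun a => (f a : ℤ) := by
  induction L with
  | nil => rfl
  | cons h L ih => rw [ls_cons]; push_cast; rw [ih]; simp [lsZ]

theorem lsZ_sub (L : List Ent) (f g : ℕ → ℤ) : lsZ L (fun a => f a - g a) = lsZ L f - lsZ L g := by
  induction L with
  | nil => simp [lsZ]
  | cons h L ih => simp only [lsZ, List.map_cons, List.sum_cons] at ih ⊢; rw [ih]; ring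

theorem lsZ_add (L : List Ent) (f g : ℕ → ℤ) : lsZ L (fun a => f a + g a) = lsZ L f + lsZ L g := by
  induction L with
  | nil => simp [lsZ]
  | cons h L ih => simp only [lsZ, List.map_cons, List.sum_cons] at ih ⊢; rw [ih]; ring

theorem lsZ_mul (L : List Ent) (c : ℤ) (f : ℕ → ℤ) : lsZ L (fun a => c * f a) = c * lsZ L f := by
  induction L with
  | nil => simp [lsZ]
  | cons h L ih => simp only [lsZ, List.map_cons, List.sum_cons] at ih ⊢; rw [ih]; ring

theorem csZ_add (L : Col) (f g : ℕ → ℤ) : csZ L (fun a => f a + g a) = csZ L f + csZ L g := by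
  simp only [csZ, lsZ_add]; ring

theorem csZ_mul (L : Col) (c : ℤ) (f : ℕ → ℤ) : csZ L (fun a => c * f a) = c * csZ L f := by
  simp only [csZ, lsZ_mul]; ring

theorem csZ_zero (L : Col) : csZ L (fun _ => 0) = 0 := by
  have := csZ_mul L 0 (fun _ => 0)
  simpa using this

theorem csZ_sum {ι : Type*} (s : Finset ι) (L : Col) (f : ι → ℕ → ℤ) :
    csZ L (fun a => ∑ i ∈ s, f i a) = ∑ i ∈ s, csZ L (f i) := by
  classical
  induction s using Finset.induction_on with
  | empty => simpa using csZ_zero L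
  | insert i s hi ih => simp only [Finset.sum_insert hi]; rw [csZ_add, ih]

theorem cs_sub (L : Col) (f : Bool → ℕ → ℕ) :
    ((cs L f false : ℕ) : ℤ) - (cs L f true : ℕ) = csZ L fun a => (f false a : ℤ) - f true a := by
  obtain ⟨p, n⟩ := L
  have h1 : cs (p, n) f false = ls p (f false) + ls n (f true) := rfl
  have h2 : cs (p, n) f true = ls p (f true) + ls n (f false) := rfl
  rw [h1, h2]
  push_cast
  simp only [ls_cast, csZ, lsZ_sub]
  ring

/-- value of a signed function -/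
def sv (M : Bool → ℕ → ℕ → ℕ) (a b : ℕ) : ℤ := (M false a b : ℤ) - M true a b

theorem lr_sub (D : ℕ → ℕ → Col) (M : Bool → ℕ → ℕ → ℕ) (s t a b : ℕ) :
    ((lr D M s t a b false : ℕ) : ℤ) - (lr D M s t a b true : ℕ) =
      csZ (D s a) fun a' => csZ (D t b) fun b' => sv M a' b' := by
  unfold lr
  rw [cs_sub]
  congr 1
  funext a'
  unfold rr
  rw [cs_sub (D t b) (fun c b => M c a' b)]
  rfl

/-! ## configurations -/

/-- `M ⊗ O` -/
def ext {R : Type*} [Mul R] {n : ℕ} (M : Matrix (Fin n → Fin 3) (Fin n → Fin 3) R)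
    (O : Matrix (Fin 3) (Fin 3) R) : Matrix (Fin (n + 1) → Fin 3) (Fin (n + 1) → Fin 3) R :=
  Matrix.of fun σ τ => M (Fin.init σ) (Fin.init τ) * O (σ (Fin.last n)) (τ (Fin.last n))

/-- amplitude vector -/
def amp (D : ℕ → ℕ → ℕ → Col) : (n : ℕ) → (Fin n → Fin 3) → ℕ → ℤ
  | 0, _, b => if b = 0 then 1 else 0
  | n + 1, σ, b => csZ (D n (σ (Fin.last n)).val b) fun a => amp D n (Fin.init σ) a

/-- environment -/
def env (D : ℕ → ℕ → ℕ → Col) (n : ℕ) (M : Matrix (Fin n → Fin 3) (Fin n → Fin 3) ℤ) (a b : ℕ) : ℤ :=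
  ∑ σ, ∑ τ, amp D n σ a * M σ τ * amp D n τ b

theorem sum_cfg_succ {R : Type*} [AddCommMonoid R] (n : ℕ) (f : (Fin (n + 1) → Fin 3) → R) :
    ∑ σ, f σ = ∑ s : Fin 3, ∑ σ : Fin n → Fin 3, f (Fin.snoc σ s) := by
  rw [← (Fin.snocEquiv (fun _ : Fin (n + 1) => Fin 3)).sum_comp, Fintype.sum_prod_type]
  rfl

theorem env_ext (D : ℕ → ℕ → ℕ → Col) (n : ℕ) (M : Matrix (Fin n → Fin 3) (Fin n → Fin 3) ℤ)
    (O : Matrix (Fin 3) (Fin 3) ℤ) (a b : ℕ) :
    env D (n + 1) (ext M O) a b = ∑ s : Fin 3, ∑ t : Fin 3, O s t *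
      csZ (D n s a) fun a' => csZ (D n t b) fun b' => env D n M a' b' := by
  unfold env
  rw [sum_cfg_succ]
  refine Finset.sum_congr rfl fun s _ => ?_
  simp_rw [sum_cfg_succ]
  rw [Finset.sum_comm]
  refine Finset.sum_congr rfl fun t _ => ?_
  simp only [csZ_sum, amp, ext, Matrix.of_apply, Fin.snoc_last, Fin.init_snoc]
  rw [Finset.mul_sum]
  refine Finset.sum_congr rfl fun σ _ => ?_
  rw [Finset.mul_sum]
  refine Finset.sum_congr rfl fun τ _ => ?_
  have h1 : ∀ a', csZ (D n t b) (fun b' => amp D n σ a' * M σ τ * amp D n τ b') =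
      csZ (D n t b) (fun b' => amp D n τ b') * M σ τ * amp D n σ a' := by
    intro a'; rw [csZ_mul]; ring
  simp only [h1]
  rw [csZ_mul]
  ring

theorem env_add (D : ℕ → ℕ → ℕ → Col) (n : ℕ) (M M' : Matrix (Fin n → Fin 3) (Fin n → Fin 3) ℤ) (a b : ℕ) :
    env D n (M + M') a b = env D n M a b + env D n M' a b := by
  simp only [env, Matrix.add_apply, mul_add, add_mul, Finset.sum_add_distrib]

theorem env_smul (D : ℕ → ℕ → ℕ → Col) (n : ℕ) (c : ℤ) (M : Matrix (Fin n → Fin 3) (Fin n → Fin 3) ℤ)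
    (a b : ℕ) : env D n (c • M) a b = c * env D n M a b := by
  simp only [env, Matrix.smul_apply, smul_eq_mul, Finset.mul_sum]
  refine Finset.sum_congr rfl fun σ _ => Finset.sum_congr rfl fun τ _ => ?_
  ring

/-! ## the integer Hamiltonian -/

def Zm : Matrix (Fin 3) (Fin 3) ℤ := !![1, 0, 0; 0, 0, 0; 0, 0, -1]
def Tm : Matrix (Fin 3) (Fin 3) ℤ := !![0, 1, 0; 0, 0, 1; 0, 0, 0]

def lst (O : Matrix (Fin 3) (Fin 3) ℤ) : (n : ℕ) → Matrix (Fin n → Fin 3) (Fin n → Fin 3) ℤ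
  | 0 => 0
  | _ + 1 => ext 1 O

/-- `5 H` with a non-symmetrised hop term (`2 T ⊗ Tᵀ` in place of `T ⊗ Tᵀ + Tᵀ ⊗ T`) -/
def Hz (w : ℕ → ℤ) : (n : ℕ) → Matrix (Fin n → Fin 3) (Fin n → Fin 3) ℤ
  | 0 => 0
  | n + 1 => ext (Hz w n) 1 + (5 : ℤ) • ext (lst Zm n) Zm + (10 : ℤ) • ext (lst Tm n) Tmᵀ +
      w n • ext 1 Zm

theorem ext_one {R : Type*} [CommRing R] (n : ℕ) :
    ext (1 : Matrix (Fin n → Fin 3) (Fin n → Fin 3) R) 1 = 1 := by
  ext σ τ
  simp only [ext, Matrix.of_apply, Matrix.one_apply]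
  by_cases h : σ = τ
  · subst h; simp
  · rw [if_neg h]
    by_cases h1 : Fin.init σ = Fin.init τ
    · rw [if_pos h1, if_neg, mul_zero]
      intro h2
      apply h
      rw [← Fin.snoc_init_self σ, ← Fin.snoc_init_self τ, h1, h2]
    · rw [if_neg h1, zero_mul]

/-! ## correctness of the recursion -/

structure Good (D : ℕ → ℕ → ℕ → Col) (w : ℕ → ℤ) (n : ℕ) (S : S4) : Prop where
  G : ∀ a b, sv S.G a b = env D n 1 a b
  Z : ∀ a b, sv S.Z a b = env D n (lst Zm n) a b
  T : ∀ a b, sv S.T a b = env D n (lst Tm n) a b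
  X : ∀ a b, sv S.X a b = env D n (Hz w n) a b

theorem good_zero (D : ℕ → ℕ → ℕ → Col) (w : ℕ → ℤ) : Good D w 0 st0 := by
  refine ⟨?_, ?_, ?_, ?_⟩
  · intro a b
    have h1 : env D 0 1 a b = (if a = 0 then 1 else 0) * (if b = 0 then 1 else 0) := by
      simp [env, amp]
    rw [h1]
    unfold sv st0 g0
    rcases a with _ | a <;> rcases b with _ | b <;> simp
  · intro a b; simp [sv, st0, env, lst]
  · intro a b; simp [sv, st0, env, lst]
  · intro a b; simp [sv, st0, env, Hz]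

theorem stZ_sub (D : ℕ → ℕ → Col) (M : Bool → ℕ → ℕ → ℕ) (a b : ℕ) :
    ((stZ D M false a b : ℕ) : ℤ) - (stZ D M true a b : ℕ) =
      (csZ (D 0 a) fun a' => csZ (D 0 b) fun b' => sv M a' b') -
      (csZ (D 2 a) fun a' => csZ (D 2 b) fun b' => sv M a' b') := by
  rw [← lr_sub, ← lr_sub]
  have h1 : stZ D M false a b = lr D M 0 0 a b false + lr D M 2 2 a b true := rfl
  have h2 : stZ D M true a b = lr D M 0 0 a b true + lr D M 2 2 a b false := rfl
  rw [h1, h2]; push_cast; ring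

theorem good_step (D : ℕ → ℕ → ℕ → Col) (w : ℕ → ℤ) (n p q : ℕ) (hw : w n = (p : ℤ) - q) (S : S4)
    (hS : Good D w n S) : Good D w (n + 1) (step (D n) p q S) := by
  have hG : (fun a' b' => sv S.G a' b') = fun a' b' => env D n 1 a' b' := by
    funext a b; exact hS.G a b
  have hZ : (fun a' b' => sv S.Z a' b') = fun a' b' => env D n (lst Zm n) a' b' := by
    funext a b; exact hS.Z a b
  have hT : (fun a' b' => sv S.T a' b') = fun a' b' => env D n (lst Tm n) a' b' := by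
    funext a b; exact hS.T a b
  have hX : (fun a' b' => sv S.X a' b') = fun a' b' => env D n (Hz w n) a' b' := by
    funext a b; exact hS.X a b
  refine ⟨?_, ?_, ?_, ?_⟩
  · intro a b
    rw [← ext_one, env_ext]
    have h : sv (step (D n) p q S).G a b = (((lr (D n) S.G 0 0 a b false : ℕ) : ℤ) - (lr (D n) S.G 0 0 a b true : ℕ))
      + ((((lr (D n) S.G 1 1 a b false : ℕ) : ℤ) - (lr (D n) S.G 1 1 a b true : ℕ)) +
       (((lr (D n) S.G 2 2 a b false : ℕ) : ℤ) - (lr (D n) S.G 2 2 a b true : ℕ))) := by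
      have e : ∀ c, (step (D n) p q S).G c a b = lr (D n) S.G 0 0 a b c + (lr (D n) S.G 1 1 a b c +
        lr (D n) S.G 2 2 a b c) := fun c => rfl
      unfold sv; rw [e, e]; push_cast; ring
    rw [h, lr_sub, lr_sub, lr_sub]
    simp only [hS.G]
    simp [Fin.sum_univ_three, Matrix.one_apply]
    ring
  · intro a b
    rw [lst, env_ext]
    have h : sv (step (D n) p q S).Z a b = ((stZ (D n) S.G false a b : ℕ) : ℤ) - (stZ (D n) S.G true a b : ℕ) := rfl
    rw [h, stZ_sub]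
    simp only [hS.G]
    simp [Fin.sum_univ_three, Zm]
    ring
  · intro a b
    rw [lst, env_ext]
    have h : sv (step (D n) p q S).T a b = (((lr (D n) S.G 0 1 a b false : ℕ) : ℤ) - (lr (D n) S.G 0 1 a b true : ℕ))
      + ((((lr (D n) S.G 1 2 a b false : ℕ) : ℤ) - (lr (D n) S.G 1 2 a b true : ℕ))) := by
      have e : ∀ c, (step (D n) p q S).T c a b = lr (D n) S.G 0 1 a b c + (lr (D n) S.G 1 2 a b c) := fun c => rfl
      unfold sv; rw [e, e]; push_cast; ring
    rw [h, lr_sub, lr_sub]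
    simp only [hS.G]
    simp [Fin.sum_univ_three, Tm]
  · intro a b
    rw [Hz, env_add, env_add, env_add, env_smul, env_smul, env_smul, env_ext, env_ext, env_ext, env_ext]
    have h : sv (step (D n) p q S).X a b =
      ((((lr (D n) S.X 0 0 a b false : ℕ) : ℤ) - (lr (D n) S.X 0 0 a b true : ℕ))
      + ((((lr (D n) S.X 1 1 a b false : ℕ) : ℤ) - (lr (D n) S.X 1 1 a b true : ℕ)) +
       (((lr (D n) S.X 2 2 a b false : ℕ) : ℤ) - (lr (D n) S.X 2 2 a b true : ℕ))))
      + (5 * (((stZ (D n) S.Z false a b : ℕ) : ℤ) - (stZ (D n) S.Z true a b : ℕ))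
      + (10 * ((((lr (D n) S.T 1 0 a b false : ℕ) : ℤ) - (lr (D n) S.T 1 0 a b true : ℕ)) +
          (((lr (D n) S.T 2 1 a b false : ℕ) : ℤ) - (lr (D n) S.T 2 1 a b true : ℕ)))
      + ((p : ℤ) - q) * (((stZ (D n) S.G false a b : ℕ) : ℤ) - (stZ (D n) S.G true a b : ℕ)))) := by
      have e1 : (step (D n) p q S).X false a b =
        (lr (D n) S.X 0 0 a b false + (lr (D n) S.X 1 1 a b false + lr (D n) S.X 2 2 a b false))
        + (5 * stZ (D n) S.Z false a b + (10 * (lr (D n) S.T 1 0 a b false + lr (D n) S.T 2 1 a b false)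
        + (p * stZ (D n) S.G false a b + q * stZ (D n) S.G true a b))) := rfl
      have e2 : (step (D n) p q S).X true a b =
        (lr (D n) S.X 0 0 a b true + (lr (D n) S.X 1 1 a b true + lr (D n) S.X 2 2 a b true))
        + (5 * stZ (D n) S.Z true a b + (10 * (lr (D n) S.T 1 0 a b true + lr (D n) S.T 2 1 a b true)
        + (p * stZ (D n) S.G true a b + q * stZ (D n) S.G false a b))) := rfl
      unfold sv; rw [e1, e2]; push_cast; ring
    rw [h, lr_sub, lr_sub, lr_sub, lr_sub, lr_sub, stZ_sub, stZ_sub, hw]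
    simp only [hS.G, hS.Z, hS.T, hS.X]
    simp [Fin.sum_univ_three, Zm, Tm, Matrix.one_apply]
    ring

theorem good_st (dat : List (List (List Col))) (f : ℕ → ℕ × ℕ) (n : ℕ) :
    Good (dget dat) (fun n => ((f n).1 : ℤ) - (f n).2) n (st dat f n) := by
  induction n with
  | zero => exact good_zero _ _
  | succ n ih => exact good_step _ _ n _ _ rfl _ ih

end Crest.Agent.R347
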