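import Crest.Agent.R347.NDefs

/-!
# Row 347 numerics, piece NA1: matrix elements of the twisted bond

`S⁻_i S⁺_j` raises the INDEX at `i` and lowers the index at `j` (index `k` carries `m = 1 - k`).
With `S^± = S^x ± i S^y`:  `S^x S^x + S^y S^y = (S⁺S⁻ + S⁻S⁺)/2`,
`-S^x_i S^y_j + S^y_i S^x_j = (i/2) S⁻_i S⁺_j - (i/2) S⁺_i S⁻_j` (twist `c4`); all nonzero matrix elements of
`S⁺_i S⁻_j` are `√2 √2 = 2`.  Route: first compute `(onSite A i * onSite B j) c c'` for `i ≠ j` (`= A (c i) (c' i) * B (c j) (c' j)`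
if `c, c'` agree off `{i, j}`, else 0), expand `tbond`, then `fin_cases` on the values of `c i, c' i, c j, c' j`.
-/

set_option autoImplicit false

open Crest.MathPhysics.SpinChain Matrix

namespace Crest.Agent.R347

theorem onSite_mul_apply {n : ℕ} (A B : Matrix (Fin 3) (Fin 3) ℂ) (i j : Fin (n + 1)) (hij : i ≠ j)
    (c c' : Cfg n) : (onSite A i * onSite B j) c c' =
      if (∀ l, l ≠ i → l ≠ j → c l = c' l) then A (c i) (c' i) * B (c j) (c' j) else 0 := by
  rw [Matrix.mul_apply, Finset.sum_eq_single (Function.update c i (c' i))]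
  · have h1 : ∀ k, k ≠ i → c k = Function.update c i (c' i) k := by
      intro k hk
      rw [Function.update_of_ne hk]
    have h2 : (∀ k, k ≠ j → Function.update c i (c' i) k = c' k) ↔
        (∀ l, l ≠ i → l ≠ j → c l = c' l) := by
      constructor
      · intro h l hl hl'
        have := h l hl'
        rwa [Function.update_of_ne hl] at this
      · intro h k hk
        by_cases hki : k = i
        · subst hki; simp
        · rw [Function.update_of_ne hki]; exact h k hki hk
    unfold onSite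
    simp only [Matrix.of_apply]
    rw [if_pos h1]
    simp only [h2, Function.update_self, Function.update_of_ne hij.symm]
    split_ifs <;> simp
  · intro d _ hd
    unfold onSite
    simp only [Matrix.of_apply]
    by_cases h1 : ∀ k, k ≠ i → c k = d k
    · by_cases h2 : ∀ k, k ≠ j → d k = c' k
      · exfalso
        apply hd
        funext k
        by_cases hk : k = i
        · subst hk; rw [Function.update_self]; exact h2 k hij
        · rw [Function.update_of_ne hk]; exact (h1 k hk).symm
      · rw [if_neg h2, mul_zero]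
    · rw [if_neg h1, zero_mul]
  · intro h; exact absurd (Finset.mem_univ _) h

/-- entries of `S⁺` -/
noncomputable def eP (x x' : Fin 3) : ℂ := if (x' : ℕ) = (x : ℕ) + 1 then ((Real.sqrt 2 : ℝ) : ℂ) else 0
/-- entries of `S^z` -/
noncomputable def eZ (x x' : Fin 3) : ℂ := if x = x' then 1 - ((x : ℕ) : ℂ) else 0

theorem spinX_apply' (x x' : Fin 3) : spinX x x' = (eP x x' + eP x' x) / 2 := by
  have : star (spinPlus x' x) = eP x' x := by
    unfold spinPlus eP
    simp only [Matrix.of_apply]
    split_ifs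
    · exact Complex.conj_ofReal _
    · simp
  simp only [spinX, Matrix.smul_apply, Matrix.add_apply, spinMinus, Matrix.conjTranspose_apply, this,
    smul_eq_mul]
  have h2 : spinPlus x x' = eP x x' := rfl
  rw [h2]; ring

theorem spinY_apply' (x x' : Fin 3) : spinY x x' = -Complex.I * (eP x x' - eP x' x) / 2 := by
  have : star (spinPlus x' x) = eP x' x := by
    unfold spinPlus eP
    simp only [Matrix.of_apply]
    split_ifs
    · exact Complex.conj_ofReal _
    · simp
  simp only [spinY, Matrix.smul_apply, Matrix.sub_apply, spinMinus, Matrix.conjTranspose_apply, this,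
    smul_eq_mul]
  have h2 : spinPlus x x' = eP x x' := rfl
  have h3 : (1 / (2 * Complex.I) : ℂ) = -Complex.I / 2 := by
    have := Complex.I_ne_zero
    field_simp
    rw [Complex.I_sq]
    norm_num
  rw [h2, h3]; ring

theorem spinZ_apply' (x x' : Fin 3) : spinZ x x' = eZ x x' := by
  unfold spinZ eZ magneticNumber
  rw [Matrix.diagonal_apply]
  split_ifs
  · push_cast; ring
  · rfl

theorem eP_mul (x x' y y' : Fin 3) : eP x x' * eP y' y =
    if (x' : ℕ) = (x : ℕ) + 1 ∧ (y : ℕ) = (y' : ℕ) + 1 then 2 else 0 := by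
  have h : ((Real.sqrt 2 : ℝ) : ℂ) * ((Real.sqrt 2 : ℝ) : ℂ) = 2 := by
    rw [← Complex.ofReal_mul, Real.mul_self_sqrt (by norm_num)]; norm_num
  unfold eP
  by_cases h1 : (x' : ℕ) = (x : ℕ) + 1 <;> by_cases h2 : (y : ℕ) = (y' : ℕ) + 1 <;> simp [h1, h2, h]

theorem eZ_mul (x x' y y' : Fin 3) : eZ x x' * eZ y y' =
    if x = x' ∧ y = y' then (1 - ((x : ℕ) : ℂ)) * (1 - ((y : ℕ) : ℂ)) else 0 := by
  unfold eZ
  by_cases h1 : x = x' <;> by_cases h2 : y = y' <;> simp [h1, h2]

theorem gk_sum (κ : Fin 3) (x x' y y' : Fin 3) :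
    (∑ a : Fin 3, ∑ b : Fin 3, ((gk κ a b : ℝ) : ℂ) * (spinOp a x x' * spinOp b y y')) =
      eZ x x' * eZ y y' + (Complex.I ^ (κ : ℕ) * (eP x' x * eP y y') / 2 +
        (-Complex.I) ^ (κ : ℕ) * (eP x x' * eP y' y) / 2) := by
  have hI : Complex.I * Complex.I = -1 := Complex.I_mul_I
  fin_cases κ
  · simp only [Fin.sum_univ_three, gk, spinOp, Matrix.cons_val_zero, Matrix.cons_val_one,
      Matrix.cons_val, spinX_apply', spinY_apply', spinZ_apply', Matrix.one_apply, Fin.zero_eta]
    simp
    linear_combination (eP x x' - eP x' x) * (eP y y' - eP y' y) / 4 * hI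
  · simp only [Fin.sum_univ_three, gk, spinOp, Matrix.cons_val_zero, Matrix.cons_val_one,
      Matrix.cons_val, spinX_apply', spinY_apply', spinZ_apply', c4, Fin.mk_one]
    simp
    ring
  · simp only [Fin.sum_univ_three, gk, spinOp, Matrix.cons_val_zero, Matrix.cons_val_one,
      Matrix.cons_val, spinX_apply', spinY_apply', spinZ_apply', pz, Fin.reduceFinMk]
    simp
    linear_combination (- (eP x x' - eP x' x) * (eP y y' - eP y' y) / 4) * hI

theorem tbond_apply {n : ℕ} (κ : Fin 3) (i j : Fin (n + 1)) (hij : i ≠ j) (c c' : Cfg n) :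
    tbond (gk κ) i j c c' =
      (if c = c' then ((1 - ((c i : ℕ) : ℂ)) * (1 - ((c j : ℕ) : ℂ))) else 0) +
      ((if Hop i j c' c then Complex.I ^ (κ : ℕ) else 0) +
        (if Hop j i c' c then (-Complex.I) ^ (κ : ℕ) else 0)) := by
  have hexp : tbond (gk κ) i j c c' =
      ∑ a : Fin 3, ∑ b : Fin 3, ((gk κ a b : ℝ) : ℂ) * ((onSite (spinOp a) i * onSite (spinOp b) j) c c') := by
    unfold tbond
    rw [Matrix.sum_apply]
    refine Finset.sum_congr rfl fun a _ => ?_
    rw [Matrix.sum_apply]
    refine Finset.sum_congr rfl fun b _ => ?_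
    rw [Matrix.smul_apply, smul_eq_mul]
  rw [hexp]
  simp only [onSite_mul_apply _ _ i j hij]
  by_cases hP : ∀ l, l ≠ i → l ≠ j → c l = c' l
  · simp only [if_pos hP]
    rw [gk_sum, eZ_mul, eP_mul, eP_mul]
    have e1 : (c i = c' i ∧ c j = c' j) ↔ c = c' := by
      constructor
      · rintro ⟨h1, h2⟩
        funext l
        by_cases hi : l = i
        · rw [hi, h1]
        · by_cases hj : l = j
          · rw [hj, h2]
          · exact hP l hi hj
      · intro h; rw [h]; exact ⟨rfl, rfl⟩
    have e2 : Hop i j c' c ↔ ((c i : ℕ) = (c' i : ℕ) + 1 ∧ (c' j : ℕ) = (c j : ℕ) + 1) := by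
      unfold Hop
      constructor
      · rintro ⟨h1, h2, _⟩; exact ⟨h1, h2⟩
      · rintro ⟨h1, h2⟩; exact ⟨h1, h2, hP⟩
    have e3 : Hop j i c' c ↔ ((c' i : ℕ) = (c i : ℕ) + 1 ∧ (c j : ℕ) = (c' j : ℕ) + 1) := by
      unfold Hop
      constructor
      · rintro ⟨h1, h2, _⟩; exact ⟨h2, h1⟩
      · rintro ⟨h1, h2⟩; exact ⟨h2, h1, fun l hl hl' => hP l hl' hl⟩
    simp only [e1, e2, e3]
    congr 1
    congr 1
    · split_ifs <;> ring
    · split_ifs <;> ring
  · simp only [if_neg hP, mul_zero, Finset.sum_const_zero]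
    have e1 : ¬ (c = c') := fun h => hP (by rw [h]; intros; rfl)
    have e2 : ¬ Hop i j c' c := fun h => hP h.2.2
    have e3 : ¬ Hop j i c' c := fun h => hP fun l hl hl' => h.2.2 l hl' hl
    rw [if_neg e1, if_neg e2, if_neg e3]
    simp

theorem bond_eq_tbond {n : ℕ} (i j : Fin (n + 1)) : bond i j = tbond (gk 0) i j := by
  unfold bond tbond
  refine Finset.sum_congr rfl fun a _ => ?_
  rw [Finset.sum_eq_single a]
  · simp [gk]
  · intro b _ hb
    have : gk 0 a b = 0 := by
      simp only [gk, Matrix.cons_val_zero]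
      exact Matrix.one_apply_ne hb.symm
    rw [this]; simp
  · intro h; exact absurd (Finset.mem_univ _) h

end Crest.Agent.R347
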