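import Crest.Agent.R347.NA1

/-!
# Row 347 numerics, piece NA2: Marshall sign and winding number

`(L - H_g)(c, c') = s(c) s(c') Φ_ζ(K)(c, c')`, `ζ = i^κ'`, `Φ_ζ(K)(c, c') = ∑_j ζ^j K((c,0),(c',j))`.
* diagonal: `L - ∑ m m' = diagK` (`bd a b = 1 - m_a m_b`);
* interior bond `(j, j+1)`: `H` has `+1` for a hop; exactly one of the two sites is odd and its `m` changes by one, so
  `s(c) s(c') = -1`;
* boundary bond `(last, 0)`: site 0 is even; `last = n` is odd iff `n` is odd, so `s(c) s(c') = -1` for odd `n` and `+1` for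
  even `n`; the amplitude is `i^κ` for `Hop last 0 c' c` (equivalently `Hop 0 last c c'`), and `-i^κ = i^(κ+2)`.
(The hypotheses of the different `if`s can hold simultaneously when `n = 1`; just add up.)
-/

set_option autoImplicit false

open Crest.MathPhysics.SpinChain Matrix

namespace Crest.Agent.R347

/-- Marshall sign `(-1)^(∑_{j odd} m_j)` -/
def sgS {n : ℕ} (c : Cfg n) : ℂ :=
  ∏ j : Fin (n + 1), if (j : ℕ) % 2 = 1 then (-1) ^ ((c j : ℕ) + 1) else 1

/-- Fourier transform in the winding number -/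
noncomputable def Phi {n : ℕ} (ζ : ℂ) (A : Matrix (XC n) (XC n) ℝ) : Matrix (Cfg n) (Cfg n) ℂ :=
  Matrix.of fun c c' => ∑ j : ZMod 4, ζ ^ j.val * ((A (c, 0) (c', j) : ℝ) : ℂ)

/-- one factor of the Marshall sign -/
def sgF (l : ℕ) (a : Fin 3) : ℂ := if l % 2 = 1 then (-1) ^ ((a : ℕ) + 1) else 1

theorem sgF_sq (l : ℕ) (a : Fin 3) : sgF l a * sgF l a = 1 := by
  unfold sgF
  split_ifs
  · rw [← mul_pow]; norm_num
  · norm_num

theorem sgF_succ (l : ℕ) (a b : Fin 3) (h : (b : ℕ) = (a : ℕ) + 1) :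
    sgF l a * sgF l b = if l % 2 = 1 then -1 else 1 := by
  unfold sgF
  split_ifs
  · rw [h, pow_succ ((-1 : ℂ)) ((a : ℕ) + 1), ← mul_assoc, ← mul_pow]; norm_num
  · norm_num

theorem hop_sign {n : ℕ} (i j : Fin (n + 1)) (hij : i ≠ j) (c c' : Cfg n) (h : Hop i j c c') :
    sgS c * sgS c' = (if (i : ℕ) % 2 = 1 then -1 else 1) * (if (j : ℕ) % 2 = 1 then -1 else 1) := by
  have e : sgS c * sgS c' = ∏ l : Fin (n + 1), (sgF l (c l) * sgF l (c' l)) := by
    rw [Finset.prod_mul_distrib]; rfl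
  rw [e, Finset.prod_eq_mul i j hij]
  · rw [sgF_succ i (c i) (c' i) h.1, mul_comm (sgF (j : ℕ) (c j)), sgF_succ j (c' j) (c j) h.2.1]
  · rintro l - ⟨h1, h2⟩
    rw [h.2.2 l h1 h2, sgF_sq]
  · intro h1; exact absurd (Finset.mem_univ _) h1
  · intro h1; exact absurd (Finset.mem_univ _) h1

theorem hop_symm {n : ℕ} (i j : Fin (n + 1)) (c c' : Cfg n) : Hop i j c' c ↔ Hop j i c c' := by
  unfold Hop
  constructor
  · rintro ⟨h1, h2, h3⟩
    exact ⟨h2, h1, fun l hj hi => (h3 l hi hj).symm⟩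
  · rintro ⟨h1, h2, h3⟩
    exact ⟨h2, h1, fun l hj hi => (h3 l hi hj).symm⟩

theorem hop_sign_int {n : ℕ} (j : Fin n) (c c' : Cfg n)
    (h : Hop (Fin.castSucc j) (Fin.succ j) c c' ∨ Hop (Fin.succ j) (Fin.castSucc j) c c') :
    sgS c * sgS c' = -1 := by
  have hne : Fin.castSucc j ≠ Fin.succ j := (Fin.castSucc_lt_succ).ne
  have h1 : ((Fin.castSucc j : Fin (n + 1)) : ℕ) = j := rfl
  have h2 : ((Fin.succ j : Fin (n + 1)) : ℕ) = j + 1 := rfl
  rcases h with h | h
  · rw [hop_sign _ _ hne c c' h, h1, h2]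
    rcases Nat.mod_two_eq_zero_or_one (j : ℕ) with hj | hj
    · rw [if_neg (by omega), if_pos (by omega)]; norm_num
    · rw [if_pos (by omega), if_neg (by omega)]; norm_num
  · rw [hop_sign _ _ hne.symm c c' h, h1, h2]
    rcases Nat.mod_two_eq_zero_or_one (j : ℕ) with hj | hj
    · rw [if_pos (by omega), if_neg (by omega)]; norm_num
    · rw [if_neg (by omega), if_pos (by omega)]; norm_num

theorem zero_ne_last {n : ℕ} (hn : 1 ≤ n) : (0 : Fin (n + 1)) ≠ Fin.last n := by
  intro e
  have := congrArg Fin.val e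
  simp at this
  omega

theorem hop_sign_bd {n : ℕ} (hn : 1 ≤ n) (c c' : Cfg n)
    (h : Hop 0 (Fin.last n) c c' ∨ Hop (Fin.last n) 0 c c') :
    sgS c * sgS c' = if Even n then 1 else -1 := by
  have hne := zero_ne_last hn
  have h1 : ((0 : Fin (n + 1)) : ℕ) = 0 := rfl
  have h2 : ((Fin.last n : Fin (n + 1)) : ℕ) = n := rfl
  rcases h with h | h
  · rw [hop_sign _ _ hne c c' h, h1, h2]
    by_cases he : Even n
    · rw [if_pos he, if_neg (by omega), if_neg (by rw [Nat.even_iff] at he; omega)]; norm_num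
    · rw [if_neg he, if_neg (by omega), if_pos (by rw [Nat.even_iff] at he; omega)]; norm_num
  · rw [hop_sign _ _ hne.symm c c' h, h1, h2]
    by_cases he : Even n
    · rw [if_pos he, if_neg (by rw [Nat.even_iff] at he; omega), if_neg (by omega)]; norm_num
    · rw [if_neg he, if_pos (by rw [Nat.even_iff] at he; omega), if_neg (by omega)]; norm_num

theorem sgS_sq {n : ℕ} (c : Cfg n) : sgS c * sgS c = 1 := by
  have e : sgS c * sgS c = ∏ l : Fin (n + 1), (sgF l (c l) * sgF l (c l)) := by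
    rw [Finset.prod_mul_distrib]; rfl
  rw [e]
  exact Finset.prod_eq_one fun l _ => sgF_sq _ _

theorem bd_cast (a b : Fin 3) :
    ((bd a b : ℕ) : ℂ) = 1 - (1 - ((a : ℕ) : ℂ)) * (1 - ((b : ℕ) : ℂ)) := by
  fin_cases a <;> fin_cases b <;> simp [bd] <;> norm_num

theorem sum_zmod4 (f : ZMod 4 → ℂ) : ∑ j, f j = f 0 + f 1 + f 2 + f 3 := Fin.sum_univ_four f

theorem Phi_KR {n : ℕ} (ζ : ℂ) (c c' : Cfg n) : Phi ζ (KR n) c c' =
    (if c = c' then ((diagK c : ℕ) : ℂ) else 0) +
    (∑ j : Fin n, ((if Hop (Fin.castSucc j) (Fin.succ j) c c' then 1 else 0) +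
      (if Hop (Fin.succ j) (Fin.castSucc j) c c' then 1 else 0))) +
    ((if Hop 0 (Fin.last n) c c' then ζ else 0) + (if Hop (Fin.last n) 0 c c' then ζ ^ 3 else 0)) := by
  have v0 : (0 : ZMod 4).val = 0 := rfl
  have v1 : (1 : ZMod 4).val = 1 := rfl
  have v2 : (2 : ZMod 4).val = 2 := rfl
  have v3 : (3 : ZMod 4).val = 3 := rfl
  have k0 : KN n (c, 0) (c', 0) = (if c = c' then diagK c else 0) +
      (∑ j : Fin n, ((if Hop (Fin.castSucc j) (Fin.succ j) c c' then 1 else 0) +
      (if Hop (Fin.succ j) (Fin.castSucc j) c c' then 1 else 0))) := by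
    simp only [KN, Matrix.of_apply, Prod.mk.injEq, and_true, true_and, zero_add]
    have a1 : ¬ ((0 : ZMod 4) = 1) := by decide
    simp only [a1, false_and, if_false, add_zero]
  have k1 : KN n (c, 0) (c', 1) = (if Hop 0 (Fin.last n) c c' then 1 else 0) := by
    simp only [KN, Matrix.of_apply, Prod.mk.injEq]
    have a1 : ¬ ((0 : ZMod 4) = 1) := by decide
    have a2 : ((1 : ZMod 4) = 0 + 1) := by decide
    have a3 : ¬ ((0 : ZMod 4) = 1 + 1) := by decide
    simp only [a1, false_and, and_false, if_false, add_zero, Finset.sum_const_zero, zero_add, ← a2, true_and, a3]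
  have k2 : KN n (c, 0) (c', 2) = 0 := by
    simp only [KN, Matrix.of_apply, Prod.mk.injEq]
    have a1 : ¬ ((0 : ZMod 4) = 2) := by decide
    have a2 : ¬ ((2 : ZMod 4) = 0 + 1) := by decide
    have a3 : ¬ ((0 : ZMod 4) = 2 + 1) := by decide
    simp only [a1, false_and, and_false, if_false, add_zero, Finset.sum_const_zero, a2, a3]
  have k3 : KN n (c, 0) (c', 3) = (if Hop (Fin.last n) 0 c c' then 1 else 0) := by
    simp only [KN, Matrix.of_apply, Prod.mk.injEq]
    have a1 : ¬ ((0 : ZMod 4) = 3) := by decide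
    have a2 : ¬ ((3 : ZMod 4) = 0 + 1) := by decide
    have a3 : ((0 : ZMod 4) = 3 + 1) := by decide
    have a4 : ¬ ((3 : ZMod 4) = 1) := by decide
    simp only [a4, a1, false_and, and_false, if_false, add_zero, Finset.sum_const_zero, zero_add, a2, ← a3, true_and]
  simp only [Phi, Matrix.of_apply, sum_zmod4, KR, Matrix.map_apply, v0, v1, v2, v3,
    Complex.ofReal_natCast, k0, k1, k2, k3]
  push_cast
  by_cases h1 : Hop 0 (Fin.last n) c c' <;> by_cases h2 : Hop (Fin.last n) 0 c c' <;>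
    simp [h1, h2] <;> ring

theorem I_kap {n : ℕ} (κ : Fin 3) : Complex.I ^ (kap n κ).val =
    (if Even n then -1 else 1) * Complex.I ^ (κ : ℕ) := by
  have h2 : Complex.I ^ 2 = -1 := Complex.I_sq
  have h3 : Complex.I ^ 3 = -Complex.I := by rw [pow_succ, h2]; ring
  have h4 : Complex.I ^ 4 = 1 := by rw [show (4 : ℕ) = 2 * 2 from rfl, pow_mul, h2]; norm_num
  by_cases he : Even n
  · fin_cases κ
    · have : (kap n 0).val = 2 := by simp only [kap, if_pos he]; decide
      show Complex.I ^ (kap n 0).val = _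
      rw [this, if_pos he, h2]; simp
    · have : (kap n 1).val = 3 := by simp only [kap, if_pos he]; decide
      show Complex.I ^ (kap n 1).val = _
      rw [this, if_pos he, h3]; simp
    · have : (kap n 2).val = 0 := by simp only [kap, if_pos he]; decide
      show Complex.I ^ (kap n 2).val = _
      rw [this, if_pos he]; simp
  · fin_cases κ
    · have : (kap n 0).val = 0 := by simp only [kap, if_neg he]; decide
      show Complex.I ^ (kap n 0).val = _
      rw [this, if_neg he]; simp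
    · have : (kap n 1).val = 1 := by simp only [kap, if_neg he]; decide
      show Complex.I ^ (kap n 1).val = _
      rw [this, if_neg he]; simp
    · have : (kap n 2).val = 2 := by simp only [kap, if_neg he]; decide
      show Complex.I ^ (kap n 2).val = _
      rw [this, if_neg he]; simp

theorem ringH_gauge {n : ℕ} (hn : 1 ≤ n) (κ : Fin 3) (c c' : Cfg n) :
    ((((n : ℂ) + 1) • (1 : Matrix (Cfg n) (Cfg n) ℂ)) - ringH n (gk κ)) c c' =
      sgS c * sgS c' * Phi (Complex.I ^ (kap n κ).val) (KR n) c c' := by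
  have hne := zero_ne_last hn
  rw [Phi_KR, Matrix.sub_apply, ringH, Matrix.add_apply, Matrix.sum_apply, Matrix.smul_apply,
    Matrix.one_apply, smul_eq_mul, tbond_apply κ _ _ hne.symm]
  have hb : ∀ j : Fin n, bond (Fin.castSucc j) (Fin.succ j) c c' =
      (if c = c' then ((1 - ((c (Fin.castSucc j) : ℕ) : ℂ)) * (1 - ((c (Fin.succ j) : ℕ) : ℂ))) else 0) +
      ((if Hop (Fin.castSucc j) (Fin.succ j) c c' then 1 else 0) +
      (if Hop (Fin.succ j) (Fin.castSucc j) c c' then 1 else 0)) := by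
    intro j
    have hj : Fin.castSucc j ≠ Fin.succ j := (Fin.castSucc_lt_succ).ne
    rw [bond_eq_tbond, tbond_apply 0 _ _ hj]
    simp only [hop_symm (Fin.castSucc j) (Fin.succ j) c c', hop_symm (Fin.succ j) (Fin.castSucc j) c c',
      Fin.val_zero, pow_zero]
    ring
  simp only [hb, Finset.sum_add_distrib, hop_symm (Fin.last n) 0 c c', hop_symm 0 (Fin.last n) c c', I_kap]
  have hI : (-Complex.I) = Complex.I ^ 3 := by rw [pow_succ, Complex.I_sq]; ring
  -- interior hops
  have hint : ∀ j : Fin n, ∀ P : Prop, ∀ [Decidable P], (P → sgS c * sgS c' = -1) →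
      sgS c * sgS c' * (if P then (1 : ℂ) else 0) = - (if P then 1 else 0) := by
    intro j P _ hP
    by_cases h : P
    · rw [hP h, if_pos h]; norm_num
    · rw [if_neg h]; norm_num
  have hbd : ∀ P : Prop, ∀ [Decidable P], ∀ z w : ℂ, (P → sgS c * sgS c' * z = -w) →
      sgS c * sgS c' * (if P then z else 0) = - (if P then w else 0) := by
    intro P _ z w hP
    by_cases h : P
    · rw [if_pos h, if_pos h, hP h]
    · rw [if_neg h, if_neg h]; norm_num
  have s1 : sgS c * sgS c' * ∑ j : Fin n, (if Hop (Fin.castSucc j) (Fin.succ j) c c' then (1 : ℂ) else 0) =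
      - ∑ j : Fin n, (if Hop (Fin.castSucc j) (Fin.succ j) c c' then (1 : ℂ) else 0) := by
    rw [Finset.mul_sum, ← Finset.sum_neg_distrib]
    exact Finset.sum_congr rfl fun j _ => hint j _ fun h => hop_sign_int j c c' (Or.inl h)
  have s2 : sgS c * sgS c' * ∑ j : Fin n, (if Hop (Fin.succ j) (Fin.castSucc j) c c' then (1 : ℂ) else 0) =
      - ∑ j : Fin n, (if Hop (Fin.succ j) (Fin.castSucc j) c c' then (1 : ℂ) else 0) := by
    rw [Finset.mul_sum, ← Finset.sum_neg_distrib]
    exact Finset.sum_congr rfl fun j _ => hint j _ fun h => hop_sign_int j c c' (Or.inr h)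
  have s3 := hbd (Hop 0 (Fin.last n) c c') ((if Even n then -1 else 1) * Complex.I ^ (κ : ℕ)) (Complex.I ^ (κ : ℕ)) (by
    intro h; rw [hop_sign_bd hn c c' (Or.inl h)]
    by_cases he : Even n
    · rw [if_pos he, if_pos he]; ring
    · rw [if_neg he, if_neg he]; ring)
  have s4 := hbd (Hop (Fin.last n) 0 c c') (((if Even n then -1 else 1) * Complex.I ^ (κ : ℕ)) ^ 3)
    ((-Complex.I) ^ (κ : ℕ)) (by
    intro h; rw [hop_sign_bd hn c c' (Or.inr h), hI]
    by_cases he : Even n
    · rw [if_pos he, if_pos he]; ring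
    · rw [if_neg he, if_neg he]; ring)
  have s0 : sgS c * sgS c' * (if c = c' then ((diagK c : ℕ) : ℂ) else 0) =
      ((n : ℂ) + 1) * (if c = c' then 1 else 0) -
      ∑ j : Fin n, (if c = c' then ((1 - ((c (Fin.castSucc j) : ℕ) : ℂ)) * (1 - ((c (Fin.succ j) : ℕ) : ℂ))) else 0) -
      (if c = c' then ((1 - ((c (Fin.last n) : ℕ) : ℂ)) * (1 - ((c 0 : ℕ) : ℂ))) else 0) := by
    by_cases h : c = c'
    · subst h
      simp only [if_true, sgS_sq, one_mul, mul_one]
      unfold diagK
      push_cast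
      simp only [bd_cast, Finset.sum_sub_distrib, Finset.sum_const, Finset.card_univ, Fintype.card_fin,
        nsmul_eq_mul, mul_one]
      ring
    · simp [h]
  rw [mul_add, mul_add, mul_add, mul_add, s0, s1, s2, s3, s4]
  ring

end Crest.Agent.R347
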