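import Crest.Agent.R347.NA2

/-!
# Row 347 numerics, piece NA3: `Φ_ζ` commutes with `exp`

`TI A`: `A (c,k+s) (c',k'+s) = A (c,k) (c',k')`.  For `ζ^4 = 1`: `Φ(A B) = Φ(A) Φ(B)` if `B` is `TI` (split the middle index
`(c'', k)`, `B (c'',k) (c',j) = B (c'',0) (c',j-k)`, `ζ^(k + (j-k)) = ζ^j` as `ζ^4 = 1`), `Φ 1 = 1`, `Φ` is real-linear; powers of `TI`
matrices are `TI`; `Φ(A^m) = Φ(A)^m`; pass to the exponential series (`NormedSpace.exp_series_hasSum_exp'`-like statements for matrices need a norm: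
open the scoped norm `Matrix.linftyOpNormedRing` locally, or use that `Φ` is continuous linear and map the
`HasSum`; `LinearMap.toContinuousLinearMap` / entrywise `HasSum`).
-/

set_option autoImplicit false

open Crest.MathPhysics.SpinChain Matrix

namespace Crest.Agent.R347

/-- translation invariance in the winding number -/
def TI {n : ℕ} (A : Matrix (XC n) (XC n) ℝ) : Prop :=
  ∀ c c' k k' s, A (c, k + s) (c', k' + s) = A (c, k) (c', k')

theorem TI_KR (n : ℕ) : TI (KR n) := by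
  intro c c' k k' s
  unfold KR KN
  simp only [Matrix.map_apply, Matrix.of_apply]
  have h1 : (((c, k + s) : XC n) = (c', k' + s)) ↔ (((c, k) : XC n) = (c', k')) := by
    simp only [Prod.mk.injEq, add_left_inj]
  have h2 : (k + s = k' + s) ↔ k = k' := add_left_inj s
  have h3 : (k' + s = k + s + 1) ↔ k' = k + 1 := by rw [add_right_comm, add_left_inj]
  have h4 : (k + s = k' + s + 1) ↔ k = k' + 1 := by rw [add_right_comm, add_left_inj]
  simp only [h1, h2, h3, h4]

theorem TI_one (n : ℕ) : TI (1 : Matrix (XC n) (XC n) ℝ) := by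
  intro c c' k k' s
  simp only [Matrix.one_apply, Prod.mk.injEq, add_left_inj]

theorem TI.smul {n : ℕ} {A : Matrix (XC n) (XC n) ℝ} (h : TI A) (t : ℝ) : TI (t • A) := by
  intro c c' k k' s
  simp only [Matrix.smul_apply, h c c' k k' s]

theorem TI.mul {n : ℕ} {A B : Matrix (XC n) (XC n) ℝ} (hA : TI A) (hB : TI B) : TI (A * B) := by
  intro c c' k k' s
  simp only [Matrix.mul_apply]
  symm
  refine Fintype.sum_equiv (Equiv.prodCongr (Equiv.refl _) (Equiv.addRight s)) _ _ ?_
  rintro ⟨c'', j⟩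
  simp only [Equiv.prodCongr_apply, Prod.map_apply, Equiv.refl_apply, Equiv.coe_addRight]
  rw [hA, hB]

theorem TI.pow {n : ℕ} {A : Matrix (XC n) (XC n) ℝ} (h : TI A) (m : ℕ) : TI (A ^ m) := by
  induction m with
  | zero => rw [pow_zero]; exact TI_one n
  | succ m ih => rw [pow_succ]; exact ih.mul h

theorem na3_hasSum_mexpR {m : Type} [Fintype m] [DecidableEq m] (A : Matrix m m ℝ) :
    HasSum (fun n : ℕ => ((n.factorial : ℝ)⁻¹) • A ^ n) (NormedSpace.exp A) := by
  letI : SeminormedRing (Matrix m m ℝ) := Matrix.linftyOpSemiNormedRing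
  letI : NormedRing (Matrix m m ℝ) := Matrix.linftyOpNormedRing
  letI : NormedAlgebra ℝ (Matrix m m ℝ) := Matrix.linftyOpNormedAlgebra
  exact NormedSpace.exp_series_hasSum_exp' A

theorem na3_hasSum_mexpC {m : Type} [Fintype m] [DecidableEq m] (A : Matrix m m ℂ) :
    HasSum (fun n : ℕ => ((n.factorial : ℂ)⁻¹) • A ^ n) (NormedSpace.exp A) := by
  letI : SeminormedRing (Matrix m m ℂ) := Matrix.linftyOpSemiNormedRing
  letI : NormedRing (Matrix m m ℂ) := Matrix.linftyOpNormedRing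
  letI : NormedAlgebra ℂ (Matrix m m ℂ) := Matrix.linftyOpNormedAlgebra
  exact NormedSpace.exp_series_hasSum_exp' A

theorem TI_Ex (n : ℕ) (t : ℝ) : TI (Ex n t) := by
  intro c c' k k' s
  have h := na3_hasSum_mexpR (t • KR n)
  have hxy : ∀ x y : XC n, HasSum (fun m : ℕ => ((m.factorial : ℝ)⁻¹) * ((t • KR n) ^ m) x y)
      (NormedSpace.exp (t • KR n) x y) := by
    intro x y
    have h1 := Pi.hasSum.mp h x
    have h2 := Pi.hasSum.mp h1 y
    simpa only [Matrix.smul_apply, smul_eq_mul] using h2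
  unfold Ex
  refine (hxy (c, k + s) (c', k' + s)).unique ?_
  have h1 := hxy (c, k) (c', k')
  have h2 : (fun m : ℕ => ((m.factorial : ℝ)⁻¹) * ((t • KR n) ^ m) (c, k) (c', k')) =
      fun m : ℕ => ((m.factorial : ℝ)⁻¹) * ((t • KR n) ^ m) (c, k + s) (c', k' + s) := by
    funext m
    rw [((TI_KR n).smul t).pow m c c' k k' s]
  rw [h2] at h1
  exact h1

theorem na3_exp_intertwine {m n : Type} [Fintype m] [DecidableEq m] [Fintype n] [DecidableEq n]
    (A : Matrix m m ℂ) (B : Matrix n n ℂ) (F : Matrix m n ℂ) (h : A * F = F * B) :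
    NormedSpace.exp A * F = F * NormedSpace.exp B := by
  have hp : ∀ k : ℕ, A ^ k * F = F * B ^ k := by
    intro k
    induction k with
    | zero => simp
    | succ k ih => rw [pow_succ, Matrix.mul_assoc, h, ← Matrix.mul_assoc, ih, Matrix.mul_assoc,
        ← pow_succ]
  have h1 := (na3_hasSum_mexpC A).map (⟨⟨fun M => M * F, Matrix.zero_mul F⟩,
    fun x y => Matrix.add_mul x y F⟩ : Matrix m m ℂ →+ Matrix m n ℂ)
    (Continuous.matrix_mul continuous_id continuous_const)
  have h2 := (na3_hasSum_mexpC B).map (⟨⟨fun M => F * M, Matrix.mul_zero F⟩,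
    fun x y => Matrix.mul_add F x y⟩ : Matrix n n ℂ →+ Matrix m n ℂ)
    (Continuous.matrix_mul continuous_const continuous_id)
  refine h1.unique ?_
  have h3 : (⇑(⟨⟨fun M => M * F, Matrix.zero_mul F⟩,
      fun x y => Matrix.add_mul x y F⟩ : Matrix m m ℂ →+ Matrix m n ℂ) ∘
      fun n : ℕ => ((n.factorial : ℂ)⁻¹) • A ^ n) = (⇑(⟨⟨fun M => F * M, Matrix.mul_zero F⟩,
      fun x y => Matrix.mul_add F x y⟩ : Matrix n n ℂ →+ Matrix m n ℂ) ∘
      fun n : ℕ => ((n.factorial : ℂ)⁻¹) • B ^ n) := by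
    funext k
    show ((k.factorial : ℂ)⁻¹ • A ^ k) * F = F * ((k.factorial : ℂ)⁻¹ • B ^ k)
    rw [Matrix.smul_mul, Matrix.mul_smul, hp]
  rw [h3]
  exact h2

/-- Fourier vectors -/
noncomputable def FF (n : ℕ) (ζ : ℂ) : Matrix (XC n) (Cfg n) ℂ :=
  Matrix.of fun x c => if x.1 = c then ζ ^ x.2.val else 0

theorem TI.FF {n : ℕ} {A : Matrix (XC n) (XC n) ℝ} (hA : TI A) (ζ : ℂ) (hζ : ζ ^ 4 = 1) :
    (A.map fun x => (x : ℂ)) * FF n ζ = FF n ζ * Phi ζ A := by
  ext ⟨c, k⟩ c'
  simp only [Matrix.mul_apply, Matrix.map_apply, R347.FF, Matrix.of_apply, Phi,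
    Fintype.sum_prod_type, mul_ite, mul_zero, ite_mul, zero_mul]
  rw [Finset.sum_eq_single c']
  · rw [Finset.sum_eq_single c]
    · simp only [if_true]
      rw [Finset.mul_sum]
      symm
      refine Fintype.sum_equiv (Equiv.addRight k) _ _ ?_
      intro j
      simp only [Equiv.coe_addRight]
      have h1 : A (c, k) (c', j + k) = A (c, 0) (c', j) := by
        have := hA c c' 0 j k
        rwa [zero_add] at this
      have h2 : ζ ^ (j + k).val = ζ ^ j.val * ζ ^ k.val := by
        rw [← pow_add, pow_eq_pow_mod (j.val + k.val) hζ, ZMod.val_add]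
      rw [h1, h2]
      ring
    · intro b _ hb
      rw [if_neg (Ne.symm hb)]
    · intro h; exact absurd (Finset.mem_univ c) h
  · intro b _ hb
    refine Finset.sum_eq_zero fun j _ => ?_
    rw [if_neg hb]
  · intro h; exact absurd (Finset.mem_univ c') h

theorem Phi_exp {n : ℕ} (ζ : ℂ) (hζ : ζ ^ 4 = 1) (t : ℝ) :
    Phi ζ (Ex n t) = NormedSpace.exp ((t : ℂ) • Phi ζ (KR n)) := by
  have h1 := (TI_Ex n t).FF ζ hζ
  have h2 := (TI_KR n).FF ζ hζ
  have h3 : ((t : ℂ) • ((KR n).map fun x => (x : ℂ))) * FF n ζ =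
      FF n ζ * ((t : ℂ) • Phi ζ (KR n)) := by
    rw [Matrix.smul_mul, Matrix.mul_smul, h2]
  have h4 := na3_exp_intertwine _ _ _ h3
  have h5 : ((Ex n t).map fun x => (x : ℂ)) =
      NormedSpace.exp ((t : ℂ) • ((KR n).map fun x => (x : ℂ))) := by
    have e1 := (na3_hasSum_mexpR (t • KR n)).map
      (Complex.ofRealHom.mapMatrix : Matrix (XC n) (XC n) ℝ →+* Matrix (XC n) (XC n) ℂ)
      (Continuous.matrix_map continuous_id Complex.continuous_ofReal)
    have e2 := na3_hasSum_mexpC ((t : ℂ) • ((KR n).map fun x => (x : ℂ)))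
    refine e1.unique ?_
    have e3 : (⇑(Complex.ofRealHom.mapMatrix : Matrix (XC n) (XC n) ℝ →+*
        Matrix (XC n) (XC n) ℂ) ∘ fun m : ℕ => ((m.factorial : ℝ)⁻¹) • (t • KR n) ^ m) =
        fun m : ℕ => ((m.factorial : ℂ)⁻¹) • ((t : ℂ) • ((KR n).map fun x => (x : ℂ))) ^ m := by
      funext m
      simp only [Function.comp]
      have e4 : ∀ (a : ℝ) (M : Matrix (XC n) (XC n) ℝ),
          (Complex.ofRealHom.mapMatrix : Matrix (XC n) (XC n) ℝ →+*
            Matrix (XC n) (XC n) ℂ) (a • M) =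
          (a : ℂ) • (Complex.ofRealHom.mapMatrix : Matrix (XC n) (XC n) ℝ →+*
            Matrix (XC n) (XC n) ℂ) M := by
        intro a M
        ext x y
        simp
      rw [e4, map_pow, e4]
      simp only [Complex.ofReal_inv, Complex.ofReal_natCast]
      rfl
    rw [e3]
    exact e2
  rw [h5, h4] at h1
  -- compare the rows `(c, 0)`
  have key : ∀ (M : Matrix (Cfg n) (Cfg n) ℂ) (c c' : Cfg n),
      (FF n ζ * M) (c, 0) c' = M c c' := by
    intro M c c'
    simp only [Matrix.mul_apply, R347.FF, Matrix.of_apply, ite_mul, zero_mul]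
    rw [Finset.sum_eq_single c]
    · simp
    · intro b _ hb
      rw [if_neg (Ne.symm hb)]
    · intro h; exact absurd (Finset.mem_univ c) h
  ext c c'
  have h6 := congrFun (congrFun h1 (c, 0)) c'
  rw [key, key] at h6
  exact h6.symm

end Crest.Agent.R347
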