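import Crest.Agent.R347.NB2

/-!
# Row 347 numerics, piece NB3: the diagonal and flipped sums of one configuration

`E((c,0),(c,j)) = ∑_(c',i) v(c',i) v(c',i-j)` with `v y = Ex n (17/4) (c,0) y` (`Ex_mul`, `Ex_symm`, `Ex_transl`), and
`E((flp c,0),(c,j)) = ∑_(c',i) v(flp c', -i) v(c', i-j)` (`Ex_flp`).  Then expand `chiR` (finite sums over `ZMod 4`; `Fin.sum_univ_four`
after `show` / `decide`-style evaluation of `chiR`).  The flipped case uses only `κ' ∈ {0, 2}`.
-/

set_option autoImplicit false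

open Crest.MathPhysics.SpinChain Matrix

namespace Crest.Agent.R347

/-- `P²+Q²±2PQ` resp. `P²+Q²-4(v0v2+v1v3)` at one configuration -/
noncomputable def quad {n : ℕ} (k : ZMod 4) (v : XC n → ℝ) (c : Cfg n) : ℝ :=
  (v (c, 0) + v (c, 2)) * (v (c, 0) + v (c, 2)) + (v (c, 1) + v (c, 3)) * (v (c, 1) + v (c, 3)) +
    (if k = 0 then 2 * ((v (c, 0) + v (c, 2)) * (v (c, 1) + v (c, 3)))
      else if k = 2 then -2 * ((v (c, 0) + v (c, 2)) * (v (c, 1) + v (c, 3)))
      else -4 * (v (c, 0) * v (c, 2) + v (c, 1) * v (c, 3)))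

private theorem ex_half {n : ℕ} (x y : XC n) :
    Ex n (17 / 2) x y = ∑ c' : Cfg n, ∑ i : ZMod 4,
      Ex n (17 / 4) x (c', i) * Ex n (17 / 4) (c', i) y := by
  have h : (17 / 2 : ℝ) = 17 / 4 + 17 / 4 := by norm_num
  rw [h, Ex_mul, Matrix.mul_apply, Fintype.sum_prod_type]

private theorem vA_single {n : ℕ} (c : Cfg n) (y : XC n) :
    vA n {c} y = Ex n (17 / 4) (c, 0) y := by
  simp [vA]

private theorem ex_back {n : ℕ} (c c' : Cfg n) (i j : ZMod 4) :
    Ex n (17 / 4) (c', i) (c, j) = vA n {c} (c', i - j) := by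
  rw [vA_single, Ex_symm]
  have := Ex_transl n (17 / 4) c c' 0 (i - j) j
  rw [zero_add, sub_add_cancel] at this
  exact this

private theorem ex_flpc {n : ℕ} (c c' : Cfg n) (i : ZMod 4) :
    Ex n (17 / 4) (flp c, 0) (c', i) = vA n {c} (flp c', -i) := by
  have h2 : flp (flp c') = c' := by
    funext j
    simp [flp]
  have := Ex_flp n (17 / 4) c (flp c') 0 (-i)
  rw [h2, neg_neg, neg_zero] at this
  rw [vA_single]
  exact this

private theorem sum_zmod4 (f : ZMod 4 → ℝ) : ∑ j : ZMod 4, f j = f 0 + f 1 + f 2 + f 3 := by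
  exact Fin.sum_univ_four f

private theorem zmod4_arith :
    ((0 : ZMod 4) - 0 = 0) ∧ ((0 : ZMod 4) - 1 = 3) ∧ ((0 : ZMod 4) - 2 = 2) ∧ ((0 : ZMod 4) - 3 = 1) ∧
    ((1 : ZMod 4) - 0 = 1) ∧ ((1 : ZMod 4) - 1 = 0) ∧ ((1 : ZMod 4) - 2 = 3) ∧ ((1 : ZMod 4) - 3 = 2) ∧
    ((2 : ZMod 4) - 0 = 2) ∧ ((2 : ZMod 4) - 1 = 1) ∧ ((2 : ZMod 4) - 2 = 0) ∧ ((2 : ZMod 4) - 3 = 3) ∧
    ((3 : ZMod 4) - 0 = 3) ∧ ((3 : ZMod 4) - 1 = 2) ∧ ((3 : ZMod 4) - 2 = 1) ∧ ((3 : ZMod 4) - 3 = 0) ∧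
    (-(0 : ZMod 4) = 0) ∧ (-(1 : ZMod 4) = 3) ∧ (-(2 : ZMod 4) = 2) ∧ (-(3 : ZMod 4) = 1) := by
  decide

theorem diag_quad {n : ℕ} (k : ZMod 4) (c : Cfg n) :
    ∑ j : ZMod 4, chiR k j * Ex n (17 / 2) (c, 0) (c, j) = ∑ c' : Cfg n, quad k (vA n {c}) c' := by
  have h1 : ∀ j : ZMod 4, Ex n (17 / 2) (c, 0) (c, j)
      = ∑ c' : Cfg n, ∑ i : ZMod 4, vA n {c} (c', i) * vA n {c} (c', i - j) := by
    intro j
    rw [ex_half]
    refine Finset.sum_congr rfl fun c' _ => Finset.sum_congr rfl fun i _ => ?_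
    rw [ex_back c c' i j, vA_single c (c', i)]
  simp_rw [h1, Finset.mul_sum]
  rw [Finset.sum_comm]
  refine Finset.sum_congr rfl fun c' _ => ?_
  obtain ⟨a00, a01, a02, a03, a10, a11, a12, a13, a20, a21, a22, a23, a30, a31, a32, a33, -⟩ :=
    zmod4_arith
  simp only [sum_zmod4, a00, a01, a02, a03, a10, a11, a12, a13, a20, a21, a22, a23, a30, a31, a32,
    a33]
  generalize vA n {c} = v
  unfold quad
  have hk : k = 0 ∨ k = 1 ∨ k = 2 ∨ k = 3 := by
    revert k; decide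
  have c00 : chiR 0 0 = 1 := by rw [chiR, if_pos (by decide)]
  have c01 : chiR 0 1 = 1 := by rw [chiR, if_pos (by decide)]
  have c02 : chiR 0 2 = 1 := by rw [chiR, if_pos (by decide)]
  have c03 : chiR 0 3 = 1 := by rw [chiR, if_pos (by decide)]
  have c10 : chiR 1 0 = 1 := by rw [chiR, if_pos (by decide)]
  have c11 : chiR 1 1 = 0 := by rw [chiR, if_neg (by decide), if_neg (by decide)]
  have c12 : chiR 1 2 = -1 := by rw [chiR, if_neg (by decide), if_pos (by decide)]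
  have c13 : chiR 1 3 = 0 := by rw [chiR, if_neg (by decide), if_neg (by decide)]
  have c20 : chiR 2 0 = 1 := by rw [chiR, if_pos (by decide)]
  have c21 : chiR 2 1 = -1 := by rw [chiR, if_neg (by decide), if_pos (by decide)]
  have c22 : chiR 2 2 = 1 := by rw [chiR, if_pos (by decide)]
  have c23 : chiR 2 3 = -1 := by rw [chiR, if_neg (by decide), if_pos (by decide)]
  have c30 : chiR 3 0 = 1 := by rw [chiR, if_pos (by decide)]
  have c31 : chiR 3 1 = 0 := by rw [chiR, if_neg (by decide), if_neg (by decide)]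
  have c32 : chiR 3 2 = -1 := by rw [chiR, if_neg (by decide), if_pos (by decide)]
  have c33 : chiR 3 3 = 0 := by rw [chiR, if_neg (by decide), if_neg (by decide)]
  rcases hk with rfl | rfl | rfl | rfl
  · rw [c00, c01, c02, c03, if_pos rfl]
    ring
  · rw [c10, c11, c12, c13, if_neg (by decide), if_neg (by decide)]
    ring
  · rw [c20, c21, c22, c23, if_neg (by decide), if_pos rfl]
    ring
  · rw [c30, c31, c32, c33, if_neg (by decide), if_neg (by decide)]
    ring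

theorem flip_quad {n : ℕ} (c : Cfg n) :
    ∑ j : ZMod 4, chiR (kap n 2) j * Ex n (17 / 2) (flp c, 0) (c, j) =
      ∑ c' : Cfg n, ((vA n {c} (c', 0) + vA n {c} (c', 2)) +
          (if Even n then 1 else -1) * (vA n {c} (c', 1) + vA n {c} (c', 3))) *
        ((vA n {c} (flp c', 0) + vA n {c} (flp c', 2)) +
          (if Even n then 1 else -1) * (vA n {c} (flp c', 1) + vA n {c} (flp c', 3))) := by
  have h1 : ∀ j : ZMod 4, Ex n (17 / 2) (flp c, 0) (c, j)
      = ∑ c' : Cfg n, ∑ i : ZMod 4, vA n {c} (flp c', -i) * vA n {c} (c', i - j) := by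
    intro j
    rw [ex_half]
    refine Finset.sum_congr rfl fun c' _ => Finset.sum_congr rfl fun i _ => ?_
    rw [ex_back c c' i j, ex_flpc c c' i]
  simp_rw [h1, Finset.mul_sum]
  rw [Finset.sum_comm]
  refine Finset.sum_congr rfl fun c' _ => ?_
  obtain ⟨a00, a01, a02, a03, a10, a11, a12, a13, a20, a21, a22, a23, a30, a31, a32, a33, b0, b1,
    b2, b3⟩ := zmod4_arith
  simp only [sum_zmod4, a00, a01, a02, a03, a10, a11, a12, a13, a20, a21, a22, a23, a30, a31, a32,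
    a33, b0, b1, b2, b3]
  generalize vA n {c} = v
  have c00 : chiR 0 0 = 1 := by rw [chiR, if_pos (by decide)]
  have c01 : chiR 0 1 = 1 := by rw [chiR, if_pos (by decide)]
  have c02 : chiR 0 2 = 1 := by rw [chiR, if_pos (by decide)]
  have c03 : chiR 0 3 = 1 := by rw [chiR, if_pos (by decide)]
  have c20 : chiR 2 0 = 1 := by rw [chiR, if_pos (by decide)]
  have c21 : chiR 2 1 = -1 := by rw [chiR, if_neg (by decide), if_pos (by decide)]
  have c22 : chiR 2 2 = 1 := by rw [chiR, if_pos (by decide)]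
  have c23 : chiR 2 3 = -1 := by rw [chiR, if_neg (by decide), if_pos (by decide)]
  by_cases hn : Even n
  · have hk : kap n 2 = 0 := by
      unfold kap
      rw [if_pos hn]
      decide
    rw [hk, c00, c01, c02, c03, if_pos hn]
    ring
  · have hk : kap n 2 = 2 := by
      unfold kap
      rw [if_neg hn]
      decide
    rw [hk, c20, c21, c22, c23, if_neg hn]
    ring

end Crest.Agent.R347
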