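import Crest.Agent.R347.NB4

/-!
# Row 347 numerics, piece NB5: orbits

`F c = sgM ε c * ∑_j chiR k j Ex((c,0),(c,j))` and `G c = ∑_j chiR (kap n 2) j Ex((flp c,0),(c,j))` are invariant under
`shf`, `rvs`, `flp` (`Ex_shf` + `Ex_transl`, `Ex_rvs`, `Ex_flp`; `chiR k (-j) = chiR k j`; for `G` the shift changes `j` by an even
amount `2 c_0 - 2` and `chiR (kap n 2)` is invariant under `j ↦ j + 2`; reindex the sum over `j`).
`cfgOf n i` = configuration with slot number `i` (digits of `i` in base 3).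
`orbOK`: kernel-checkable certificate that the listed start indices with multiplicities `sz` represent all orbits: every
start index `i` has at most `sz` distinct images, `∑ sz = 3^(n+1)` and the images cover everything (bit mask).  Hence the image sets are
pairwise disjoint of size exactly `sz`, and `∑_c F c = ∑ sz F(rep)`.
-/

set_option autoImplicit false

open Crest.MathPhysics.SpinChain Matrix

namespace Crest.Agent.R347

/-- configuration with slot number `i` -/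
def cfgOf (n i : ℕ) : Cfg n := fun j => ⟨i / 3 ^ (j : ℕ) % 3, Nat.mod_lt _ (by norm_num)⟩

/-- invariance under the symmetry group -/
def Inv3 {n : ℕ} (F : Cfg n → ℝ) : Prop := ∀ c, F (shf c) = F c ∧ F (rvs c) = F c ∧ F (flp c) = F c

theorem nb5_Mtot_shf {n : ℕ} (c : Cfg n) : Mtot (shf c) = Mtot c := by
  unfold Mtot shf
  exact Equiv.sum_comp (Equiv.addRight (1 : Fin (n + 1))) (fun j => 1 - ((c j : ℕ) : ℤ))

theorem nb5_Mtot_rvs {n : ℕ} (c : Cfg n) : Mtot (rvs c) = Mtot c := by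
  unfold Mtot rvs
  exact Equiv.sum_comp (Fin.revPerm (n := n + 1)) (fun j => 1 - ((c j : ℕ) : ℤ))

theorem nb5_rev3 (a : Fin 3) : (1 - ((Fin.rev a : Fin 3) : ℕ) : ℤ) = -(1 - ((a : ℕ) : ℤ)) := by
  revert a; decide

theorem nb5_Mtot_flp {n : ℕ} (c : Cfg n) : Mtot (flp c) = -Mtot c := by
  unfold Mtot flp
  rw [← Finset.sum_neg_distrib]
  exact Finset.sum_congr rfl fun j _ => nb5_rev3 (c j)

theorem nb5_chi_neg (k j : ZMod 4) : chiR k (-j) = chiR k j := by
  unfold chiR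
  have h1 : ∀ k j : ZMod 4, (k * -j = 0 ↔ k * j = 0) := by decide
  have h2 : ∀ k j : ZMod 4, (k * -j = 2 ↔ k * j = 2) := by decide
  simp only [h1, h2]

theorem nb5_kap {n : ℕ} : kap n 2 = 0 ∨ kap n 2 = 2 := by
  unfold kap
  split_ifs
  · left; decide
  · right; decide

theorem nb5_chi_shift (k j : ZMod 4) (hk : k = 0 ∨ k = 2) (a : Fin 3) :
    chiR k (j + (((Fin.rev a : Fin 3) : ℕ) : ZMod 4) - ((a : ℕ) : ZMod 4)) = chiR k j := by
  unfold chiR
  have h1 : ∀ k j : ZMod 4, ∀ a : Fin 3, (k = 0 ∨ k = 2) →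
      (k * (j + (((Fin.rev a : Fin 3) : ℕ) : ZMod 4) - ((a : ℕ) : ZMod 4)) = 0 ↔ k * j = 0) := by
    decide
  have h2 : ∀ k j : ZMod 4, ∀ a : Fin 3, (k = 0 ∨ k = 2) →
      (k * (j + (((Fin.rev a : Fin 3) : ℕ) : ZMod 4) - ((a : ℕ) : ZMod 4)) = 2 ↔ k * j = 2) := by
    decide
  simp only [h1 k j a hk, h2 k j a hk]

theorem nb5_shf {n : ℕ} (hn : 2 ≤ n) (t : ℝ) (c c' : Cfg n) (j : ZMod 4) :
    Ex n t (shf c, 0) (shf c', j + ((c 0 : ℕ) : ZMod 4) - ((c' 0 : ℕ) : ZMod 4)) =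
      Ex n t (c, 0) (c', j) := by
  have h := Ex_transl n t (shf c) (shf c') (0 - ((c 0 : ℕ) : ZMod 4)) (j - ((c' 0 : ℕ) : ZMod 4))
    ((c 0 : ℕ) : ZMod 4)
  rw [Ex_shf n hn t c c' 0 j] at h
  rw [← h]
  congr 2
  · ring
  · ring

theorem nb5_neg (k : ZMod 4) (f g : ZMod 4 → ℝ) (h : ∀ j, f (-j) = g j) :
    ∑ j : ZMod 4, chiR k j * f j = ∑ j : ZMod 4, chiR k j * g j := by
  rw [← Equiv.sum_comp (Equiv.neg (ZMod 4))]
  refine Finset.sum_congr rfl fun j _ => ?_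
  rw [Equiv.neg_apply, nb5_chi_neg, h]

theorem inv_diag {n : ℕ} (hn : 2 ≤ n) (k : ZMod 4) (ε : Bool) :
    Inv3 fun c : Cfg n => sgM ε c * ∑ j : ZMod 4, chiR k j * Ex n (17 / 2) (c, 0) (c, j) := by
  intro c
  refine ⟨?_, ?_, ?_⟩
  · show sgM ε (shf c) * _ = sgM ε c * _
    congr 1
    · unfold sgM; rw [nb5_Mtot_shf]
    · refine Finset.sum_congr rfl fun j _ => ?_
      have := nb5_shf hn (17 / 2) c c j
      rw [add_sub_cancel_right] at this
      rw [this]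
  · show sgM ε (rvs c) * _ = sgM ε c * _
    congr 1
    · unfold sgM; rw [nb5_Mtot_rvs]
    · refine nb5_neg k _ _ fun j => ?_
      have := Ex_rvs n (17 / 2) c c 0 j
      rw [neg_zero] at this
      exact this
  · show sgM ε (flp c) * _ = sgM ε c * _
    congr 1
    · unfold sgM; simp only [nb5_Mtot_flp, even_neg]
    · refine nb5_neg k _ _ fun j => ?_
      have := Ex_flp n (17 / 2) c c 0 j
      rw [neg_zero] at this
      exact this

theorem inv_flip {n : ℕ} (hn : 2 ≤ n) :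
    Inv3 fun c : Cfg n => ∑ j : ZMod 4, chiR (kap n 2) j * Ex n (17 / 2) (flp c, 0) (c, j) := by
  intro c
  refine ⟨?_, ?_, ?_⟩
  · show ∑ j : ZMod 4, chiR (kap n 2) j * Ex n (17 / 2) (shf (flp c), 0) (shf c, j) = _
    rw [← Equiv.sum_comp (Equiv.addRight
      ((((Fin.rev (c 0) : Fin 3) : ℕ) : ZMod 4) - ((c 0 : ℕ) : ZMod 4)))]
    refine Finset.sum_congr rfl fun j _ => ?_
    show chiR (kap n 2) (j + ((((Fin.rev (c 0) : Fin 3) : ℕ) : ZMod 4) - ((c 0 : ℕ) : ZMod 4))) *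
      Ex n (17 / 2) (shf (flp c), 0) (shf c,
        j + ((((Fin.rev (c 0) : Fin 3) : ℕ) : ZMod 4) - ((c 0 : ℕ) : ZMod 4))) =
      chiR (kap n 2) j * Ex n (17 / 2) (flp c, 0) (c, j)
    have h1 : j + ((((Fin.rev (c 0) : Fin 3) : ℕ) : ZMod 4) - ((c 0 : ℕ) : ZMod 4)) =
      j + (((Fin.rev (c 0) : Fin 3) : ℕ) : ZMod 4) - ((c 0 : ℕ) : ZMod 4) := by ring
    rw [h1, nb5_chi_shift _ _ nb5_kap]
    have := nb5_shf hn (17 / 2) (flp c) c j
    rw [← this]
    rfl
  · show ∑ j : ZMod 4, chiR (kap n 2) j * Ex n (17 / 2) (rvs (flp c), 0) (rvs c, j) = _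
    refine nb5_neg _ _ _ fun j => ?_
    have := Ex_rvs n (17 / 2) (flp c) c 0 j
    rw [neg_zero] at this
    exact this
  · refine nb5_neg _ _ _ fun j => ?_
    have := Ex_flp n (17 / 2) (flp c) c 0 j
    rw [neg_zero] at this
    exact this

end Crest.Agent.R347
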