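import Crest.Agent.R347.ND0

/-!
# Row 347 numerics, piece ND1: the masks

`rep m p = ∑_(i<m) 2^(p i)` (geometric series, `p ≥ 1`).  `um W L i a`: split the slot number as
`low + 3^i (digit + 3 high)`, `low < 3^i`, `high < 3^(L-1-i)`.
-/

set_option autoImplicit false

open Crest.MathPhysics.SpinChain Matrix

namespace Crest.Agent.R347

variable {n : ℕ}

theorem rep_eq (m p : ℕ) (hp : 0 < p) : rep m p = ∑ i ∈ Finset.range m, 2 ^ (p * i) := by
  have h2 : 2 ≤ 2 ^ p := by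
    calc 2 = 2 ^ 1 := by norm_num
      _ ≤ 2 ^ p := Nat.pow_le_pow_right (by norm_num) hp
  unfold rep
  rw [pow_mul, ← Nat.geomSum_eq h2 m]
  exact Finset.sum_congr rfl fun i _ => (pow_mul 2 p i).symm

private theorem nd1_digit (c : Cfg n) (i : Fin (n + 1)) : idx c / 3 ^ (i : ℕ) % 3 = (c i : ℕ) := by
  have h1 : (finFunctionFinEquiv.symm (finFunctionFinEquiv c) : Fin (n + 1) → Fin 3) = c :=
    finFunctionFinEquiv.symm_apply_apply c
  have h2 : ((finFunctionFinEquiv c : Fin (3 ^ (n + 1))) : ℕ) = idx c := by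
    rw [finFunctionFinEquiv_apply]
    rfl
  have h3 : ((finFunctionFinEquiv.symm (finFunctionFinEquiv c) : Fin (n + 1) → Fin 3) i : ℕ) =
      (c i : ℕ) := by rw [h1]
  rw [← h3, ← h2]
  rfl

/-- sums over configurations are sums over slots -/
private theorem nd1_sum (p : ℕ → Prop) [DecidablePred p] (g : ℕ → ℕ) :
    ∑ c : Cfg n, (if p (idx c) then g (idx c) else 0) =
      ∑ x ∈ (Finset.range (3 ^ (n + 1))).filter p, g x := by
  rw [Finset.sum_filter]
  refine Finset.sum_bij (fun c _ => idx c) ?_ ?_ ?_ ?_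
  · intro c _
    exact Finset.mem_range.2 (idx_lt c)
  · intro c _ c' _ h
    exact idx_inj h
  · intro x hx
    obtain ⟨c, hc⟩ := idx_surj (n := n) (Finset.mem_range.1 hx)
    exact ⟨c, Finset.mem_univ _, hc⟩
  · intro c _
    rfl

theorem ones_eq {W : ℕ} (hW : 0 < W) : ones W (n + 1) = pk W fun _ : Cfg n => 1 := by
  unfold ones pk
  rw [rep_eq _ _ hW]
  have h := nd1_sum (n := n) (fun _ => True) (fun x => 2 ^ (W * x))
  simp only [if_true, Finset.filter_true] at h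
  rw [← h]
  exact Finset.sum_congr rfl fun c _ => (one_mul _).symm

theorem um_eq {W : ℕ} (hW : 0 < W) (i : Fin (n + 1)) (a : Fin 3) :
    um W (n + 1) i a = pk W fun c : Cfg n => if c i = a then 1 else 0 := by
  have hi : (i : ℕ) ≤ n := Nat.lt_succ_iff.1 i.2
  have e1 : pk W (fun c : Cfg n => if c i = a then 1 else 0) =
      ∑ x ∈ (Finset.range (3 ^ (n + 1))).filter (fun x => x / 3 ^ (i : ℕ) % 3 = (a : ℕ)),
        2 ^ (W * x) := by
    rw [← nd1_sum (n := n) (fun x => x / 3 ^ (i : ℕ) % 3 = (a : ℕ)) (fun x => 2 ^ (W * x))]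
    unfold pk
    refine Finset.sum_congr rfl fun c _ => ?_
    simp only [nd1_digit]
    by_cases h : c i = a
    · simp [h]
    · have h' : ¬ ((c i : ℕ) = (a : ℕ)) := fun h2 => h (Fin.ext h2)
      simp [h, h']
  have h3 : (3 : ℕ) ^ (n + 1) = 3 ^ (i : ℕ) * (3 * 3 ^ (n - (i : ℕ))) := by
    rw [← pow_succ', ← pow_add]
    congr 1
    omega
  have hpos : 0 < 3 ^ (i : ℕ) := by positivity
  have ha : (a : ℕ) < 3 := a.2
  have e2 : um W (n + 1) i a =
      ∑ q ∈ Finset.range (3 ^ (i : ℕ)) ×ˢ Finset.range (3 ^ (n - (i : ℕ))),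
        2 ^ (W * (q.1 + 3 ^ (i : ℕ) * ((a : ℕ) + 3 * q.2))) := by
    unfold um
    rw [rep_eq _ _ hW, rep_eq _ _ (by positivity), Finset.sum_mul_sum, Finset.sum_product,
      Finset.mul_sum]
    have h4 : n + 1 - 1 - (i : ℕ) = n - (i : ℕ) := by omega
    rw [h4]
    refine Finset.sum_congr rfl fun l _ => ?_
    rw [Finset.mul_sum]
    refine Finset.sum_congr rfl fun h _ => ?_
    rw [← pow_add, ← pow_add]
    congr 1
    ring
  rw [e1, e2]
  refine Finset.sum_bij' (fun q _ => q.1 + 3 ^ (i : ℕ) * ((a : ℕ) + 3 * q.2))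
    (fun x _ => (x % 3 ^ (i : ℕ), x / 3 ^ (i : ℕ) / 3)) ?_ ?_ ?_ ?_ ?_
  · rintro ⟨l, h⟩ hq
    rw [Finset.mem_product, Finset.mem_range, Finset.mem_range] at hq
    obtain ⟨hl, hh⟩ := hq
    simp only at hl hh ⊢
    rw [Finset.mem_filter, Finset.mem_range]
    refine ⟨?_, ?_⟩
    · rw [h3]
      calc l + 3 ^ (i : ℕ) * ((a : ℕ) + 3 * h) < 3 ^ (i : ℕ) + 3 ^ (i : ℕ) * ((a : ℕ) + 3 * h) := by
            omega
        _ = 3 ^ (i : ℕ) * ((a : ℕ) + 3 * h + 1) := by ring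
        _ ≤ 3 ^ (i : ℕ) * (3 * 3 ^ (n - (i : ℕ))) := Nat.mul_le_mul_left _ (by omega)
    · rw [Nat.add_mul_div_left _ _ hpos, Nat.div_eq_of_lt hl, zero_add]
      omega
  · intro x hx
    rw [Finset.mem_filter, Finset.mem_range] at hx
    rw [Finset.mem_product, Finset.mem_range, Finset.mem_range]
    refine ⟨Nat.mod_lt _ hpos, ?_⟩
    rw [Nat.div_div_eq_div_mul]
    apply Nat.div_lt_of_lt_mul
    calc x < 3 ^ (n + 1) := hx.1
      _ = _ := by rw [h3]; ring
  · rintro ⟨l, h⟩ hq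
    rw [Finset.mem_product, Finset.mem_range, Finset.mem_range] at hq
    obtain ⟨hl, hh⟩ := hq
    simp only at hl hh ⊢
    refine Prod.ext ?_ ?_
    · show (l + 3 ^ (i : ℕ) * ((a : ℕ) + 3 * h)) % 3 ^ (i : ℕ) = l
      rw [Nat.add_mul_mod_self_left, Nat.mod_eq_of_lt hl]
    · show (l + 3 ^ (i : ℕ) * ((a : ℕ) + 3 * h)) / 3 ^ (i : ℕ) / 3 = h
      rw [Nat.add_mul_div_left _ _ hpos, Nat.div_eq_of_lt hl, zero_add]
      omega
  · intro x hx
    rw [Finset.mem_filter, Finset.mem_range] at hx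
    show x % 3 ^ (i : ℕ) + 3 ^ (i : ℕ) * ((a : ℕ) + 3 * (x / 3 ^ (i : ℕ) / 3)) = x
    have h5 : (a : ℕ) + 3 * (x / 3 ^ (i : ℕ) / 3) = x / 3 ^ (i : ℕ) := by
      rw [← hx.2]
      exact Nat.mod_add_div _ _
    rw [h5]
    exact Nat.mod_add_div _ _
  · rintro ⟨l, h⟩ _
    rfl

theorem dm_eq {W : ℕ} (hW : 0 < W) (i : Fin (n + 1)) (a : Fin 3) :
    dm W (n + 1) i a = pk W fun c : Cfg n => if c i = a then 2 ^ W - 1 else 0 := by
  unfold dm
  rw [um_eq hW, pk_mul]
  congr 1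
  funext c
  split_ifs <;> simp

theorem hm_eq {W : ℕ} (hW : 0 < W) (i j : Fin (n + 1)) :
    hm W (n + 1) i j =
      pk W fun c : Cfg n => if (c i : ℕ) ≤ 1 ∧ 1 ≤ (c j : ℕ) then 2 ^ W - 1 else 0 := by
  have hb : ∀ (p : Prop) [Decidable p], (if p then 2 ^ W - 1 else 0) < 2 ^ W := by
    intro p _
    have : 0 < 2 ^ W := by positivity
    split_ifs <;> omega
  have h0 := dm_eq (n := n) hW i 0
  have h1 := dm_eq (n := n) hW i 1
  have h1' := dm_eq (n := n) hW j 1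
  have h2 := dm_eq (n := n) hW j 2
  simp only [Fin.val_zero, Fin.val_one, Fin.val_two] at h0 h1 h1' h2
  unfold hm
  rw [h0, h1, h1', h2, pk_or _ _ (fun c => hb _) (fun c => hb _),
    pk_or _ _ (fun c => hb _) (fun c => hb _), pk_and]
  · congr 1
    funext c
    generalize c i = x
    generalize c j = y
    fin_cases x <;> fin_cases y <;> simp
  · intro c
    exact Nat.or_lt_two_pow (hb _) (hb _)
  · intro c
    exact Nat.or_lt_two_pow (hb _) (hb _)

end Crest.Agent.R347
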