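import Crest.Agent.R347.ND3
import Crest.Agent.R347.ND4
import Crest.Agent.R347.ND5

/-!
# Row 347 numerics, piece ND6: the 26 result numbers

`exqN` = natural-number version of `exq`.  Each `cf … < 2^200` (`3^(n+1) 2^(2 (B+2)) < 2^200` from `hs`), so the slots of `res26` are read off
exactly. Uses `cf_eq` (with `b = B + 2`), `flipP_eq`, `pk_mask`, `pk_add`, `ones_eq`, `cM0_eq`, `cM1_eq`, `zM_eq`.
-/

set_option autoImplicit false

open Crest.MathPhysics.SpinChain Matrix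

namespace Crest.Agent.R347

variable {n : ℕ}

/-- natural-number version of `exq` -/
def exqN (n : ℕ) (v : XC n → ℕ) (i : ℕ) : ℕ :=
  match i with
  | 0 => ∑ c : Cfg n, if qcl c = 0 then (v (c, 0) + v (c, 2)) * (v (c, 0) + v (c, 2)) else 0
  | 1 => ∑ c : Cfg n, if qcl c = 0 then (v (c, 1) + v (c, 3)) * (v (c, 1) + v (c, 3)) else 0
  | 2 => ∑ c : Cfg n, if qcl c = 0 then (v (c, 0) + v (c, 2)) * (v (c, 1) + v (c, 3)) else 0
  | 3 => ∑ c : Cfg n, if qcl c = 0 then v (c, 0) * v (c, 2) else 0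
  | 4 => ∑ c : Cfg n, if qcl c = 0 then v (c, 1) * v (c, 3) else 0
  | 5 => ∑ c : Cfg n, if qcl c = 1 then (v (c, 0) + v (c, 2)) * (v (c, 0) + v (c, 2)) else 0
  | 6 => ∑ c : Cfg n, if qcl c = 1 then (v (c, 1) + v (c, 3)) * (v (c, 1) + v (c, 3)) else 0
  | 7 => ∑ c : Cfg n, if qcl c = 1 then (v (c, 0) + v (c, 2)) * (v (c, 1) + v (c, 3)) else 0
  | 8 => ∑ c : Cfg n, if qcl c = 1 then v (c, 0) * v (c, 2) else 0
  | 9 => ∑ c : Cfg n, if qcl c = 1 then v (c, 1) * v (c, 3) else 0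
  | 10 => ∑ c : Cfg n, if Mtot c = 0 then
      (v (c, 0) + v (c, 2)) * (v (flp c, 0) + v (flp c, 2)) else 0
  | 11 => ∑ c : Cfg n, if Mtot c = 0 then
      (v (c, 1) + v (c, 3)) * (v (flp c, 1) + v (flp c, 3)) else 0
  | _ => ∑ c : Cfg n, if Mtot c = 0 then
      (v (c, 0) + v (c, 2)) * (v (flp c, 1) + v (flp c, 3)) else 0

theorem exqN_cast (v : XC n → ℕ) (i : ℕ) : (exqN n v i : ℝ) = exq n (fun x => (v x : ℝ)) i := by
  rcases Nat.lt_or_ge i 12 with hi | hi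
  · interval_cases i <;> (unfold exqN exq; push_cast; rfl)
  · obtain ⟨j, rfl⟩ := Nat.exists_eq_add_of_le' hi
    show ((∑ c : Cfg n, if Mtot c = 0 then
      (v (c, 0) + v (c, 2)) * (v (flp c, 1) + v (flp c, 3)) else 0 : ℕ) : ℝ) =
      ∑ c : Cfg n, if Mtot c = 0 then
      ((v (c, 0) : ℝ) + v (c, 2)) * ((v (flp c, 1) : ℝ) + v (flp c, 3)) else 0
    push_cast
    rfl

theorem exq_mono (v w : XC n → ℝ) (h0 : ∀ x, 0 ≤ v x) (h : ∀ x, v x ≤ w x) (i : ℕ) :
    exq n v i ≤ exq n w i := by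
  have key : ∀ (P : Cfg n → Prop) [DecidablePred P] (a b a' b' : Cfg n → ℝ),
      (∀ c, 0 ≤ b c) → (∀ c, 0 ≤ a' c) → (∀ c, a c ≤ a' c) → (∀ c, b c ≤ b' c) →
      ∑ c : Cfg n, (if P c then a c * b c else 0) ≤ ∑ c : Cfg n, (if P c then a' c * b' c else 0) := by
    intro P _ a b a' b' hb ha' hab hbb
    apply Finset.sum_le_sum
    intro c _
    split_ifs
    · exact mul_le_mul (hab c) (hbb c) (hb c) (ha' c)
    · exact le_refl _
  have hw0 : ∀ x, 0 ≤ w x := fun x => (h0 x).trans (h x)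
  rcases Nat.lt_or_ge i 12 with hi | hi
  · interval_cases i <;> unfold exq <;>
      exact key _ _ _ _ _ (fun c => by first | exact h0 _ | exact add_nonneg (h0 _) (h0 _))
        (fun c => by first | exact hw0 _ | exact add_nonneg (hw0 _) (hw0 _))
        (fun c => by first | exact h _ | exact add_le_add (h _) (h _))
        (fun c => by first | exact h _ | exact add_le_add (h _) (h _))
  · obtain ⟨j, rfl⟩ := Nat.exists_eq_add_of_le' hi
    show (∑ c : Cfg n, if Mtot c = 0 then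
      (v (c, 0) + v (c, 2)) * (v (flp c, 1) + v (flp c, 3)) else 0) ≤
      ∑ c : Cfg n, if Mtot c = 0 then
      (w (c, 0) + w (c, 2)) * (w (flp c, 1) + w (flp c, 3)) else 0
    exact key _ _ _ _ _ (fun c => add_nonneg (h0 _) (h0 _)) (fun c => add_nonneg (hw0 _) (hw0 _))
      (fun c => add_le_add (h _) (h _)) (fun c => add_le_add (h _) (h _))

theorem exq_smul (a : ℝ) (v : XC n → ℝ) (i : ℕ) : exq n (fun x => a * v x) i = a ^ 2 * exq n v i := by
  have key : ∀ (P : Cfg n → Prop) [DecidablePred P] (f g : Cfg n → ℝ),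
      (∀ c, f c = a ^ 2 * g c) →
      ∑ c : Cfg n, (if P c then f c else 0) = a ^ 2 * ∑ c : Cfg n, (if P c then g c else 0) := by
    intro P _ f g hfg
    rw [Finset.mul_sum]
    apply Finset.sum_congr rfl
    intro c _
    split_ifs
    · exact hfg c
    · rw [mul_zero]
  rcases Nat.lt_or_ge i 12 with hi | hi
  · interval_cases i <;> unfold exq <;> exact key _ _ _ (fun c => by ring)
  · obtain ⟨j, rfl⟩ := Nat.exists_eq_add_of_le' hi
    show (∑ c : Cfg n, if Mtot c = 0 then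
      (a * v (c, 0) + a * v (c, 2)) * (a * v (flp c, 1) + a * v (flp c, 3)) else 0) =
      a ^ 2 * ∑ c : Cfg n, if Mtot c = 0 then
      (v (c, 0) + v (c, 2)) * (v (flp c, 1) + v (flp c, 3)) else 0
    exact key _ _ _ (fun c => by ring)

private theorem flp_flp' (c : Cfg n) : flp (flp c) = c := by
  funext j
  unfold flp
  exact Fin.rev_rev _

private theorem slot_sum_lt (v : ℕ → ℕ) (hv : ∀ i, v i < 2 ^ 200) (m : ℕ) :
    ∑ i ∈ Finset.range m, v i * 2 ^ (200 * i) < 2 ^ (200 * m) := by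
  induction m with
  | zero => simp
  | succ m ih =>
    rw [Finset.sum_range_succ, Nat.mul_succ, pow_add]
    have h1 : v m * 2 ^ (200 * m) + 2 ^ (200 * m) ≤ 2 ^ (200 * m) * 2 ^ 200 := by
      have h2 : (v m + 1) * 2 ^ (200 * m) ≤ 2 ^ 200 * 2 ^ (200 * m) :=
        Nat.mul_le_mul_right _ (hv m)
      calc v m * 2 ^ (200 * m) + 2 ^ (200 * m) = (v m + 1) * 2 ^ (200 * m) := by ring
        _ ≤ 2 ^ 200 * 2 ^ (200 * m) := h2
        _ = 2 ^ (200 * m) * 2 ^ 200 := Nat.mul_comm _ _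
    omega

private theorem slot_get (D : ℕ) (hD : 0 < D) (m : ℕ) : ∀ (v : ℕ → ℕ) (_ : ∀ i, v i < D) (H j : ℕ)
    (_ : j < m), ((∑ i ∈ Finset.range m, v i * D ^ i) + H * D ^ m) / D ^ j % D = v j := by
  induction m with
  | zero => intro v _ H j hj; exact absurd hj (Nat.not_lt_zero _)
  | succ m ih =>
    intro v hv H j hj
    have h1 : (∑ i ∈ Finset.range (m + 1), v i * D ^ i) + H * D ^ (m + 1) =
        v 0 + D * ((∑ i ∈ Finset.range m, v (i + 1) * D ^ i) + H * D ^ m) := by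
      rw [Finset.sum_range_succ', Nat.mul_add, Finset.mul_sum, pow_zero, mul_one]
      have h2 : ∑ k ∈ Finset.range m, v (k + 1) * D ^ (k + 1) =
          ∑ i ∈ Finset.range m, D * (v (i + 1) * D ^ i) :=
        Finset.sum_congr rfl fun i _ => by rw [pow_succ]; ring
      rw [h2, pow_succ]
      ring
    rw [h1]
    cases j with
    | zero =>
      rw [pow_zero, Nat.div_one, Nat.add_mul_mod_self_left, Nat.mod_eq_of_lt (hv 0)]
    | succ j =>
      rw [pow_succ', ← Nat.div_div_eq_div_mul, Nat.add_mul_div_left _ _ hD,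
        Nat.div_eq_of_lt (hv 0), zero_add]
      exact ih (fun i => v (i + 1)) (fun i => hv (i + 1)) H j (by omega)

private theorem key_lt {W B : ℕ} (hWm : 3 * W + 2 ≤ 200)
    (hs : 3 ^ (n + 1) * 2 ^ (2 * (B + 2)) < 2 ^ (3 * W)) (p : Cfg n → Prop) [DecidablePred p]
    (a b : Cfg n → ℕ) (ha : ∀ c, a c < 2 ^ (B + 2)) (hb : ∀ c, b c < 2 ^ (B + 2)) :
    ∑ c : Cfg n, (if p c then a c * b c else 0) < 2 ^ 200 := by
  have h1 : ∑ c : Cfg n, (if p c then a c * b c else 0) ≤ ∑ _c : Cfg n, 2 ^ (2 * (B + 2)) := by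
    refine Finset.sum_le_sum fun c _ => ?_
    split_ifs
    · rw [two_mul, pow_add]
      exact Nat.mul_le_mul (ha c).le (hb c).le
    · exact Nat.zero_le _
  have h2 : ∑ _c : Cfg n, 2 ^ (2 * (B + 2)) = 3 ^ (n + 1) * 2 ^ (2 * (B + 2)) := by
    rw [Finset.sum_const, Finset.card_univ, Fintype.card_fun, Fintype.card_fin, Fintype.card_fin,
      smul_eq_mul]
  have h3 : 2 ^ (3 * W) ≤ 2 ^ 200 := Nat.pow_le_pow_right (by norm_num) (by omega)
  omega

private theorem exqN_lt {W B : ℕ} (hWm : 3 * W + 2 ≤ 200)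
    (hs : 3 ^ (n + 1) * 2 ^ (2 * (B + 2)) < 2 ^ (3 * W)) (g : XC n → ℕ)
    (hg : ∀ x, g x < 2 ^ (B + 1)) (i : ℕ) : exqN n g i < 2 ^ 200 := by
  have hB : 2 ^ (B + 1) + 2 ^ (B + 1) = 2 ^ (B + 2) := by
    rw [pow_succ 2 (B + 1)]; ring
  have h1 : ∀ x, g x < 2 ^ (B + 2) := fun x => by have := hg x; omega
  have h2 : ∀ x y, g x + g y < 2 ^ (B + 2) := fun x y => by
    have h3 := hg x
    have h4 := hg y
    omega
  rcases Nat.lt_or_ge i 12 with hi | hi
  · interval_cases i <;> unfold exqN <;>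
      exact key_lt hWm hs _ _ _ (fun c => by first | exact h1 _ | exact h2 _ _)
        (fun c => by first | exact h1 _ | exact h2 _ _)
  · obtain ⟨j, rfl⟩ := Nat.exists_eq_add_of_le' hi
    show (∑ c : Cfg n, if Mtot c = 0 then
      (g (c, 0) + g (c, 2)) * (g (flp c, 1) + g (flp c, 3)) else 0) < 2 ^ 200
    exact key_lt hWm hs _ _ _ (fun c => h2 _ _) (fun c => h2 _ _)

private theorem cfm {W B : ℕ} (hW : 0 < W) (hB : B + 2 ≤ W)
    (hs : 3 ^ (n + 1) * 2 ^ (2 * (B + 2)) < 2 ^ (3 * W)) (p : Cfg n → Prop) [DecidablePred p]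
    (M : ℕ) (hM : M = pk W fun c : Cfg n => if p c then 2 ^ W - 1 else 0)
    (F G : Cfg n → ℕ) (hF : ∀ c, F c < 2 ^ (B + 2)) (hG : ∀ c, G c < 2 ^ (B + 2)) :
    cf W (n + 1) (pk W F &&& M) (pk W G) = ∑ c : Cfg n, if p c then F c * G (flp c) else 0 := by
  have hpow : 2 ^ (B + 2) ≤ 2 ^ W := Nat.pow_le_pow_right (by norm_num) hB
  have hs' : 3 ^ n * 2 ^ (2 * (B + 2)) < 2 ^ (3 * W) := by
    refine lt_of_le_of_lt (Nat.mul_le_mul_right _ ?_) hs
    exact Nat.pow_le_pow_right (by norm_num) (Nat.le_succ n)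
  rw [hM, pk_mask F (fun c => (hF c).trans_le hpow) p, cf_eq hW hB hs' _ _ ?_ hG]
  · refine Finset.sum_congr rfl fun c _ => ?_
    split_ifs
    · rfl
    · rw [zero_mul]
  · intro c
    split_ifs
    · exact hF c
    · positivity

private theorem res13_eq {W B : ℕ} (hW : 7 ≤ W) (hn : n + 1 ≤ 15) (hB : B + 2 ≤ W)
    (hs : 3 ^ (n + 1) * 2 ^ (2 * (B + 2)) < 2 ^ (3 * W)) (g : XC n → ℕ)
    (hg : ∀ x, g x < 2 ^ (B + 1)) :
    res13 W (n + 1) (pk W fun c : Cfg n => g (c, 0)) (pk W fun c : Cfg n => g (c, 1))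
      (pk W fun c : Cfg n => g (c, 2)) (pk W fun c : Cfg n => g (c, 3))
      (pk W fun c : Cfg n => g (c, 0) + g (c, 2)) (pk W fun c : Cfg n => g (c, 1) + g (c, 3))
      (pk W fun c : Cfg n => g (flp c, 0) + g (flp c, 2))
      (pk W fun c : Cfg n => g (flp c, 1) + g (flp c, 3))
      (pk W fun c : Cfg n => g (flp c, 2)) (pk W fun c : Cfg n => g (flp c, 3)) =
    ∑ i ∈ Finset.range 13, exqN n g i * (2 ^ 200) ^ i := by
  have hW0 : 0 < W := by omega
  have hB2 : 2 ^ (B + 1) + 2 ^ (B + 1) = 2 ^ (B + 2) := by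
    rw [pow_succ 2 (B + 1)]; ring
  have h1 : ∀ x, g x < 2 ^ (B + 2) := fun x => by have := hg x; omega
  have h2 : ∀ x y, g x + g y < 2 ^ (B + 2) := fun x y => by
    have h3 := hg x
    have h4 := hg y
    omega
  have c0 := cM0_eq (n := n) hW0
  have c1 := cM1_eq (n := n) hW0
  have cz := zM_eq (n := n) hW hn
  unfold res13
  rw [cfm hW0 hB hs (fun c => qcl c = 0) _ c0 _ _ (fun c => h2 _ _) (fun c => h2 _ _),
    cfm hW0 hB hs (fun c => qcl c = 0) _ c0 _ _ (fun c => h2 _ _) (fun c => h2 _ _),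
    cfm hW0 hB hs (fun c => qcl c = 0) _ c0 _ _ (fun c => h2 _ _) (fun c => h2 _ _),
    cfm hW0 hB hs (fun c => qcl c = 0) _ c0 _ _ (fun c => h1 _) (fun c => h1 _),
    cfm hW0 hB hs (fun c => qcl c = 0) _ c0 _ _ (fun c => h1 _) (fun c => h1 _),
    cfm hW0 hB hs (fun c => qcl c = 1) _ c1 _ _ (fun c => h2 _ _) (fun c => h2 _ _),
    cfm hW0 hB hs (fun c => qcl c = 1) _ c1 _ _ (fun c => h2 _ _) (fun c => h2 _ _),
    cfm hW0 hB hs (fun c => qcl c = 1) _ c1 _ _ (fun c => h2 _ _) (fun c => h2 _ _),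
    cfm hW0 hB hs (fun c => qcl c = 1) _ c1 _ _ (fun c => h1 _) (fun c => h1 _),
    cfm hW0 hB hs (fun c => qcl c = 1) _ c1 _ _ (fun c => h1 _) (fun c => h1 _),
    cfm hW0 hB hs (fun c => Mtot c = 0) _ cz _ _ (fun c => h2 _ _) (fun c => h2 _ _),
    cfm hW0 hB hs (fun c => Mtot c = 0) _ cz _ _ (fun c => h2 _ _) (fun c => h2 _ _),
    cfm hW0 hB hs (fun c => Mtot c = 0) _ cz _ _ (fun c => h2 _ _) (fun c => h2 _ _)]
  simp only [flp_flp', Nat.shiftLeft_eq, Finset.sum_range_succ, Finset.sum_range_zero, exqN,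
    ← pow_mul]
  norm_num

private theorem res26_eq {W B EM : ℕ} (hW : 7 ≤ W) (hn : n + 1 ≤ 15) (hB : B + 2 ≤ W)
    (hEM : EM < 2 ^ B) (hs : 3 ^ (n + 1) * 2 ^ (2 * (B + 2)) < 2 ^ (3 * W)) (f : XC n → ℕ)
    (hf : ∀ x, f x < 2 ^ B) :
    res26 W (n + 1) EM (cmp W f 0) (cmp W f 1) (cmp W f 2) (cmp W f 3) =
      (∑ i ∈ Finset.range 13, exqN n f i * (2 ^ 200) ^ i) +
      (∑ i ∈ Finset.range 13, exqN n (fun x => f x + EM) i * (2 ^ 200) ^ i) * (2 ^ 200) ^ 13 := by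
  have hW0 : 0 < W := by omega
  have hBp : 2 ^ B + 2 ^ B = 2 ^ (B + 1) := by rw [pow_succ]; ring
  have hBW : 2 ^ (B + 1) ≤ 2 ^ W := Nat.pow_le_pow_right (by norm_num) (by omega)
  have hf1 : ∀ x, f x < 2 ^ (B + 1) := fun x => by have := hf x; omega
  have hf2 : ∀ x, f x + EM < 2 ^ (B + 1) := fun x => by have := hf x; omega
  unfold res26 cmp
  have ho : EM * ones W (n + 1) = pk W fun _ : Cfg n => EM := by
    rw [ones_eq hW0, Nat.mul_comm, pk_mul]
    congr 1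
    funext c
    rw [Nat.one_mul]
  have ho2 : 2 * (pk W fun _ : Cfg n => EM) = pk W fun _ : Cfg n => EM * 2 := by
    rw [Nat.mul_comm, pk_mul]
  beta_reduce
  rw [ho, ho2]
  simp only [pk_add]
  rw [flipP_eq hW0 (fun c => f (c, 0) + f (c, 2)) (fun c => by
      have h1 := hf (c, 0)
      have h2 := hf (c, 2)
      omega),
    flipP_eq hW0 (fun c => f (c, 1) + f (c, 3)) (fun c => by
      have h1 := hf (c, 1)
      have h2 := hf (c, 3)
      omega),
    flipP_eq hW0 (fun c => f (c, 2)) (fun c => by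
      have h1 := hf (c, 2)
      omega),
    flipP_eq hW0 (fun c => f (c, 3)) (fun c => by
      have h1 := hf (c, 3)
      omega)]
  simp only [pk_add]
  rw [res13_eq hW hn hB hs f hf1]
  have h4 := res13_eq hW hn hB hs (fun x => f x + EM) hf2
  beta_reduce at h4
  have e1 : ∀ a b : ℕ, a + EM + (b + EM) = a + b + EM * 2 := fun a b => by ring
  simp only [e1] at h4
  rw [h4, Nat.shiftLeft_eq, ← pow_mul]

theorem res26_lo {W B EM : ℕ} (hW : 7 ≤ W) (hn : n + 1 ≤ 15) (hB : B + 2 ≤ W) (hWm : 3 * W + 2 ≤ 200)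
    (hEM : EM < 2 ^ B) (hs : 3 ^ (n + 1) * 2 ^ (2 * (B + 2)) < 2 ^ (3 * W)) (f : XC n → ℕ)
    (hf : ∀ x, f x < 2 ^ B) (i : ℕ) (hi : i < 13) :
    res26 W (n + 1) EM (cmp W f 0) (cmp W f 1) (cmp W f 2) (cmp W f 3) >>> (200 * i) % 2 ^ 200 =
      exqN n f i := by
  have hBp : 2 ^ B + 2 ^ B = 2 ^ (B + 1) := by rw [pow_succ]; ring
  have hf1 : ∀ x, f x < 2 ^ (B + 1) := fun x => by have := hf x; omega
  rw [res26_eq hW hn hB hEM hs f hf, Nat.shiftRight_eq_div_pow, pow_mul 2 200 i]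
  exact slot_get (2 ^ 200) (by positivity) 13 (exqN n f) (exqN_lt hWm hs f hf1) _ i hi

theorem res26_hi {W B EM : ℕ} (hW : 7 ≤ W) (hn : n + 1 ≤ 15) (hB : B + 2 ≤ W) (hWm : 3 * W + 2 ≤ 200)
    (hEM : EM < 2 ^ B) (hs : 3 ^ (n + 1) * 2 ^ (2 * (B + 2)) < 2 ^ (3 * W)) (f : XC n → ℕ)
    (hf : ∀ x, f x < 2 ^ B) (i : ℕ) (hi : i < 13) :
    res26 W (n + 1) EM (cmp W f 0) (cmp W f 1) (cmp W f 2) (cmp W f 3) >>> (200 * (13 + i)) %
      2 ^ 200 = exqN n (fun x => f x + EM) i := by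
  have hBp : 2 ^ B + 2 ^ B = 2 ^ (B + 1) := by rw [pow_succ]; ring
  have hf1 : ∀ x, f x < 2 ^ (B + 1) := fun x => by have := hf x; omega
  have hf2 : ∀ x, f x + EM < 2 ^ (B + 1) := fun x => by have := hf x; omega
  rw [res26_eq hW hn hB hEM hs f hf, Nat.shiftRight_eq_div_pow, pow_mul 2 200 (13 + i),
    pow_add, ← Nat.div_div_eq_div_mul]
  have h1 := slot_sum_lt (exqN n f) (exqN_lt hWm hs f hf1) 13
  have h2 : ∑ i ∈ Finset.range 13, exqN n f i * 2 ^ (200 * i) =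
      ∑ i ∈ Finset.range 13, exqN n f i * (2 ^ 200) ^ i :=
    Finset.sum_congr rfl fun i _ => by rw [pow_mul]
  rw [h2, pow_mul] at h1
  rw [Nat.add_mul_div_right _ _ (by positivity), Nat.div_eq_of_lt h1, zero_add]
  have h3 := slot_get (2 ^ 200) (by positivity) 13 (exqN n (fun x => f x + EM))
    (exqN_lt hWm hs _ hf2) 0 i hi
  rw [zero_mul, add_zero] at h3
  exact h3

end Crest.Agent.R347
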