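import Crest.Agent.R347.NumStmt
import Crest.Agent.R347.NumCore

/-!
# Row 347, numerics (ring): matrix-level and vector-level definitions

Number of sites `L = n + 1`.  `Cfg n` = configurations, `XC n` = configuration + winding number mod 4.
`KN n` = nonnegative integer matrix (`L - H` after the Marshall sign, winding counter on the bond
`(last, 0)`), `Ex n t = exp(t KN)`.
-/

set_option autoImplicit false

open Crest.MathPhysics.SpinChain Matrix

namespace Crest.Agent.R347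

/-- configurations of `n + 1` sites -/
abbrev Cfg (n : ℕ) : Type := Fin (n + 1) → Fin 3

/-- configuration and winding number -/
abbrev XC (n : ℕ) : Type := Cfg n × ZMod 4

/-- `c'` arises from `c` by raising the index at `i` and lowering the index at `j` -/
def Hop {n : ℕ} (i j : Fin (n + 1)) (c c' : Cfg n) : Prop :=
  (c' i : ℕ) = (c i : ℕ) + 1 ∧ (c j : ℕ) = (c' j : ℕ) + 1 ∧ ∀ l, l ≠ i → l ≠ j → c' l = c l

instance {n : ℕ} (i j : Fin (n + 1)) (c c' : Cfg n) : Decidable (Hop i j c c') := by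
  unfold Hop; infer_instance

/-- `1 - m m'` as a natural number -/
def bd (a b : Fin 3) : ℕ := if a = 1 ∨ b = 1 then 1 else if a = b then 0 else 2

/-- diagonal of `L - H` (ring) -/
def diagK {n : ℕ} (c : Cfg n) : ℕ :=
  (∑ j : Fin n, bd (c (Fin.castSucc j)) (c (Fin.succ j))) + bd (c (Fin.last n)) (c 0)

/-- the nonnegative integer matrix `K` with winding counter -/
def KN (n : ℕ) : Matrix (XC n) (XC n) ℕ := Matrix.of fun x y =>
  (if x = y then diagK x.1 else 0) +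
  (∑ j : Fin n, ((if x.2 = y.2 ∧ Hop (Fin.castSucc j) (Fin.succ j) x.1 y.1 then 1 else 0) +
    (if x.2 = y.2 ∧ Hop (Fin.succ j) (Fin.castSucc j) x.1 y.1 then 1 else 0))) +
  ((if y.2 = x.2 + 1 ∧ Hop 0 (Fin.last n) x.1 y.1 then 1 else 0) +
    (if x.2 = y.2 + 1 ∧ Hop (Fin.last n) 0 x.1 y.1 then 1 else 0))

/-- real version -/
noncomputable def KR (n : ℕ) : Matrix (XC n) (XC n) ℝ := (KN n).map fun k => (k : ℝ)

/-- `exp(t K)` -/
noncomputable def Ex (n : ℕ) (t : ℝ) : Matrix (XC n) (XC n) ℝ := NormedSpace.exp (t • KR n)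

/-- the twists `1, c4, pz` -/
def gk : Fin 3 → Matrix (Fin 3) (Fin 3) ℝ := ![1, c4, pz]

/-- `κ' = κ + 2 [L odd]` -/
def kap (n : ℕ) (κ : Fin 3) : ZMod 4 := ((κ : ℕ) : ZMod 4) + (if Even n then 2 else 0)

/-- `Re i^(k j)` -/
def chiR (k j : ZMod 4) : ℝ := if k * j = 0 then 1 else if k * j = 2 then -1 else 0

/-- total magnetisation -/
def Mtot {n : ℕ} (c : Cfg n) : ℤ := ∑ j, (1 - ((c j : ℕ) : ℤ))

/-- sign `(-1)^(ε M)` -/
def sgM {n : ℕ} (ε : Bool) (c : Cfg n) : ℝ := if ε ∧ ¬ Even (Mtot c) then -1 else 1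

/-- spin flip -/
def flp {n : ℕ} (c : Cfg n) : Cfg n := fun j => Fin.rev (c j)

/-- cyclic shift -/
def shf {n : ℕ} (c : Cfg n) : Cfg n := fun j => c (j + 1)

/-- reversal -/
def rvs {n : ℕ} (c : Cfg n) : Cfg n := fun j => c (Fin.rev j)

/-- the vector `exp(17/4 K) (∑_{c ∈ A} e_(c,0))` -/
noncomputable def vA (n : ℕ) (A : Finset (Cfg n)) (y : XC n) : ℝ := ∑ c ∈ A, Ex n (17 / 4) (c, 0) y

/-- number of sites with index 1 is odd -/
def qcl {n : ℕ} (c : Cfg n) : ℕ := (Finset.univ.filter fun j => c j = 1).card % 2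

/-- the 13 exact sums of a vector -/
noncomputable def exq (n : ℕ) (v : XC n → ℝ) (i : ℕ) : ℝ :=
  match i with
  | 0 => ∑ c : Cfg n, if qcl c = 0 then (v (c, 0) + v (c, 2)) * (v (c, 0) + v (c, 2)) else 0
  | 1 => ∑ c : Cfg n, if qcl c = 0 then (v (c, 1) + v (c, 3)) * (v (c, 1) + v (c, 3)) else 0
  | 2 => ∑ c : Cfg n, if qcl c = 0 then (v (c, 0) + v (c, 2)) * (v (c, 1) + v (c, 3)) else 0
  | 3 => ∑ c : Cfg n, if qcl c = 0 then v (c, 0) * v (c, 2) else 0
  | 4 => ∑ c : Cfg n, if qcl c = 0 then v (c, 1) * v (c, 3) else 0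
  | 5 => ∑ c : Cfg n, if qcl c = 1 then (v (c, 0) + v (c, 2)) * (v (c, 0) + v (c, 2)) else 0
  | 6 => ∑ c : Cfg n, if qcl c = 1 then (v (c, 1) + v (c, 3)) * (v (c, 1) + v (c, 3)) else 0
  | 7 => ∑ c : Cfg n, if qcl c = 1 then (v (c, 0) + v (c, 2)) * (v (c, 1) + v (c, 3)) else 0
  | 8 => ∑ c : Cfg n, if qcl c = 1 then v (c, 0) * v (c, 2) else 0
  | 9 => ∑ c : Cfg n, if qcl c = 1 then v (c, 1) * v (c, 3) else 0
  | 10 => ∑ c : Cfg n, if Mtot c = 0 then
      (v (c, 0) + v (c, 2)) * (v (flp c, 0) + v (flp c, 2)) else 0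
  | 11 => ∑ c : Cfg n, if Mtot c = 0 then
      (v (c, 1) + v (c, 3)) * (v (flp c, 1) + v (flp c, 3)) else 0
  | _ => ∑ c : Cfg n, if Mtot c = 0 then
      (v (c, 0) + v (c, 2)) * (v (flp c, 1) + v (flp c, 3)) else 0

/-! ### vector-level recursion -/

/-- start vector -/
def startv {n : ℕ} (A : Finset (Cfg n)) (a : ℕ) (x : XC n) : ℕ := if x.1 ∈ A ∧ x.2 = 0 then a else 0

/-- one Horner step (rounded down) -/
def loStep {n : ℕ} (A : Finset (Cfg n)) (f : XC n → ℕ) (p : ℕ × ℕ) : XC n → ℕ :=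
  fun x => ((KN n).mulVec f x) / 2 ^ p.1 + startv A p.2 x

/-- one step of the error recursion -/
def errStep {n : ℕ} (f : XC n → ℕ) (p : ℕ × ℕ) : XC n → ℕ :=
  fun x => ((KN n).mulVec f x) / 2 ^ p.1 + 3

/-- total shift of a schedule -/
def totSh (l : List (ℕ × ℕ)) : ℕ := (l.map Prod.fst).sum

/-- validity of a schedule `[(s_(N-1), a_(N-1)), …, (s_0, a_0)]` with scale `σ` and tail bound `e0` -/
structure SchedOK (n σ e0 : ℕ) (l : List (ℕ × ℕ)) : Prop where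
  pos : 17 * (3 * (n + 1)) < 4 * l.length
  tail : 17 ^ l.length * 2 ^ σ * (4 * l.length) ≤
    e0 * (4 ^ l.length * l.length.factorial * (4 * l.length - 17 * (3 * (n + 1))))
  lower : ∀ i (h : i < l.length), (l.get ⟨i, h⟩).2 * (4 ^ (l.length - 1 - i) *
    (l.length - 1 - i).factorial * 2 ^ totSh (l.take (i + 1))) ≤ 17 ^ (l.length - 1 - i) * 2 ^ σ
  upper : ∀ i (h : i < l.length), 17 ^ (l.length - 1 - i) * 2 ^ σ ≤
    ((l.get ⟨i, h⟩).2 + 1) * (4 ^ (l.length - 1 - i) *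
    (l.length - 1 - i).factorial * 2 ^ totSh (l.take (i + 1)))

/-! ### packing -/

/-- slot number of a configuration -/
def idx {n : ℕ} (c : Cfg n) : ℕ := ∑ j : Fin (n + 1), (c j : ℕ) * 3 ^ (j : ℕ)

/-- packed vector -/
def pk (W : ℕ) {n : ℕ} (f : Cfg n → ℕ) : ℕ := ∑ c : Cfg n, f c * 2 ^ (W * idx c)

end Crest.Agent.R347
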