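import Crest.Agent.R347.NODefs
import Crest.Agent.R347.NA2

/-!
# Row 347 numerics (open chains), piece NOA1: gauge transformation

`(n + 6/5 - H)(c, c') = s(c) s(c') KO(c, c') / 5`, `s = sgS` (Marshall sign, NA2.lean), `H = openH n (3/5) (± 3/5)`.
* off-diagonal: `bond_eq_tbond`, `tbond_apply` with `κ = 0` (NA1.lean): `H` has `+1` for `Hop i j c' c` and for `Hop j i c' c`
  (`hop_symm`: `Hop i j c' c ↔ Hop j i c c'`), and `s(c) s(c') = -1` for interior hops (`hop_sign_int`, NA2.lean);
* diagonal: `n - ∑ m m' = ∑ bd` (`bd_cast`, NA2.lean: `bd a b = 1 - m_a m_b`); the fields: `-H` contains `+ (3/5) S^z_0 ± (3/5) S^z_last`,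
  `spinZ = diag(1, 0, -1)` (Prelude Def_SpinChain), `onSite spinZ j c c' = if c = c' then 1 - c_j else 0`;
  `5 (6/5) + 3 (1 - c_0) ± 3 (1 - c_last) = 3 (2 - c_0) + (3 (2 - c_last)` resp. `3 c_last)`.
Template: `ringH_gauge` in NA2.lean (the ring version).
-/

set_option autoImplicit false

open Crest.MathPhysics.SpinChain Matrix

namespace Crest.Agent.R347

theorem onSite_spinZ_noa1 {n : ℕ} (j : Fin (n + 1)) (c c' : Cfg n) :
    onSite spinZ j c c' = if c = c' then 1 - ((c j : ℕ) : ℂ) else 0 := by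
  unfold onSite
  simp only [Matrix.of_apply, spinZ_apply', eZ]
  by_cases h : c = c'
  · subst h; simp
  · rw [if_neg h]
    by_cases h1 : ∀ k, k ≠ j → c k = c' k
    · rw [if_pos h1, if_neg]
      intro h2
      apply h
      funext k
      by_cases hk : k = j
      · rw [hk, h2]
      · exact h1 k hk
    · rw [if_neg h1]

theorem two_sub_cast_noa1 (a : Fin 3) : ((2 - (a : ℕ) : ℕ) : ℂ) = 2 - ((a : ℕ) : ℂ) := by
  have := a.2
  rw [Nat.cast_sub (by omega)]; norm_num

theorem openH_gauge {n : ℕ} (s : Bool) (c c' : Cfg n) :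
    ((((n : ℂ) + 6 / 5) • (1 : Matrix (Cfg n) (Cfg n) ℂ)) - openH n (3 / 5) (fO s)) c c' =
      sgS c * sgS c' * (((KO n s c c' : ℕ) : ℂ) / 5) := by
  have hb : ∀ j : Fin n, bond (Fin.castSucc j) (Fin.succ j) c c' =
      (if c = c' then ((1 - ((c (Fin.castSucc j) : ℕ) : ℂ)) * (1 - ((c (Fin.succ j) : ℕ) : ℂ))) else 0) +
      ((if Hop (Fin.castSucc j) (Fin.succ j) c c' then 1 else 0) +
      (if Hop (Fin.succ j) (Fin.castSucc j) c c' then 1 else 0)) := by
    intro j
    have hj : Fin.castSucc j ≠ Fin.succ j := (Fin.castSucc_lt_succ).ne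
    rw [bond_eq_tbond, tbond_apply 0 _ _ hj]
    simp only [hop_symm (Fin.castSucc j) (Fin.succ j) c c', hop_symm (Fin.succ j) (Fin.castSucc j) c c',
      Fin.val_zero, pow_zero]
    ring
  have hint : ∀ j : Fin n, ∀ P : Prop, ∀ [Decidable P], (P → sgS c * sgS c' = -1) →
      sgS c * sgS c' * (if P then (1 : ℂ) else 0) = - (if P then 1 else 0) := by
    intro j P _ hP
    by_cases h : P
    · rw [hP h, if_pos h]; norm_num
    · rw [if_neg h]; norm_num
  have s1 : sgS c * sgS c' * ∑ j : Fin n, (if Hop (Fin.castSucc j) (Fin.succ j) c c' then (1 : ℂ) else 0) =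
      - ∑ j : Fin n, (if Hop (Fin.castSucc j) (Fin.succ j) c c' then (1 : ℂ) else 0) := by
    rw [Finset.mul_sum, ← Finset.sum_neg_distrib]
    exact Finset.sum_congr rfl fun j _ => hint j _ fun h => hop_sign_int j c c' (Or.inl h)
  have s2 : sgS c * sgS c' * ∑ j : Fin n, (if Hop (Fin.succ j) (Fin.castSucc j) c c' then (1 : ℂ) else 0) =
      - ∑ j : Fin n, (if Hop (Fin.succ j) (Fin.castSucc j) c c' then (1 : ℂ) else 0) := by
    rw [Finset.mul_sum, ← Finset.sum_neg_distrib]
    exact Finset.sum_congr rfl fun j _ => hint j _ fun h => hop_sign_int j c c' (Or.inr h)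
  have hKO : ((KO n s c c' : ℕ) : ℂ) = (if c = c' then ((diagO s c : ℕ) : ℂ) else 0) +
      5 * (∑ j : Fin n, (if Hop (Fin.castSucc j) (Fin.succ j) c c' then (1 : ℂ) else 0) +
        ∑ j : Fin n, (if Hop (Fin.succ j) (Fin.castSucc j) c c' then (1 : ℂ) else 0)) := by
    simp only [KO, Matrix.of_apply, ← Finset.sum_add_distrib]
    push_cast
    rfl
  have s0 : sgS c * sgS c' * (if c = c' then ((diagO s c : ℕ) : ℂ) else 0) =
      (5 * (n : ℂ) + 6) * (if c = c' then 1 else 0) -
      5 * ∑ j : Fin n, (if c = c' then ((1 - ((c (Fin.castSucc j) : ℕ) : ℂ)) *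
        (1 - ((c (Fin.succ j) : ℕ) : ℂ))) else 0) +
      (3 * (if c = c' then (1 - ((c 0 : ℕ) : ℂ)) else 0) +
        (if s then -3 else 3) * (if c = c' then (1 - ((c (Fin.last n) : ℕ) : ℂ)) else 0)) := by
    by_cases h : c = c'
    · subst h
      simp only [if_true, sgS_sq, one_mul, mul_one]
      unfold diagO
      cases s
      · simp only [Bool.false_eq_true, if_false]
        push_cast [two_sub_cast_noa1]
        simp only [bd_cast, Finset.sum_sub_distrib, Finset.sum_const, Finset.card_univ, Fintype.card_fin,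
          nsmul_eq_mul, mul_one]
        ring
      · simp only [if_true]
        push_cast [two_sub_cast_noa1]
        simp only [bd_cast, Finset.sum_sub_distrib, Finset.sum_const, Finset.card_univ, Fintype.card_fin,
          nsmul_eq_mul, mul_one]
        ring
    · simp [h]
  have hf : ((fO s : ℝ) : ℂ) = (if s then -3 else 3) / 5 := by
    cases s <;> simp [fO] <;> norm_num
  rw [Matrix.sub_apply, openH, Matrix.sub_apply, Matrix.sum_apply, Matrix.smul_apply,
    Matrix.one_apply, Matrix.add_apply, Matrix.smul_apply, Matrix.smul_apply, onSite_spinZ_noa1,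
    onSite_spinZ_noa1, smul_eq_mul, smul_eq_mul, smul_eq_mul, hf, hKO, mul_div_assoc', mul_add, s0,
    mul_left_comm, mul_add, s1, s2]
  simp only [hb, Finset.sum_add_distrib]
  have h35 : (((3 / 5 : ℝ)) : ℂ) = 3 / 5 := by norm_num
  rw [h35]
  ring

end Crest.Agent.R347
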