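import Crest.Agent.R347.NOA1
import Crest.Agent.R347.NA4

/-!
# Row 347 numerics (open chains), piece NOA2: the traces in terms of `EO`

`exp(-β H) = e^(-β (n + 6/5)) D exp(β (K/5)) D`, `D = DS n` diagonal with entries `sgS`, `D² = 1` (NA4.lean: `NA4Aux.DS_mul_DS`, `DS_isUnit`,
`DS_conj_apply`, `exp_smul_one`; the ring version is `NA4Aux.exp_ringH`).  `β/5 = 17/10`, the real exponential `EO` is mapped to the
complex one by the entrywise map `ℝ → ℂ` (`exp` of a mapped matrix: compare `Phi_exp`/NA3 or use `hasSum` entrywise: `na3_hasSum_mexpR`, `na3_hasSum_mexpC`).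
`17/2 (n+1) - 17/2 (n + 6/5) = -17/10`.  `tens 1 = 1`, `tens wz` = diagonal with `(-1)^(Mtot c)` (see NA4.lean, `ring_trace`).
-/

set_option autoImplicit false

open Crest.MathPhysics.SpinChain Matrix

namespace Crest.Agent.R347

/-- the exponential of a real matrix, mapped to `ℂ` -/
theorem noa2_map_exp {m : Type} [Fintype m] [DecidableEq m] (A : Matrix m m ℝ) (t : ℝ) :
    ((NormedSpace.exp (t • A)).map fun x => (x : ℂ)) =
      NormedSpace.exp ((t : ℂ) • (A.map fun x => (x : ℂ))) := by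
  have e1 := (na3_hasSum_mexpR (t • A)).map
    (Complex.ofRealHom.mapMatrix : Matrix m m ℝ →+* Matrix m m ℂ)
    (Continuous.matrix_map continuous_id Complex.continuous_ofReal)
  have e2 := na3_hasSum_mexpC ((t : ℂ) • (A.map fun x => (x : ℂ)))
  refine e1.unique ?_
  have e3 : (⇑(Complex.ofRealHom.mapMatrix : Matrix m m ℝ →+*
      Matrix m m ℂ) ∘ fun k : ℕ => ((k.factorial : ℝ)⁻¹) • (t • A) ^ k) =
      fun k : ℕ => ((k.factorial : ℂ)⁻¹) • ((t : ℂ) • (A.map fun x => (x : ℂ))) ^ k := by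
    funext k
    simp only [Function.comp]
    have e4 : ∀ (a : ℝ) (M : Matrix m m ℝ),
        (Complex.ofRealHom.mapMatrix : Matrix m m ℝ →+* Matrix m m ℂ) (a • M) =
        (a : ℂ) • (Complex.ofRealHom.mapMatrix : Matrix m m ℝ →+* Matrix m m ℂ) M := by
      intro a M
      ext x y
      simp
    rw [e4, map_pow, e4]
    simp only [Complex.ofReal_inv, Complex.ofReal_natCast]
    rfl
  rw [e3]
  exact e2

open NA4Aux in
theorem noa2_exp_openH {n : ℕ} (s : Bool) :
    NormedSpace.exp ((-((17 / 2 : ℝ) : ℂ)) • openH n (3 / 5) (fO s)) =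
      Complex.exp (-((17 / 2 : ℝ) * ((n : ℂ) + 6 / 5))) •
        (DS n * ((EO n s (17 / 10)).map fun x => (x : ℂ)) * DS n) := by
  have hg : (((n : ℂ) + 6 / 5) • (1 : Matrix (Cfg n) (Cfg n) ℂ)) - openH n (3 / 5) (fO s) =
      DS n * ((1 / 5 : ℂ) • ((KOR n s).map fun x => (x : ℂ))) * DS n := by
    ext c c'
    rw [openH_gauge, DS_conj_apply]
    simp only [KOR, Matrix.smul_apply, Matrix.map_apply, smul_eq_mul, Complex.ofReal_natCast]
    ring
  have h1 : (-((17 / 2 : ℝ) : ℂ)) • openH n (3 / 5) (fO s) =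
      (-((17 / 2 : ℝ) * ((n : ℂ) + 6 / 5))) • (1 : Matrix (Cfg n) (Cfg n) ℂ) +
      DS n * (((17 / 10 : ℝ) : ℂ) • ((KOR n s).map fun x => (x : ℂ))) * DS n := by
    have h2 : DS n * (((17 / 10 : ℝ) : ℂ) • ((KOR n s).map fun x => (x : ℂ))) * DS n =
        (((17 / 2 : ℝ) : ℂ)) • (DS n * ((1 / 5 : ℂ) • ((KOR n s).map fun x => (x : ℂ))) * DS n) := by
      rw [← Matrix.smul_mul, ← Matrix.mul_smul, smul_smul]
      congr 3
      push_cast
      norm_num
    rw [h2, ← hg, smul_sub, smul_smul, neg_smul, neg_smul]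
    abel
  rw [h1, Matrix.exp_add_of_commute, exp_smul_one]
  · rw [Matrix.smul_mul, Matrix.one_mul]
    congr 1
    have h2 := Matrix.exp_conj (DS n) (((17 / 10 : ℝ) : ℂ) • ((KOR n s).map fun x => (x : ℂ)))
      (DS_isUnit n)
    rw [DS_inv, ← noa2_map_exp] at h2
    exact h2
  · exact (Commute.one_left _).smul_left _

open NA4Aux in
theorem open_trace {n : ℕ} (s ε : Bool) :
    Real.exp (17 / 2 * ((n + 1 : ℕ) : ℝ)) *
      (zOpen n (17 / 2) (3 / 5) (fO s) (if ε then wz else 1)).re =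
      Real.exp (-(17 / 10)) * ∑ c : Cfg n, sgM ε c * EO n s (17 / 10) c c := by
  unfold zOpen
  rw [noa2_exp_openH, Matrix.mul_smul, Matrix.trace_smul, smul_eq_mul]
  have h1 : Complex.exp (-((17 / 2 : ℝ) * ((n : ℂ) + 6 / 5))) =
      ((Real.exp (-((17 / 2 : ℝ) * ((n : ℝ) + 6 / 5))) : ℝ) : ℂ) := by
    push_cast
    rfl
  rw [h1, Complex.re_ofReal_mul, ← mul_assoc, ← Real.exp_add]
  have h2 : 17 / 2 * ((n + 1 : ℕ) : ℝ) + -((17 / 2 : ℝ) * ((n : ℝ) + 6 / 5)) = -(17 / 10) := by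
    push_cast
    ring
  rw [h2]
  congr 1
  unfold Matrix.trace
  rw [Complex.re_sum]
  refine Finset.sum_congr rfl fun c _ => ?_
  rw [Matrix.diag_apply, Matrix.mul_apply, Complex.re_sum, Finset.sum_eq_single c]
  · rw [tens_eps_apply, if_pos rfl, DS_conj_apply, sgS_sq, one_mul, Complex.re_ofReal_mul,
      Matrix.map_apply, Complex.ofReal_re]
  · intro c' _ hc'
    rw [tens_eps_apply, if_neg (fun e => hc' e.symm), zero_mul, Complex.zero_re]
  · intro hc
    exact absurd (Finset.mem_univ c) hc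

end Crest.Agent.R347
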