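import Crest.Agent.R347.NOB1
import Crest.Agent.R347.NB2
import Crest.Agent.R347.NB4

/-!
# Row 347 numerics (open chains), piece NOB: one run

`KO` is symmetric and conserves `Mtot` (`KO_symm`, `KO_mtot`, NOB1.lean); so is `EO` (closed subalgebra `{M | ∀ x y, Mtot x ≠ Mtot y → M x y = 0}`,
`NormedSpace.exp_mem` as in NB2.lean `invSub`; or powers and `hasSum`); `EO (17/10) = EO (17/20) * EO (17/20)` (as `Ex_mul`, NB2).
`EO(17/10) c c = ∑_c' (EO(17/20) c c')²`.  For `c ≠ d` in `A`: `EO c c' * EO d c' = 0` (different `Mtot`), and `Mtot c = Mtot c'` if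
`EO c c' ≠ 0`, so `∑_(c∈A) sgM ε c * EO(17/10) c c = ∑_c' sgM ε c' (vO A c')²`.  `Even (Mtot c) ↔ Even (n + 1 + qcl c)`: NB4.lean (`run_diag` is the
ring version of `run_openO`).
-/

set_option autoImplicit false

open Crest.MathPhysics.SpinChain Matrix

namespace Crest.Agent.R347

variable {n : ℕ}

theorem EO_symm (s : Bool) (t : ℝ) (x y : Cfg n) : EO n s t x y = EO n s t y x := by
  have h1 : (t • KOR n s).IsSymm := by
    ext x y
    simp only [KOR, transpose_apply, Matrix.smul_apply, Matrix.map_apply]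
    rw [KO_symm]
  have h2 : (EO n s t).IsSymm := h1.exp
  exact (h2.apply x y).symm

/-- matrices vanishing off the blocks -/
private def obkSub {X : Type} [Fintype X] [DecidableEq X] (b : X → ℤ) :
    Subalgebra ℝ (Matrix X X ℝ) where
  carrier := {M | ∀ x y, b x ≠ b y → M x y = 0}
  mul_mem' := by
    intro p q hp hq x y h
    rw [mul_apply]
    refine Finset.sum_eq_zero fun z _ => ?_
    by_cases hz : b x = b z
    · rw [hq z y (by rw [← hz]; exact h), mul_zero]
    · rw [hp x z hz, zero_mul]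
  add_mem' := by
    intro p q hp hq x y h
    rw [Matrix.add_apply, hp x y h, hq x y h, add_zero]
  algebraMap_mem' := by
    intro r x y h
    rw [algebraMap_matrix_apply, if_neg (fun h' => h (congrArg b h'))]

theorem EO_mtot (s : Bool) (t : ℝ) (x y : Cfg n) (h : Mtot x ≠ Mtot y) : EO n s t x y = 0 := by
  have h1 : t • KOR n s ∈ obkSub (fun x : Cfg n => Mtot x) := by
    intro x y hxy
    simp only [KOR, Matrix.smul_apply, Matrix.map_apply]
    rw [KO_mtot s x y hxy]
    simp
  have hc : IsClosed (obkSub (fun x : Cfg n => Mtot x) : Set (Matrix (Cfg n) (Cfg n) ℝ)) := by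
    have : (obkSub (fun x : Cfg n => Mtot x) : Set (Matrix (Cfg n) (Cfg n) ℝ)) =
        ⋂ x : Cfg n, ⋂ y : Cfg n, ⋂ _ : Mtot x ≠ Mtot y, {M | M x y = 0} := by
      ext M
      simp only [Set.mem_iInter]
      rfl
    rw [this]
    refine isClosed_iInter fun i => isClosed_iInter fun j => isClosed_iInter fun _ => ?_
    exact isClosed_eq (continuous_id.matrix_elem _ _) continuous_const
  have h2 : EO n s t ∈ obkSub (fun x : Cfg n => Mtot x) :=
    NormedSpace.exp_mem (R := ℝ) hc h1
  exact h2 x y h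

theorem EO_mul (s : Bool) (t u : ℝ) : EO n s (t + u) = EO n s t * EO n s u := by
  unfold EO
  rw [add_smul]
  exact Matrix.exp_add_of_commute _ _ ((Commute.refl (KOR n s)).smul_left t |>.smul_right u)

private theorem omtot_parity (c : Cfg n) : Even (Mtot c) ↔ Even (n + 1 + qcl c) := by
  have h1 : ∀ j : Fin (n + 1), Even ((1 - ((c j : ℕ) : ℤ)) - (1 + if c j = 1 then 1 else 0)) := by
    intro j
    generalize c j = x
    fin_cases x <;> decide
  have h2 : Even (∑ j : Fin (n + 1), ((1 - ((c j : ℕ) : ℤ)) - (1 + if c j = 1 then 1 else 0))) := by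
    refine Finset.sum_induction _ Even (fun a b ha hb => ha.add hb) (by simp) (fun j _ => h1 j)
  rw [Finset.sum_sub_distrib] at h2
  have h3 : ∑ j : Fin (n + 1), ((1 : ℤ) + if c j = 1 then 1 else 0) =
      (n + 1 : ℤ) + ((Finset.univ.filter fun j => c j = 1).card : ℤ) := by
    rw [Finset.sum_add_distrib, Finset.sum_boole]
    simp
  rw [h3] at h2
  have h4 : Even (Mtot c) ↔ Even ((n + 1 : ℤ) + ((Finset.univ.filter fun j => c j = 1).card : ℤ)) := by
    have := Int.even_sub.mp h2
    exact this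
  rw [h4]
  unfold qcl
  rw [← Int.even_coe_nat]
  push_cast
  rw [Int.even_add, Int.even_add (m := (n : ℤ) + 1)]
  have : Even (((Finset.univ.filter fun j => c j = 1).card : ℤ)) ↔
      Even (((Finset.univ.filter fun j => c j = 1).card : ℤ) % 2) := by
    rw [Int.even_iff, Int.even_iff, Int.emod_emod]
  rw [this]

private theorem sgM_eq_sgO (ε : Bool) (c : Cfg n) : sgM ε c = sgO n ε (qcl c) := by
  unfold sgM sgO
  have h : (¬ Even (Mtot c)) ↔ (n + 1 + qcl c) % 2 = 1 := by
    rw [omtot_parity, Nat.not_even_iff]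
  simp only [h]

private theorem EO_diag (s : Bool) (c : Cfg n) :
    EO n s (17 / 10) c c = ∑ c' : Cfg n, EO n s (17 / 20) c c' * EO n s (17 / 20) c c' := by
  have h : (17 / 10 : ℝ) = 17 / 20 + 17 / 20 := by norm_num
  rw [h, EO_mul, mul_apply]
  exact Finset.sum_congr rfl fun c' _ => by rw [EO_symm s _ c' c]

theorem run_openO (s ε : Bool) (A : Finset (Cfg n))
    (hA : ∀ c ∈ A, ∀ c' ∈ A, Mtot c = Mtot c' → c = c') :
    ∑ c ∈ A, sgM ε c * EO n s (17 / 10) c c =
      sgO n ε 0 * sqR n (vO n s A) 0 + sgO n ε 1 * sqR n (vO n s A) 1 := by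
  have h1 : ∑ c ∈ A, sgM ε c * EO n s (17 / 10) c c =
      ∑ c' : Cfg n, ∑ c ∈ A, sgM ε c * (EO n s (17 / 20) c c' * EO n s (17 / 20) c c') := by
    rw [Finset.sum_comm]
    refine Finset.sum_congr rfl fun c _ => ?_
    rw [EO_diag, Finset.mul_sum]
  have h2 : ∀ c' : Cfg n, ∑ c ∈ A, sgM ε c * (EO n s (17 / 20) c c' * EO n s (17 / 20) c c') =
      sgO n ε (qcl c') * (vO n s A c' * vO n s A c') := by
    intro c'
    by_cases h : ∃ c0 ∈ A, Mtot c0 = Mtot c'
    · obtain ⟨c0, h0, hM⟩ := h
      have hz : ∀ c ∈ A, c ≠ c0 → EO n s (17 / 20) c c' = 0 := by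
        intro c hc hne
        exact EO_mtot s _ c c' fun e => hne (hA c hc c0 h0 (e.trans hM.symm))
      have hv : vO n s A c' = EO n s (17 / 20) c0 c' := by
        unfold vO
        exact Finset.sum_eq_single_of_mem c0 h0 hz
      rw [Finset.sum_eq_single_of_mem c0 h0, hv, ← sgM_eq_sgO]
      · unfold sgM
        rw [hM]
      · intro c hc hne
        rw [hz c hc hne]
        ring
    · push Not at h
      have hz : ∀ c ∈ A, EO n s (17 / 20) c c' = 0 := fun c hc => EO_mtot s _ c c' (h c hc)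
      have hv : vO n s A c' = 0 := Finset.sum_eq_zero hz
      rw [hv, Finset.sum_eq_zero]
      · ring
      · intro c hc
        rw [hz c hc]
        ring
  rw [h1, Finset.sum_congr rfl (fun c' _ => h2 c')]
  unfold sqR
  rw [Finset.mul_sum, Finset.mul_sum, ← Finset.sum_add_distrib]
  refine Finset.sum_congr rfl fun c' _ => ?_
  have h3 : qcl c' = 0 ∨ qcl c' = 1 := by
    unfold qcl
    exact Nat.mod_two_eq_zero_or_one _
  rcases h3 with h | h
  · rw [h]; simp
  · rw [h]; simp

end Crest.Agent.R347
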