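import Crest.Agent.R347.NODefs
import Crest.Agent.R347.NB1

/-!
# Row 347 numerics (open chains), piece NOB1: the matrix `KO`

`KO` is symmetric (`Hop_symm`, NB1: `Hop i j x y ↔ Hop j i y x`), conserves `Mtot` (`NB1aux.Hop_mtot`), and each bond contributes at most `5 * 3` to a row sum
(`NB1aux.bond_le`, `NB1aux.sum_ite_le_one`, `NB1aux.Hop_unique`; ring version `KN_rowsum`, NB1.lean), the two end terms at most `6 + 6`.
-/

set_option autoImplicit false

open Crest.MathPhysics.SpinChain Matrix

namespace Crest.Agent.R347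

variable {n : ℕ}

theorem KO_symm (s : Bool) (x y : Cfg n) : KO n s x y = KO n s y x := by
  unfold KO
  simp only [Matrix.of_apply]
  have h1 : (if x = y then diagO s x else 0) = (if y = x then diagO s y else 0) := by
    by_cases h : x = y
    · subst h; rfl
    · rw [if_neg h, if_neg (Ne.symm h)]
  rw [h1]
  congr 2
  refine Finset.sum_congr rfl fun j _ => ?_
  rw [add_comm]
  simp only [Hop_symm _ _ x y]

theorem KO_mtot (s : Bool) (x y : Cfg n) (h : Mtot x ≠ Mtot y) : KO n s x y = 0 := by
  unfold KO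
  simp only [Matrix.of_apply]
  rw [if_neg (fun h' => h (by rw [h'])), zero_add]
  rw [Finset.sum_eq_zero fun j _ => ?_, mul_zero]
  rw [if_neg (fun h' => h (NB1aux.Hop_mtot h')), if_neg (fun h' => h (NB1aux.Hop_mtot h')),
    add_zero]

private theorem sum_hop_le (i j : Fin (n + 1)) (x : Cfg n) :
    ∑ y, (if Hop i j x y then 1 else 0 : ℕ) ≤ if (x i : ℕ) ≤ 1 ∧ 1 ≤ (x j : ℕ) then 1 else 0 := by
  refine NB1aux.sum_ite_le_one _ _ ?_ ?_
  · rintro y ⟨h1, h2, _⟩
    have := (y i).isLt
    omega
  · intro y z h1 h2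
    exact NB1aux.Hop_unique h1 h2

/-- row sums -/
theorem KO_rowsum (s : Bool) (x : Cfg n) : ∑ y, KO n s x y ≤ 15 * n + 12 := by
  unfold KO
  simp only [Matrix.of_apply]
  rw [Finset.sum_add_distrib, Finset.sum_ite_eq, if_pos (Finset.mem_univ _), ← Finset.mul_sum,
    Finset.sum_comm]
  unfold diagO
  have h1 : ∑ j : Fin n, bd (x (Fin.castSucc j)) (x (Fin.succ j)) +
      ∑ j : Fin n, ∑ y, ((if Hop (Fin.castSucc j) (Fin.succ j) x y then 1 else 0) +
        (if Hop (Fin.succ j) (Fin.castSucc j) x y then 1 else 0)) ≤ 3 * n := by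
    rw [← Finset.sum_add_distrib]
    calc _ ≤ ∑ _j : Fin n, 3 := by
          refine Finset.sum_le_sum fun j _ => ?_
          rw [Finset.sum_add_distrib]
          have h2 := sum_hop_le (Fin.castSucc j) (Fin.succ j) x
          have h3 := sum_hop_le (Fin.succ j) (Fin.castSucc j) x
          have h4 := NB1aux.bond_le (x (Fin.castSucc j)) (x (Fin.succ j))
          omega
      _ = _ := by simp [mul_comm]
  have h5 : 3 * (2 - (x 0 : ℕ)) ≤ 6 := by omega
  have h6 : (if s then 3 * (x (Fin.last n) : ℕ) else 3 * (2 - (x (Fin.last n) : ℕ))) ≤ 6 := by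
    have := (x (Fin.last n)).isLt
    cases s
    · simp only [Bool.false_eq_true, if_false]; omega
    · simp only [if_true]; omega
  omega

end Crest.Agent.R347
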