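import Crest.Agent.R347.NOB
import Crest.Agent.R347.NC1

/-!
# Row 347 numerics (open chains), piece NOC: rigorous Horner scheme with a scalar error

`x = 17/20`, `e = ∑_(c∈A) e_c`, `N = l.length`, `a_k = x^k/k!`, `b_k = ∑_(j≥0) a_(k+j) K^j e`, `b_k = a_k e + K b_(k+1)`, `b_0 = exp(x K) e = vO` (`EO_symm`).
`T_k` = sum of the first `N-k` shifts, `u_k = b_k 2^σ / 2^(T_k)`.  Claim (k = N, …, 0): `lo_k ≤ u_k ≤ lo_k + err_k`, `err_k` a NUMBER:
* k = N: `lo = 0`; `K^j e ≤ R^j`, `R = 15 n + 12` (row sums, symmetry), `b_N 2^σ ≤ a_N 2^σ / (1 - R x / N) ≤ e0` by `tail`;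
* step: `K err ≤ R err`; lower: floors; upper: `a_k 2^σ/2^(T_k) ≤ ã_k + 1`, `y / 2^s ≤ ⌊y / 2^s⌋ + 1` twice: total `+ 3`
  (`errS R (p :: l) e = errS R l (R e / 2^p.1 + 3)`).
This is NC1.lean (`horner_bounds`, complete proof there) with `17/4 ↦ 17/20`, `KN ↦ KO`, the packed error vector replaced by the constant vector
(`∑_y K x y err ≤ R err`): copy that proof.
-/

set_option autoImplicit false

open Crest.MathPhysics.SpinChain Matrix

namespace Crest.Agent.R347

private theorem hasSum_exp_entry {m : Type} [Fintype m] [DecidableEq m] (B : Matrix m m ℝ)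
    (i j : m) : HasSum (fun k : ℕ => ((k.factorial : ℝ)⁻¹) * (B ^ k) i j)
      (NormedSpace.exp B i j) := by
  let _ : NormedRing (Matrix m m ℝ) := Matrix.linftyOpNormedRing
  let _ : NormedAlgebra ℝ (Matrix m m ℝ) := Matrix.linftyOpNormedAlgebra
  have h := NormedSpace.exp_series_hasSum_exp' (𝕂 := ℝ) B
  have h2 : HasSum (fun k : ℕ => ((k.factorial : ℝ)⁻¹ • B ^ k) i j) (NormedSpace.exp B i j) :=
    Pi.hasSum.1 (Pi.hasSum.1 h i) j
  exact h2

/-- `∑_{c ∈ A} (K^j)_{y,c}` -/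
private noncomputable def PO (n : ℕ) (s : Bool) (A : Finset (Cfg n)) (j : ℕ) (y : Cfg n) : ℝ :=
  ∑ c ∈ A, ((KOR n s) ^ j) y c

private theorem PO_zero (n : ℕ) (s : Bool) (A : Finset (Cfg n)) (y : Cfg n) :
    PO n s A 0 y = ((startO A 1 y : ℕ) : ℝ) := by
  unfold PO startO
  simp only [pow_zero, Matrix.one_apply]
  rw [Finset.sum_ite_eq]
  split_ifs <;> simp

private theorem PO_succ (n : ℕ) (s : Bool) (A : Finset (Cfg n)) (j : ℕ) (y : Cfg n) :
    PO n s A (j + 1) y = ∑ z, (KO n s y z : ℝ) * PO n s A j z := by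
  unfold PO
  simp only [pow_succ', Matrix.mul_apply, Finset.mul_sum]
  rw [Finset.sum_comm]
  rfl

private theorem PO_nonneg (n : ℕ) (s : Bool) (A : Finset (Cfg n)) (j : ℕ) (y : Cfg n) : 0 ≤ PO n s A j y := by
  induction j generalizing y with
  | zero => rw [PO_zero]; positivity
  | succ j ih =>
    rw [PO_succ]
    exact Finset.sum_nonneg fun z _ => mul_nonneg (by positivity) (ih z)

private theorem startO_le (n : ℕ) (A : Finset (Cfg n)) (y : Cfg n) : startO A 1 y ≤ 1 := by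
  unfold startO; split_ifs <;> omega

private theorem startO_mul (n : ℕ) (A : Finset (Cfg n)) (a : ℕ) (y : Cfg n) :
    startO A a y = a * startO A 1 y := by
  unfold startO; split_ifs <;> simp

private theorem PO_le (n : ℕ) (s : Bool) (A : Finset (Cfg n)) (j : ℕ) (y : Cfg n) :
    PO n s A j y ≤ ((15 * n + 12 : ℕ) : ℝ) ^ j := by
  induction j generalizing y with
  | zero =>
    rw [PO_zero, pow_zero]
    exact_mod_cast startO_le n A y
  | succ j ih =>
    rw [PO_succ]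
    calc ∑ z, (KO n s y z : ℝ) * PO n s A j z
        ≤ ∑ z, (KO n s y z : ℝ) * ((15 * n + 12 : ℕ) : ℝ) ^ j :=
          Finset.sum_le_sum fun z _ => mul_le_mul_of_nonneg_left (ih z) (by positivity)
      _ = ((∑ z, KO n s y z : ℕ) : ℝ) * ((15 * n + 12 : ℕ) : ℝ) ^ j := by
          rw [← Finset.sum_mul]; push_cast; rfl
      _ ≤ ((15 * n + 12 : ℕ) : ℝ) * ((15 * n + 12 : ℕ) : ℝ) ^ j := by
          have := KO_rowsum s y
          gcongr
      _ = _ := by rw [pow_succ]; ring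

/-- `x^k / k!`, `x = 17/20` -/
private noncomputable def ak (k : ℕ) : ℝ := (17 / 20 : ℝ) ^ k / (k.factorial : ℝ)

private theorem ak_pos (k : ℕ) : 0 < ak k := by unfold ak; positivity

private theorem ak_add_le {N : ℕ} (hN : 0 < N) (j : ℕ) :
    ak (N + j) ≤ ak N * ((17 / 20 : ℝ) / N) ^ j := by
  unfold ak
  have h1 : (N.factorial : ℝ) * (N : ℝ) ^ j ≤ ((N + j).factorial : ℝ) := by
    have h2 : N.factorial * N ^ j ≤ (N + j).factorial :=
      (Nat.mul_le_mul_left _ (Nat.pow_le_pow_left (Nat.le_succ N) j)).trans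
        Nat.factorial_mul_pow_le_factorial
    exact_mod_cast h2
  have hN' : (0 : ℝ) < N := by exact_mod_cast hN
  rw [div_pow (17 / 20 : ℝ) (N : ℝ) j, div_mul_div_comm, ← pow_add]
  gcongr

private theorem summable_b (n : ℕ) (s : Bool) (A : Finset (Cfg n)) (k : ℕ) (y : Cfg n) :
    Summable fun j => ak (k + j) * PO n s A j y := by
  set R : ℝ := ((15 * n + 12 : ℕ) : ℝ) with hR
  have hR0 : 0 ≤ R := by positivity
  have h1 : Summable fun j : ℕ => (17 / 20 : ℝ) ^ k * ((17 / 20 * R) ^ j / (j.factorial : ℝ)) :=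
    (Real.summable_pow_div_factorial (17 / 20 * R)).mul_left _
  refine Summable.of_nonneg_of_le (fun j => mul_nonneg (ak_pos _).le (PO_nonneg n s A j y))
    (fun j => ?_) h1
  calc ak (k + j) * PO n s A j y ≤ ak (k + j) * R ^ j :=
        mul_le_mul_of_nonneg_left (PO_le n s A j y) (ak_pos _).le
    _ = (17 / 20 : ℝ) ^ k * ((17 / 20 * R) ^ j / ((k + j).factorial : ℝ)) := by
        unfold ak; rw [pow_add, mul_pow]; ring
    _ ≤ (17 / 20 : ℝ) ^ k * ((17 / 20 * R) ^ j / (j.factorial : ℝ)) := by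
        have : j.factorial ≤ (k + j).factorial := Nat.factorial_le (by omega)
        gcongr

private noncomputable def bk (n : ℕ) (s : Bool) (A : Finset (Cfg n)) (k : ℕ) (y : Cfg n) : ℝ :=
  ∑' j, ak (k + j) * PO n s A j y

private theorem bk_nonneg (n : ℕ) (s : Bool) (A : Finset (Cfg n)) (k : ℕ) (y : Cfg n) : 0 ≤ bk n s A k y :=
  tsum_nonneg fun j => mul_nonneg (ak_pos _).le (PO_nonneg n s A j y)

private theorem bk_rec (n : ℕ) (s : Bool) (A : Finset (Cfg n)) (k : ℕ) (y : Cfg n) :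
    bk n s A k y = ak k * ((startO A 1 y : ℕ) : ℝ) + ∑ z, (KO n s y z : ℝ) * bk n s A (k + 1) z := by
  unfold bk
  rw [(summable_b n s A k y).tsum_eq_zero_add, add_zero, PO_zero]
  congr 1
  have h1 : ∀ j, ak (k + (j + 1)) * PO n s A (j + 1) y =
      ∑ z, (KO n s y z : ℝ) * (ak (k + 1 + j) * PO n s A j z) := by
    intro j
    rw [PO_succ, Finset.mul_sum, show k + (j + 1) = k + 1 + j by ring]
    refine Finset.sum_congr rfl fun z _ => ?_
    ring
  simp only [h1]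
  rw [Summable.tsum_finsetSum fun z _ => (summable_b n s A (k + 1) z).mul_left _]
  refine Finset.sum_congr rfl fun z _ => ?_
  rw [tsum_mul_left]

private theorem bk_zero (n : ℕ) (s : Bool) (A : Finset (Cfg n)) (y : Cfg n) : bk n s A 0 y = vO n s A y := by
  unfold bk vO PO
  have h1 : ∀ c ∈ A, HasSum (fun k : ℕ => ((k.factorial : ℝ)⁻¹) *
      (((17 / 20 : ℝ) • KOR n s) ^ k) y c) (EO n s (17 / 20) c y) := by
    intro c _
    rw [EO_symm]
    exact hasSum_exp_entry _ _ _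
  have h2 := hasSum_sum h1
  rw [← h2.tsum_eq]
  refine tsum_congr fun j => ?_
  rw [Finset.mul_sum]
  refine Finset.sum_congr rfl fun c _ => ?_
  rw [smul_pow, Matrix.smul_apply, smul_eq_mul, zero_add]
  unfold ak
  ring

private theorem bk_le {n : ℕ} (s : Bool) (A : Finset (Cfg n)) {N : ℕ} (hN : 17 * (15 * n + 12) < 20 * N)
    (y : Cfg n) : bk n s A N y ≤ ak N * (1 - (17 / 20 : ℝ) / N * ((15 * n + 12 : ℕ) : ℝ))⁻¹ := by
  set R : ℝ := ((15 * n + 12 : ℕ) : ℝ) with hR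
  have hR0 : 0 ≤ R := by positivity
  have hN0 : 0 < N := by omega
  have hN0' : (0 : ℝ) < N := by exact_mod_cast hN0
  have hlt : (17 / 20 : ℝ) / N * R < 1 := by
    have h1 : (17 : ℝ) * R < 20 * N := by rw [hR]; exact_mod_cast hN
    rw [div_mul_eq_mul_div, div_lt_one hN0']
    linarith
  have hnn : 0 ≤ (17 / 20 : ℝ) / N * R := by positivity
  have h2 := (hasSum_geometric_of_lt_one hnn hlt).mul_left (ak N)
  refine hasSum_le (fun j => ?_) (summable_b n s A N y).hasSum h2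
  calc ak (N + j) * PO n s A j y ≤ ak (N + j) * R ^ j :=
        mul_le_mul_of_nonneg_left (PO_le n s A j y) (ak_pos _).le
    _ ≤ ak N * ((17 / 20 : ℝ) / N) ^ j * R ^ j :=
        mul_le_mul_of_nonneg_right (ak_add_le hN0 j) (by positivity)
    _ = ak N * ((17 / 20 : ℝ) / N * R) ^ j := by rw [mul_pow]; ring

private theorem errS_append (R : ℕ) (l : List (ℕ × ℕ)) (q : ℕ × ℕ) (e : ℕ) :
    errS R (l ++ [q]) e = R * errS R l e / 2 ^ q.1 + 3 := by
  induction l generalizing e with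
  | nil => obtain ⟨a, b⟩ := q; rfl
  | cons a l ih =>
    obtain ⟨a, b⟩ := a
    exact ih _

private theorem horner_ind {n σ e0 : ℕ} {l : List (ℕ × ℕ)} (s : Bool) (h : SchedO n σ e0 l)
    (A : Finset (Cfg n)) (i : ℕ) (hi : i ≤ l.length) (y : Cfg n) :
    (((l.take i).foldl (loO s A) (fun _ => 0) y : ℕ) : ℝ) * 2 ^ totSh (l.take i) ≤
        bk n s A (l.length - i) y * 2 ^ σ ∧
      bk n s A (l.length - i) y * 2 ^ σ ≤ ((((l.take i).foldl (loO s A) (fun _ => 0) y : ℕ) : ℝ) +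
        (errS (15 * n + 12) (l.take i) e0 : ℕ)) * 2 ^ totSh (l.take i) := by
  induction i generalizing y with
  | zero =>
    simp only [List.take_zero, List.foldl_nil, totSh, List.map_nil, List.sum_nil, pow_zero, mul_one,
      Nat.sub_zero, Nat.cast_zero, zero_add]
    refine ⟨mul_nonneg (bk_nonneg n s A _ y) (by positivity), ?_⟩
    have hN := h.pos
    have h1 := bk_le s A hN y
    set N := l.length with hNdef
    have hN0 : 0 < N := by omega
    have hN0' : (0 : ℝ) < N := by exact_mod_cast hN0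
    have htail := h.tail
    have htail' : (17 : ℝ) ^ N * 2 ^ σ * (20 * N) ≤
        e0 * (20 ^ N * (N.factorial : ℝ) * (20 * N - 17 * (15 * (n : ℝ) + 12))) := by
      have h2 : ((17 ^ N * 2 ^ σ * (20 * N) : ℕ) : ℝ) ≤
          ((e0 * (20 ^ N * N.factorial * (20 * N - 17 * (15 * n + 12))) : ℕ) : ℝ) := by
        exact_mod_cast htail
      have h3 : 17 * (15 * n + 12) ≤ 20 * N := hN.le
      push_cast [Nat.cast_sub h3] at h2
      exact h2
    have hD : (0 : ℝ) < 20 * N - 17 * (15 * (n : ℝ) + 12) := by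
      have : (17 : ℝ) * (15 * (n : ℝ) + 12) < 20 * N := by exact_mod_cast hN
      linarith
    have h4 : ak N * (1 - (17 / 20 : ℝ) / N * ((15 * n + 12 : ℕ) : ℝ))⁻¹ * 2 ^ σ ≤ e0 := by
      have h5 : (1 - (17 / 20 : ℝ) / N * ((15 * n + 12 : ℕ) : ℝ)) =
          (20 * N - 17 * (15 * (n : ℝ) + 12)) / (20 * N) := by
        push_cast
        field_simp
      rw [h5, inv_div]
      unfold ak
      rw [div_pow]
      have h6 : (17 : ℝ) ^ N / 20 ^ N / (N.factorial : ℝ) *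
          (20 * N / (20 * N - 17 * (15 * (n : ℝ) + 12))) * 2 ^ σ =
          (17 ^ N * 2 ^ σ * (20 * N)) /
            (20 ^ N * (N.factorial : ℝ) * (20 * N - 17 * (15 * (n : ℝ) + 12))) := by
        field_simp
      rw [h6, div_le_iff₀ (by positivity)]
      exact htail'
    calc bk n s A N y * 2 ^ σ ≤
        ak N * (1 - (17 / 20 : ℝ) / N * ((15 * n + 12 : ℕ) : ℝ))⁻¹ * 2 ^ σ := by gcongr
      _ ≤ e0 := h4
  | succ i ih =>
    have hi' : i < l.length := hi
    have ihy := fun z => ih (Nat.le_of_lt hi') z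
    set N := l.length with hNdef
    set k := N - 1 - i with hk
    have hk1 : N - i = k + 1 := by omega
    have hk2 : N - (i + 1) = k := by omega
    have htake : l.take (i + 1) = l.take i ++ [l.get ⟨i, hi'⟩] := by
      rw [List.take_succ_eq_append_getElem hi']; rfl
    set p := l.get ⟨i, hi'⟩ with hp
    have hsh : totSh (l.take (i + 1)) = totSh (l.take i) + p.1 := by
      rw [htake]; simp [totSh]
    set lo := (l.take i).foldl (loO s A) (fun _ => 0) with hlo
    set er := errS (15 * n + 12) (l.take i) e0 with her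
    have e1 : (l.take (i + 1)).foldl (loO s A) (fun _ => 0) y =
        ((KO n s).mulVec lo y) / 2 ^ p.1 + startO A p.2 y := by
      rw [htake, List.foldl_append]; rfl
    have e2 : errS (15 * n + 12) (l.take (i + 1)) e0 = (15 * n + 12) * er / 2 ^ p.1 + 3 := by
      rw [htake, errS_append]
    rw [e1, e2, hsh, hk2]
    rw [hk1] at ihy
    set T := totSh (l.take i) with hT
    have hlow : p.2 * (20 ^ k * k.factorial * 2 ^ (T + p.1)) ≤ 17 ^ k * 2 ^ σ := by
      have h2 := h.lower i hi'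
      rw [hsh] at h2
      exact h2
    have hupp : 17 ^ k * 2 ^ σ ≤ (p.2 + 1) * (20 ^ k * k.factorial * 2 ^ (T + p.1)) := by
      have h2 := h.upper i hi'
      rw [hsh] at h2
      exact h2
    have hb := bk_rec n s A k y
    set S := (KO n s).mulVec lo y with hS
    set E := (15 * n + 12) * er with hE
    have hSr : (S : ℝ) = ∑ z, (KO n s y z : ℝ) * (lo z : ℝ) := by
      rw [hS, Matrix.mulVec, dotProduct]; push_cast; rfl
    have hEr : ∑ z, (KO n s y z : ℝ) * (er : ℝ) ≤ (E : ℝ) := by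
      rw [← Finset.sum_mul, hE]
      have h1 := KO_rowsum s y
      have h2 : (∑ z, (KO n s y z : ℝ)) ≤ ((15 * n + 12 : ℕ) : ℝ) := by exact_mod_cast h1
      rw [Nat.cast_mul]
      exact mul_le_mul_of_nonneg_right h2 (Nat.cast_nonneg _)
    have hsum_lo : (S : ℝ) * 2 ^ T ≤ (∑ z, (KO n s y z : ℝ) * bk n s A (k + 1) z) * 2 ^ σ := by
      rw [hSr, Finset.sum_mul, Finset.sum_mul]
      refine Finset.sum_le_sum fun z _ => ?_
      have := mul_le_mul_of_nonneg_left (ihy z).1 (show (0 : ℝ) ≤ (KO n s y z : ℝ) by positivity)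
      calc (KO n s y z : ℝ) * (lo z : ℝ) * 2 ^ T = (KO n s y z : ℝ) * ((lo z : ℝ) * 2 ^ T) := by ring
        _ ≤ (KO n s y z : ℝ) * (bk n s A (k + 1) z * 2 ^ σ) := this
        _ = _ := by ring
    have hsum_up : (∑ z, (KO n s y z : ℝ) * bk n s A (k + 1) z) * 2 ^ σ ≤ ((S : ℝ) + E) * 2 ^ T := by
      have hE2 : (∑ z, (KO n s y z : ℝ) * bk n s A (k + 1) z) * 2 ^ σ ≤
          ((S : ℝ) + ∑ z, (KO n s y z : ℝ) * (er : ℝ)) * 2 ^ T := by
        rw [hSr, ← Finset.sum_add_distrib, Finset.sum_mul, Finset.sum_mul]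
        refine Finset.sum_le_sum fun z _ => ?_
        have := mul_le_mul_of_nonneg_left (ihy z).2 (show (0 : ℝ) ≤ (KO n s y z : ℝ) by positivity)
        calc (KO n s y z : ℝ) * bk n s A (k + 1) z * 2 ^ σ =
              (KO n s y z : ℝ) * (bk n s A (k + 1) z * 2 ^ σ) := by ring
          _ ≤ (KO n s y z : ℝ) * (((lo z : ℝ) + er) * 2 ^ T) := this
          _ = _ := by ring
      refine hE2.trans ?_
      gcongr
    have hfac : (0 : ℝ) < 20 ^ k * (k.factorial : ℝ) := by positivity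
    have hlow' : (p.2 : ℝ) * 2 ^ (T + p.1) ≤ ak k * 2 ^ σ := by
      have h2 : (p.2 : ℝ) * (20 ^ k * (k.factorial : ℝ) * 2 ^ (T + p.1)) ≤ 17 ^ k * 2 ^ σ := by
        exact_mod_cast hlow
      unfold ak
      rw [div_pow, div_div, div_mul_eq_mul_div, le_div_iff₀ hfac]
      calc (p.2 : ℝ) * 2 ^ (T + p.1) * (20 ^ k * (k.factorial : ℝ)) =
          (p.2 : ℝ) * (20 ^ k * (k.factorial : ℝ) * 2 ^ (T + p.1)) := by ring
        _ ≤ _ := h2
    have hupp' : ak k * 2 ^ σ ≤ ((p.2 : ℝ) + 1) * 2 ^ (T + p.1) := by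
      have h2 : (17 : ℝ) ^ k * 2 ^ σ ≤
          ((p.2 : ℝ) + 1) * (20 ^ k * (k.factorial : ℝ) * 2 ^ (T + p.1)) := by
        exact_mod_cast hupp
      unfold ak
      rw [div_pow, div_div, div_mul_eq_mul_div, div_le_iff₀ hfac]
      calc (17 : ℝ) ^ k * 2 ^ σ ≤
          ((p.2 : ℝ) + 1) * (20 ^ k * (k.factorial : ℝ) * 2 ^ (T + p.1)) := h2
        _ = _ := by ring
    -- floors
    have hfS1 : ((S / 2 ^ p.1 : ℕ) : ℝ) * 2 ^ p.1 ≤ S := by
      have := Nat.div_mul_le_self S (2 ^ p.1)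
      exact_mod_cast this
    have hfloor : ∀ U : ℕ, (U : ℝ) ≤ (((U / 2 ^ p.1 : ℕ) : ℝ) + 1) * 2 ^ p.1 := by
      intro U
      have h2 : U < (U / 2 ^ p.1 + 1) * 2 ^ p.1 := (Nat.div_lt_iff_lt_mul (by positivity)).1 (Nat.lt_succ_self _)
      exact_mod_cast h2.le
    set θ := startO A 1 y with hθ
    have hθ1 : (θ : ℝ) ≤ 1 := by exact_mod_cast startO_le n A y
    have hθ0 : (0 : ℝ) ≤ θ := by positivity
    have hst : ((startO A p.2 y : ℕ) : ℝ) = p.2 * θ := by
      rw [startO_mul]; push_cast; rfl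
    have hpow : (2 : ℝ) ^ (T + p.1) = 2 ^ T * 2 ^ p.1 := pow_add _ _ _
    have hTpos : (0 : ℝ) < 2 ^ T := by positivity
    rw [hb]
    constructor
    · push_cast
      rw [hst]
      have h2 : ((S / 2 ^ p.1 : ℕ) : ℝ) * 2 ^ (T + p.1) ≤ (S : ℝ) * 2 ^ T := by
        rw [hpow]
        calc ((S / 2 ^ p.1 : ℕ) : ℝ) * (2 ^ T * 2 ^ p.1) =
            (((S / 2 ^ p.1 : ℕ) : ℝ) * 2 ^ p.1) * 2 ^ T := by ring
          _ ≤ _ := by gcongr
      have h3 : (p.2 : ℝ) * θ * 2 ^ (T + p.1) ≤ ak k * θ * 2 ^ σ := by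
        calc (p.2 : ℝ) * θ * 2 ^ (T + p.1) = ((p.2 : ℝ) * 2 ^ (T + p.1)) * θ := by ring
          _ ≤ (ak k * 2 ^ σ) * θ := by gcongr
          _ = _ := by ring
      rw [add_mul, add_mul]
      linarith
    · push_cast
      rw [hst]
      have h2 : ((S : ℝ) + E) * 2 ^ T ≤ ((((S / 2 ^ p.1 : ℕ) : ℝ) + 1) +
          (((E / 2 ^ p.1 : ℕ) : ℝ) + 1)) * 2 ^ (T + p.1) := by
        rw [hpow]
        calc ((S : ℝ) + E) * 2 ^ T ≤ ((((S / 2 ^ p.1 : ℕ) : ℝ) + 1) * 2 ^ p.1 +
              (((E / 2 ^ p.1 : ℕ) : ℝ) + 1) * 2 ^ p.1) * 2 ^ T := by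
              have := hfloor S
              have := hfloor E
              gcongr
          _ = _ := by ring
      have h3 : ak k * θ * 2 ^ σ ≤ ((p.2 : ℝ) * θ + 1) * 2 ^ (T + p.1) := by
        calc ak k * θ * 2 ^ σ = (ak k * 2 ^ σ) * θ := by ring
          _ ≤ (((p.2 : ℝ) + 1) * 2 ^ (T + p.1)) * θ := by gcongr
          _ = ((p.2 : ℝ) * θ + θ) * 2 ^ (T + p.1) := by ring
          _ ≤ _ := by gcongr
      calc (ak k * θ + ∑ z, (KO n s y z : ℝ) * bk n s A (k + 1) z) * 2 ^ σ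
          = ak k * θ * 2 ^ σ + (∑ z, (KO n s y z : ℝ) * bk n s A (k + 1) z) * 2 ^ σ := by ring
        _ ≤ ((p.2 : ℝ) * θ + 1) * 2 ^ (T + p.1) + ((((S / 2 ^ p.1 : ℕ) : ℝ) + 1) +
          (((E / 2 ^ p.1 : ℕ) : ℝ) + 1)) * 2 ^ (T + p.1) := add_le_add h3 (hsum_up.trans h2)
        _ = _ := by push_cast; ring

theorem horner_open {n σ e0 : ℕ} {l : List (ℕ × ℕ)} (s : Bool) (h : SchedO n σ e0 l)
    (A : Finset (Cfg n)) (y : Cfg n) :
    ((l.foldl (loO s A) (fun _ => 0) y : ℕ) : ℝ) * 2 ^ totSh l ≤ vO n s A y * 2 ^ σ ∧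
      vO n s A y * 2 ^ σ ≤ (((l.foldl (loO s A) (fun _ => 0) y : ℕ) : ℝ) +
        (errS (15 * n + 12) l e0 : ℕ)) * 2 ^ totSh l := by
  have h1 := horner_ind s h A l.length le_rfl y
  rw [Nat.sub_self, bk_zero, List.take_length] at h1
  exact h1

end Crest.Agent.R347
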