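import Crest.Agent.R347.NumCore
import Crest.Agent.R347.OrbCore

/-!
# Row 347, numerics (open chains): packed-vector arithmetic (definitions evaluated by the kernel)

Number of sites `L = n + 1`; `s = false`: end fields `3/5, 3/5`; `s = true`: end fields `3/5, -3/5`.
-/

set_option autoImplicit false

namespace Crest.Agent.R347

/-- diagonal (packed) of `5 (n + 6/5 - H)`: `5 ∑ bd + 3 (2 - c_0) + 3 (2 - c_last)` resp. `+ 3 c_last` -/
def dPO (W L : ℕ) (s : Bool) : ℕ :=
  5 * dP W L (L - 1) + (3 * (um W L 0 1 + 2 * um W L 0 0) +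
    3 * (um W L (L - 1) 1 + 2 * (bif s then um W L (L - 1) 2 else um W L (L - 1) 0)))
/-- bit plane `b` of the diagonal as a mask -/
def DmO (W L : ℕ) (s : Bool) (b : ℕ) : ℕ := ((dPO W L s >>> b) &&& ones W L) * (2 ^ W - 1)
/-- the diagonal part -/
def diagPO (W L : ℕ) (s : Bool) (a : ℕ) : ℕ :=
  (a &&& DmO W L s 0) + (((a &&& DmO W L s 1) <<< 1) + (((a &&& DmO W L s 2) <<< 2) +
    (((a &&& DmO W L s 3) <<< 3) + (((a &&& DmO W L s 4) <<< 4) +
      (((a &&& DmO W L s 5) <<< 5) + ((a &&& DmO W L s 6) <<< 6))))))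
/-- the matrix -/
def KPO (W L : ℕ) (s : Bool) (a : ℕ) : ℕ := 5 * intP W L a (L - 1) + diagPO W L s a

/-- Horner recursion on packed vectors; returns 0 when an entry exceeds `2^B` -/
def runO (W L B : ℕ) (s : Bool) (st : ℕ) (k : ℕ → ℕ) : List (ℕ × ℕ) → ℕ → ℕ
  | [], a => k a
  | (p, t) :: l, a =>
    (fun a' => bif Nat.beq (a' &&& hiM W L B) 0 then runO W L B s st k l a' else 0)
      (shP W L p (KPO W L s a) + t * st)

/-- the two sums of squares (classes `q = 0, 1`), slots of 200 bits -/
def sqO (W L v : ℕ) : ℕ :=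
  (fun r => cf W L (v &&& cM W L 0) r + (cf W L (v &&& cM W L 1) r <<< 200)) (flipP W L v L)
/-- lower and upper sums -/
def resO (W L E v : ℕ) : ℕ := sqO W L v + (sqO W L (v + E * ones W L) <<< 400)

/-- scalar error recursion -/
def errS (R : ℕ) : List (ℕ × ℕ) → ℕ → ℕ
  | [], e => e
  | (p, _) :: l, e => errS R l (R * e / 2 ^ p + 3)

/-- certificate of a run: starts, result -/
def chkO (W L B E : ℕ) (s : Bool) (l : List (ℕ × ℕ)) (r : List ℕ × ℕ) : Bool :=
  (bif Nat.beq r.2 0 then false else true) &&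
    Nat.beq (runO W L B s (stP W r.1) (resO W L E) l 0) r.2

/-- certificates of several runs -/
def chkOs (W L B E : ℕ) (s : Bool) (l : List (ℕ × ℕ)) : List (List ℕ × ℕ) → Bool
  | [] => true
  | r :: rs => chkO W L B E s l r && chkOs W L B E s l rs

/-- start indices below `3^L` with strictly increasing digit sums `≥ b` -/
def incO (L : ℕ) : ℕ → List ℕ → Bool
  | _, [] => true
  | b, i :: l => Nat.blt i (3 ^ L) && (Nat.ble b (dsum L i) && incO L (Nat.succ (dsum L i)) l)
/-- union of the start indices (bits) -/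
def bitO : List (List ℕ) → ℕ
  | [] => 0
  | l :: ls => bits l ||| bitO ls
/-- number of the start indices -/
def lenO : List (List ℕ) → ℕ
  | [] => 0
  | l :: ls => l.length + lenO ls
/-- every run is increasing -/
def incR (L : ℕ) : List (List ℕ) → Bool
  | [] => true
  | l :: ls => incO L 0 l && incR L ls
/-- the start indices of all runs are all slots, each exactly once -/
def partOK (L : ℕ) (ls : List (List ℕ)) : Bool :=
  incR L ls && (Nat.beq (bitO ls) (2 ^ (3 ^ L) - 1) && Nat.beq (lenO ls) (3 ^ L))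

/-- totals over the runs, slot `i` -/
def totsO : List (List ℕ × ℕ) → ℕ → ℕ
  | [], _ => 0
  | r :: l, i => (r.2 >>> (200 * i)) % 2 ^ 200 + totsO l i

end Crest.Agent.R347
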