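import Mathlib.Data.Int.Notation
import Crest.Agent.R347.NOCore

/-!
# Row 347, numerics (open chains): the final interval check (integers)
-/

set_option autoImplicit false

namespace Crest.Agent.R347

/-- signed total of the class `q`; lower bound: `s = 0`, `t = 2`; upper bound: `s = 2`, `t = 0` -/
def clsO (n : ℕ) (ε : Bool) (tot : ℕ → ℕ) (s t q : ℕ) : ℤ :=
  if ε && Nat.beq ((n + 1 + q) % 2) 1 then -(tot (t + q) : ℤ) else (tot (s + q) : ℤ)

/-- bound of a trace -/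
def trO (n : ℕ) (ε : Bool) (tot : ℕ → ℕ) (s t : ℕ) : ℤ := clsO n ε tot s t 0 + clsO n ε tot s t 1

/-- `|exp(-17/10) x - a| ≤ d` from `lo 2^(2T) ≤ x 2^(2σ) ≤ hi 2^(2T)`,
`182683524052 ≤ 10^12 exp(-17/10) ≤ 182683524053` -/
def inO (σ T : ℕ) (lo hi d a : ℤ) : Bool :=
  (decide ((a - d) * 10 ^ 12 * 2 ^ (2 * σ) ≤ 182683524052 * lo * 2 ^ (2 * T)) &&
    decide ((a - d) * 10 ^ 12 * 2 ^ (2 * σ) ≤ 182683524053 * lo * 2 ^ (2 * T))) &&
  (decide (182683524052 * hi * 2 ^ (2 * T) ≤ (a + d) * 10 ^ 12 * 2 ^ (2 * σ)) &&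
    decide (182683524053 * hi * 2 ^ (2 * T) ≤ (a + d) * 10 ^ 12 * 2 ^ (2 * σ)))

/-- the final check -/
def numCheckO (n σ T : ℕ) (tot : ℕ → ℕ) (d p q : ℤ) : Bool :=
  inO σ T (trO n false tot 0 2) (trO n false tot 2 0) d p &&
    inO σ T (trO n true tot 0 2) (trO n true tot 2 0) d q

end Crest.Agent.R347
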