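import Crest.Agent.R347.NODefs
import Crest.Agent.R347.ND2

/-!
# Row 347 numerics (open chains), piece NOD0: the packed diagonal

`dP W (n+1) n = pk W (∑ bd)` (ND2.lean, private `nd2_dP_eq`, `nd2_bdP_eq`: copy their proofs here with other names), `um_eq` (ND1; `um W (n+1) 0 1`, `um W (n+1) n a`: use `i = 0`, `i = Fin.last n`),
`pk_add`, `pk_mul`: `um 1 + 2 um 0 = 2 - c`, `um 1 + 2 um 2 = c`.
-/

set_option autoImplicit false

open Crest.MathPhysics.SpinChain Matrix

namespace Crest.Agent.R347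

variable {n : ℕ}

private theorem nod0_bd_le_two (a b : Fin 3) : bd a b ≤ 2 := by
  revert a b; decide

private theorem nod0_bd_bits (a b : Fin 3) :
    (((if a = 0 then 1 else 0) &&& (if b = 2 then 1 else 0)) |||
      ((if a = 2 then 1 else 0) &&& (if b = 0 then 1 else 0))) * 2 +
      ((if a = 1 then 1 else 0) ||| (if b = 1 then 1 else 0)) = bd a b := by
  revert a b; decide

private theorem nod0_diagK_le (c : Cfg n) : diagK c ≤ 2 * (n + 1) := by
  unfold diagK
  have h1 : ∑ j : Fin n, bd (c (Fin.castSucc j)) (c (Fin.succ j)) ≤ ∑ _j : Fin n, 2 :=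
    Finset.sum_le_sum fun j _ => nod0_bd_le_two _ _
  have h2 := nod0_bd_le_two (c (Fin.last n)) (c 0)
  simp only [Finset.sum_const, Finset.card_univ, Fintype.card_fin, smul_eq_mul] at h1
  omega

private theorem nod0_pow6 {W : ℕ} (hW : 6 ≤ W) : 64 ≤ 2 ^ W :=
  le_trans (by norm_num : 64 ≤ 2 ^ 6) (Nat.pow_le_pow_right (by norm_num) hW)

private theorem nod0_ite01_lt {W : ℕ} (hW : 6 ≤ W) (p : Prop) [Decidable p] :
    (if p then 1 else 0 : ℕ) < 2 ^ W := by
  have := nod0_pow6 hW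
  split_ifs <;> omega

private theorem nod0_bdP_eq {W : ℕ} (hW : 6 ≤ W) (i j : Fin (n + 1)) :
    bdP W (n + 1) i j = pk W fun c : Cfg n => bd (c i) (c j) := by
  have hW0 : 0 < W := by omega
  have h0 : ∀ i : Fin (n + 1), um W (n + 1) i 0 = pk W fun c : Cfg n => if c i = 0 then 1 else 0 :=
    fun i => um_eq hW0 i 0
  have h1 : ∀ i : Fin (n + 1), um W (n + 1) i 1 = pk W fun c : Cfg n => if c i = 1 then 1 else 0 :=
    fun i => um_eq hW0 i 1
  have h2 : ∀ i : Fin (n + 1), um W (n + 1) i 2 = pk W fun c : Cfg n => if c i = 2 then 1 else 0 :=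
    fun i => um_eq hW0 i 2
  have hand : ∀ x y : ℕ, x < 2 ^ W → x &&& y < 2 ^ W := fun x y hx =>
    lt_of_le_of_lt Nat.and_le_left hx
  unfold bdP
  rw [h0, h0, h1, h1, h2, h2]
  rw [pk_and _ _ (fun c => nod0_ite01_lt hW _) (fun c => nod0_ite01_lt hW _),
    pk_and _ _ (fun c => nod0_ite01_lt hW _) (fun c => nod0_ite01_lt hW _),
    pk_or _ _ (fun c => hand _ _ (nod0_ite01_lt hW _)) (fun c => hand _ _ (nod0_ite01_lt hW _)),
    pk_or _ _ (fun c => nod0_ite01_lt hW _) (fun c => nod0_ite01_lt hW _), Nat.mul_comm, pk_mul,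
    pk_add]
  congr 1
  funext c
  exact nod0_bd_bits (c i) (c j)

private theorem nod0_dP_eq {W : ℕ} (hW : 6 ≤ W) : ∀ (m : ℕ) (hm : m ≤ n), dP W (n + 1) m =
    pk W fun c : Cfg n => ∑ j : Fin m, bd (c (Fin.castSucc (Fin.castLE hm j)))
      (c (Fin.succ (Fin.castLE hm j)))
  | 0, hm => by
    unfold dP pk
    simp
  | m + 1, hm => by
    have ih := nod0_dP_eq hW m (by omega)
    have hb := nod0_bdP_eq (n := n) hW (⟨m, by omega⟩ : Fin (n + 1)) (⟨m + 1, by omega⟩ : Fin (n + 1))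
    show dP W (n + 1) m + bdP W (n + 1) m (m + 1) = _
    rw [ih]
    rw [show bdP W (n + 1) m (m + 1) = _ from hb, pk_add]
    congr 1
    funext c
    rw [Fin.sum_univ_castSucc]
    rfl

theorem diagO_le (s : Bool) (c : Cfg n) : diagO s c ≤ 10 * n + 12 := by
  unfold diagO
  have h1 : ∑ j : Fin n, bd (c (Fin.castSucc j)) (c (Fin.succ j)) ≤ ∑ _j : Fin n, 2 :=
    Finset.sum_le_sum fun j _ => nod0_bd_le_two _ _
  simp only [Finset.sum_const, Finset.card_univ, Fintype.card_fin, smul_eq_mul] at h1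
  have h2 := (c 0).2
  have h3 := (c (Fin.last n)).2
  split_ifs <;> omega

private theorem nod0_a (a : Fin 3) : 3 * ((if a = 1 then 1 else 0) + 2 * (if a = 0 then 1 else 0)) =
    3 * (2 - (a : ℕ)) := by
  revert a; decide

private theorem nod0_b (a : Fin 3) : 3 * ((if a = 1 then 1 else 0) + 2 * (if a = 2 then 1 else 0)) =
    3 * (a : ℕ) := by
  revert a; decide

theorem dPO_eq {W : ℕ} (hW : 7 ≤ W) (hn1 : 1 ≤ n) (hn : n + 1 ≤ 10) (s : Bool) :
    dPO W (n + 1) s = pk W fun c : Cfg n => diagO s c := by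
  have hW6 : 6 ≤ W := by omega
  have hW0 : 0 < W := by omega
  have h1 := nod0_dP_eq (n := n) hW6 n le_rfl
  have u0 : ∀ a : Fin 3, um W (n + 1) 0 a = pk W fun c : Cfg n => if c 0 = a then 1 else 0 :=
    fun a => um_eq hW0 0 a
  have ul : ∀ a : Fin 3, um W (n + 1) n a =
      pk W fun c : Cfg n => if c (Fin.last n) = a then 1 else 0 := fun a => um_eq hW0 (Fin.last n) a
  have u01 : um W (n + 1) 0 1 = _ := u0 1
  have u00 : um W (n + 1) 0 0 = _ := u0 0
  have ul0 : um W (n + 1) n 0 = _ := ul 0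
  have ul1 : um W (n + 1) n 1 = _ := ul 1
  have ul2 : um W (n + 1) n 2 = _ := ul 2
  have pm : ∀ (a : ℕ) (f : Cfg n → ℕ), a * pk W f = pk W fun c => a * f c := by
    intro a f
    rw [mul_comm, pk_mul]
    congr 1
    funext c
    exact mul_comm _ _
  unfold dPO
  rw [show n + 1 - 1 = n from rfl, h1, u01, u00, ul0, ul1, ul2]
  cases s
  · simp only [cond_false]
    simp only [pm, pk_add]
    congr 1
    funext c
    unfold diagO
    rw [← nod0_a (c 0), ← nod0_a (c (Fin.last n))]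
    simp only [Bool.false_eq_true, if_false]
    rfl
  · simp only [cond_true]
    simp only [pm, pk_add]
    congr 1
    funext c
    unfold diagO
    rw [← nod0_a (c 0), ← nod0_b (c (Fin.last n))]
    simp only [if_true]
    rfl

end Crest.Agent.R347
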