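import Crest.Agent.R347.NOD0
import Crest.Agent.R347.NB1

/-!
# Row 347 numerics (open chains), piece NOD1: the packed matrix

`dPO_eq` (NOD0.lean); the diagonal is `≤ 10 n + 12 < 128`, so 7 bit planes; each plane is the mask `(diagO / 2^b) % 2 = 1` (as `Dm_eq`, ND2.lean),
`diagPO_eq` as `diagP_eq` of ND2.lean; `intP_eq` (ND2) for the hops, `hopF i j f c = ∑_c' [Hop i j c' c] f c'` while `KO c c'` has `Hop i j c c'`
(`Hop_symm`, NB1); compare `KP_eq` in ND2.lean.
-/

set_option autoImplicit false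

open Crest.MathPhysics.SpinChain Matrix

namespace Crest.Agent.R347

variable {n : ℕ}

private theorem nod1_DmO_eq {W : ℕ} (hW : 7 ≤ W) (hn1 : 1 ≤ n) (hn : n + 1 ≤ 10) (s : Bool) (b : ℕ)
    (hb : b < 7) :
    DmO W (n + 1) s b = pk W fun c : Cfg n => if diagO s c / 2 ^ b % 2 = 1 then 2 ^ W - 1 else 0 := by
  have hW0 : 0 < W := by omega
  have h128 : 128 ≤ 2 ^ W :=
    le_trans (by norm_num : 128 ≤ 2 ^ 7) (Nat.pow_le_pow_right (by norm_num) hW)
  have hD : ∀ c : Cfg n, diagO s c < 2 ^ W := fun c => by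
    have := diagO_le s c
    omega
  unfold DmO
  rw [dPO_eq hW hn1 hn s, ones_eq hW0]
  have hMW : 2 ^ (W - b) - 1 < 2 ^ W := by
    have : 2 ^ (W - b) ≤ 2 ^ W := Nat.pow_le_pow_right (by norm_num) (by omega)
    omega
  have hodd : (2 ^ (W - b) - 1) &&& 1 = 1 := by
    rw [Nat.and_one_is_mod]
    obtain ⟨k, hk⟩ : ∃ k, W - b = k + 1 := ⟨W - b - 1, by omega⟩
    rw [hk, pow_succ]
    have : 0 < 2 ^ k := by positivity
    omega
  have hones : (pk W fun _ : Cfg n => 1) =
      (pk W fun _ : Cfg n => 2 ^ (W - b) - 1) &&& (pk W fun _ : Cfg n => 1) := by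
    rw [pk_and _ _ (fun _ => hMW) (fun _ => by omega)]
    simp only [hodd]
  rw [hones, ← Nat.land_assoc, pk_shr b (by omega) _ hD]
  have hq : ∀ c : Cfg n, diagO s c / 2 ^ b < 2 ^ W := fun c =>
    lt_of_le_of_lt (Nat.div_le_self _ _) (hD c)
  rw [pk_and _ _ hq (fun _ => by omega), pk_mul]
  congr 1
  funext c
  rw [Nat.and_one_is_mod]
  rcases Nat.mod_two_eq_zero_or_one (diagO s c / 2 ^ b) with h | h
  · rw [h]; simp
  · rw [h]; simp

private theorem nod1_ite_mod (d x : ℕ) : (if d % 2 = 1 then x else 0) = (d % 2) * x := by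
  rcases Nat.mod_two_eq_zero_or_one d with h | h
  · rw [h]; simp
  · rw [h]; simp

private theorem nod1_bits (D : ℕ) (hD : D < 128) : D / 2 ^ 0 % 2 + (D / 2 ^ 1 % 2 * 2 ^ 1 +
    (D / 2 ^ 2 % 2 * 2 ^ 2 + (D / 2 ^ 3 % 2 * 2 ^ 3 + (D / 2 ^ 4 % 2 * 2 ^ 4 +
    (D / 2 ^ 5 % 2 * 2 ^ 5 + D / 2 ^ 6 % 2 * 2 ^ 6))))) = D := by
  revert D
  decide

theorem diagPO_eq {W : ℕ} (hW : 7 ≤ W) (hn1 : 1 ≤ n) (hn : n + 1 ≤ 10) (s : Bool) (f : Cfg n → ℕ)
    (hf : ∀ c, f c < 2 ^ W) : diagPO W (n + 1) s (pk W f) = pk W fun c => diagO s c * f c := by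
  have hm : ∀ b < 7, pk W f &&& DmO W (n + 1) s b =
      pk W fun c : Cfg n => if diagO s c / 2 ^ b % 2 = 1 then f c else 0 := by
    intro b hb
    rw [nod1_DmO_eq hW hn1 hn s b hb]
    exact pk_mask f hf (fun c => diagO s c / 2 ^ b % 2 = 1)
  unfold diagPO
  rw [hm 0 (by norm_num), hm 1 (by norm_num), hm 2 (by norm_num), hm 3 (by norm_num),
    hm 4 (by norm_num), hm 5 (by norm_num), hm 6 (by norm_num)]
  simp only [Nat.shiftLeft_eq, pk_mul, pk_add]
  congr 1
  funext c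
  have hD := diagO_le s c
  have hD128 : diagO s c < 128 := by omega
  generalize diagO s c = D at hD128
  generalize f c = x
  simp only [nod1_ite_mod]
  conv_rhs => rw [← nod1_bits D hD128]
  ring

private theorem nod1_sum_hop {n : ℕ} (i j : Fin (n + 1)) (f : Cfg n → ℕ) (c : Cfg n) :
    ∑ y : Cfg n, (if Hop i j c y then 1 else 0) * f y = hopF j i f c := by
  unfold hopF
  refine Finset.sum_congr rfl fun c' _ => ?_
  by_cases h : Hop i j c c'
  · rw [if_pos h, if_pos ((Hop_symm i j c c').1 h), one_mul]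
  · rw [if_neg h, if_neg (fun h' => h ((Hop_symm i j c c').2 h')), zero_mul]

theorem KPO_eq {W : ℕ} (hW : 7 ≤ W) (hn1 : 1 ≤ n) (hn : n + 1 ≤ 10) (s : Bool) (f : Cfg n → ℕ)
    (hf : ∀ c, f c < 2 ^ W) : KPO W (n + 1) s (pk W f) = pk W ((KO n s).mulVec f) := by
  have hW0 : 0 < W := by omega
  have e1 := intP_eq (n := n) hW0 f hf
  have e2 := diagPO_eq (n := n) hW hn1 hn s f hf
  unfold KPO
  rw [Nat.add_sub_cancel, e1, e2, mul_comm 5, pk_mul, pk_add]
  congr 1
  funext c
  have key : (KO n s).mulVec f c = ∑ y : Cfg n,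
      ((if c = y then diagO s c else 0) * f y +
      5 * ∑ j : Fin n, ((if Hop (Fin.castSucc j) (Fin.succ j) c y then 1 else 0) * f y +
        (if Hop (Fin.succ j) (Fin.castSucc j) c y then 1 else 0) * f y)) := by
    show ∑ y : Cfg n, KO n s c y * f y = _
    apply Finset.sum_congr rfl
    intro y _
    have hK : KO n s c y = (if c = y then diagO s c else 0) +
      5 * (∑ j : Fin n, ((if Hop (Fin.castSucc j) (Fin.succ j) c y then 1 else 0) +
        (if Hop (Fin.succ j) (Fin.castSucc j) c y then 1 else 0))) := rfl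
    rw [hK, add_mul, mul_assoc, Finset.sum_mul]
    congr 2
    apply Finset.sum_congr rfl
    intro j _
    rw [add_mul]
  have k1 : ∑ y : Cfg n, (if c = y then diagO s c else 0) * f y = diagO s c * f c := by
    rw [Finset.sum_eq_single c]
    · rw [if_pos rfl]
    · intro y _ hy
      rw [if_neg (fun h => hy h.symm), zero_mul]
    · intro h
      exact absurd (Finset.mem_univ _) h
  have k4 : ∀ j : Fin n, ∑ y : Cfg n,
      ((if Hop (Fin.castSucc j) (Fin.succ j) c y then 1 else 0) * f y +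
        (if Hop (Fin.succ j) (Fin.castSucc j) c y then 1 else 0) * f y) =
      hopF (Fin.castSucc j) (Fin.succ j) f c + hopF (Fin.succ j) (Fin.castSucc j) f c := by
    intro j
    rw [Finset.sum_add_distrib, add_comm, nod1_sum_hop, nod1_sum_hop]
  have k5 : ∑ y : Cfg n, 5 * ∑ j : Fin n,
      ((if Hop (Fin.castSucc j) (Fin.succ j) c y then 1 else 0) * f y +
        (if Hop (Fin.succ j) (Fin.castSucc j) c y then 1 else 0) * f y) =
      5 * ∑ j : Fin n, (hopF (Fin.castSucc j) (Fin.succ j) f c +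
        hopF (Fin.succ j) (Fin.castSucc j) f c) := by
    rw [← Finset.mul_sum, Finset.sum_comm]
    congr 1
    exact Finset.sum_congr rfl (fun j _ => k4 j)
  rw [Finset.sum_add_distrib, k1, k5] at key
  rw [key]
  ring

end Crest.Agent.R347
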