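import Crest.Agent.R347.NOD1
import Crest.Agent.R347.NOB
import Crest.Agent.R347.ND3

/-!
# Row 347 numerics (open chains), piece NOD2: the packed Horner recursion

Induction on the list, as `runP_eq` in ND3.lean (one component instead of four): `KPO_eq`, `shP_eq`, `hiM_eq`, `pk_check`, `pk_add`, `pk_mul`;
`(KO).mulVec f x ≤ (15 n + 12) 2^B` by `KO_rowsum`, so all slots stay `< 2^W`.
-/

set_option autoImplicit false

open Crest.MathPhysics.SpinChain Matrix

namespace Crest.Agent.R347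

variable {n : ℕ}

private theorem mulVecO_lt {B : ℕ} (s : Bool) (f : Cfg n → ℕ) (hf : ∀ x, f x < 2 ^ B) (x : Cfg n) :
    (KO n s).mulVec f x ≤ (15 * n + 12) * 2 ^ B := by
  unfold Matrix.mulVec dotProduct
  calc ∑ y, KO n s x y * f y ≤ ∑ y, KO n s x y * 2 ^ B :=
        Finset.sum_le_sum fun y _ => Nat.mul_le_mul_left _ (hf y).le
    _ = (∑ y, KO n s x y) * 2 ^ B := by rw [Finset.sum_mul]
    _ ≤ (15 * n + 12) * 2 ^ B := Nat.mul_le_mul_right _ (KO_rowsum s x)

private theorem loO_lt {W B : ℕ} (hB : (15 * n + 12) * 2 ^ B + 2 ^ B ≤ 2 ^ W) (s : Bool)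
    (A : Finset (Cfg n)) (f : Cfg n → ℕ) (hf : ∀ x, f x < 2 ^ B) (p : ℕ × ℕ) (hp : p.2 < 2 ^ B)
    (x : Cfg n) : loO s A f p x < 2 ^ W := by
  have h1 := mulVecO_lt s f hf x
  have h2 : (KO n s).mulVec f x / 2 ^ p.1 ≤ (KO n s).mulVec f x := Nat.div_le_self _ _
  have h3 : startO A p.2 x ≤ p.2 := by
    unfold startO
    split_ifs <;> omega
  unfold loO
  omega

private theorem stepO {W B : ℕ} (hW : 7 ≤ W) (hn1 : 1 ≤ n) (hn : n + 1 ≤ 10)
    (hB : (15 * n + 12) * 2 ^ B + 2 ^ B ≤ 2 ^ W) (s : Bool) (A : Finset (Cfg n)) (f : Cfg n → ℕ)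
    (hf : ∀ x, f x < 2 ^ B) (p t : ℕ) (hp : p ≤ W) :
    shP W (n + 1) p (KPO W (n + 1) s (pk W f)) + t * (pk W fun c => if c ∈ A then 1 else 0) =
      pk W (loO s A f (p, t)) := by
  have hf' : ∀ x, f x < 2 ^ W := by
    intro x
    have := hf x
    omega
  rw [KPO_eq hW hn1 hn s f hf', shP_eq (by omega) p hp _ (fun c => by
    have h1 := mulVecO_lt s f hf c
    have h2 : 0 < 2 ^ B := by positivity
    omega), mul_comm t, pk_mul, pk_add]
  congr 1
  funext c
  unfold loO startO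
  by_cases hc : c ∈ A
  · simp only [if_pos hc, one_mul]
  · simp only [if_neg hc, zero_mul]

theorem runO_eq {W B : ℕ} (hW : 7 ≤ W) (hn1 : 1 ≤ n) (hn : n + 1 ≤ 10)
    (hB : (15 * n + 12) * 2 ^ B + 2 ^ B ≤ 2 ^ W) (s : Bool) (A : Finset (Cfg n)) (st : ℕ)
    (hst : st = pk W fun c => if c ∈ A then 1 else 0) (k : ℕ → ℕ) (l : List (ℕ × ℕ))
    (hl : ∀ p ∈ l, p.1 ≤ W ∧ p.2 < 2 ^ B) (f : Cfg n → ℕ) (hf : ∀ x, f x < 2 ^ B)
    (h : runO W (n + 1) B s st k l (pk W f) ≠ 0) :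
    (∀ x, l.foldl (loO s A) f x < 2 ^ B) ∧
      runO W (n + 1) B s st k l (pk W f) = k (pk W (l.foldl (loO s A) f)) := by
  have hW0 : 0 < W := by omega
  have hBW : B ≤ W := by
    by_contra hc
    have h1 : 2 ^ W ≤ 2 ^ B := Nat.pow_le_pow_right (by norm_num) (by omega)
    have h2 : 0 < (15 * n + 12) * 2 ^ B := by positivity
    omega
  induction l generalizing f with
  | nil => exact ⟨hf, rfl⟩
  | cons p l ih =>
    obtain ⟨sh, t⟩ := p
    obtain ⟨hs, ht⟩ := hl (sh, t) List.mem_cons_self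
    have e0 := stepO hW hn1 hn hB s A f hf sh t hs
    rw [← hst] at e0
    set f' := loO s A f (sh, t) with hf'
    have hf'W : ∀ x, f' x < 2 ^ W := loO_lt hB s A f hf (sh, t) ht
    have hrun : runO W (n + 1) B s st k ((sh, t) :: l) (pk W f) =
        bif Nat.beq (pk W f' &&& hiM W (n + 1) B) 0
        then runO W (n + 1) B s st k l (pk W f') else 0 := by
      rw [runO, e0]
    rw [hrun] at h ⊢
    cases hb : Nat.beq (pk W f' &&& hiM W (n + 1) B) 0 with
    | false =>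
      rw [hb, cond_false] at h
      exact absurd rfl h
    | true =>
      rw [hb, cond_true] at h
      rw [cond_true]
      have hcheck := Nat.eq_of_beq_eq_true hb
      rw [hiM_eq hW0] at hcheck
      have hf'B : ∀ x, f' x < 2 ^ B := pk_check B hBW _ hf'W hcheck
      exact ih (fun p hp => hl p (List.mem_cons_of_mem _ hp)) f' hf'B h

end Crest.Agent.R347
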