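import Crest.Agent.R347.NODefs
import Crest.Agent.R347.ND4
import Crest.Agent.R347.ND5

/-!
# Row 347 numerics (open chains), piece NOD3: the final sums

`flipP_eq`, `cf_eq` (ND4), `cM0_eq`, `cM1_eq` (ND5), `pk_mask`, `pk_add`, `pk_mul`, `ones_eq`: `cf (v &&& cM q) (flip v) = ∑_(qcl c = q) v(c)²`;
each of the four sums is `≤ 3^(n+1) 2^(2(B+1)) < 2^(3W) < 2^200`, so the slots of 200 bits do not overlap.
-/

set_option autoImplicit false

open Crest.MathPhysics.SpinChain Matrix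

namespace Crest.Agent.R347

variable {n : ℕ}

private theorem NOD3_flp_flp (c : Cfg n) : flp (flp c) = c := by
  funext j
  unfold flp
  rw [Fin.rev_rev]

private theorem NOD3_cf {W b : ℕ} (hW : 0 < W) (hb : b ≤ W) (hs : 3 ^ n * 2 ^ (2 * b) < 2 ^ (3 * W))
    (f : Cfg n → ℕ) (hf : ∀ x, f x < 2 ^ b) (q : ℕ)
    (hq : cM W (n + 1) q = pk W fun c : Cfg n => if qcl c = q then 2 ^ W - 1 else 0) :
    cf W (n + 1) (pk W f &&& cM W (n + 1) q) (flipP W (n + 1) (pk W f) (n + 1)) = sqN n f q := by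
  have hbW : 2 ^ b ≤ 2 ^ W := Nat.pow_le_pow_right (by norm_num) hb
  have hfW : ∀ x, f x < 2 ^ W := fun x => (hf x).trans_le hbW
  rw [hq, flipP_eq hW f hfW, pk_mask f hfW (fun c => qcl c = q), cf_eq hW hb hs _ _ (fun c => by
    split_ifs
    · exact hf c
    · positivity) (fun c => hf _)]
  unfold sqN
  refine Finset.sum_congr rfl fun c _ => ?_
  rw [NOD3_flp_flp]
  split_ifs
  · rfl
  · rw [zero_mul]

theorem sqO_eq {W b : ℕ} (hW : 0 < W) (hb : b ≤ W) (hs : 3 ^ n * 2 ^ (2 * b) < 2 ^ (3 * W))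
    (f : Cfg n → ℕ) (hf : ∀ x, f x < 2 ^ b) :
    sqO W (n + 1) (pk W f) = sqN n f 0 + sqN n f 1 * 2 ^ 200 := by
  unfold sqO
  simp only
  rw [NOD3_cf hW hb hs f hf 0 (cM0_eq hW), NOD3_cf hW hb hs f hf 1 (cM1_eq hW), Nat.shiftLeft_eq]

private theorem NOD3_sqN_le {b : ℕ} (f : Cfg n → ℕ) (hf : ∀ x, f x < 2 ^ b) (q : ℕ) :
    sqN n f q ≤ 3 ^ (n + 1) * 2 ^ (2 * b) := by
  unfold sqN
  calc ∑ c : Cfg n, (if qcl c = q then f c * f c else 0) ≤ ∑ _c : Cfg n, 2 ^ (2 * b) := by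
        refine Finset.sum_le_sum fun c _ => ?_
        split_ifs
        · rw [two_mul, pow_add]
          exact Nat.mul_le_mul (hf c).le (hf c).le
        · exact Nat.zero_le _
    _ = 3 ^ (n + 1) * 2 ^ (2 * b) := by simp

private theorem NOD3_dig (M a b c d : ℕ) (ha : a < M) (hb : b < M) (hc : c < M) (hd : d < M) :
    (a + b * M + (c + d * M) * M ^ 2) % M = a ∧
    (a + b * M + (c + d * M) * M ^ 2) / M % M = b ∧
    (a + b * M + (c + d * M) * M ^ 2) / M ^ 2 % M = c ∧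
    (a + b * M + (c + d * M) * M ^ 2) / M ^ 3 % M = d := by
  have hM : 0 < M := by omega
  have e1 : a + b * M + (c + d * M) * M ^ 2 = a + M * (b + M * (c + M * d)) := by ring
  rw [e1]
  have h1 : (a + M * (b + M * (c + M * d))) / M = b + M * (c + M * d) := by
    rw [Nat.add_mul_div_left _ _ hM, Nat.div_eq_of_lt ha, zero_add]
  have h2 : (b + M * (c + M * d)) / M = c + M * d := by
    rw [Nat.add_mul_div_left _ _ hM, Nat.div_eq_of_lt hb, zero_add]
  have h3 : (c + M * d) / M = d := by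
    rw [Nat.add_mul_div_left _ _ hM, Nat.div_eq_of_lt hc, zero_add]
  refine ⟨?_, ?_, ?_, ?_⟩
  · rw [Nat.add_mul_mod_self_left, Nat.mod_eq_of_lt ha]
  · rw [h1, Nat.add_mul_mod_self_left, Nat.mod_eq_of_lt hb]
  · rw [pow_two, ← Nat.div_div_eq_div_mul, h1, h2, Nat.add_mul_mod_self_left, Nat.mod_eq_of_lt hc]
  · rw [show M ^ 3 = M * M * M by ring, ← Nat.div_div_eq_div_mul, ← Nat.div_div_eq_div_mul, h1, h2, h3,
      Nat.mod_eq_of_lt hd]

theorem resO_eq {W B E : ℕ} (hW : 7 ≤ W) (hB : B + 1 ≤ W) (hWm : 3 * W + 2 ≤ 200)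
    (hE : E < 2 ^ B) (hs : 3 ^ (n + 1) * 2 ^ (2 * (B + 1)) < 2 ^ (3 * W)) (f : Cfg n → ℕ)
    (hf : ∀ x, f x < 2 ^ B) (q : ℕ) (hq : q < 2) :
    resO W (n + 1) E (pk W f) >>> (200 * q) % 2 ^ 200 = sqN n f q ∧
      resO W (n + 1) E (pk W f) >>> (200 * (2 + q)) % 2 ^ 200 = sqN n (fun x => f x + E) q := by
  have hW0 : 0 < W := by omega
  have hs1 : 3 ^ n * 2 ^ (2 * (B + 1)) < 2 ^ (3 * W) := by
    refine lt_of_le_of_lt (Nat.mul_le_mul_right _ ?_) hs
    exact Nat.pow_le_pow_right (by norm_num) (Nat.le_succ n)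
  have hf1 : ∀ x, f x < 2 ^ (B + 1) := fun x => (hf x).trans (by rw [pow_succ]; have := Nat.one_le_two_pow (n := B); omega)
  have hf2 : ∀ x, (fun x => f x + E) x < 2 ^ (B + 1) := fun x => by
    have := hf x
    show f x + E < _
    rw [pow_succ]
    omega
  have e1 : pk W f + E * ones W (n + 1) = pk W (fun x => f x + E) := by
    rw [ones_eq hW0, Nat.mul_comm, pk_mul, pk_add]
    simp only [one_mul]
  have h200 : 2 ^ (3 * W) ≤ 2 ^ 200 := Nat.pow_le_pow_right (by norm_num) (by omega)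
  have hb1 : ∀ q, sqN n f q < 2 ^ 200 := fun q =>
    ((NOD3_sqN_le f hf1 q).trans_lt hs).trans_le h200
  have hb2 : ∀ q, sqN n (fun x => f x + E) q < 2 ^ 200 := fun q =>
    ((NOD3_sqN_le _ hf2 q).trans_lt hs).trans_le h200
  have key := NOD3_dig (2 ^ 200) _ _ _ _ (hb1 0) (hb1 1) (hb2 0) (hb2 1)
  have e2 : resO W (n + 1) E (pk W f) = sqN n f 0 + sqN n f 1 * 2 ^ 200 +
      (sqN n (fun x => f x + E) 0 + sqN n (fun x => f x + E) 1 * 2 ^ 200) * (2 ^ 200) ^ 2 := by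
    unfold resO
    rw [e1, sqO_eq hW0 hB hs1 f hf1, sqO_eq hW0 hB hs1 _ hf2, Nat.shiftLeft_eq, ← pow_mul]
  rw [e2]
  obtain ⟨k1, k2, k3, k4⟩ := key
  rw [Nat.shiftRight_eq_div_pow, Nat.shiftRight_eq_div_pow]
  have hq' : q = 0 ∨ q = 1 := by omega
  rcases hq' with rfl | rfl
  · refine ⟨?_, ?_⟩
    · rw [Nat.mul_zero, Nat.pow_zero, Nat.div_one]
      exact k1
    · rw [show 200 * (2 + 0) = 200 * 2 by norm_num, pow_mul]
      exact k3
  · refine ⟨?_, ?_⟩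
    · rw [Nat.mul_one]
      exact k2
    · rw [show 200 * (2 + 1) = 200 * 3 by norm_num, pow_mul]
      exact k4

end Crest.Agent.R347
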