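import Crest.Agent.R347.NDefs
import Crest.Agent.R347.NOCore

/-!
# Row 347, numerics (open chains): matrix-level and vector-level definitions

`n + 1` sites, `c = index` (index `k` carries `m = 1 - k`), `s = false / true`: last field `+3/5 / -3/5`.
`5 (n + 6/5 - H)(c, c') = sgS c * sgS c' * KO n s c c'`.
-/

set_option autoImplicit false

open Crest.MathPhysics.SpinChain Matrix

namespace Crest.Agent.R347

/-- diagonal of `5 (n + 6/5 - H)` -/
def diagO {n : ℕ} (s : Bool) (c : Cfg n) : ℕ :=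
  5 * (∑ j : Fin n, bd (c (Fin.castSucc j)) (c (Fin.succ j))) +
    (3 * (2 - (c 0 : ℕ)) + (if s then 3 * (c (Fin.last n) : ℕ) else 3 * (2 - (c (Fin.last n) : ℕ))))

/-- the nonnegative integer matrix -/
def KO (n : ℕ) (s : Bool) : Matrix (Cfg n) (Cfg n) ℕ := Matrix.of fun x y =>
  (if x = y then diagO s x else 0) +
  5 * (∑ j : Fin n, ((if Hop (Fin.castSucc j) (Fin.succ j) x y then 1 else 0) +
    (if Hop (Fin.succ j) (Fin.castSucc j) x y then 1 else 0)))

/-- real version -/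
noncomputable def KOR (n : ℕ) (s : Bool) : Matrix (Cfg n) (Cfg n) ℝ := (KO n s).map fun k => (k : ℝ)

/-- `exp(t K)` -/
noncomputable def EO (n : ℕ) (s : Bool) (t : ℝ) : Matrix (Cfg n) (Cfg n) ℝ :=
  NormedSpace.exp (t • KOR n s)

/-- last field -/
noncomputable def fO (s : Bool) : ℝ := if s then -(3 / 5) else 3 / 5

/-- the vector `exp(17/20 K) (∑_{c ∈ A} e_c)` -/
noncomputable def vO (n : ℕ) (s : Bool) (A : Finset (Cfg n)) (y : Cfg n) : ℝ :=
  ∑ c ∈ A, EO n s (17 / 20) c y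

/-- sum of squares over a class -/
noncomputable def sqR (n : ℕ) (v : Cfg n → ℝ) (q : ℕ) : ℝ :=
  ∑ c : Cfg n, if qcl c = q then v c * v c else 0

/-- sum of squares over a class (integers) -/
def sqN (n : ℕ) (v : Cfg n → ℕ) (q : ℕ) : ℕ := ∑ c : Cfg n, if qcl c = q then v c * v c else 0

/-- sign `(-1)^(ε (n+1+q))` -/
def sgO (n : ℕ) (ε : Bool) (q : ℕ) : ℝ := if ε ∧ (n + 1 + q) % 2 = 1 then -1 else 1

/-- start vector -/
def startO {n : ℕ} (A : Finset (Cfg n)) (a : ℕ) (x : Cfg n) : ℕ := if x ∈ A then a else 0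

/-- one Horner step (rounded down) -/
def loO {n : ℕ} (s : Bool) (A : Finset (Cfg n)) (f : Cfg n → ℕ) (p : ℕ × ℕ) : Cfg n → ℕ :=
  fun x => ((KO n s).mulVec f x) / 2 ^ p.1 + startO A p.2 x

/-- validity of a schedule `[(s_(N-1), a_(N-1)), …, (s_0, a_0)]`, `x = 17/20`, row sums `≤ 15 n + 12` -/
structure SchedO (n σ e0 : ℕ) (l : List (ℕ × ℕ)) : Prop where
  pos : 17 * (15 * n + 12) < 20 * l.length
  tail : 17 ^ l.length * 2 ^ σ * (20 * l.length) ≤
    e0 * (20 ^ l.length * l.length.factorial * (20 * l.length - 17 * (15 * n + 12)))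
  lower : ∀ i (h : i < l.length), (l.get ⟨i, h⟩).2 * (20 ^ (l.length - 1 - i) *
    (l.length - 1 - i).factorial * 2 ^ totSh (l.take (i + 1))) ≤ 17 ^ (l.length - 1 - i) * 2 ^ σ
  upper : ∀ i (h : i < l.length), 17 ^ (l.length - 1 - i) * 2 ^ σ ≤
    ((l.get ⟨i, h⟩).2 + 1) * (20 ^ (l.length - 1 - i) *
    (l.length - 1 - i).factorial * 2 ^ totSh (l.take (i + 1)))

end Crest.Agent.R347
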