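import Crest.Agent.R347.NOC
import Crest.Agent.R347.NOD2
import Crest.Agent.R347.NOD3
import Crest.Agent.R347.NE1

/-!
# Row 347 numerics (open chains), piece NOE1: meaning of one run certificate

Ring version with complete proof: `run_cert` in NE1.lean.  Combine `runO_eq` (start `f = 0`, `pk W (fun _ => 0) = 0`), `resO_eq`, `horner_open`,
`stP_eq` (NE1), monotonicity of `sqR` in nonnegative vectors and `sqR (a v) = a² sqR v`, `(sqN f : ℝ) = sqR (f : ℝ)`.
-/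

set_option autoImplicit false

open Crest.MathPhysics.SpinChain Matrix

namespace Crest.Agent.R347

variable {n : ℕ}

/-- parameters of the certificates for one open chain -/
structure ParO (n W B σ e0 E : ℕ) (l : List (ℕ × ℕ)) : Prop where
  hW : 7 ≤ W
  hn1 : 1 ≤ n
  hn : n + 1 ≤ 10
  hB : (15 * n + 12) * 2 ^ B + 2 ^ B ≤ 2 ^ W
  hBW : B + 1 ≤ W
  hWm : 3 * W + 2 ≤ 200
  hE : E < 2 ^ B
  hs : 3 ^ (n + 1) * 2 ^ (2 * (B + 1)) < 2 ^ (3 * W)
  hl : ∀ p ∈ l, p.1 ≤ W ∧ p.2 < 2 ^ B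
  sched : SchedO n σ e0 l
  err : errS (15 * n + 12) l e0 ≤ E

private theorem sqR_mono (v w : Cfg n → ℝ) (h0 : ∀ x, 0 ≤ v x) (h : ∀ x, v x ≤ w x) (q : ℕ) :
    sqR n v q ≤ sqR n w q := by
  unfold sqR
  refine Finset.sum_le_sum fun c _ => ?_
  split_ifs
  · exact mul_le_mul (h c) (h c) (h0 c) ((h0 c).trans (h c))
  · exact le_refl _

private theorem sqR_smul (a : ℝ) (v : Cfg n → ℝ) (q : ℕ) :
    sqR n (fun x => a * v x) q = a ^ 2 * sqR n v q := by
  unfold sqR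
  rw [Finset.mul_sum]
  refine Finset.sum_congr rfl fun c _ => ?_
  split_ifs
  · ring
  · rw [mul_zero]

private theorem sqN_cast (v : Cfg n → ℕ) (q : ℕ) :
    (sqN n v q : ℝ) = sqR n (fun x => (v x : ℝ)) q := by
  unfold sqN sqR
  push_cast
  rfl

theorem run_certO {W B σ e0 E : ℕ} {l : List (ℕ × ℕ)} (hp : ParO n W B σ e0 E l) (s : Bool)
    (starts : List ℕ) (hd : (starts.map (cfgOf n)).Nodup) (hlt : ∀ i ∈ starts, i < 3 ^ (n + 1))
    (v : ℕ) (hv0 : v ≠ 0)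
    (hv : runO W (n + 1) B s (stP W starts) (resO W (n + 1) E) l 0 = v) (q : ℕ) (hq : q < 2) :
    ((v >>> (200 * q) % 2 ^ 200 : ℕ) : ℝ) * 2 ^ (2 * totSh l) ≤
        sqR n (vO n s (starts.map (cfgOf n)).toFinset) q * 2 ^ (2 * σ) ∧
      sqR n (vO n s (starts.map (cfgOf n)).toFinset) q * 2 ^ (2 * σ) ≤
        ((v >>> (200 * (2 + q)) % 2 ^ 200 : ℕ) : ℝ) * 2 ^ (2 * totSh l) := by
  obtain ⟨hW, hn1, hn, hB, hBW, hWm, hE, hs, hl, sched, err⟩ := hp
  set A := (starts.map (cfgOf n)).toFinset with hA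
  have hz : pk W (fun _ : Cfg n => 0) = 0 := by
    unfold pk
    simp
  have hpos : 0 < 2 ^ B := by positivity
  set g := l.foldl (loO s A) (fun _ => 0) with hg
  have hrun := runO_eq (n := n) hW hn1 hn hB s A (stP W starts)
    (stP_eq starts hd hlt) (resO W (n + 1) E) l hl (fun _ => 0) (fun _ => hpos)
    (by rw [hz, hv]; exact hv0)
  rw [hz, hv] at hrun
  obtain ⟨hgB, hvv⟩ := hrun
  obtain ⟨hlo, hhi⟩ := resO_eq hW hBW hWm hE hs g hgB q hq
  rw [← hvv] at hlo hhi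
  rw [hlo, hhi, sqN_cast, sqN_cast]
  have hh := horner_open s sched A
  have h2pos : ∀ k : ℕ, (0 : ℝ) ≤ 2 ^ k := fun k => pow_nonneg (by norm_num) k
  have e1 : ∀ k : ℕ, (2 : ℝ) ^ (2 * k) = ((2 : ℝ) ^ k) ^ 2 := fun k => by
    rw [← pow_mul, mul_comm]
  rw [e1, e1, mul_comm, ← sqR_smul, mul_comm (sqR n (vO n s A) q), ← sqR_smul,
    mul_comm (sqR n _ q) _, ← sqR_smul]
  constructor
  · refine sqR_mono _ _ (fun x => mul_nonneg (h2pos _) (Nat.cast_nonneg _)) (fun x => ?_) q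
    have := (hh x).1
    rw [mul_comm, mul_comm (2 ^ σ : ℝ)]
    exact this
  · refine sqR_mono _ _ (fun x => ?_) (fun x => ?_) q
    · have h1 := (hh x).1
      rw [mul_comm (2 ^ σ : ℝ)]
      exact le_trans (mul_nonneg (Nat.cast_nonneg _) (h2pos _)) h1
    · have h1 := (hh x).2
      rw [mul_comm (2 ^ σ : ℝ)]
      refine h1.trans ?_
      rw [mul_comm]
      refine mul_le_mul_of_nonneg_left ?_ (h2pos _)
      push_cast
      have : ((errS (15 * n + 12) l e0 : ℕ) : ℝ) ≤ (E : ℝ) := by exact_mod_cast err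
      linarith

end Crest.Agent.R347
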