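import Crest.Agent.R347.NODefs
import Crest.Agent.R347.NB6

/-!
# Row 347 numerics (open chains), piece NOP: the partition certificate

`partOK`: all start indices are `< 3^(n+1)`, inside one run the digit sums are strictly increasing (so `Mtot` differs and the indices are distinct),
the union of the bits is everything and the total number is `3^(n+1)`: the flattened list has `3^(n+1)` entries and covers `range (3^(n+1))`,
so it is a permutation of it (`List.perm` / `Finset.eq_of_subset_of_card_le`, or `List.toFinset` with `card ≤ length`).  NB6.lean has the ring version: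
`sum_cfg` (sum over configurations = sum over slots), lemmas on `bits` (testBit), `memN`, `dsum` (`Mtot (cfgOf n i)` in terms of `dsum (n+1) i`,
see `dsR_inj`).
-/

set_option autoImplicit false

open Crest.MathPhysics.SpinChain Matrix

namespace Crest.Agent.R347

variable {n : ℕ}

namespace NOPaux

theorem incO_spec (L : ℕ) (l : List ℕ) : ∀ b, incO L b l = true →
    (∀ i ∈ l, i < 3 ^ L ∧ b ≤ dsum L i) ∧ (l.map (dsum L)).Nodup := by
  induction l with
  | nil => intro b _; simp
  | cons i l ih =>
    intro b h
    simp only [incO, Bool.and_eq_true] at h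
    obtain ⟨h1, h2, h3⟩ := h
    have h1' : i < 3 ^ L := by simpa [Nat.blt_eq] using h1
    have h2' : b ≤ dsum L i := Nat.le_of_ble_eq_true h2
    obtain ⟨h4, h5⟩ := ih _ h3
    constructor
    · intro j hj
      rcases List.mem_cons.1 hj with rfl | hj
      · exact ⟨h1', h2'⟩
      · have := h4 j hj
        exact ⟨this.1, by omega⟩
    · rw [List.map_cons, List.nodup_cons]
      refine ⟨fun hm => ?_, h5⟩
      obtain ⟨j, hj, hji⟩ := List.mem_map.1 hm
      have := (h4 j hj).2
      omega

theorem incR_mem (L : ℕ) (ls : List (List ℕ)) (h : incR L ls = true) (l : List ℕ) (hl : l ∈ ls) :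
    incO L 0 l = true := by
  induction ls with
  | nil => simp at hl
  | cons s ls ih =>
    simp only [incR, Bool.and_eq_true] at h
    rcases List.mem_cons.1 hl with rfl | hl
    · exact h.1
    · exact ih h.2 hl

theorem bitO_spec (ls : List (List ℕ)) (k : ℕ) :
    (bitO ls).testBit k = true ↔ k ∈ ls.flatten := by
  induction ls with
  | nil => simp [bitO]
  | cons l ls ih =>
    simp only [bitO, Nat.testBit_or, Bool.or_eq_true, NB6.testBit_bits, ih, List.flatten_cons,
      List.mem_append]

theorem lenO_spec (ls : List (List ℕ)) : lenO ls = ls.flatten.length := by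
  induction ls with
  | nil => simp [lenO]
  | cons l ls ih => simp only [lenO, List.flatten_cons, List.length_append, ih]

theorem sum_flatten (ls : List (List ℕ)) (f : ℕ → ℝ) :
    (ls.flatten.map f).sum = (ls.map fun l => (l.map f).sum).sum := by
  induction ls with
  | nil => simp
  | cons l ls ih =>
    rw [List.flatten_cons, List.map_append, List.sum_append, ih, List.map_cons, List.sum_cons]

end NOPaux

open NOPaux

theorem part_run (ls : List (List ℕ)) (h : partOK (n + 1) ls = true) (l : List ℕ) (hl : l ∈ ls) :
    (∀ i ∈ l, i < 3 ^ (n + 1)) ∧ (l.map (cfgOf n)).Nodup ∧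
      ∀ c ∈ (l.map (cfgOf n)).toFinset, ∀ c' ∈ (l.map (cfgOf n)).toFinset,
        Mtot c = Mtot c' → c = c' := by
  simp only [partOK, Bool.and_eq_true] at h
  obtain ⟨h1, hnd⟩ := incO_spec (n + 1) l 0 (incR_mem _ _ h.1 l hl)
  have hinj := List.inj_on_of_nodup_map hnd
  refine ⟨fun i hi => (h1 i hi).1, ?_, ?_⟩
  · rw [List.nodup_map_iff_inj_on (List.Nodup.of_map _ hnd)]
    intro x hx y hy hxy
    apply hinj hx hy
    have : ((dsum (n + 1) x : ℕ) : ℤ) = dsum (n + 1) y := by
      rw [NB6.dsum_cfg, NB6.dsum_cfg, hxy]
    exact_mod_cast this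
  · intro c hc c' hc' hM
    simp only [List.mem_toFinset, List.mem_map] at hc hc'
    obtain ⟨x, hx, rfl⟩ := hc
    obtain ⟨y, hy, rfl⟩ := hc'
    have : ((dsum (n + 1) x : ℕ) : ℤ) = dsum (n + 1) y := by
      rw [NB6.dsum_cfg, NB6.dsum_cfg, hM]
    have : x = y := hinj hx hy (by exact_mod_cast this)
    rw [this]

theorem part_sum (ls : List (List ℕ)) (h : partOK (n + 1) ls = true) (F : Cfg n → ℝ) :
    ∑ c, F c = (ls.map fun l => ∑ c ∈ (l.map (cfgOf n)).toFinset, F c).sum := by
  have hrun := part_run ls h
  simp only [partOK, Bool.and_eq_true] at h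
  obtain ⟨-, h2, h3⟩ := h
  have h2' := Nat.eq_of_beq_eq_true h2
  have h3' := Nat.eq_of_beq_eq_true h3
  rw [lenO_spec] at h3'
  have hsub : Finset.range (3 ^ (n + 1)) ⊆ ls.flatten.toFinset := by
    intro k hk
    rw [List.mem_toFinset, ← bitO_spec, h2', Nat.testBit_two_pow_sub_one]
    simpa using hk
  have hc1 := Finset.card_le_card hsub
  rw [Finset.card_range] at hc1
  have hc2 := List.toFinset_card_le ls.flatten
  have hnd : ls.flatten.Nodup := by
    have h0 : ls.flatten.toFinset.card = ls.flatten.length := by omega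
    exact Multiset.coe_nodup.1
      ((Multiset.toFinset_card_eq_card_iff_nodup (m := (ls.flatten : Multiset ℕ))).1 h0)
  have heq : Finset.range (3 ^ (n + 1)) = ls.flatten.toFinset :=
    Finset.eq_of_subset_of_card_le hsub (by rw [Finset.card_range]; omega)
  rw [NB6.sum_cfg, heq, List.sum_toFinset _ hnd, sum_flatten]
  congr 1
  apply List.map_congr_left
  intro l hl
  rw [List.sum_toFinset _ (hrun l hl).2.1, List.map_map]
  rfl

end Crest.Agent.R347
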