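import Mathlib

/-!
# Row 347 numerics (open chains), piece NOX: `exp(-17/10)`

`exp(-17/10) = 0.182683524052734...`.  E.g. `Real.exp_bound'`-type Taylor bounds (`Real.exp_approx_end'`, `Real.exp_approx_succ`, see
`Mathlib/Analysis/Complex/ExponentialBounds.lean`), or `Real.exp_bound` for `x = -17/20` and squaring, or `x = 17/160`.
-/

set_option autoImplicit false

namespace Crest.Agent.R347

theorem exp_17_10 : 182683524052 ≤ Real.exp (-(17 / 10)) * 10 ^ 12 ∧
    Real.exp (-(17 / 10)) * 10 ^ 12 ≤ 182683524053 := by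
  have h1 : |(-(17 / 80) : ℝ)| ≤ 1 := by rw [abs_neg, abs_of_pos] <;> norm_num
  have h2 := Real.exp_bound h1 (n := 13) (by norm_num)
  have h3 : Real.exp (-(17 / 10)) = Real.exp (-(17 / 80)) ^ 8 := by
    rw [← Real.exp_nat_mul]
    norm_num
  rw [abs_neg, abs_of_pos (by norm_num : (0 : ℝ) < 17 / 80), abs_le] at h2
  obtain ⟨h4, h5⟩ := h2
  have e1 : ∑ m ∈ Finset.range 13, (-(17 / 80) : ℝ) ^ m / (m.factorial : ℝ) ≤ 0.808560316321452467 := by
    norm_num [Finset.sum_range_succ, Nat.factorial]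
  have e2 : 0.808560316321452465 ≤ ∑ m ∈ Finset.range 13, (-(17 / 80) : ℝ) ^ m / (m.factorial : ℝ) := by
    norm_num [Finset.sum_range_succ, Nat.factorial]
  have e3 : (17 / 80 : ℝ) ^ 13 * ((Nat.succ 13 : ℕ) / ((Nat.factorial 13 : ℕ) * (13 : ℕ))) ≤ 0.000000000000000001 := by
    norm_num [Nat.factorial]
  have lo : 0.808560316321452464 ≤ Real.exp (-(17 / 80)) := by linarith
  have hi : Real.exp (-(17 / 80)) ≤ 0.808560316321452468 := by linarith
  rw [h3]
  have p1 := pow_le_pow_left₀ (by norm_num) lo 8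
  have p2 := pow_le_pow_left₀ (Real.exp_pos _).le hi 8
  constructor
  · refine le_trans ?_ (mul_le_mul_of_nonneg_right p1 (by norm_num))
    norm_num
  · refine le_trans (mul_le_mul_of_nonneg_right p2 (by norm_num)) ?_
    norm_num

end Crest.Agent.R347
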