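import Crest.Agent.R347.NOE1
import Crest.Agent.R347.NOP
import Crest.Agent.R347.NOX
import Crest.Agent.R347.NOA2
import Crest.Agent.R347.NOChk

/-!
# Row 347 numerics (open chains), piece NOE2: from the run certificates to the traces

`open_trace` + `part_sum` + `run_openO` (hypothesis from `part_run`) + `run_certO`, summed over the runs (`totsO`, induction on `rs`); then
`numCheckO`: `x 2^(2σ)` lies between `trO .. 0 2 * 2^(2T)` and `trO .. 2 0 * 2^(2T)`, and `e x` is between the corner values for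
`e = exp(-17/10)` between its bounds (`exp_17_10`).  Ring version: NE2.lean (`num_of_cert`, `ne2_tots`, `ne2_inI`).
-/

set_option autoImplicit false

open Crest.MathPhysics.SpinChain Matrix

namespace Crest.Agent.R347

variable {n : ℕ}

theorem inO_sound {σ T : ℕ} {lo hi d a : ℤ} (h : inO σ T lo hi d a = true) {X : ℝ}
    (h1 : (lo : ℝ) * 2 ^ (2 * T) ≤ X * 2 ^ (2 * σ))
    (h2 : X * 2 ^ (2 * σ) ≤ (hi : ℝ) * 2 ^ (2 * T)) :
    |Real.exp (-(17 / 10)) * X - (a : ℝ)| ≤ (d : ℝ) := by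
  unfold inO at h
  simp only [Bool.and_eq_true, decide_eq_true_eq] at h
  obtain ⟨⟨a1, a2⟩, b1, b2⟩ := h
  have a1' : ((a : ℝ) - d) * 10 ^ 12 * 2 ^ (2 * σ) ≤ 182683524052 * lo * 2 ^ (2 * T) := by
    exact_mod_cast a1
  have a2' : ((a : ℝ) - d) * 10 ^ 12 * 2 ^ (2 * σ) ≤ 182683524053 * lo * 2 ^ (2 * T) := by
    exact_mod_cast a2
  have b1' : 182683524052 * (hi : ℝ) * 2 ^ (2 * T) ≤ ((a : ℝ) + d) * 10 ^ 12 * 2 ^ (2 * σ) := by
    exact_mod_cast b1
  have b2' : 182683524053 * (hi : ℝ) * 2 ^ (2 * T) ≤ ((a : ℝ) + d) * 10 ^ 12 * 2 ^ (2 * σ) := by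
    exact_mod_cast b2
  obtain ⟨x1, x2⟩ := exp_17_10
  generalize Real.exp (-(17 / 10)) = e at x1 x2 ⊢
  have hE : 0 ≤ e * 10 ^ 12 := le_trans (by norm_num) x1
  -- corner values
  have lower : ∀ L c : ℝ, c ≤ 182683524052 * L → c ≤ 182683524053 * L → c ≤ (e * 10 ^ 12) * L := by
    intro L c h3 h4
    rcases le_total 0 L with hL | hL
    · exact h3.trans (mul_le_mul_of_nonneg_right x1 hL)
    · exact h4.trans (mul_le_mul_of_nonpos_right x2 hL)
  have upper : ∀ L c : ℝ, 182683524052 * L ≤ c → 182683524053 * L ≤ c → (e * 10 ^ 12) * L ≤ c := by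
    intro L c h3 h4
    rcases le_total 0 L with hL | hL
    · exact (mul_le_mul_of_nonneg_right x2 hL).trans h4
    · exact (mul_le_mul_of_nonpos_right x1 hL).trans h3
  have l1 := lower ((lo : ℝ) * 2 ^ (2 * T)) (((a : ℝ) - d) * 10 ^ 12 * 2 ^ (2 * σ))
    (by rw [← mul_assoc]; exact a1') (by rw [← mul_assoc]; exact a2')
  have u1 := upper ((hi : ℝ) * 2 ^ (2 * T)) (((a : ℝ) + d) * 10 ^ 12 * 2 ^ (2 * σ))
    (by rw [← mul_assoc]; exact b1') (by rw [← mul_assoc]; exact b2')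
  have l2 := l1.trans (mul_le_mul_of_nonneg_left h1 hE)
  have u2 := (mul_le_mul_of_nonneg_left h2 hE).trans u1
  have hp : (0 : ℝ) < 10 ^ 12 * 2 ^ (2 * σ) := by positivity
  have l3 : ((a : ℝ) - d) * (10 ^ 12 * 2 ^ (2 * σ)) ≤ (e * X) * (10 ^ 12 * 2 ^ (2 * σ)) := by
    calc _ = ((a : ℝ) - d) * 10 ^ 12 * 2 ^ (2 * σ) := by ring
      _ ≤ _ := l2
      _ = _ := by ring
  have u3 : (e * X) * (10 ^ 12 * 2 ^ (2 * σ)) ≤ ((a : ℝ) + d) * (10 ^ 12 * 2 ^ (2 * σ)) := by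
    calc _ = e * 10 ^ 12 * (X * 2 ^ (2 * σ)) := by ring
      _ ≤ _ := u2
      _ = _ := by ring
  have l4 := le_of_mul_le_mul_right l3 hp
  have u4 := le_of_mul_le_mul_right u3 hp
  rw [abs_le]
  constructor <;> linarith

namespace NOE2Aux

/-- the totals -/
theorem tots_bd (e : List ℕ × ℕ → ℕ → ℝ) (P S : ℝ) (rs : List (List ℕ × ℕ)) (q : ℕ)
    (h : ∀ r ∈ rs, ((r.2 >>> (200 * q) % 2 ^ 200 : ℕ) : ℝ) * P ≤ e r q * S ∧
      e r q * S ≤ ((r.2 >>> (200 * (2 + q)) % 2 ^ 200 : ℕ) : ℝ) * P) :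
    (totsO rs q : ℝ) * P ≤ (rs.map fun r => e r q).sum * S ∧
      (rs.map fun r => e r q).sum * S ≤ (totsO rs (2 + q) : ℝ) * P := by
  induction rs with
  | nil => simp [totsO]
  | cons r l ih =>
    have h1 := h r (List.mem_cons_self ..)
    have h2 := ih (fun r' hr' => h r' (List.mem_cons_of_mem _ hr'))
    have h4 : (totsO (r :: l) q : ℝ) =
        ((r.2 >>> (200 * q) % 2 ^ 200 : ℕ) : ℝ) + (totsO l q : ℝ) := by
      rw [totsO]
      push_cast
      rfl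
    have h5 : (totsO (r :: l) (2 + q) : ℝ) =
        ((r.2 >>> (200 * (2 + q)) % 2 ^ 200 : ℕ) : ℝ) + (totsO l (2 + q) : ℝ) := by
      rw [totsO]
      push_cast
      rfl
    rw [List.map_cons, List.sum_cons, h4, h5, add_mul, add_mul, add_mul]
    exact ⟨add_le_add h1.1 h2.1, add_le_add h1.2 h2.2⟩

theorem cls_bd (ε : Bool) (tot : ℕ → ℕ) (E : ℕ → ℝ) (P S : ℝ) (q : ℕ)
    (hE : (tot q : ℝ) * P ≤ E q * S ∧ E q * S ≤ (tot (2 + q) : ℝ) * P) :
    (clsO n ε tot 0 2 q : ℝ) * P ≤ sgO n ε q * E q * S ∧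
      sgO n ε q * E q * S ≤ (clsO n ε tot 2 0 q : ℝ) * P := by
  unfold clsO sgO
  simp only [zero_add]
  by_cases h1 : ε = true ∧ (n + 1 + q) % 2 = 1
  · rw [if_pos h1, if_pos (by simp [h1.1, h1.2]), if_pos (by simp [h1.1, h1.2])]
    push_cast
    constructor <;> linarith [hE.1, hE.2]
  · have h2 : ¬ ((ε && Nat.beq ((n + 1 + q) % 2) 1) = true) := by
      intro h2
      apply h1
      simp only [Bool.and_eq_true, Nat.beq_eq] at h2
      exact h2
    rw [if_neg h1, if_neg h2, if_neg h2]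
    push_cast
    constructor <;> linarith [hE.1, hE.2]

theorem tr_bd (ε : Bool) (tot : ℕ → ℕ) (E : ℕ → ℝ) (P S : ℝ)
    (hE : ∀ q < 2, (tot q : ℝ) * P ≤ E q * S ∧ E q * S ≤ (tot (2 + q) : ℝ) * P) :
    (trO n ε tot 0 2 : ℝ) * P ≤ (sgO n ε 0 * E 0 + sgO n ε 1 * E 1) * S ∧
      (sgO n ε 0 * E 0 + sgO n ε 1 * E 1) * S ≤ (trO n ε tot 2 0 : ℝ) * P := by
  have h0 := cls_bd (n := n) ε tot E P S 0 (hE 0 (by omega))
  have h1 := cls_bd (n := n) ε tot E P S 1 (hE 1 (by omega))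
  unfold trO
  push_cast
  constructor <;> linarith [h0.1, h0.2, h1.1, h1.2]

theorem sum_lin (a b : ℝ) (e : List ℕ × ℕ → ℕ → ℝ) (rs : List (List ℕ × ℕ)) :
    (rs.map fun r => a * e r 0 + b * e r 1).sum =
      a * (rs.map fun r => e r 0).sum + b * (rs.map fun r => e r 1).sum := by
  induction rs with
  | nil => simp
  | cons r l ih =>
    simp only [List.map_cons, List.sum_cons, ih]
    ring

end NOE2Aux

open NOE2Aux in
theorem numO_of_cert {W B σ e0 E : ℕ} {l : List (ℕ × ℕ)} (hp : ParO n W B σ e0 E l) (s : Bool)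
    (rs : List (List ℕ × ℕ)) (hpart : partOK (n + 1) (rs.map Prod.fst) = true)
    (hrun : ∀ r ∈ rs, chkO W (n + 1) B E s l r = true)
    (d p q : ℤ) (hc : numCheckO n σ (totSh l) (totsO rs) d p q = true) :
    |Real.exp (17 / 2 * ((n + 1 : ℕ) : ℝ)) * (zOpen n (17 / 2) (3 / 5) (fO s) 1).re - p| ≤ d ∧
      |Real.exp (17 / 2 * ((n + 1 : ℕ) : ℝ)) * (zOpen n (17 / 2) (3 / 5) (fO s) wz).re - q| ≤ d := by
  have hpr : ∀ r ∈ rs, (∀ i ∈ r.1, i < 3 ^ (n + 1)) ∧ (r.1.map (cfgOf n)).Nodup ∧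
      ∀ c ∈ (r.1.map (cfgOf n)).toFinset, ∀ c' ∈ (r.1.map (cfgOf n)).toFinset,
        Mtot c = Mtot c' → c = c' := fun r hr =>
    part_run (rs.map Prod.fst) hpart r.1 (List.mem_map.2 ⟨r, hr, rfl⟩)
  set e : List ℕ × ℕ → ℕ → ℝ := fun r i => sqR n (vO n s (r.1.map (cfgOf n)).toFinset) i with he
  have hE : ∀ i < 2, (totsO rs i : ℝ) * 2 ^ (2 * totSh l) ≤
        (rs.map fun r => e r i).sum * 2 ^ (2 * σ) ∧
      (rs.map fun r => e r i).sum * 2 ^ (2 * σ) ≤ (totsO rs (2 + i) : ℝ) * 2 ^ (2 * totSh l) := by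
    intro i hi
    apply tots_bd
    intro r hr
    have h1 := hrun r hr
    unfold chkO at h1
    rw [Bool.and_eq_true] at h1
    have h2 : r.2 ≠ 0 := by
      intro h0
      have := h1.1
      rw [h0] at this
      simp at this
    exact run_certO hp s r.1 (hpr r hr).2.1 (hpr r hr).1 r.2 h2 (Nat.eq_of_beq_eq_true h1.2) i hi
  have htr : ∀ ε : Bool, ∑ c : Cfg n, sgM ε c * EO n s (17 / 10) c c =
      sgO n ε 0 * (rs.map fun r => e r 0).sum + sgO n ε 1 * (rs.map fun r => e r 1).sum := by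
    intro ε
    rw [part_sum (rs.map Prod.fst) hpart, List.map_map, ← sum_lin]
    congr 1
    apply List.map_congr_left
    intro r hr
    exact run_openO s ε _ (hpr r hr).2.2
  unfold numCheckO at hc
  rw [Bool.and_eq_true] at hc
  constructor
  · have h1 : Real.exp (17 / 2 * ((n + 1 : ℕ) : ℝ)) * (zOpen n (17 / 2) (3 / 5) (fO s) 1).re =
        Real.exp (-(17 / 10)) * ∑ c : Cfg n, sgM false c * EO n s (17 / 10) c c :=
      open_trace (n := n) s false
    have h2 := tr_bd (n := n) false (totsO rs) (fun i => (rs.map fun r => e r i).sum) _ _ hE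
    rw [h1, htr]
    exact inO_sound hc.1 h2.1 h2.2
  · have h1 : Real.exp (17 / 2 * ((n + 1 : ℕ) : ℝ)) * (zOpen n (17 / 2) (3 / 5) (fO s) wz).re =
        Real.exp (-(17 / 10)) * ∑ c : Cfg n, sgM true c * EO n s (17 / 10) c c :=
      open_trace (n := n) s true
    have h2 := tr_bd (n := n) true (totsO rs) (fun i => (rs.map fun r => e r i).sum) _ _ hE
    rw [h1, htr]
    exact inO_sound hc.2 h2.1 h2.2

end Crest.Agent.R347
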