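import Crest.Agent.R347.NOS2p

/-! Row 347 numerics, open chain with 2 sites, s = false: run certificates (generated). -/

set_option autoImplicit false
set_option Elab.async false

namespace Crest.Agent.R347

def r2p_0 : List ℕ × ℕ := ([0, 1, 2, 5, 8],
  4079576216629712149489982969149837665049913795699303549209680934647650291891956909158980262629053243847388278074494477906358095566970671493049959210245278099223316183286482889704409854321197400890035398575312564513)
theorem t2p_0 : chkO 64 2 57 99026 false sch2p r2p_0 = true := by decide +kernel
def r2p_1 : List ℕ × ℕ := ([3, 4, 7],
  4079576216629712149489982969149837665049913795699303549209680919135778049892007528886814265259372212143683553066870447148303092394698160463385564682205082062100720226842543843918238337491724051898075230082205399929)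
theorem t2p_1 : chkO 64 2 57 99026 false sch2p r2p_1 = true := by decide +kernel
def r2p_2 : List ℕ × ℕ := ([6],
  162763066407294943606727085208428273626340703177942944703570905927905174694109360758434303190226051166758671584417722575872301745544787369521128117376844467802440581559975691942972310702209757)
theorem t2p_2 : chkO 64 2 57 99026 false sch2p r2p_2 = true := by decide +kernel

/-- runs of this file -/
def rs2p_0 : List (List ℕ × ℕ) := [r2p_0, r2p_1, r2p_2]

theorem c2p_0 : ∀ r ∈ rs2p_0, chkO 64 2 57 99026 false sch2p r = true :=
  List.forall_mem_cons.2 ⟨t2p_0, List.forall_mem_cons.2 ⟨t2p_1, List.forall_mem_cons.2 ⟨t2p_2, fun _ h => by cases h⟩⟩⟩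

end Crest.Agent.R347
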