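import Crest.Agent.R347.NOS3p

/-! Row 347 numerics, open chain with 3 sites, s = false: run certificates (generated). -/

set_option autoImplicit false
set_option Elab.async false

namespace Crest.Agent.R347

def r3p_0 : List ℕ × ℕ := ([0, 1, 2, 5, 8, 17, 26],
  3172446543974371214089497619206350495632575369722351280647187833370166396723397996883369027811891356042777027411975619572883195385071285708283290543999032933023190627075306211437626624469549643200025368083204362)
theorem t3p_0 : chkO 64 3 57 506151 false sch3p r3p_0 = true := by decide +kernel
def r3p_1 : List ℕ × ℕ := ([3, 4, 7, 14, 23],
  12618884498428749093610238241923917036855334949620204778128536274580986571660878160394070369414447500949783731668427001320071431909715409163541282324389515394426981458830241256539681062666278602321890638736828046)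
theorem t3p_1 : chkO 64 3 57 506151 false sch3p r3p_1 = true := by decide +kernel
def r3p_2 : List ℕ × ℕ := ([9, 6, 11, 16, 25],
  3901836509724685919325798494049401173581467045851796597439930027144789813247590547972543611707390849500159505021753568452025980735804873840993105457865198600847719668761923469321719978205770660553032806583117277)
theorem t3p_2 : chkO 64 3 57 506151 false sch3p r3p_2 = true := by decide +kernel
def r3p_3 : List ℕ × ℕ := ([10, 13, 20],
  12674620277049933359142191397668405041283760871998267684964582873982892487191419223768745921196425144031995725218937978075771930837805993484698404230309904177819645800087391401397719994590151156521937516441527810)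
theorem t3p_3 : chkO 64 3 57 506151 false sch3p r3p_3 = true := by decide +kernel
def r3p_4 : List ℕ × ℕ := ([12, 15, 22],
  12614857176071227306180422048207496954118191572850954231274677991625597212419103353269880643484180904015635880072377124438386287626472592921877337736941676301991841795453117931961904167984611241487892780703721102)
theorem t3p_4 : chkO 64 3 57 506151 false sch3p r3p_4 = true := by decide +kernel
def r3p_5 : List ℕ × ℕ := ([18, 19, 24],
  3901151555031352317761418718585889814511205576129046275427960299564438980503026863170414045696819447680934467962916754596443370109452626867123478573068151916234049622459350101924515388472392351541115799184729185)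
theorem t3p_5 : chkO 64 3 57 506151 false sch3p r3p_5 = true := by decide +kernel
def r3p_6 : List ℕ × ℕ := ([21],
  3171761589281037612525117843742839136562313899999600958671095595553672308364725846570994733788483587143533411597470379918563979297691313023953615222163941398284244077584581330503491945408309041459144823243014144)
theorem t3p_6 : chkO 64 3 57 506151 false sch3p r3p_6 = true := by decide +kernel

/-- runs of this file -/
def rs3p_0 : List (List ℕ × ℕ) := [r3p_0, r3p_1, r3p_2, r3p_3, r3p_4, r3p_5, r3p_6]

theorem c3p_0 : ∀ r ∈ rs3p_0, chkO 64 3 57 506151 false sch3p r = true :=
  List.forall_mem_cons.2 ⟨t3p_0, List.forall_mem_cons.2 ⟨t3p_1, List.forall_mem_cons.2 ⟨t3p_2, List.forall_mem_cons.2 ⟨t3p_3, List.forall_mem_cons.2 ⟨t3p_4, List.forall_mem_cons.2 ⟨t3p_5, List.forall_mem_cons.2 ⟨t3p_6, fun _ h => by cases h⟩⟩⟩⟩⟩⟩⟩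

end Crest.Agent.R347
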