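import Crest.Agent.R347.NOCore

/-! Row 347 numerics, open chain with 2 sites, s = true: schedule (generated). -/

set_option autoImplicit false
set_option Elab.async false

namespace Crest.Agent.R347

/-- schedule -/
def sch2m : List (ℕ × ℕ) := [(0, 101757668688988587), (7, 64533815620774012), (6, 80667269525967515), (6, 99351232688232050), (7, 60268211005729001),
  (6, 72011649179639431), (6, 84719587270164036), (6, 98112757316550263), (7, 55909843323769451), (6, 62693022844667951),
  (6, 69146716372795534), (6, 74993681360201039), (6, 79956498509037872), (6, 83777948805425712), (6, 86242006123232350),
  (6, 87193204720179766), (6, 86552078214884326), (6, 84324635025530686), (6, 80604430539110214), (6, 75566653630415826),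
  (6, 69454644880896899), (6, 62560249984631398), (6, 55200220574674763), (6, 47691367040619740), (5, 80654517789283384),
  (6, 66717891553635152), (6, 53963000521322549), (6, 42654577617957162), (5, 65863686027727971), (6, 49639910425309684),
  (5, 72999868272514241), (6, 52334464386545136), (6, 36557162622954323), (5, 49728493273871689), (5, 65817123450712530),
  (6, 42345575749539311), (5, 52931969686924139), (6, 32109466905670893), (5, 37775843418436345), (5, 43053350954835540),
  (5, 47485313553127434), (5, 50627724008849103), (6, 26058387357495861), (5, 25866781568102509), (5, 24725600028333281),
  (5, 22725735320159266), (5, 20052119400140528), (5, 16955836257471770), (4, 27428558651792570), (5, 21176460723810440),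
  (5, 15570927002801794), (5, 10876750479898312), (5, 7197849582285647), (4, 8997311977857059), (5, 5292536457562976),
  (4, 5837356387017988), (5, 3004521669788670), (5, 1435984621590173), (4, 1267045254344270), (5, 512408007271580),
  (5, 188385296791022), (4, 124666740523470), (5, 36666688389256), (4, 18872560200352), (5, 4163064750077),
  (5, 765269255528), (4, 225079192802), (5, 24824910970), (4, 3650722201), (5, 134217728)]

end Crest.Agent.R347
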