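import Crest.Agent.R347.NOCore

/-! Row 347 numerics, open chain with 2 sites, s = false: schedule (generated). -/

set_option autoImplicit false
set_option Elab.async false

namespace Crest.Agent.R347

/-- schedule -/
def sch2p : List (ℕ × ℕ) := [(0, 101757668688988587), (7, 64533815620774012), (6, 80667269525967515), (6, 99351232688232050), (7, 60268211005729001),
  (6, 72011649179639431), (6, 84719587270164036), (6, 98112757316550263), (7, 55909843323769451), (6, 62693022844667951),
  (6, 69146716372795534), (6, 74993681360201039), (6, 79956498509037872), (6, 83777948805425712), (6, 86242006123232350),
  (6, 87193204720179766), (6, 86552078214884326), (6, 84324635025530686), (6, 80604430539110214), (6, 75566653630415826),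
  (6, 69454644880896899), (6, 62560249984631398), (6, 55200220574674763), (5, 95382734081239480), (6, 80654517789283384),
  (6, 66717891553635152), (6, 53963000521322549), (5, 85309155235914324), (6, 65863686027727971), (6, 49639910425309684),
  (5, 72999868272514241), (6, 52334464386545136), (5, 73114325245908646), (6, 49728493273871689), (5, 65817123450712530),
  (5, 84691151499078623), (6, 52931969686924139), (5, 64218933811341787), (5, 75551686836872690), (6, 43053350954835540),
  (5, 47485313553127434), (5, 50627724008849103), (5, 52116774714991723), (5, 51733563136205019), (5, 49451200056666563),
  (5, 45451470640318532), (5, 40104238800281057), (5, 33911672514943541), (5, 27428558651792570), (4, 42352921447620880),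
  (5, 31141854005603588), (5, 21753500959796624), (4, 28791398329142591), (5, 17994623955714119), (4, 21170145830251905),
  (5, 11674712774035977), (4, 12018086679154682), (4, 11487876972721387), (5, 5068181017377082), (4, 4099264058172640),
  (4, 3014164748656353), (5, 997333924187763), (4, 586667014228096), (4, 301960963205637), (5, 66609036001243),
  (4, 24488616176927), (5, 3601267084842), (4, 794397151068), (4, 116823110451), (5, 4294967296)]

end Crest.Agent.R347
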