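import Crest.Agent.R347.NOCore

/-! Row 347 numerics, open chain with 3 sites, s = true: schedule (generated). -/

set_option autoImplicit false
set_option Elab.async false

namespace Crest.Agent.R347

/-- schedule -/
def sch3m : List (ℕ × ℕ) := [(0, 111298371514588903), (7, 91043704639691290), (7, 73638290517397367), (7, 58883559512992379), (6, 93087980112451188),
  (7, 72724984462852491), (7, 56147965945584644), (6, 85666933336094217), (7, 64565151962865127), (6, 96135612297648443),
  (7, 70687950218859149), (7, 51326728559649566), (6, 73593471096556363), (7, 52083614654731985), (6, 72763873414699096),
  (7, 50158920092853237), (6, 68230883949837124), (6, 91559825888568200), (7, 60591061249787779), (6, 79080245381156845),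
  (7, 50878834344494293), (6, 64533815620774012), (6, 80667269525967515), (7, 49675616344116025), (6, 60268211005729001),
  (6, 72011649179639431), (6, 84719587270164036), (7, 49056378658275131), (6, 55909843323769451), (6, 62693022844667951),
  (6, 69146716372795534), (6, 74993681360201039), (6, 79956498509037872), (6, 83777948805425712), (7, 43121003061616175),
  (6, 43596602360089883), (6, 43276039107442163), (6, 42162317512765343), (5, 80604430539110214), (6, 75566653630415826),
  (6, 69454644880896899), (6, 62560249984631398), (6, 55200220574674763), (6, 47691367040619740), (6, 40327258894641692),
  (5, 66717891553635152), (6, 53963000521322549), (6, 42654577617957162), (6, 32931843013863985), (5, 49639910425309684),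
  (6, 36499934136257120), (5, 52334464386545136), (6, 36557162622954323), (5, 49728493273871689), (6, 32908561725356265),
  (5, 42345575749539311), (6, 26465984843462069), (5, 32109466905670893), (5, 37775843418436345), (6, 21526675477417770),
  (5, 23742656776563717), (5, 25313862004424551), (5, 26058387357495861), (5, 25866781568102509), (6, 12362800014166640),
  (5, 11362867660079633), (5, 10026059700070264), (5, 8477918128735885), (5, 6857139662948142), (5, 5294115180952610),
  (5, 3892731750700448), (5, 2719187619974578), (5, 1799462395571411), (5, 1124663997232132), (5, 661567057195372),
  (5, 364834774188624), (5, 187782604361791), (4, 179498077698771), (5, 79190328396516), (5, 32025500454473),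
  (5, 11774081049438), (5, 3895835641358), (5, 1145834012164), (5, 294883753130), (6, 32523943359),
  (5, 5978666058), (5, 879215596), (5, 96972308), (5, 7130316), (5, 262144)]

end Crest.Agent.R347
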