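import Crest.Agent.R347.NOCore

/-! Row 347 numerics, open chain with 3 sites, s = false: schedule (generated). -/

set_option autoImplicit false
set_option Elab.async false

namespace Crest.Agent.R347

/-- schedule -/
def sch3p : List (ℕ × ℕ) := [(0, 111298371514588903), (7, 91043704639691290), (7, 73638290517397367), (7, 58883559512992379), (6, 93087980112451188),
  (7, 72724984462852491), (7, 56147965945584644), (6, 85666933336094217), (7, 64565151962865127), (7, 48067806148824221),
  (6, 70687950218859149), (7, 51326728559649566), (6, 73593471096556363), (7, 52083614654731985), (6, 72763873414699096),
  (7, 50158920092853237), (6, 68230883949837124), (7, 45779912944284100), (6, 60591061249787779), (6, 79080245381156845),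
  (7, 50878834344494293), (6, 64533815620774012), (6, 80667269525967515), (7, 49675616344116025), (6, 60268211005729001),
  (6, 72011649179639431), (7, 42359793635082018), (6, 49056378658275131), (6, 55909843323769451), (6, 62693022844667951),
  (6, 69146716372795534), (6, 74993681360201039), (7, 39978249254518936), (6, 41888974402712856), (6, 43121003061616175),
  (6, 43596602360089883), (6, 43276039107442163), (6, 42162317512765343), (6, 40302215269555107), (6, 37783326815207913),
  (6, 34727322440448449), (5, 62560249984631398), (6, 55200220574674763), (6, 47691367040619740), (6, 40327258894641692),
  (6, 33358945776817576), (6, 26981500260661274), (5, 42654577617957162), (6, 32931843013863985), (6, 24819955212654842),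
  (5, 36499934136257120), (6, 26167232193272568), (5, 36557162622954323), (6, 24864246636935844), (5, 32908561725356265),
  (6, 21172787874769655), (5, 26465984843462069), (6, 16054733452835446), (5, 18887921709218172), (5, 21526675477417770),
  (6, 11871328388281858), (5, 12656931002212275), (5, 13029193678747930), (6, 6466695392025627), (5, 6181400007083320),
  (5, 5681433830039816), (5, 5013029850035132), (5, 4238959064367942), (6, 1714284915737035), (5, 1323528795238152),
  (5, 973182937675112), (5, 679796904993644), (5, 449865598892852), (5, 281165999308033), (6, 82695882149421),
  (5, 45604346773578), (5, 23472825545223), (5, 11218629856173), (5, 4949395524782), (5, 2001593778404),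
  (6, 367940032794), (5, 121744863792), (5, 35807312880), (5, 9215117285), (5, 2032746459),
  (5, 373666628), (6, 27475487), (5, 3030384), (5, 222822), (5, 8192)]

end Crest.Agent.R347
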