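import Crest.Agent.R347.NOCore

/-! Row 347 numerics, open chain with 4 sites, s = true: schedule (generated). -/

set_option autoImplicit false
set_option Elab.async false

namespace Crest.Agent.R347

/-- schedule -/
def sch4m : List (ℕ × ℕ) := [(0, 85930047334153939), (7, 86088006979988781), (7, 85455006928665334), (7, 84041229240507268), (7, 81878403487994213),
  (7, 79018679836759121), (7, 75532561608666807), (7, 71506009611145966), (7, 67036884010449343), (7, 62230930928817865),
  (7, 57197546809575243), (7, 52045561894742179), (7, 46879274500778801), (6, 83589882841462200), (7, 73755778977760765),
  (7, 64400726129478609), (7, 55640333236865710), (7, 47560211314600285), (6, 80432710311456365), (7, 67273682337707070),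
  (7, 55649185757294451), (7, 45521852319845645), (6, 73638290517397367), (7, 58883559512992379), (7, 46543990056225594),
  (6, 72724984462852491), (7, 56147965945584644), (7, 42833466668047108), (6, 64565151962865127), (7, 48067806148824221),
  (6, 70687950218859149), (7, 51326728559649566), (6, 73593471096556363), (7, 52083614654731985), (6, 72763873414699096),
  (7, 50158920092853237), (6, 68230883949837124), (7, 45779912944284100), (6, 60591061249787779), (7, 39540122690578422),
  (6, 50878834344494293), (6, 64533815620774012), (7, 40333634762983757), (6, 49675616344116025), (6, 60268211005729001),
  (7, 36005824589819715), (6, 42359793635082018), (6, 49056378658275131), (6, 55909843323769451), (7, 31346511422333975),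
  (6, 34573358186397767), (6, 37496840680100519), (6, 39978249254518936), (6, 41888974402712856), (6, 43121003061616175),
  (6, 43596602360089883), (6, 43276039107442163), (6, 42162317512765343), (6, 40302215269555107), (6, 37783326815207913),
  (6, 34727322440448449), (6, 31280124992315699), (6, 27600110287337381), (6, 23845683520309870), (6, 20163629447320846),
  (6, 16679472888408788), (5, 26981500260661274), (6, 21327288808978581), (6, 16465921506931992), (6, 12409977606327421),
  (5, 18249967068128560), (6, 13083616096636284), (6, 9139290655738580), (5, 12432123318467922), (6, 8227140431339066),
  (6, 5293196968692413), (5, 6616496210865517), (6, 4013683363208861), (6, 2360990213652271), (5, 2690834434677221),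
  (6, 1483916048535232), (5, 1582116375276534), (6, 814324604921745), (5, 808336924003203), (6, 386337500442707),
  (6, 177544807188744), (5, 156657182813597), (6, 66233735380749), (5, 53571403616782), (6, 20680137425596),
  (5, 15205983401173), (6, 5310913320262), (6, 1757287495675), (5, 1098304684797), (6, 323030789646),
  (5, 178141979584), (6, 45845362393), (5, 21911386437), (6, 4833394067), (6, 977340712),
  (5, 359316438), (6, 59445734), (5, 17484039), (6, 2249784), (5, 496275),
  (6, 45613), (6, 3353), (5, 369), (6, 13), (5, 0)]

end Crest.Agent.R347
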