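import Crest.Agent.R347.NOCore

/-! Row 347 numerics, open chain with 4 sites, s = false: schedule (generated). -/

set_option autoImplicit false
set_option Elab.async false

namespace Crest.Agent.R347

/-- schedule -/
def sch4p : List (ℕ × ℕ) := [(0, 85930047334153939), (7, 86088006979988781), (7, 85455006928665334), (7, 84041229240507268), (7, 81878403487994213),
  (7, 79018679836759121), (7, 75532561608666807), (7, 71506009611145966), (7, 67036884010449343), (7, 62230930928817865),
  (7, 57197546809575243), (7, 52045561894742179), (6, 93758549001557602), (7, 83589882841462200), (7, 73755778977760765),
  (7, 64400726129478609), (7, 55640333236865710), (6, 95120422629200571), (7, 80432710311456365), (7, 67273682337707070),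
  (7, 55649185757294451), (6, 91043704639691290), (7, 73638290517397367), (7, 58883559512992379), (7, 46543990056225594),
  (6, 72724984462852491), (7, 56147965945584644), (6, 85666933336094217), (7, 64565151962865127), (7, 48067806148824221),
  (6, 70687950218859149), (7, 51326728559649566), (6, 73593471096556363), (7, 52083614654731985), (6, 72763873414699096),
  (7, 50158920092853237), (6, 68230883949837124), (7, 45779912944284100), (6, 60591061249787779), (6, 79080245381156845),
  (7, 50878834344494293), (6, 64533815620774012), (7, 40333634762983757), (6, 49675616344116025), (6, 60268211005729001),
  (6, 72011649179639431), (7, 42359793635082018), (6, 49056378658275131), (6, 55909843323769451), (6, 62693022844667951),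
  (7, 34573358186397767), (6, 37496840680100519), (6, 39978249254518936), (6, 41888974402712856), (6, 43121003061616175),
  (6, 43596602360089883), (6, 43276039107442163), (6, 42162317512765343), (6, 40302215269555107), (6, 37783326815207913),
  (6, 34727322440448449), (6, 31280124992315699), (6, 27600110287337381), (6, 23845683520309870), (5, 40327258894641692),
  (6, 33358945776817576), (6, 26981500260661274), (6, 21327288808978581), (5, 32931843013863985), (6, 24819955212654842),
  (6, 18249967068128560), (5, 26167232193272568), (6, 18278581311477161), (6, 12432123318467922), (5, 16454280862678132),
  (6, 10586393937384827), (5, 13232992421731034), (6, 8027366726417723), (5, 9443960854609086), (6, 5381668869354442),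
  (5, 5935664194140929), (5, 6328465501106137), (6, 3257298419686982), (5, 3233347696012813), (6, 1545350001770830),
  (5, 1420358457509954), (6, 626628731254391), (5, 529869883045992), (5, 428571228934258), (6, 165441099404769),
  (5, 121647867209389), (6, 42487306562102), (5, 28116599930803), (6, 8786437478376), (5, 5168492634338),
  (6, 1425135836674), (5, 733525798288), (5, 350582183005), (6, 77334305074), (5, 31274902787),
  (6, 5749063012), (5, 1902263496), (6, 279744631), (5, 71993103), (6, 7940415),
  (5, 1459635), (6, 107326), (5, 11837), (6, 435), (5, 16)]

end Crest.Agent.R347
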