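import Crest.Agent.R347.NOCore

/-! Row 347 numerics, open chain with 5 sites, s = true: schedule (generated). -/

set_option autoImplicit false
set_option Elab.async false

namespace Crest.Agent.R347

/-- schedule -/
def sch5m : List (ℕ × ℕ) := [(0, 107792389952758499), (8, 63902657646626132), (7, 75179597231324862), (7, 87755596032888395), (8, 50814361673455596),
  (7, 58380470672628213), (7, 66536565840127743), (7, 75220566161173827), (7, 84346590732198593), (7, 93804572413566450),
  (8, 51730462728069733), (7, 56580193608826270), (7, 61364548215454963), (7, 65989449827281531), (7, 70356398712910456),
  (7, 74365678786624104), (7, 77919920787455403), (7, 80927858906088792), (7, 83308090050385521), (7, 84992628635963169),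
  (7, 85930047334153939), (7, 86088006979988781), (7, 85455006928665334), (7, 84041229240507268), (7, 81878403487994213),
  (7, 79018679836759121), (7, 75532561608666807), (7, 71506009611145966), (7, 67036884010449343), (7, 62230930928817865),
  (7, 57197546809575243), (7, 52045561894742179), (7, 46879274500778801), (6, 83589882841462200), (7, 73755778977760765),
  (7, 64400726129478609), (7, 55640333236865710), (7, 47560211314600285), (6, 80432710311456365), (7, 67273682337707070),
  (7, 55649185757294451), (7, 45521852319845645), (6, 73638290517397367), (7, 58883559512992379), (7, 46543990056225594),
  (6, 72724984462852491), (7, 56147965945584644), (7, 42833466668047108), (6, 64565151962865127), (7, 48067806148824221),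
  (6, 70687950218859149), (7, 51326728559649566), (7, 36796735548278181), (6, 52083614654731985), (7, 36381936707349548),
  (6, 50158920092853237), (7, 34115441974918562), (6, 45779912944284100), (6, 60591061249787779), (7, 39540122690578422),
  (6, 50878834344494293), (7, 32266907810387006), (6, 40333634762983757), (6, 49675616344116025), (7, 30134105502864500),
  (6, 36005824589819715), (6, 42359793635082018), (6, 49056378658275131), (7, 27954921661884725), (6, 31346511422333975),
  (6, 34573358186397767), (6, 37496840680100519), (6, 39978249254518936), (6, 41888974402712856), (7, 21560501530808087),
  (6, 21798301180044941), (6, 21638019553721081), (6, 21081158756382671), (6, 20151107634777553), (6, 18891663407603956),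
  (6, 17363661220224224), (6, 15640062496157849), (6, 13800055143668690), (6, 11922841760154935), (5, 20163629447320846),
  (6, 16679472888408788), (6, 13490750130330637), (6, 10663644404489290), (6, 8232960753465996), (6, 6204988803163710),
  (5, 9124983534064280), (6, 6541808048318142), (6, 4569645327869290), (6, 3108030829616980), (6, 2056785107834766),
  (5, 2646598484346206), (6, 1654124052716379), (6, 1003420840802215), (6, 590247553413067), (5, 672708608669305),
  (6, 370979012133808), (6, 197764546909566), (6, 101790575615218), (5, 101042115500400), (6, 48292187555338),
  (6, 22193100898593), (6, 9791073925849), (6, 4139608461296), (6, 1674106363024), (5, 1292508589099),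
  (6, 475186981286), (6, 165966041258), (6, 54915234239), (6, 17161010699), (6, 5047356088),
  (6, 1391734215), (5, 716333787), (6, 171182706), (6, 37760891), (6, 7635474),
  (6, 1403579), (6, 232209), (5, 68297), (6, 8788), (6, 969),
  (6, 89), (6, 6), (6, 0), (6, 0), (5, 0)]

end Crest.Agent.R347
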