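import Crest.Agent.R347.NOCore

/-! Row 347 numerics, open chain with 5 sites, s = false: schedule (generated). -/

set_option autoImplicit false
set_option Elab.async false

namespace Crest.Agent.R347

/-- schedule -/
def sch5p : List (ℕ × ℕ) := [(0, 107792389952758499), (8, 63902657646626132), (7, 75179597231324862), (7, 87755596032888395), (8, 50814361673455596),
  (7, 58380470672628213), (7, 66536565840127743), (7, 75220566161173827), (7, 84346590732198593), (8, 46902286206783225),
  (7, 51730462728069733), (7, 56580193608826270), (7, 61364548215454963), (7, 65989449827281531), (7, 70356398712910456),
  (7, 74365678786624104), (7, 77919920787455403), (7, 80927858906088792), (7, 83308090050385521), (7, 84992628635963169),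
  (8, 42965023667076969), (7, 43044003489994390), (7, 42727503464332667), (7, 42020614620253634), (6, 81878403487994213),
  (7, 79018679836759121), (7, 75532561608666807), (7, 71506009611145966), (7, 67036884010449343), (7, 62230930928817865),
  (7, 57197546809575243), (7, 52045561894742179), (7, 46879274500778801), (7, 41794941420731100), (6, 73755778977760765),
  (7, 64400726129478609), (7, 55640333236865710), (7, 47560211314600285), (7, 40216355155728182), (6, 67273682337707070),
  (7, 55649185757294451), (7, 45521852319845645), (7, 36819145258698683), (6, 58883559512992379), (7, 46543990056225594),
  (7, 36362492231426245), (6, 56147965945584644), (7, 42833466668047108), (6, 64565151962865127), (7, 48067806148824221),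
  (7, 35343975109429574), (6, 51326728559649566), (7, 36796735548278181), (6, 52083614654731985), (7, 36381936707349548),
  (6, 50158920092853237), (7, 34115441974918562), (6, 45779912944284100), (7, 30295530624893889), (6, 39540122690578422),
  (6, 50878834344494293), (7, 32266907810387006), (6, 40333634762983757), (7, 24837808172058012), (6, 30134105502864500),
  (6, 36005824589819715), (6, 42359793635082018), (7, 24528189329137565), (6, 27954921661884725), (6, 31346511422333975),
  (6, 34573358186397767), (7, 18748420340050259), (6, 19989124627259468), (6, 20944487201356428), (6, 21560501530808087),
  (6, 21798301180044941), (6, 21638019553721081), (6, 21081158756382671), (6, 20151107634777553), (6, 18891663407603956),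
  (6, 17363661220224224), (6, 15640062496157849), (6, 13800055143668690), (6, 11922841760154935), (6, 10081814723660423),
  (6, 8339736444204394), (6, 6745375065165318), (6, 5331822202244645), (6, 4116480376732998), (6, 3102494401581855),
  (6, 2281245883516070), (6, 1635452012079535), (6, 1142411331967322), (5, 1554015414808490), (6, 1028392553917383),
  (6, 661649621086551), (6, 413531013179094), (6, 250855210200553), (6, 147561888353266), (6, 84088576083663),
  (6, 46372376516726), (6, 24720568363695), (5, 25447643903804), (6, 12630264437550), (6, 6036523444417),
  (6, 2774137612324), (6, 1223884240731), (6, 517451057662), (6, 209263295378), (6, 80781786818),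
  (6, 29699186330), (6, 10372877578), (5, 6864404279), (6, 2145126337), (6, 630919511),
  (6, 173966776), (6, 44770861), (6, 10698919), (6, 2360055), (6, 477217),
  (6, 87723), (6, 14513), (5, 4268), (6, 549), (6, 60),
  (6, 5), (6, 0), (6, 0), (6, 0), (6, 0)]

end Crest.Agent.R347
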