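import Crest.Agent.R347.NOCore

/-! Row 347 numerics, open chain with 6 sites, s = true: schedule (generated). -/

set_option autoImplicit false
set_option Elab.async false

namespace Crest.Agent.R347

/-- schedule -/
def sch6m : List (ℕ × ℕ) := [(0, 97347237114091485), (8, 66657804825365953), (7, 90674219799211039), (8, 61255102529797898), (7, 82198942733000856),
  (8, 54774111655722078), (7, 72495147779632162), (8, 47641572300034003), (7, 62179257965117909), (7, 80581575120235525),
  (8, 51844763404563297), (7, 66235497364285830), (7, 84011935995141954), (8, 52893544261647278), (7, 66116930327059098),
  (7, 82038470534494285), (8, 50520014023999238), (7, 61757002437425539), (7, 74925775015994220), (8, 45106969334077402),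
  (7, 53896194976379249), (7, 63902657646626132), (7, 75179597231324862), (8, 43877798016444197), (7, 50814361673455596),
  (7, 58380470672628213), (7, 66536565840127743), (7, 75220566161173827), (8, 42173295366099296), (7, 46902286206783225),
  (7, 51730462728069733), (7, 56580193608826270), (7, 61364548215454963), (7, 65989449827281531), (7, 70356398712910456),
  (7, 74365678786624104), (8, 38959960393727701), (7, 40463929453044396), (7, 41654045025192760), (7, 42496314317981584),
  (7, 42965023667076969), (7, 43044003489994390), (7, 42727503464332667), (7, 42020614620253634), (7, 40939201743997106),
  (7, 39509339918379560), (7, 37766280804333403), (7, 35753004805572983), (6, 67036884010449343), (7, 62230930928817865),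
  (7, 57197546809575243), (7, 52045561894742179), (7, 46879274500778801), (7, 41794941420731100), (7, 36877889488880382),
  (7, 32200363064739304), (6, 55640333236865710), (7, 47560211314600285), (7, 40216355155728182), (7, 33636841168853535),
  (6, 55649185757294451), (7, 45521852319845645), (7, 36819145258698683), (7, 29441779756496189), (6, 46543990056225594),
  (7, 36362492231426245), (7, 28073982972792322), (6, 42833466668047108), (7, 32282575981432563), (6, 48067806148824221),
  (7, 35343975109429574), (7, 25663364279824783), (6, 36796735548278181), (7, 26041807327365992), (6, 36381936707349548),
  (7, 25079460046426618), (6, 34115441974918562), (7, 22889956472142050), (6, 30295530624893889), (7, 19770061345289211),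
  (6, 25439417172247146), (6, 32266907810387006), (7, 20166817381491878), (6, 24837808172058012), (7, 15067052751432250),
  (6, 18002912294909857), (6, 21179896817541009), (7, 12264094664568782), (6, 13977460830942362), (6, 15673255711166987),
  (6, 17286679093198883), (7, 9374210170025129), (6, 9994562313629734), (6, 10472243600678214), (6, 10780250765404043),
  (7, 5449575295011235), (6, 5409504888430270), (6, 5270289689095667), (6, 5037776908694388), (6, 4722915851900989),
  (6, 4340915305056056), (7, 1955007812019731), (6, 1725006892958586), (6, 1490355220019366), (6, 1260226840457552),
  (6, 1042467055525549), (6, 843171883145664), (6, 666477775280580), (7, 257280023545812), (6, 193905900098865),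
  (6, 142577867719754), (6, 102215750754970), (6, 71400708247957), (6, 48562981712765), (6, 32137267309918),
  (7, 10338275329477), (6, 6461422080923), (6, 3919612659383), (6, 2305654505519), (6, 1313884001307),
  (6, 724568383073), (7, 193129440341), (6, 99404858999), (6, 49336970459), (6, 23580169704),
  (6, 10836475048), (6, 4780797815), (7, 1010646596), (6, 408717373), (6, 157776927),
  (6, 58006223), (6, 20259526), (6, 6703519), (6, 2094849), (7, 308066),
  (6, 84944), (6, 21860), (6, 5224), (6, 1152), (6, 233),
  (7, 21), (6, 3), (6, 0), (6, 0), (6, 0),
  (6, 0), (7, 0), (6, 0), (6, 0), (6, 0)]

end Crest.Agent.R347
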