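import Crest.Agent.R347.NOCore

/-! Row 347 numerics, open chain with 6 sites, s = false: schedule (generated). -/

set_option autoImplicit false
set_option Elab.async false

namespace Crest.Agent.R347

/-- schedule -/
def sch6p : List (ℕ × ℕ) := [(0, 97347237114091485), (8, 66657804825365953), (7, 90674219799211039), (8, 61255102529797898), (7, 82198942733000856),
  (8, 54774111655722078), (7, 72495147779632162), (8, 47641572300034003), (7, 62179257965117909), (7, 80581575120235525),
  (8, 51844763404563297), (7, 66235497364285830), (7, 84011935995141954), (8, 52893544261647278), (7, 66116930327059098),
  (7, 82038470534494285), (8, 50520014023999238), (7, 61757002437425539), (7, 74925775015994220), (7, 90213938668154805),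
  (8, 53896194976379249), (7, 63902657646626132), (7, 75179597231324862), (7, 87755596032888395), (8, 50814361673455596),
  (7, 58380470672628213), (7, 66536565840127743), (7, 75220566161173827), (7, 84346590732198593), (8, 46902286206783225),
  (7, 51730462728069733), (7, 56580193608826270), (7, 61364548215454963), (7, 65989449827281531), (7, 70356398712910456),
  (7, 74365678786624104), (7, 77919920787455403), (7, 80927858906088792), (8, 41654045025192760), (7, 42496314317981584),
  (7, 42965023667076969), (7, 43044003489994390), (7, 42727503464332667), (7, 42020614620253634), (7, 40939201743997106),
  (7, 39509339918379560), (6, 75532561608666807), (7, 71506009611145966), (7, 67036884010449343), (7, 62230930928817865),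
  (7, 57197546809575243), (7, 52045561894742179), (7, 46879274500778801), (7, 41794941420731100), (7, 36877889488880382),
  (6, 64400726129478609), (7, 55640333236865710), (7, 47560211314600285), (7, 40216355155728182), (7, 33636841168853535),
  (6, 55649185757294451), (7, 45521852319845645), (7, 36819145258698683), (6, 58883559512992379), (7, 46543990056225594),
  (7, 36362492231426245), (6, 56147965945584644), (7, 42833466668047108), (7, 32282575981432563), (6, 48067806148824221),
  (7, 35343975109429574), (6, 51326728559649566), (7, 36796735548278181), (6, 52083614654731985), (7, 36381936707349548),
  (7, 25079460046426618), (6, 34115441974918562), (6, 45779912944284100), (7, 30295530624893889), (6, 39540122690578422),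
  (7, 25439417172247146), (6, 32266907810387006), (6, 40333634762983757), (7, 24837808172058012), (6, 30134105502864500),
  (6, 36005824589819715), (7, 21179896817541009), (6, 24528189329137565), (6, 27954921661884725), (7, 15673255711166987),
  (6, 17286679093198883), (6, 18748420340050259), (6, 19989124627259468), (6, 20944487201356428), (7, 10780250765404043),
  (6, 10899150590022470), (6, 10819009776860540), (6, 10540579378191335), (6, 10075553817388776), (6, 9445831703801978),
  (6, 8681830610112112), (6, 7820031248078924), (6, 6900027571834345), (6, 5961420880077467), (6, 5040907361830211),
  (6, 4169868222102197), (7, 1686343766291329), (6, 1332955550561161), (6, 1029120094183249), (6, 775623600395463),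
  (6, 570311470879017), (6, 408863003019883), (6, 285602832991830), (6, 194251926851061), (6, 128549069239672),
  (6, 82706202635818), (6, 51691376647386), (6, 31356901275069), (6, 18445236044158), (6, 10511072010457),
  (6, 5796547064590), (7, 1545035522730), (6, 795238871993), (6, 394695763673), (6, 188641357638),
  (6, 86691800385), (6, 38246382522), (6, 16170345551), (6, 6539477980), (6, 2524430838),
  (7, 464049786), (6, 162076212), (6, 53628158), (6, 16758799), (6, 4929058),
  (6, 1359115), (6, 349772), (6, 83585), (7, 9218), (6, 1864),
  (6, 342), (6, 56), (6, 8), (6, 1), (6, 0),
  (7, 0), (6, 0), (6, 0), (6, 0), (6, 0)]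

end Crest.Agent.R347
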