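import Crest.Agent.R347.NOCore

/-! Row 347 numerics, open chain with 7 sites, s = true: schedule (generated). -/

set_option autoImplicit false
set_option Elab.async false

namespace Crest.Agent.R347

/-- schedule -/
def sch7m : List (ℕ × ℕ) := [(0, 77869287630521533), (8, 62266801689847181), (7, 99008793128157743), (8, 78260626921154098), (8, 61500768398517237),
  (8, 48047475311341591), (7, 74632567349418465), (8, 57620732144771609), (7, 88443587023684363), (8, 67470751130200387),
  (8, 51161185369867021), (7, 77117963241343672), (8, 57767591950087401), (7, 86014245366858079), (8, 63641054706177163),
  (8, 46794893166306738), (7, 68385919241201942), (8, 49655217096093322), (7, 71653208493443488), (8, 51369028147873089),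
  (7, 73181979438605963), (8, 51792393536513411), (7, 72833053410721985), (8, 50876029956019033), (7, 70609195986754357),
  (8, 48673618557045742), (7, 66657804825365953), (8, 45337109899605519), (7, 61255102529797898), (7, 82198942733000856),
  (8, 54774111655722078), (7, 72495147779632162), (8, 47641572300034003), (7, 62179257965117909), (7, 80581575120235525),
  (8, 51844763404563297), (7, 66235497364285830), (7, 84011935995141954), (8, 52893544261647278), (7, 66116930327059098),
  (7, 82038470534494285), (8, 50520014023999238), (7, 61757002437425539), (7, 74925775015994220), (8, 45106969334077402),
  (7, 53896194976379249), (7, 63902657646626132), (7, 75179597231324862), (8, 43877798016444197), (7, 50814361673455596),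
  (7, 58380470672628213), (7, 66536565840127743), (7, 75220566161173827), (8, 42173295366099296), (7, 46902286206783225),
  (7, 51730462728069733), (7, 56580193608826270), (7, 61364548215454963), (7, 65989449827281531), (7, 70356398712910456),
  (8, 37182839393312052), (7, 38959960393727701), (7, 40463929453044396), (7, 41654045025192760), (7, 42496314317981584),
  (7, 42965023667076969), (7, 43044003489994390), (7, 42727503464332667), (7, 42020614620253634), (7, 40939201743997106),
  (7, 39509339918379560), (7, 37766280804333403), (7, 35753004805572983), (7, 33518442005224671), (7, 31115465464408932),
  (6, 57197546809575243), (7, 52045561894742179), (7, 46879274500778801), (7, 41794941420731100), (7, 36877889488880382),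
  (7, 32200363064739304), (6, 55640333236865710), (7, 47560211314600285), (7, 40216355155728182), (7, 33636841168853535),
  (7, 27824592878647225), (6, 45521852319845645), (7, 36819145258698683), (7, 29441779756496189), (6, 46543990056225594),
  (7, 36362492231426245), (7, 28073982972792322), (6, 42833466668047108), (7, 32282575981432563), (7, 24033903074412110),
  (6, 35343975109429574), (7, 25663364279824783), (6, 36796735548278181), (7, 26041807327365992), (7, 18190968353674774),
  (6, 25079460046426618), (7, 17057720987459281), (6, 22889956472142050), (7, 15147765312446944), (6, 19770061345289211),
  (6, 25439417172247146), (7, 16133453905193503), (6, 20166817381491878), (7, 12418904086029006), (6, 15067052751432250),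
  (6, 18002912294909857), (7, 10589948408770504), (6, 12264094664568782), (6, 13977460830942362), (7, 7836627855583493),
  (6, 8643339546599441), (6, 9374210170025129), (7, 4997281156814867), (6, 5236121800339107), (6, 5390125382702021),
  (7, 2724787647505617), (6, 2704752444215135), (6, 2635144844547833), (6, 2518888454347194), (7, 1180728962975247),
  (6, 1085228826264014), (6, 977503906009865), (6, 862503446479293), (7, 372588805004841), (6, 315056710114388),
  (6, 260616763881387), (7, 105396485393208), (6, 83309721910072), (6, 64320005886453), (6, 48476475024716),
  (7, 17822233464969), (6, 12776968844371), (6, 8925088530994), (7, 3035186357047), (6, 2008579206869),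
  (6, 1292284416184), (7, 403838880057), (6, 244975791211), (6, 144103406594), (7, 41058875040),
  (6, 22642761971), (7, 6035295010), (6, 3106401843), (6, 1541780326), (7, 368440151),
  (6, 169319922), (6, 74699965), (7, 15791353), (6, 6386208), (6, 2465264),
  (7, 453173), (6, 158277), (6, 52371), (7, 8183), (6, 2406),
  (7, 331), (6, 85), (6, 20), (7, 2), (6, 0),
  (6, 0), (7, 0), (6, 0), (6, 0), (7, 0),
  (6, 0), (7, 0), (6, 0), (6, 0), (7, 0)]

end Crest.Agent.R347
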