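import Crest.Agent.R347.NOCore

/-! Row 347 numerics, open chain with 7 sites, s = false: schedule (generated). -/

set_option autoImplicit false
set_option Elab.async false

namespace Crest.Agent.R347

/-- schedule -/
def sch7p : List (ℕ × ℕ) := [(0, 77869287630521533), (8, 62266801689847181), (8, 49504396564078871), (7, 78260626921154098), (8, 61500768398517237),
  (8, 48047475311341591), (7, 74632567349418465), (8, 57620732144771609), (7, 88443587023684363), (8, 67470751130200387),
  (8, 51161185369867021), (7, 77117963241343672), (8, 57767591950087401), (7, 86014245366858079), (8, 63641054706177163),
  (8, 46794893166306738), (7, 68385919241201942), (8, 49655217096093322), (7, 71653208493443488), (8, 51369028147873089),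
  (7, 73181979438605963), (8, 51792393536513411), (7, 72833053410721985), (8, 50876029956019033), (7, 70609195986754357),
  (8, 48673618557045742), (7, 66657804825365953), (8, 45337109899605519), (7, 61255102529797898), (7, 82198942733000856),
  (8, 54774111655722078), (7, 72495147779632162), (8, 47641572300034003), (7, 62179257965117909), (8, 40290787560117762),
  (7, 51844763404563297), (7, 66235497364285830), (8, 42005967997570977), (7, 52893544261647278), (7, 66116930327059098),
  (8, 41019235267247142), (7, 50520014023999238), (7, 61757002437425539), (7, 74925775015994220), (8, 45106969334077402),
  (7, 53896194976379249), (7, 63902657646626132), (8, 37589798615662431), (7, 43877798016444197), (7, 50814361673455596),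
  (7, 58380470672628213), (7, 66536565840127743), (8, 37610283080586913), (7, 42173295366099296), (7, 46902286206783225),
  (7, 51730462728069733), (7, 56580193608826270), (7, 61364548215454963), (7, 65989449827281531), (8, 35178199356455228),
  (7, 37182839393312052), (7, 38959960393727701), (7, 40463929453044396), (7, 41654045025192760), (7, 42496314317981584),
  (7, 42965023667076969), (7, 43044003489994390), (7, 42727503464332667), (7, 42020614620253634), (7, 40939201743997106),
  (7, 39509339918379560), (7, 37766280804333403), (7, 35753004805572983), (7, 33518442005224671), (7, 31115465464408932),
  (7, 28598773404787621), (6, 52045561894742179), (7, 46879274500778801), (7, 41794941420731100), (7, 36877889488880382),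
  (7, 32200363064739304), (7, 27820166618432855), (7, 23780105657300142), (6, 40216355155728182), (7, 33636841168853535),
  (7, 27824592878647225), (7, 22760926159922822), (6, 36819145258698683), (7, 29441779756496189), (7, 23271995028112797),
  (6, 36362492231426245), (7, 28073982972792322), (7, 21416733334023554), (6, 32282575981432563), (7, 24033903074412110),
  (7, 17671987554714787), (6, 25663364279824783), (7, 18398367774139090), (6, 26041807327365992), (7, 18190968353674774),
  (6, 25079460046426618), (7, 17057720987459281), (7, 11444978236071025), (6, 15147765312446944), (7, 9885030672644605),
  (6, 12719708586123573), (6, 16133453905193503), (7, 10083408690745939), (6, 12418904086029006), (7, 7533526375716125),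
  (6, 9001456147454928), (7, 5294974204385252), (6, 6132047332284391), (6, 6988730415471181), (7, 3918313927791746),
  (6, 4321669773299720), (7, 2343552542506282), (6, 2498640578407433), (6, 2618060900169553), (7, 1347531345675505),
  (6, 1362393823752808), (6, 1352376222107567), (7, 658786211136958), (6, 629722113586798), (6, 590364481487623),
  (7, 271307206566003), (6, 244375976502466), (7, 107812930809911), (6, 93147201251210), (6, 78764177528597),
  (7, 32577095485173), (6, 26349121348302), (6, 20827430477518), (7, 8040000735806), (6, 6059559378089),
  (6, 4455558366242), (7, 1597121105546), (6, 1115636066374), (7, 379398294630), (6, 251072400858),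
  (6, 161535552023), (7, 50479860007), (6, 30621973901), (7, 9006462912), (6, 5132359380),
  (6, 2830345246), (7, 754411876), (6, 388300230), (6, 192722540), (7, 46055018),
  (6, 21164990), (7, 4668747), (6, 1973919), (6, 798276), (7, 154079),
  (6, 56646), (6, 19784), (7, 3273), (6, 1022), (7, 150),
  (6, 41), (6, 10), (7, 1), (6, 0), (7, 0),
  (6, 0), (6, 0), (7, 0), (6, 0), (6, 0),
  (7, 0), (6, 0), (7, 0), (6, 0), (6, 0)]

end Crest.Agent.R347
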