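import Crest.Agent.R347.NOE2
import Crest.Agent.R347.NOR2px0

/-! Row 347 numerics, open chain with 2 sites, s = false: final certificate (generated). -/

set_option autoImplicit false
set_option Elab.async false

namespace Crest.Agent.R347

def rs2p : List (List ℕ × ℕ) := rs2p_0

theorem c2p : ∀ r ∈ rs2p, chkO 64 2 57 99026 false sch2p r = true := by
  unfold rs2p
  exact c2p_0

theorem par2p : ParO 1 64 57 399 1838342579928593 99026 sch2p where
  hW := by norm_num
  hn1 := by norm_num
  hn := by norm_num
  hB := by norm_num
  hBW := by norm_num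
  hWm := by norm_num
  hE := by norm_num
  hs := by norm_num
  hl := by decide +kernel
  sched := ⟨by decide +kernel, by decide +kernel, by decide +kernel, by decide +kernel⟩
  err := by decide +kernel

theorem part2p : partOK 2 (rs2p.map Prod.fst) = true := by decide +kernel

theorem chk2p : numCheckO 1 399 (totSh sch2p) (totsO rs2p) 1317405310000 (603053342000000) (564107840000000) = true := by decide +kernel

theorem res2p :
    |Real.exp (17 / 2 * ((1 + 1 : ℕ) : ℝ)) * (zOpen 1 (17 / 2) (3 / 5) (fO false) 1).re - (603053342000000 : ℤ)| ≤ (1317405310000 : ℤ) ∧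
      |Real.exp (17 / 2 * ((1 + 1 : ℕ) : ℝ)) * (zOpen 1 (17 / 2) (3 / 5) (fO false) wz).re - (564107840000000 : ℤ)| ≤ (1317405310000 : ℤ) :=
  numO_of_cert (n := 1) par2p false rs2p part2p c2p 1317405310000 (603053342000000) (564107840000000) chk2p

end Crest.Agent.R347
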