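import Crest.Agent.R347.NOE2
import Crest.Agent.R347.NOR3px0

/-! Row 347 numerics, open chain with 3 sites, s = false: final certificate (generated). -/

set_option autoImplicit false
set_option Elab.async false

namespace Crest.Agent.R347

def rs3p : List (List ℕ × ℕ) := rs3p_0

theorem c3p : ∀ r ∈ rs3p, chkO 64 3 57 506151 false sch3p r = true := by
  unfold rs3p
  exact c3p_0

theorem par3p : ParO 2 64 57 530 1742239701425425 506151 sch3p where
  hW := by norm_num
  hn1 := by norm_num
  hn := by norm_num
  hB := by norm_num
  hBW := by norm_num
  hWm := by norm_num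
  hE := by norm_num
  hs := by norm_num
  hl := by decide +kernel
  sched := ⟨by decide +kernel, by decide +kernel, by decide +kernel, by decide +kernel⟩
  err := by decide +kernel

theorem part3p : partOK 3 (rs3p.map Prod.fst) = true := by decide +kernel

theorem chk3p : numCheckO 2 530 (totSh sch3p) (totsO rs3p) 520494678000000000000 (52049467800000000000000000) (-51981168000000000000000000) = true := by decide +kernel

theorem res3p :
    |Real.exp (17 / 2 * ((2 + 1 : ℕ) : ℝ)) * (zOpen 2 (17 / 2) (3 / 5) (fO false) 1).re - (52049467800000000000000000 : ℤ)| ≤ (520494678000000000000 : ℤ) ∧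
      |Real.exp (17 / 2 * ((2 + 1 : ℕ) : ℝ)) * (zOpen 2 (17 / 2) (3 / 5) (fO false) wz).re - (-51981168000000000000000000 : ℤ)| ≤ (520494678000000000000 : ℤ) :=
  numO_of_cert (n := 2) par3p false rs3p part3p c3p 520494678000000000000 (52049467800000000000000000) (-51981168000000000000000000) chk3p

end Crest.Agent.R347
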