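import Crest.Agent.R347.NOE2
import Crest.Agent.R347.NOR4px0

/-! Row 347 numerics, open chain with 4 sites, s = false: final certificate (generated). -/

set_option autoImplicit false
set_option Elab.async false

namespace Crest.Agent.R347

def rs4p : List (List ℕ × ℕ) := rs4p_0

theorem c4p : ∀ r ∈ rs4p, chkO 64 4 57 435690390 false sch4p r = true := by
  unfold rs4p
  exact c4p_0

theorem par4p : ParO 3 64 57 667 1186686275126416 435690390 sch4p where
  hW := by norm_num
  hn1 := by norm_num
  hn := by norm_num
  hB := by norm_num
  hBW := by norm_num
  hWm := by norm_num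
  hE := by norm_num
  hs := by norm_num
  hl := by decide +kernel
  sched := ⟨by decide +kernel, by decide +kernel, by decide +kernel, by decide +kernel⟩
  err := by decide +kernel

theorem part4p : partOK 4 (rs4p.map Prod.fst) = true := by decide +kernel

theorem chk4p : numCheckO 3 667 (totSh sch4p) (totsO rs4p) 341170911000000000000000000000 (571155441000000000000000000000000) (-164716677000000000000000000000000) = true := by decide +kernel

theorem res4p :
    |Real.exp (17 / 2 * ((3 + 1 : ℕ) : ℝ)) * (zOpen 3 (17 / 2) (3 / 5) (fO false) 1).re - (571155441000000000000000000000000 : ℤ)| ≤ (341170911000000000000000000000 : ℤ) ∧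
      |Real.exp (17 / 2 * ((3 + 1 : ℕ) : ℝ)) * (zOpen 3 (17 / 2) (3 / 5) (fO false) wz).re - (-164716677000000000000000000000000 : ℤ)| ≤ (341170911000000000000000000000 : ℤ) :=
  numO_of_cert (n := 3) par4p false rs4p part4p c4p 341170911000000000000000000000 (571155441000000000000000000000000) (-164716677000000000000000000000000) chk4p

end Crest.Agent.R347
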