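import Crest.Agent.R347.NOE2
import Crest.Agent.R347.NOR5px0

/-! Row 347 numerics, open chain with 5 sites, s = false: final certificate (generated). -/

set_option autoImplicit false
set_option Elab.async false

namespace Crest.Agent.R347

def rs5p : List (List ℕ × ℕ) := rs5p_0

theorem c5p : ∀ r ∈ rs5p, chkO 64 5 57 85097868 false sch5p r = true := by
  unfold rs5p
  exact c5p_0

theorem par5p : ParO 4 64 57 810 1331737375869837 85097868 sch5p where
  hW := by norm_num
  hn1 := by norm_num
  hn := by norm_num
  hB := by norm_num
  hBW := by norm_num
  hWm := by norm_num
  hE := by norm_num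
  hs := by norm_num
  hl := by decide +kernel
  sched := ⟨by decide +kernel, by decide +kernel, by decide +kernel, by decide +kernel⟩
  err := by decide +kernel

theorem part5p : partOK 5 (rs5p.map Prod.fst) = true := by decide +kernel

theorem chk5p : numCheckO 4 810 (totSh sch5p) (totsO rs5p) 193137527000000000000000000000000000000 (19313752700000000000000000000000000000000000) (-19227169700000000000000000000000000000000000) = true := by decide +kernel

theorem res5p :
    |Real.exp (17 / 2 * ((4 + 1 : ℕ) : ℝ)) * (zOpen 4 (17 / 2) (3 / 5) (fO false) 1).re - (19313752700000000000000000000000000000000000 : ℤ)| ≤ (193137527000000000000000000000000000000 : ℤ) ∧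
      |Real.exp (17 / 2 * ((4 + 1 : ℕ) : ℝ)) * (zOpen 4 (17 / 2) (3 / 5) (fO false) wz).re - (-19227169700000000000000000000000000000000000 : ℤ)| ≤ (193137527000000000000000000000000000000 : ℤ) :=
  numO_of_cert (n := 4) par5p false rs5p part5p c5p 193137527000000000000000000000000000000 (19313752700000000000000000000000000000000000) (-19227169700000000000000000000000000000000000) chk5p

end Crest.Agent.R347
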