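import Crest.Agent.R347.NOE2
import Crest.Agent.R347.NOR6px0

/-! Row 347 numerics, open chain with 6 sites, s = false: final certificate (generated). -/

set_option autoImplicit false
set_option Elab.async false

namespace Crest.Agent.R347

def rs6p : List (List ℕ × ℕ) := rs6p_0

theorem c6p : ∀ r ∈ rs6p, chkO 64 6 57 11421462279 false sch6p r = true := by
  unfold rs6p
  exact c6p_0

theorem par6p : ParO 5 64 57 957 1088036180762364 11421462279 sch6p where
  hW := by norm_num
  hn1 := by norm_num
  hn := by norm_num
  hB := by norm_num
  hBW := by norm_num
  hWm := by norm_num
  hE := by norm_num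
  hs := by norm_num
  hl := by decide +kernel
  sched := ⟨by decide +kernel, by decide +kernel, by decide +kernel, by decide +kernel⟩
  err := by decide +kernel

theorem part6p : partOK 6 (rs6p.map Prod.fst) = true := by decide +kernel

theorem chk6p : numCheckO 5 957 (totSh sch6p) (totsO rs6p) 125503839000000000000000000000000000000000000000 (901742718000000000000000000000000000000000000000000) (-701871992000000000000000000000000000000000000000000) = true := by decide +kernel

theorem res6p :
    |Real.exp (17 / 2 * ((5 + 1 : ℕ) : ℝ)) * (zOpen 5 (17 / 2) (3 / 5) (fO false) 1).re - (901742718000000000000000000000000000000000000000000 : ℤ)| ≤ (125503839000000000000000000000000000000000000000 : ℤ) ∧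
      |Real.exp (17 / 2 * ((5 + 1 : ℕ) : ℝ)) * (zOpen 5 (17 / 2) (3 / 5) (fO false) wz).re - (-701871992000000000000000000000000000000000000000000 : ℤ)| ≤ (125503839000000000000000000000000000000000000000 : ℤ) :=
  numO_of_cert (n := 5) par6p false rs6p part6p c6p 125503839000000000000000000000000000000000000000 (901742718000000000000000000000000000000000000000000) (-701871992000000000000000000000000000000000000000000) chk6p

end Crest.Agent.R347
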