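import Crest.Agent.R347.NOE2
import Crest.Agent.R347.NOR7px0
import Crest.Agent.R347.NOR7px1
import Crest.Agent.R347.NOR7px2
import Crest.Agent.R347.NOR7px3

/-! Row 347 numerics, open chain with 7 sites, s = false: final certificate (generated). -/

set_option autoImplicit false
set_option Elab.async false

namespace Crest.Agent.R347

def rs7p : List (List ℕ × ℕ) := rs7p_0 ++ rs7p_1 ++ rs7p_2 ++ rs7p_3

theorem c7p : ∀ r ∈ rs7p, chkO 64 7 57 397261742 false sch7p r = true := by
  unfold rs7p
  simp only [List.forall_mem_append]
  exact ⟨⟨⟨c7p_0, c7p_1⟩, c7p_2⟩, c7p_3⟩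

theorem par7p : ParO 6 64 57 1146 749591104031068 397261742 sch7p where
  hW := by norm_num
  hn1 := by norm_num
  hn := by norm_num
  hB := by norm_num
  hBW := by norm_num
  hWm := by norm_num
  hE := by norm_num
  hs := by norm_num
  hl := by decide +kernel
  sched := ⟨by decide +kernel, by decide +kernel, by decide +kernel, by decide +kernel⟩
  err := by decide +kernel

theorem part7p : partOK 7 (rs7p.map Prod.fst) = true := by decide +kernel

theorem chk7p : numCheckO 6 1146 (totSh sch7p) (totsO rs7p) 79300184600000000000000000000000000000000000000000000000 (7930018460000000000000000000000000000000000000000000000000000) (-7855697980000000000000000000000000000000000000000000000000000) = true := by decide +kernel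

theorem res7p :
    |Real.exp (17 / 2 * ((6 + 1 : ℕ) : ℝ)) * (zOpen 6 (17 / 2) (3 / 5) (fO false) 1).re - (7930018460000000000000000000000000000000000000000000000000000 : ℤ)| ≤ (79300184600000000000000000000000000000000000000000000000 : ℤ) ∧
      |Real.exp (17 / 2 * ((6 + 1 : ℕ) : ℝ)) * (zOpen 6 (17 / 2) (3 / 5) (fO false) wz).re - (-7855697980000000000000000000000000000000000000000000000000000 : ℤ)| ≤ (79300184600000000000000000000000000000000000000000000000 : ℤ) :=
  numO_of_cert (n := 6) par7p false rs7p part7p c7p 79300184600000000000000000000000000000000000000000000000 (7930018460000000000000000000000000000000000000000000000000000) (-7855697980000000000000000000000000000000000000000000000000000) chk7p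

end Crest.Agent.R347
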