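import Crest.Agent.R347.NOE2
import Crest.Agent.R347.NOR8px0
import Crest.Agent.R347.NOR8px1
import Crest.Agent.R347.NOR8px2
import Crest.Agent.R347.NOR8px3
import Crest.Agent.R347.NOR8px4
import Crest.Agent.R347.NOR8px5
import Crest.Agent.R347.NOR8px6
import Crest.Agent.R347.NOR8px7
import Crest.Agent.R347.NOR8px8
import Crest.Agent.R347.NOR8px9
import Crest.Agent.R347.NOR8px10
import Crest.Agent.R347.NOR8px11
import Crest.Agent.R347.NOR8px12
import Crest.Agent.R347.NOR8px13
import Crest.Agent.R347.NOR8px14
import Crest.Agent.R347.NOR8px15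
import Crest.Agent.R347.NOR8px16
import Crest.Agent.R347.NOR8px17
import Crest.Agent.R347.NOR8px18

/-! Row 347 numerics, open chain with 8 sites, s = false: final certificate (generated). -/

set_option autoImplicit false
set_option Elab.async false

namespace Crest.Agent.R347

def rs8p : List (List ℕ × ℕ) := rs8p_0 ++ rs8p_1 ++ rs8p_2 ++ rs8p_3 ++ rs8p_4 ++ rs8p_5 ++ rs8p_6 ++ rs8p_7 ++ rs8p_8 ++ rs8p_9 ++ rs8p_10 ++ rs8p_11 ++ rs8p_12 ++ rs8p_13 ++ rs8p_14 ++ rs8p_15 ++ rs8p_16 ++ rs8p_17 ++ rs8p_18

theorem c8p : ∀ r ∈ rs8p, chkO 64 8 57 40280041482 false sch8p r = true := by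
  unfold rs8p
  simp only [List.forall_mem_append]
  exact ⟨⟨⟨⟨⟨⟨⟨⟨⟨⟨⟨⟨⟨⟨⟨⟨⟨⟨c8p_0, c8p_1⟩, c8p_2⟩, c8p_3⟩, c8p_4⟩, c8p_5⟩, c8p_6⟩, c8p_7⟩, c8p_8⟩, c8p_9⟩, c8p_10⟩, c8p_11⟩, c8p_12⟩, c8p_13⟩, c8p_14⟩, c8p_15⟩, c8p_16⟩, c8p_17⟩, c8p_18⟩

theorem par8p : ParO 7 64 57 1309 654641307914697 40280041482 sch8p where
  hW := by norm_num
  hn1 := by norm_num
  hn := by norm_num
  hB := by norm_num
  hBW := by norm_num
  hWm := by norm_num
  hE := by norm_num
  hs := by norm_num
  hl := by decide +kernel
  sched := ⟨by decide +kernel, by decide +kernel, by decide +kernel, by decide +kernel⟩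
  err := by decide +kernel

theorem part8p : partOK 8 (rs8p.map Prod.fst) = true := by decide +kernel

theorem chk8p : numCheckO 7 1309 (totSh sch8p) (totsO rs8p) 52754515200000000000000000000000000000000000000000000000000000000 (926282730000000000000000000000000000000000000000000000000000000000000) (-814845610000000000000000000000000000000000000000000000000000000000000) = true := by decide +kernel

theorem res8p :
    |Real.exp (17 / 2 * ((7 + 1 : ℕ) : ℝ)) * (zOpen 7 (17 / 2) (3 / 5) (fO false) 1).re - (926282730000000000000000000000000000000000000000000000000000000000000 : ℤ)| ≤ (52754515200000000000000000000000000000000000000000000000000000000 : ℤ) ∧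
      |Real.exp (17 / 2 * ((7 + 1 : ℕ) : ℝ)) * (zOpen 7 (17 / 2) (3 / 5) (fO false) wz).re - (-814845610000000000000000000000000000000000000000000000000000000000000 : ℤ)| ≤ (52754515200000000000000000000000000000000000000000000000000000000 : ℤ) :=
  numO_of_cert (n := 7) par8p false rs8p part8p c8p 52754515200000000000000000000000000000000000000000000000000000000 (926282730000000000000000000000000000000000000000000000000000000000000) (-814845610000000000000000000000000000000000000000000000000000000000000) chk8p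

end Crest.Agent.R347
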