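import Crest.Agent.R347.NumStmt

/-!
# Row 347, NUMERICS GROUP: plan (read by the lead of this group)

TARGET: `Num6 … Num10` (ring) and `NumOpen2 … NumOpen8` (open chain) of `R347/NumStmt.lean`
(relative tolerance 1e-5 of the largest of the traces).  The numbers in `NumStmt.lean` come from double
precision ED and are accurate to about 1e-9.  Prototype timing of the kernel part below: L = 10 costs
about 10-20 s of kernel time per start vector at 200 Taylor steps; about 250 start vectors; about 1.4 GB.

## N1. Reduction to a nonnegative integer matrix ("winding counter")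
`K = L·1 - H`.  Index set `X = (Fin L → Fin 3) × ZMod 4` (`L` = number of sites).  `Kx : Matrix X X ℕ`, symmetric:
* diagonal `(c,k) → (c,k)`: `Σ_{bonds j of the ring} (1 - m_j m_{j+1})`, `m = 1 - index ∈ {1,0,-1}`;
* interior bond `(j,j+1)`: `(c,k) → (c',k)` weight 1 where `c'` = `c` with index_j + 1, index_{j+1} - 1 or with
  index_j - 1, index_{j+1} + 1 (when inside {0,1,2});
* boundary bond `(L-1,0)`: index_{L-1} + 1, index_0 - 1, `k → k+1`; and the inverse move, `k → k-1`.
Every row sum is ≤ 3L (each bond contributes ≤ 3).  With the Marshall sign `s(c) = (-1)^{Σ_{j odd} m_j}` and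
`E = exp(β Kx)`:
`exp(βL) Tr(wz^ε exp(-β H_g)) = Σ_c (-1)^{ε M(c)} Σ_{j : ZMod 4} χ(j) E((c,0),(c,j))`, `χ(j) = i^{(κ + 2[L odd]) j}`, `κ = 0,1,2`
for `g = 1, c4, pz` (the value is real because `E((c,0),(c,j)) = E((c,0),(c,-j))`), and
`exp(βL) Tr(wx exp(-β H_pz)) = (-1)^L Σ_{c, M(c)=0} Σ_j χ(j) E((c,0),(c̄,j))`, `κ = 2`, `c̄` = flipped (index ↦ 2 - index).
(`E`-Fourier: `K_χ(c,c') = Σ_j χ(j) Kx((c,0),(c',j))` and `exp` of it is the Fourier sum of `E`.)

## N2. Symmetry reduction
`τ_T (c,k) = (shift c, k + (something like m_0(c)))`, `τ_P (c,k) = (reverse c, -k)`, `τ_F (c,k) = (c̄, -k)` are permutations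
of `X` with `Kx (τ x) (τ y) = Kx x y`, commuting with/inverting `k ↦ k+1`; hence `F_j(c) := E((c,0),(c,j))` is
invariant under shift, reversal and flip of `c` (use `F_j = F_{-j}`), likewise the flipped quantity. So only one
`c` per orbit (L=10: about 250 orbits in M=0, 430 in each M=±1, ...; use F to put half of the M≠0 orbit
representatives in sector +M, half in sector -M).  The list of representatives with orbit sizes must be
verified (sum over all `3^L` configurations): e.g. bitmask of all images = `2^(3^L) - 1` and count = `3^L`.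

## N3. Packed-vector kernel arithmetic
`E((c,0),(c,j)) = Σ_{c',i} v(c',i) v(c',i-j)`, `v = exp((β/2) Kx)((c,0),·)`, `β/2 = 17/4`.
A vector on `(Fin L → Fin 3)` is one `Nat` with `3^L` slots of `W` bits (slot index `Σ d_j 3^j`); keep four of
them (`k = 0..3`).  (The kernel refuses `Nat`s above about 2^24 bits: L=10, W ≤ 96 per vector is fine.)
Hop on `(i,j)`: `((v &&& hmask i j) >>> (2*3^i*W))` etc. (see below), the diagonal = precomputed 5 bit-masks or per-bond masks.
Start vector: a sum of basis vectors from DIFFERENT `M` sectors with the same orbit size (`Kx` conserves `M`, and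
correlations `Σ v(c')v(c')` are additive over sectors; for `ε = 1` mask by parity of `M`, for the flipped sum mask
`M = 0`).  Horner: `r_{k-1} = e + (x/k) Kx r_k`, `x = 17/4`, k = N..1 (N ≈ 165-200), realised as
`r' = ((Kx r) * m_k >>> s_k) &&& slotmask + e_k` with floor rounding; entries ≤ 30 bits, W ≈ 76-80.  Rigorous error:
floor gives a LOWER bound entrywise; the UPPER bound is `r + Err` where `Err` is ONE universal vector (same
recursion with start `Err_N = C·1` bounding the Taylor tail — row sums ≤ 3L give `Σ_{i≥N} … ≤ 1/(1 - 3L x/N)` — and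
`Err' = ⌈(x/k) Kx Err⌉ + 1`), computed once per L (same scaling schedule for all start vectors of that L).
Size estimate: with 30-bit entries the resulting relative error of the traces is about 1e-6.
Correlations: one big multiplication `v * w` and read the slot `3^L - 1` (needs one factor with reversed slot order;
reversal of slots = flip of all digits = 10 masked swaps `0 ↔ 2`), slot sums must stay `< 2^W`.
The flipped sum `Σ v(c') v(c̄')` is the same multiplication without reversal.
Kernel layout that worked in the prototype (4 state variables, masks as closed definitions, kernel caches them):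
```
def rep (n p : ℕ) : ℕ := (2 ^ (p * n) - 1) / (2 ^ p - 1)
def dmask (W L i a : ℕ) : ℕ := ((2 ^ (W * 3 ^ i) - 1) <<< (a * 3 ^ i * W)) * rep (3 ^ (L - 1 - i)) (W * 3 ^ (i + 1))
def hmask (W L i j : ℕ) : ℕ := (dmask W L i 0 ||| dmask W L i 1) &&& (dmask W L j 1 ||| dmask W L j 2)
def run (n : ℕ) : ℕ → ℕ → ℕ → ℕ → ℕ := Nat.rec (fun a _ _ _ => a)
  (fun _ f a b c d => f (st d a b) (st a b c) (st b c d) (st c d a)) n
theorem t : Nat.ble (run 200 (1 <<< …) 0 0 0) 0 = false := by decide +kernel
```
Put 5-10 start vectors in one file (≤ 3 minutes per file), certificates as `decide +kernel` on `Nat` equalities.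

## N4. Open chains N ≤ 8
Same method without winding; `5 K` has integer entries (field 3/5): `K = c·1 - H`, diagonal
`5 (c - Σ m m') + 3 (m_0 ± m_{N-1})`, hops `5`; only 6561 configurations, no symmetry reduction needed beyond `M`
(or use reversal); `exp(17/2 K) = exp(17/10 (5K))`.  Multiply by `exp(17/2 (N - c))` at the end (`c` integer).
Bounds for `Real.exp` of rationals: from `Real.exp_one_gt_d9`/`lt_d9` or Taylor.
-/

set_option autoImplicit false

namespace Crest.Agent.R347

end Crest.Agent.R347
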