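import Crest.Agent.R347.RPurity

/-!
# Row 347, piece R_STEP_RING (elementary, ~1.5 h; uses RPurity)

`ring_step`.  Write `z1 = z β`, `z2 = z (2β)`, `z4 = z (4β)`, `m1, m2, m4`.
* `z1(2L) ≤ z1(L)²` (TopData (4),(2)).  `z2(2L) ≥ m2^{2L} ≥ (z2(L)/(1+ε))² ≥ (u z1(L)²/(1+ε))² ≥ (u/(1+ε))² z1(2L)²`.
* `purity_double` at the levels of `2L` with `s = (u/(1+ε))²`, `e = er`: `(1+er⁴) z2(2L)² ≤ (1+er²)² z4(2L)`, so `u' z2(2L)² ≤ z4(2L)`.
* `z4(2L) ≥ u' z2(2L)² ≥ u' m2^{4L} ≥ u' (z2(L)/(1+ε))^4 ≥ (u'/(1+ε)^4) z4(L)²` as `z4(L) ≤ z2(L)²` (levels at `L`).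
  `top_double` for `z4` with `s = u'/(1+ε)^4`, `e = e4`: `z4(L) ≤ (1+e4) m4^L`, `z4(2L) ≤ (1+e4²) m4^{2L}`.
* `z2(2L) ≤ (1+ε²) m2^{2L}`  (TopData (4)).

`ring_cover`.  `q = u/(1+ε) ≤ 1`. For even `L' ∈ [L, 2L]`: `z2(L') ≥ m2^{L'} = m2^L m2^{L'-L}`, `m2^L ≥ q z1(L)² ≥ q m1^{2L}`,
`m2^{L'-L} ≥ q m1^{2(L'-L)}` (if `m2 ≤ m1²` write `π = m2/m1²`, `π^{L'-L} ≥ π^L ≥ q`; else trivial), `z1(L') ≤ m1^{L'-L} z1(L)`.
-/

set_option autoImplicit false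

namespace Crest.Agent.R347

namespace RStepaux

theorem u_le_one {z : ℝ → ℕ → ℝ} {m : ℝ → ℝ} (F : RingFam z m) {L : ℕ} {β u ε ε₁ : ℝ}
    (S : RingState z m L β u ε ε₁) : u ≤ 1 := by
  have hpos : 0 < z β L := lt_of_lt_of_le one_pos (F.ge_one β S.hβ L S.evL S.twoL)
  obtain ⟨k, x, hx, hz⟩ := F.levels L S.evL S.twoL
  have h1 : z (2 * β) L ≤ z β L ^ 2 := by
    rw [hz β S.hβ, hz (2 * β) (by linarith [S.hβ])]
    exact levels_sq_le x hx β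
  have h2 := S.pur.trans h1
  have h3 : 0 < z β L ^ 2 := by positivity
  by_contra hcon
  push Not at hcon
  nlinarith

/-- `q (z β L)² ≤ m(2β)^L` -/
theorem pow_ge {z : ℝ → ℕ → ℝ} {m : ℝ → ℝ} {L : ℕ} {β u ε ε₁ : ℝ}
    (S : RingState z m L β u ε ε₁) : u / (1 + ε) * z β L ^ 2 ≤ m (2 * β) ^ L := by
  have h0 : 0 < 1 + ε := by linarith [S.hε]
  rw [div_mul_eq_mul_div, div_le_iff₀ h0]
  calc u * z β L ^ 2 ≤ z (2 * β) L := S.pur
    _ ≤ (1 + ε) * m (2 * β) ^ L := S.exc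
    _ = _ := by ring

theorem q_pos {z : ℝ → ℕ → ℝ} {m : ℝ → ℝ} {L : ℕ} {β u ε ε₁ : ℝ}
    (S : RingState z m L β u ε ε₁) : 0 < u / (1 + ε) :=
  div_pos S.hu (by linarith [S.hε])

theorem q_le {z : ℝ → ℕ → ℝ} {m : ℝ → ℝ} {L : ℕ} {β u ε ε₁ : ℝ}
    (S : RingState z m L β u ε ε₁) : u / (1 + ε) ≤ u :=
  div_le_self S.hu.le (by linarith [S.hε])

theorem ratio {z : ℝ → ℕ → ℝ} {m : ℝ → ℝ} (F : RingFam z m) {L : ℕ} {β u ε ε₁ : ℝ}
    (S : RingState z m L β u ε ε₁) {k : ℕ} (hk : k ≤ L) :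
    u / (1 + ε) * m β ^ (2 * k) ≤ m (2 * β) ^ k := by
  have T1 := F.top β S.hβ
  have T2 := F.top (2 * β) (by linarith [S.hβ])
  have hm1 : 0 < m β := T1.1
  have hm2 : 0 < m (2 * β) := T2.1
  have hle : m (2 * β) ≤ m β ^ 2 := by
    refine m_le_sq T1 T2 fun L hL h2 => ?_
    obtain ⟨k, x, hx, hz⟩ := F.levels L hL h2
    rw [hz β S.hβ, hz (2 * β) (by linarith [S.hβ])]
    exact levels_sq_le x hx β
  have hL : u / (1 + ε) * m β ^ (2 * L) ≤ m (2 * β) ^ L := by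
    refine le_trans ?_ (pow_ge S)
    refine mul_le_mul_of_nonneg_left ?_ (q_pos S).le
    have h1 := T1.2.1 L S.evL S.twoL
    calc m β ^ (2 * L) = (m β ^ L) ^ 2 := by rw [mul_comm, pow_mul]
      _ ≤ z β L ^ 2 := pow_le_pow_left₀ (pow_pos hm1 L).le h1 2
  -- divide by the powers `L - k`
  obtain ⟨j, rfl⟩ := Nat.exists_eq_add_of_le hk
  have h3 : m (2 * β) ^ j ≤ m β ^ (2 * j) := by
    rw [pow_mul]
    exact pow_le_pow_left₀ hm2.le hle j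
  have h4 : (u / (1 + ε) * m β ^ (2 * k)) * m β ^ (2 * j) ≤ m (2 * β) ^ k * m β ^ (2 * j) := by
    calc (u / (1 + ε) * m β ^ (2 * k)) * m β ^ (2 * j)
        = u / (1 + ε) * m β ^ (2 * (k + j)) := by rw [mul_assoc, ← pow_add, mul_add]
      _ ≤ m (2 * β) ^ (k + j) := hL
      _ = m (2 * β) ^ k * m (2 * β) ^ j := pow_add _ _ _
      _ ≤ m (2 * β) ^ k * m β ^ (2 * j) := mul_le_mul_of_nonneg_left h3 (pow_pos hm2 k).le
  exact le_of_mul_le_mul_right h4 (pow_pos hm1 _)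

end RStepaux

open RStepaux

theorem ring_step {z : ℝ → ℕ → ℝ} {m : ℝ → ℝ} (F : RingFam z m) {L : ℕ} {β u ε ε₁ : ℝ}
    (S : RingState z m L β u ε ε₁) {er e4 u' ε' ε₁' : ℝ}
    (her : 0 < er ∧ er ≤ 7 / 10) (he4 : 0 < e4 ∧ e4 < 1) (hu' : 0 < u')
    (h1 : 1 + er ^ 2 ≤ (u / (1 + ε)) ^ 2 * (1 + er) ^ 2)
    (h2 : u' * (1 + er ^ 2) ^ 2 ≤ 1 + er ^ 4)
    (h3 : 1 + e4 ^ 2 ≤ u' / (1 + ε) ^ 4 * (1 + e4) ^ 2)
    (h4 : e4 ^ 2 ≤ ε') (h5 : ε ^ 2 ≤ ε₁') :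
    RingState z m (2 * L) (2 * β) u' ε' ε₁' ∧ z (4 * β) L ≤ (1 + e4) * m (4 * β) ^ L := by
  have hβ := S.hβ
  have e44 : 2 * (2 * β) = 4 * β := by ring
  set q := u / (1 + ε) with hq
  have hq0 : 0 < q := q_pos S
  have h1ε : 0 < 1 + ε := by linarith [S.hε]
  have T1 := F.top β hβ
  have T2 := F.top (2 * β) (by linarith)
  have T4 := F.top (4 * β) (by linarith)
  have hm1 : 0 < m β := T1.1
  have hm2 : 0 < m (2 * β) := T2.1
  have hm4 : 0 < m (4 * β) := T4.1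
  have ev2 : Even (2 * L) := even_two_mul L
  have tw2 : 2 ≤ 2 * L := by have := S.twoL; omega
  have hz1 : 0 < z β L := lt_of_lt_of_le one_pos (F.ge_one β hβ L S.evL S.twoL)
  have hz12 : 0 < z β (2 * L) := lt_of_lt_of_le one_pos (F.ge_one β hβ _ ev2 tw2)
  have hz2 : 0 < z (2 * β) L :=
    lt_of_lt_of_le one_pos (F.ge_one (2 * β) (by linarith) L S.evL S.twoL)
  have hz22 : 0 < z (2 * β) (2 * L) :=
    lt_of_lt_of_le one_pos (F.ge_one (2 * β) (by linarith) _ ev2 tw2)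
  have hz4 : 0 < z (4 * β) L :=
    lt_of_lt_of_le one_pos (F.ge_one (4 * β) (by linarith) L S.evL S.twoL)
  -- step A
  have hA1 : z β (2 * L) ≤ z β L ^ 2 := by
    have h := T1.2.2.1 L L S.evL S.evL S.twoL S.twoL
    rw [← two_mul] at h
    refine h.trans ?_
    rw [pow_two]
    exact mul_le_mul_of_nonneg_right (T1.2.1 L S.evL S.twoL) hz1.le
  have hA2 : q * z β L ^ 2 ≤ m (2 * β) ^ L := pow_ge S
  have hA : q ^ 2 * z β (2 * L) ^ 2 ≤ z (2 * β) (2 * L) := by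
    calc q ^ 2 * z β (2 * L) ^ 2 ≤ q ^ 2 * (z β L ^ 2) ^ 2 :=
          mul_le_mul_of_nonneg_left (pow_le_pow_left₀ hz12.le hA1 2) (by positivity)
      _ = (q * z β L ^ 2) ^ 2 := by ring
      _ ≤ (m (2 * β) ^ L) ^ 2 := pow_le_pow_left₀ (by positivity) hA2 2
      _ = m (2 * β) ^ (2 * L) := by rw [mul_comm 2 L, pow_mul]
      _ ≤ z (2 * β) (2 * L) := T2.2.1 _ ev2 tw2
  -- step B
  have hB : u' * z (2 * β) (2 * L) ^ 2 ≤ z (4 * β) (2 * L) := by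
    obtain ⟨k, x, hx, hz⟩ := F.levels (2 * L) ev2 tw2
    have hz1' := hz β hβ
    have hz2' := hz (2 * β) (by linarith)
    have hz4' := hz (4 * β) (by linarith)
    have hs : q ^ 2 * (∑ i, (x i) ^ β) ^ 2 ≤ ∑ i, (x i) ^ (2 * β) := by
      rw [← hz1', ← hz2']
      exact hA
    have hp := purity_double x hx β her.1 her.2 hs h1
    rw [← hz2', ← hz4'] at hp
    have h6 : (1 + er ^ 2) ^ 2 * (u' * z (2 * β) (2 * L) ^ 2) ≤ (1 + er ^ 2) ^ 2 * z (4 * β) (2 * L) := by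
      refine le_trans ?_ hp
      calc (1 + er ^ 2) ^ 2 * (u' * z (2 * β) (2 * L) ^ 2)
          = (u' * (1 + er ^ 2) ^ 2) * z (2 * β) (2 * L) ^ 2 := by ring
        _ ≤ (1 + er ^ 4) * z (2 * β) (2 * L) ^ 2 := mul_le_mul_of_nonneg_right h2 (by positivity)
    exact le_of_mul_le_mul_left h6 (by positivity)
  -- step C
  have hC1 : z (4 * β) L ≤ z (2 * β) L ^ 2 := by
    obtain ⟨k, x, hx, hz⟩ := F.levels L S.evL S.twoL
    rw [hz (4 * β) (by linarith), hz (2 * β) (by linarith), ← e44]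
    exact levels_sq_le x hx (2 * β)
  have hC2 : u' / (1 + ε) ^ 4 * z (4 * β) L ^ 2 ≤ z (4 * β) (2 * L) := by
    have h7 : z (2 * β) L / (1 + ε) ≤ m (2 * β) ^ L := by
      rw [div_le_iff₀ h1ε]
      calc _ ≤ (1 + ε) * m (2 * β) ^ L := S.exc
        _ = _ := by ring
    calc u' / (1 + ε) ^ 4 * z (4 * β) L ^ 2 ≤ u' / (1 + ε) ^ 4 * (z (2 * β) L ^ 2) ^ 2 :=
          mul_le_mul_of_nonneg_left (pow_le_pow_left₀ hz4.le hC1 2) (by positivity)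
      _ = u' * (z (2 * β) L / (1 + ε)) ^ 4 := by
          rw [div_pow]
          ring
      _ ≤ u' * (m (2 * β) ^ L) ^ 4 :=
          mul_le_mul_of_nonneg_left (pow_le_pow_left₀ (by positivity) h7 4) hu'.le
      _ = u' * (m (2 * β) ^ (2 * L)) ^ 2 := by
          rw [mul_comm 2 L, pow_mul]
          ring
      _ ≤ u' * z (2 * β) (2 * L) ^ 2 :=
          mul_le_mul_of_nonneg_left
            (pow_le_pow_left₀ (by positivity) (T2.2.1 _ ev2 tw2) 2) hu'.le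
      _ ≤ z (4 * β) (2 * L) := hB
  obtain ⟨hC3, hC4⟩ := top_double T4 S.evL S.twoL he4.1 he4.2 hC2 h3
  -- step D
  have hD : z (2 * β) (2 * L) ≤ (1 + ε ^ 2) * m (2 * β) ^ (2 * L) := by
    have h8 := T2.2.2.2 L L S.evL S.evL S.twoL S.twoL
    rw [← two_mul] at h8
    have h9 := T2.2.1 L S.evL S.twoL
    have h10 := S.exc
    have h11 : (z (2 * β) L - m (2 * β) ^ L) * (z (2 * β) L - m (2 * β) ^ L) ≤
        (ε * m (2 * β) ^ L) * (ε * m (2 * β) ^ L) := by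
      have h12 : 0 ≤ z (2 * β) L - m (2 * β) ^ L := by linarith
      have h13 : z (2 * β) L - m (2 * β) ^ L ≤ ε * m (2 * β) ^ L := by linarith
      exact mul_le_mul h13 h13 h12 (h12.trans h13)
    have h14 : m (2 * β) ^ (2 * L) = m (2 * β) ^ L * m (2 * β) ^ L := by
      rw [two_mul L, pow_add]
    rw [h14] at h8 ⊢
    linarith
  refine ⟨⟨ev2, tw2, by linarith, hu', (sq_nonneg e4).trans h4, (sq_nonneg ε).trans h5, ?_, ?_, ?_⟩, hC3⟩
  · rw [e44]; exact hB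
  · rw [e44]
    refine hC4.trans ?_
    exact mul_le_mul_of_nonneg_right (by linarith) (by positivity)
  · refine hD.trans ?_
    exact mul_le_mul_of_nonneg_right (by linarith) (by positivity)

theorem ring_cover {z : ℝ → ℕ → ℝ} {m : ℝ → ℝ} (F : RingFam z m) {L : ℕ} {β u ε ε₁ : ℝ}
    (S : RingState z m L β u ε ε₁) {L' : ℕ} (hL' : Even L') (h1 : L ≤ L') (h2 : L' ≤ 2 * L) :
    (u / (1 + ε)) ^ 2 * z β L' ^ 2 ≤ z (2 * β) L' := by
  set q := u / (1 + ε) with hq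
  have hq0 : 0 < q := q_pos S
  have T1 := F.top β S.hβ
  have T2 := F.top (2 * β) (by linarith [S.hβ])
  have hm1 : 0 < m β := T1.1
  have hm2 : 0 < m (2 * β) := T2.1
  have hzL : 0 < z β L := lt_of_lt_of_le one_pos (F.ge_one β S.hβ L S.evL S.twoL)
  have h2L' : 2 ≤ L' := S.twoL.trans h1
  have hzL' : 0 < z β L' := lt_of_lt_of_le one_pos (F.ge_one β S.hβ L' hL' h2L')
  obtain ⟨j, rfl⟩ := Nat.exists_eq_add_of_le h1
  have hjL : j ≤ L := by omega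
  have hz1 : z β (L + j) ≤ m β ^ j * z β L := by
    rcases Nat.eq_zero_or_pos j with h0 | h0
    · subst h0
      simp
    · have hje : Even j := by
        have := (Nat.even_add.1 hL').1 S.evL
        exact this
      have hj2 : 2 ≤ j := by
        obtain ⟨i, hi⟩ := hje
        omega
      have := T1.2.2.1 j L hje S.evL hj2 S.twoL
      rwa [add_comm] at this
  have h3 := T2.2.1 (L + j) hL' h2L'
  have h4 : q * m β ^ (2 * j) ≤ m (2 * β) ^ j := ratio F S hjL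
  have h5 : q * z β L ^ 2 ≤ m (2 * β) ^ L := pow_ge S
  calc q ^ 2 * z β (L + j) ^ 2 ≤ q ^ 2 * (m β ^ j * z β L) ^ 2 := by
        refine mul_le_mul_of_nonneg_left ?_ (by positivity)
        exact pow_le_pow_left₀ hzL'.le hz1 2
    _ = (q * z β L ^ 2) * (q * m β ^ (2 * j)) := by
        rw [mul_comm 2 j, pow_mul]
        ring
    _ ≤ m (2 * β) ^ L * m (2 * β) ^ j := by
        refine mul_le_mul h5 h4 (by positivity) (by positivity)
    _ = m (2 * β) ^ (L + j) := (pow_add _ _ _).symm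
    _ ≤ z (2 * β) (L + j) := h3

/-- growth of the ratio `π = m₂/m₁²` -/
theorem ring_ratio {z : ℝ → ℕ → ℝ} {m : ℝ → ℝ} (F : RingFam z m) {L : ℕ} {β u ε ε₁ : ℝ}
    (S : RingState z m L β u ε ε₁) {k : ℕ} (hk : k ≤ L) :
    u / (1 + ε) * m β ^ (2 * k) ≤ m (2 * β) ^ k := by
  exact ratio F S hk

theorem ring_u_le_one {z : ℝ → ℕ → ℝ} {m : ℝ → ℝ} (F : RingFam z m) {L : ℕ} {β u ε ε₁ : ℝ}
    (S : RingState z m L β u ε ε₁) : u ≤ 1 := by
  exact u_le_one F S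

end Crest.Agent.R347
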