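import Crest.Agent.R347.RStep

/-!
# Row 347, piece R_STEP_OPEN (elementary, ~2 h; uses RPurity, RStep)

Notation: `O1 = O β`, `O2 = O (2β)`, `O4 = O (4β)`, same for `O'`, `c`, `m`; `A_i = O_i - O'_i` (= Z_{++}),
`B_i = O_i + O'_i` (= Z_{+-}); both are sums of levels. `q = u/(1+ε)`, `n' = n + L`.

`open_step`:
(i) `O2(n) = (A2+B2)/2 ≥ p (A1²+B1²)/2 ≥ p O1(n)²`, so `c2 m2^n ≥ O2(n)/r ≥ (p/r) O1(n)²`;
(ii) `c2 m2^{n'} ≥ (p/r) O1(n)² m2^L ≥ (p/r) q (O1(n) z1(L))²  ≥ (p/r) q O1(n')²` (`m2^L ≥ q z1(L)²`, `m1^L ≤ z1(L)`, `O1(n') ≤ O1(n) m1^L`);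
(iii) `A2(n'), B2(n') ≥ c2 m2^{n'} - O2'(n') ≥ (1 - T ε) c2 m2^{n'}`  (`O2'(n') ≤ O2'(n)(z2(L) - m2^L) ≤ T c2 m2^n ε m2^L`);
(iv) `A1(n'), B1(n') ≤ O1(n') + O1'(n') ≤ (1 + T₁ ε₁) O1(n')`  (`O1'(n') ≤ T₁ c1 m1^n ε₁ m1^L`, `c1 m1^{n'} ≤ O1(n')`);
hence `s A1(n')² ≤ A2(n')`, `s B1(n')² ≤ B2(n')`, `s = (p q/r)(1 - Tε)/(1+T₁ε₁)²`;
(v) `purity_double` with `e = eo`: `p' A2(n')² ≤ A4(n')`, same for `B`;
(vi) `O4(n) = (A4+B4)/2 ≤ (A2²+B2²)/2 = O2² + O2'² ≤ (r²+T²)(c2 m2^n)²`; `O4(n') ≥ p'(A2²+B2²)/2 ≥ p' O2(n')² ≥ p'(c2 m2^{n'})²`;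
`m4 ≤ m2²` (`m_le_sq`, levels_sq_le); so `O4(n) m4^L ≤ K O4(n')`.
`O4(n') - c4 m4^{n'} ≤ (O4(n) - c4 m4^n)(z4(L) - m4^L) ≤ e4 (O4(n) m4^L - c4 m4^{n'}) ≤ e4 (K O4(n') - c4 m4^{n'})`, so
`(1 - K e4) O4(n') ≤ (1 - e4) c4 m4^{n'}`: `c4 > 0` and the bound `r'`;
`O4'(n') ≤ O4'(n) (z4(L) - m4^L) ≤ e4 m4^L O4'(n) ≤ e4 m4^L O4(n) ≤ e4 K O4(n') ≤ e4 K r' c4 m4^{n'}`  (`O4' ≤ O4` as `A4 ≥ 0`; needs `c4 > 0`);
(vii) `O2(n') ≤ c2 m2^{n'} + (O2(n) - c2 m2^n)(z2(L)-m2^L) ≤ (1+(r-1)ε) c2 m2^{n'}`; `O2'(n') ≤ T ε c2 m2^{n'}`.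

`open_cover` (odd number `n'+1`, `n' ∈ [n, n+L)` even): `O1(n') ≤ O1(n) m1^{n'-n} ≤ r₁ c1 m1^{n'}`, similarly `O1'`, `O2`, `O2'`;
`|O_i(n'+1) - σ_i c_i m_i^{n'+1}| ≤ m_i (O_i(n') - c_i m_i^{n'})`, `|O_i'(n'+1)| ≤ m_i O_i'(n')`. Positivity of `A2(n'+1)` forces `σ2 = 1`
(if `r - 1 + T < 1`); `A2(n'+1) ≥ c2 m2^{n'+1} (2 - r - T)`, `A1(n'+1) ≤ c1 m1^{n'+1} (r₁ + T₁)`;
`c2 m2^{n'+1} ≥ (p/r)(c1 m1^n)² m2^{n'+1-n} ≥ (p/r) q (c1 m1^{n'+1})²` (`ring_ratio`, `n'+1-n ≤ L`).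
-/

set_option autoImplicit false

namespace Crest.Agent.R347

private theorem sum_rpow_nonneg {k : ℕ} (x : Fin k → ℝ) (hx : ∀ i, 0 < x i) (β : ℝ) :
    0 ≤ ∑ i, (x i) ^ β := Finset.sum_nonneg fun i _ => (Real.rpow_pos_of_pos (hx i) β).le

/-- purity step for one family of levels -/
private theorem pur_step {A : ℝ → ℝ} {β s eo p' : ℝ} (hβ : 0 < β)
    (hA : ∃ (k : ℕ) (x : Fin k → ℝ), 0 < k ∧ (∀ i, 0 < x i) ∧ ∀ β, 0 < β → A β = ∑ i, (x i) ^ β)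
    (heo : 0 < eo ∧ eo ≤ 7 / 10) (hs : s * A β ^ 2 ≤ A (2 * β)) (h1 : 1 + eo ^ 2 ≤ s * (1 + eo) ^ 2)
    (h2 : p' * (1 + eo ^ 2) ^ 2 ≤ 1 + eo ^ 4) : p' * A (2 * β) ^ 2 ≤ A (4 * β) := by
  obtain ⟨k, x, hk, hx, hA⟩ := hA
  have h3 := purity_double x hx β heo.1 heo.2 (s := s)
    (by rw [← hA β hβ, ← hA (2 * β) (by positivity)]; exact hs) h1
  rw [← hA (2 * β) (by positivity), ← hA (4 * β) (by positivity)] at h3
  have h4 : 0 < (1 + eo ^ 2) ^ 2 := by positivity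
  have h5 : p' * (1 + eo ^ 2) ^ 2 * A (2 * β) ^ 2 ≤ (1 + eo ^ 4) * A (2 * β) ^ 2 :=
    mul_le_mul_of_nonneg_right h2 (sq_nonneg _)
  have h6 : (1 + eo ^ 2) ^ 2 * (p' * A (2 * β) ^ 2) ≤ (1 + eo ^ 2) ^ 2 * A (4 * β) := by nlinarith
  exact le_of_mul_le_mul_left h6 h4

private theorem lev_sq {A : ℝ → ℝ} {β : ℝ} (hβ : 0 < β)
    (hA : ∃ (k : ℕ) (x : Fin k → ℝ), 0 < k ∧ (∀ i, 0 < x i) ∧ ∀ β, 0 < β → A β = ∑ i, (x i) ^ β) :
    A (4 * β) ≤ A (2 * β) ^ 2 := by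
  obtain ⟨k, x, hk, hx, hA⟩ := hA
  have h3 := levels_sq_le x hx (2 * β)
  rw [← hA (2 * β) (by positivity), show 2 * (2 * β) = 4 * β by ring,
    ← hA (4 * β) (by positivity)] at h3
  exact h3

private theorem lev_nonneg {A : ℝ → ℝ} {β : ℝ} (hβ : 0 < β)
    (hA : ∃ (k : ℕ) (x : Fin k → ℝ), 0 < k ∧ (∀ i, 0 < x i) ∧ ∀ β, 0 < β → A β = ∑ i, (x i) ^ β) :
    0 ≤ A β := by
  obtain ⟨k, x, hk, hx, hA⟩ := hA
  rw [hA β hβ]
  exact sum_rpow_nonneg x hx β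

/-- step (i) -/
private theorem sum_pur {a1 a1' a2 a2' p : ℝ} (hp : 0 < p) (h1 : p * (a1 + a1') ^ 2 ≤ a2 + a2')
    (h2 : p * (a1 - a1') ^ 2 ≤ a2 - a2') : p * a1 ^ 2 ≤ a2 := by
  have h3 : 0 ≤ p * a1' ^ 2 := by positivity
  nlinarith

/-- the purity ratio at `n + L` -/
private theorem ratio_step {z1 z2 W1 W2 a1 a1' b1 b1' b2 b2' c1 c2 M1 M2 p u ε ε₁ r T T₁ : ℝ}
    (hp : 0 < p) (hu : 0 < u) (hε : 0 ≤ ε) (hε₁ : 0 ≤ ε₁) (hr : 1 ≤ r) (hT : 0 ≤ T) (hT₁ : 0 ≤ T₁)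
    (hTε : T * ε < 1) (hW1 : 0 < W1) (hW2 : 0 < W2) (hM2 : 0 < M2) (hc2 : 0 < c2)
    (hz1 : W1 ≤ z1) (hpur : u * z1 ^ 2 ≤ z2) (hexc : z2 ≤ (1 + ε) * W2) (hexc1 : z1 ≤ (1 + ε₁) * W1)
    (ha1 : 0 ≤ a1) (ha1' : 0 ≤ a1') (hb1 : 0 ≤ b1) (hb1' : 0 ≤ b1') (hb2' : 0 ≤ b2')
    (hi : p * a1 ^ 2 ≤ r * (c2 * M2)) (hb1W : b1 ≤ a1 * W1)
    (hcb1 : c1 * M1 * W1 ≤ b1) (hb1z : b1' ≤ a1' * (z1 - W1)) (ha1c : a1' ≤ T₁ * (c1 * M1))
    (hb2 : c2 * M2 * W2 ≤ b2) (hb2T : b2' ≤ T * ε * (c2 * M2 * W2)) :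
    p * u / ((1 + ε) * r) * (1 - T * ε) / (1 + T₁ * ε₁) ^ 2 * (b1 - b1') ^ 2 ≤ b2 - b2' ∧
    p * u / ((1 + ε) * r) * (1 - T * ε) / (1 + T₁ * ε₁) ^ 2 * (b1 + b1') ^ 2 ≤ b2 + b2' := by
  have hX : 0 < c2 * M2 * W2 := by positivity
  set X := c2 * M2 * W2 with hXdef
  -- `p u b1² ≤ r (1+ε) X`
  have hz1' : 0 < z1 := hW1.trans_le hz1
  have h1 : b1 ^ 2 ≤ a1 ^ 2 * z1 ^ 2 := by
    rw [← mul_pow]
    apply pow_le_pow_left₀ hb1
    exact hb1W.trans (mul_le_mul_of_nonneg_left hz1 ha1)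
  have h2 : p * u * b1 ^ 2 ≤ (1 + ε) * r * X := by
    calc p * u * b1 ^ 2 ≤ p * u * (a1 ^ 2 * z1 ^ 2) := by gcongr
      _ = (p * a1 ^ 2) * (u * z1 ^ 2) := by ring
      _ ≤ (r * (c2 * M2)) * ((1 + ε) * W2) := by
          apply mul_le_mul hi (hpur.trans hexc) (by positivity)
          positivity
      _ = (1 + ε) * r * X := by rw [hXdef]; ring
  have hr0 : 0 < (1 + ε) * r := by
    have : 0 < r := by linarith
    positivity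
  have h3 : p * u / ((1 + ε) * r) * b1 ^ 2 ≤ X := by
    rw [div_mul_eq_mul_div, div_le_iff₀ hr0]
    linarith
  -- `b1' ≤ T₁ ε₁ b1`
  have h4 : b1' ≤ T₁ * ε₁ * b1 := by
    have h5 : z1 - W1 ≤ ε₁ * W1 := by linarith
    have h50 : 0 ≤ z1 - W1 := by linarith
    calc b1' ≤ a1' * (z1 - W1) := hb1z
      _ ≤ a1' * (ε₁ * W1) := mul_le_mul_of_nonneg_left h5 ha1'
      _ ≤ (T₁ * (c1 * M1)) * (ε₁ * W1) := mul_le_mul_of_nonneg_right ha1c (by positivity)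
      _ = T₁ * ε₁ * (c1 * M1 * W1) := by ring
      _ ≤ T₁ * ε₁ * b1 := mul_le_mul_of_nonneg_left hcb1 (by positivity)
  have hQ : 0 < 1 + T₁ * ε₁ := by positivity
  have hQ2 : 0 < (1 + T₁ * ε₁) ^ 2 := by positivity
  have hkey : ∀ y : ℝ, |y| ≤ (1 + T₁ * ε₁) * b1 →
      p * u / ((1 + ε) * r) * (1 - T * ε) / (1 + T₁ * ε₁) ^ 2 * y ^ 2 ≤ (1 - T * ε) * X := by
    intro y hy
    have h6 : y ^ 2 ≤ ((1 + T₁ * ε₁) * b1) ^ 2 := by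
      rw [← sq_abs]
      exact pow_le_pow_left₀ (abs_nonneg y) hy 2
    have h7 : 0 ≤ p * u / ((1 + ε) * r) * (1 - T * ε) / (1 + T₁ * ε₁) ^ 2 := by
      have : 0 < 1 - T * ε := by linarith
      positivity
    calc p * u / ((1 + ε) * r) * (1 - T * ε) / (1 + T₁ * ε₁) ^ 2 * y ^ 2
        ≤ p * u / ((1 + ε) * r) * (1 - T * ε) / (1 + T₁ * ε₁) ^ 2 * ((1 + T₁ * ε₁) * b1) ^ 2 :=
          mul_le_mul_of_nonneg_left h6 h7
      _ = (1 - T * ε) * (p * u / ((1 + ε) * r) * b1 ^ 2) := by field_simp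
      _ ≤ (1 - T * ε) * X := mul_le_mul_of_nonneg_left h3 (by linarith)
  constructor
  · refine (hkey _ ?_).trans ?_
    · rw [abs_le]
      constructor <;> nlinarith
    · linarith
  · refine (hkey _ ?_).trans ?_
    · rw [abs_le]
      constructor <;> nlinarith
    · have : 0 ≤ T * ε * X := by positivity
      linarith

/-- step (vi) in real numbers -/
private theorem top4 {a2 a2' b2 b2' a4 a4' b4 b4' c2 c4 M2 M4 W2 W4 z4 e4 K p' r' T' r T : ℝ}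
    (hp' : 0 < p') (he4 : 0 < e4 ∧ e4 < 1) (hc2 : 0 < c2) (hM2 : 0 < M2) (hW2 : 0 < W2)
    (hM4 : 0 < M4) (hW4 : 0 < W4)
    (hr : 1 ≤ r) (ha2 : 0 ≤ a2) (ha2' : 0 ≤ a2') (hra2 : a2 ≤ r * (c2 * M2))
    (hTa2 : a2' ≤ T * (c2 * M2)) (hb2 : c2 * M2 * W2 ≤ b2)
    (hpm : p' * (b2 + b2') ^ 2 ≤ b4 + b4') (hpp : p' * (b2 - b2') ^ 2 ≤ b4 - b4')
    (hapm : a4 + a4' ≤ (a2 + a2') ^ 2) (happ : a4 - a4' ≤ (a2 - a2') ^ 2) (hapos : 0 ≤ a4 - a4')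
    (ha4' : 0 ≤ a4') (hc4 : c4 * M4 ≤ a4)
    (hW : W4 ≤ W2 ^ 2) (hz4 : z4 ≤ (1 + e4) * W4)
    (hb4 : b4 - c4 * M4 * W4 ≤ (a4 - c4 * M4) * (z4 - W4))
    (hb4' : 0 < c4 → b4' ≤ a4' * (z4 - W4))
    (h3 : (r ^ 2 + T ^ 2) / p' ≤ K) (h4 : K * e4 < 1)
    (h5 : (1 - e4) / (1 - K * e4) ≤ r') (h6 : e4 * K * r' ≤ T') :
    0 < c4 ∧ b4 ≤ r' * (c4 * M4 * W4) ∧ b4' ≤ T' * (c4 * M4 * W4) := by
  have hX : 0 < c2 * M2 * W2 := by positivity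
  have hb4lo : p' * (c2 * M2 * W2) ^ 2 ≤ b4 := by
    have h7 : p' * b2 ^ 2 ≤ b4 := sum_pur hp' hpm hpp
    have h8 : (c2 * M2 * W2) ^ 2 ≤ b2 ^ 2 := pow_le_pow_left₀ hX.le hb2 2
    have := mul_le_mul_of_nonneg_left h8 hp'.le
    linarith
  have hb4pos : 0 < b4 := lt_of_lt_of_le (by positivity) hb4lo
  have ha4 : a4 ≤ (r ^ 2 + T ^ 2) * (c2 * M2) ^ 2 := by
    have h7 : a4 ≤ a2 ^ 2 + a2' ^ 2 := by nlinarith
    have h8 : a2 ^ 2 ≤ (r * (c2 * M2)) ^ 2 := pow_le_pow_left₀ ha2 hra2 2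
    have h9 : a2' ^ 2 ≤ (T * (c2 * M2)) ^ 2 := pow_le_pow_left₀ ha2' hTa2 2
    calc a4 ≤ a2 ^ 2 + a2' ^ 2 := h7
      _ ≤ (r * (c2 * M2)) ^ 2 + (T * (c2 * M2)) ^ 2 := add_le_add h8 h9
      _ = _ := by ring
  have haW : a4 * W4 ≤ K * b4 := by
    have hK0 : 0 ≤ (r ^ 2 + T ^ 2) / p' := by positivity
    calc a4 * W4 ≤ ((r ^ 2 + T ^ 2) * (c2 * M2) ^ 2) * W2 ^ 2 := by
          apply mul_le_mul ha4 hW hW4.le (by positivity)
      _ = (r ^ 2 + T ^ 2) / p' * (p' * (c2 * M2 * W2) ^ 2) := by field_simp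
      _ ≤ (r ^ 2 + T ^ 2) / p' * b4 := mul_le_mul_of_nonneg_left hb4lo hK0
      _ ≤ K * b4 := mul_le_mul_of_nonneg_right h3 hb4pos.le
  have hze : z4 - W4 ≤ e4 * W4 := by linarith
  have h7 : (1 - K * e4) * b4 ≤ (1 - e4) * (c4 * M4 * W4) := by
    have h8 : (a4 - c4 * M4) * (z4 - W4) ≤ (a4 - c4 * M4) * (e4 * W4) :=
      mul_le_mul_of_nonneg_left hze (by linarith)
    have h9 : e4 * (a4 * W4) ≤ e4 * (K * b4) := mul_le_mul_of_nonneg_left haW he4.1.le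
    nlinarith
  have hK : 0 < 1 - K * e4 := by linarith
  have he : 0 < 1 - e4 := by linarith
  have h8 : 0 < c4 * M4 * W4 := by
    have h9 : 0 < (1 - K * e4) * b4 := by positivity
    exact (mul_pos_iff_of_pos_left he).1 (h9.trans_le h7)
  have hc4pos : 0 < c4 :=
    (mul_pos_iff_of_pos_right hM4).1 ((mul_pos_iff_of_pos_right hW4).1 h8)
  have h9 : b4 ≤ r' * (c4 * M4 * W4) := by
    have h10 : b4 ≤ (1 - e4) / (1 - K * e4) * (c4 * M4 * W4) := by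
      rw [div_mul_eq_mul_div, le_div_iff₀ hK]
      linarith
    exact h10.trans (mul_le_mul_of_nonneg_right h5 h8.le)
  refine ⟨hc4pos, h9, ?_⟩
  have hr'0 : 0 ≤ r' := le_trans (by positivity) h5
  have hK0 : 0 ≤ K := le_trans (by positivity) h3
  calc b4' ≤ a4' * (z4 - W4) := hb4' hc4pos
    _ ≤ a4' * (e4 * W4) := mul_le_mul_of_nonneg_left hze ha4'
    _ ≤ a4 * (e4 * W4) := mul_le_mul_of_nonneg_right (by linarith) (by have := he4.1; positivity)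
    _ = e4 * (a4 * W4) := by ring
    _ ≤ e4 * (K * b4) := mul_le_mul_of_nonneg_left haW he4.1.le
    _ ≤ e4 * (K * (r' * (c4 * M4 * W4))) := by
        have := he4.1
        gcongr
    _ = (e4 * K * r') * (c4 * M4 * W4) := by ring
    _ ≤ T' * (c4 * M4 * W4) := mul_le_mul_of_nonneg_right h6 h8.le

private theorem K_ge_one {eo p' r T K : ℝ} (hp' : 0 < p') (hr : 1 ≤ r)
    (h2 : p' * (1 + eo ^ 2) ^ 2 ≤ 1 + eo ^ 4) (h3 : (r ^ 2 + T ^ 2) / p' ≤ K) : 1 ≤ K := by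
  have hp1 : p' ≤ 1 := by
    have : 1 + eo ^ 4 ≤ (1 + eo ^ 2) ^ 2 := by nlinarith [sq_nonneg eo]
    have h9 : p' * (1 + eo ^ 2) ^ 2 ≤ 1 * (1 + eo ^ 2) ^ 2 := by linarith
    exact le_of_mul_le_mul_right h9 (by positivity)
  refine le_trans ?_ h3
  rw [le_div_iff₀ hp']
  nlinarith [sq_nonneg T]

private theorem r'_ge_one {e4 K r' : ℝ} (he4 : 0 ≤ e4) (hK : 1 ≤ K) (h4 : K * e4 < 1)
    (h5 : (1 - e4) / (1 - K * e4) ≤ r') : 1 ≤ r' := by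
  refine le_trans ?_ h5
  rw [le_div_iff₀ (by linarith)]
  nlinarith

theorem open_step {z O O' : ℝ → ℕ → ℝ} {m c σ : ℝ → ℝ} (F : RingFam z m)
    (G : OpenFam z O O' m c σ) {L n : ℕ} {β u ε ε₁ p r r₁ T T₁ : ℝ}
    (S : RingState z m L β u ε ε₁) (P : OpenState O O' m c n β p r r₁ T T₁)
    {e4 eo K p' r' r₁' T' T₁' : ℝ}
    (he4 : 0 < e4 ∧ e4 < 1) (heo : 0 < eo ∧ eo ≤ 7 / 10) (hp' : 0 < p')
    (hz4 : z (4 * β) L ≤ (1 + e4) * m (4 * β) ^ L)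
    (hTε : T * ε < 1)
    (h1 : 1 + eo ^ 2 ≤ p * u / ((1 + ε) * r) * (1 - T * ε) / (1 + T₁ * ε₁) ^ 2 * (1 + eo) ^ 2)
    (h2 : p' * (1 + eo ^ 2) ^ 2 ≤ 1 + eo ^ 4)
    (h3 : (r ^ 2 + T ^ 2) / p' ≤ K) (h4 : K * e4 < 1)
    (h5 : (1 - e4) / (1 - K * e4) ≤ r') (h6 : e4 * K * r' ≤ T') (h7 : T * ε ≤ T₁')
    (h8 : 1 + (r - 1) * ε ≤ r₁') :
    OpenState O O' m c (n + L) (2 * β) p' r' r₁' T' T₁' := by
  have hβ := S.hβ
  have hβ2 : 0 < 2 * β := by positivity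
  have hβ4 : 0 < 4 * β := by positivity
  have evn := P.evn
  have evL := S.evL
  have twoL := S.twoL
  have e24 : 2 * (2 * β) = 4 * β := by ring
  obtain ⟨⟨hm1, -, -, -⟩, hc1, -, hE1, hM1, hD1, hP1, -⟩ := G.top β hβ
  obtain ⟨⟨hm2, hm2b, -, -⟩, hc2, -, hE2, hM2, hD2, hP2, -⟩ := G.top (2 * β) hβ2
  obtain ⟨⟨hm4, hm4b, -, -⟩, hc4, -, hE4, hM4, hD4, hP4, -⟩ := G.top (4 * β) hβ4
  have hz1 := (F.top β hβ).2.1 L evL twoL
  -- levels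
  have hpp := G.levels_pp (n + L)
  have hpm := G.levels_pm (n + L)
  have hppn := G.levels_pp n
  have hpmn := G.levels_pm n
  have hW1 : 0 < m β ^ L := pow_pos hm1 L
  have hW2 : 0 < m (2 * β) ^ L := pow_pos hm2 L
  have hW4 : 0 < m (4 * β) ^ L := pow_pos hm4 L
  have hN1 : 0 < m β ^ n := pow_pos hm1 n
  have hN2 : 0 < m (2 * β) ^ n := pow_pos hm2 n
  have hN4 : 0 < m (4 * β) ^ n := pow_pos hm4 n
  have a1 := hE1 n evn
  have a2 := hE2 n evn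
  have a4 := hE4 n evn
  have b1 := hE1 (n + L) (evn.add evL)
  have b2 := hE2 (n + L) (evn.add evL)
  have b4 := hE4 (n + L) (evn.add evL)
  rw [pow_add, ← mul_assoc] at b1 b2 b4
  have d1 := hD1 n L evn evL twoL
  have d2 := hD2 n L evn evL twoL
  have d4 := hD4 n L evn evL twoL
  rw [pow_add, ← mul_assoc] at d1 d2 d4
  have q1 := hP1 P.c1 n L evn evL twoL
  have q2 := hP2 P.c2 n L evn evL twoL
  have q4 := fun h => hP4 h n L evn evL twoL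
  have hc2p := P.c2
  have hexc2 : z (2 * β) L - m (2 * β) ^ L ≤ ε * m (2 * β) ^ L := by
    have := S.exc; linarith
  have hε := S.hε
  have hT := P.hT
  have hr := P.hr
  have hX : 0 < c (2 * β) * m (2 * β) ^ n := by positivity
  -- `b2' ≤ T ε X`
  have hb2T : O' (2 * β) (n + L) ≤ T * ε * (c (2 * β) * m (2 * β) ^ n * m (2 * β) ^ L) := by
    calc O' (2 * β) (n + L) ≤ O' (2 * β) n * (z (2 * β) L - m (2 * β) ^ L) := q2
      _ ≤ O' (2 * β) n * (ε * m (2 * β) ^ L) := mul_le_mul_of_nonneg_left hexc2 a2.2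
      _ ≤ (T * (c (2 * β) * m (2 * β) ^ n)) * (ε * m (2 * β) ^ L) :=
        mul_le_mul_of_nonneg_right P.odd (by positivity)
      _ = _ := by ring
  have hO1 : 0 ≤ O β n := le_trans (by positivity) a1.1
  have hO1L : 0 ≤ O β (n + L) := le_trans (by positivity) b1.1
  have hO2 : 0 ≤ O (2 * β) n := le_trans (by positivity) a2.1
  have hrat := ratio_step (z1 := z β L) (z2 := z (2 * β) L) (W1 := m β ^ L) (W2 := m (2 * β) ^ L)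
    (a1 := O β n) (a1' := O' β n) (b1 := O β (n + L)) (b1' := O' β (n + L))
    (b2 := O (2 * β) (n + L)) (b2' := O' (2 * β) (n + L)) (c1 := c β) (c2 := c (2 * β))
    (M1 := m β ^ n) (M2 := m (2 * β) ^ n) P.hp S.hu hε S.hε₁ hr hT P.hT₁ hTε hW1 hW2 hN2 hc2p
    hz1 S.pur S.exc S.exc₁ hO1 a1.2 hO1L b1.2 b2.2
    ((sum_pur P.hp P.pur_pm P.pur_pp).trans P.rat) (hM1 n L evn evL).1 b1.1 q1 P.odd₁ b2.1 hb2T
  have hp4 := pur_step (A := fun β => O β (n + L) - O' β (n + L)) hβ hpp heo hrat.1 h1 h2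
  have hp4' := pur_step (A := fun β => O β (n + L) + O' β (n + L)) hβ hpm heo hrat.2 h1 h2
  have l4 := lev_sq (A := fun β => O β n - O' β n) hβ hppn
  have l4' := lev_sq (A := fun β => O β n + O' β n) hβ hpmn
  have l0 := lev_nonneg (A := fun β => O β n - O' β n) hβ4 hppn
  -- `m4 ≤ m2²`
  have hmm : m (4 * β) ≤ m (2 * β) ^ 2 := by
    apply m_le_sq (F.top (2 * β) hβ2) (F.top (4 * β) hβ4)
    intro L' hL' hL2
    obtain ⟨k, x, hx, hA⟩ := F.levels L' hL' hL2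
    have h9 := levels_sq_le x hx (2 * β)
    rw [← hA (2 * β) hβ2, e24, ← hA (4 * β) hβ4] at h9
    exact h9
  have hWW : m (4 * β) ^ L ≤ (m (2 * β) ^ L) ^ 2 := by
    rw [← pow_mul, mul_comm L 2, pow_mul]
    exact pow_le_pow_left₀ hm4.le hmm L
  obtain ⟨t1, t2, t3⟩ := top4 (a2 := O (2 * β) n) (a2' := O' (2 * β) n) (b2 := O (2 * β) (n + L))
    (b2' := O' (2 * β) (n + L)) (a4 := O (4 * β) n) (a4' := O' (4 * β) n) (b4 := O (4 * β) (n + L))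
    (b4' := O' (4 * β) (n + L)) (c2 := c (2 * β)) (c4 := c (4 * β)) (M2 := m (2 * β) ^ n)
    (M4 := m (4 * β) ^ n) (W2 := m (2 * β) ^ L) (W4 := m (4 * β) ^ L) (z4 := z (4 * β) L)
    (e4 := e4) (K := K) (p' := p') (r' := r') (T' := T') (r := r) (T := T)
    hp' he4 hc2p hN2 hW2 hN4 hW4 hr hO2 a2.2 P.rat P.odd b2.1 hp4' hp4 l4' l4 l0 a4.2 a4.1 hWW hz4
    d4 q4 h3 h4 h5 h6
  have hK1 : 1 ≤ K := K_ge_one hp' hr h2 h3
  have hr'1 : 1 ≤ r' := r'_ge_one he4.1.le hK1 h4 h5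
  have hm4p : c (4 * β) * m (4 * β) ^ (n + L) = c (4 * β) * m (4 * β) ^ n * m (4 * β) ^ L := by
    rw [pow_add, mul_assoc]
  have hm2p : c (2 * β) * m (2 * β) ^ (n + L) = c (2 * β) * m (2 * β) ^ n * m (2 * β) ^ L := by
    rw [pow_add, mul_assoc]
  refine ⟨evn.add evL, hβ2, hp', hr'1, ?_, ?_, ?_, hc2p, ?_, ?_, ?_, ?_, ?_, ?_, ?_⟩
  · refine le_trans ?_ h8
    have : 0 ≤ (r - 1) * ε := mul_nonneg (by linarith) hε
    linarith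
  · refine le_trans ?_ h6
    have := he4.1
    positivity
  · exact le_trans (by positivity) h7
  · rw [e24]; exact t1
  · rw [e24]; exact hp4'
  · rw [e24]; exact hp4
  · rw [e24, hm4p]; exact t2
  · rw [hm2p]
    have h9 : (O (2 * β) n - c (2 * β) * m (2 * β) ^ n) * (z (2 * β) L - m (2 * β) ^ L) ≤
        ((r - 1) * (c (2 * β) * m (2 * β) ^ n)) * (ε * m (2 * β) ^ L) := by
      apply mul_le_mul _ hexc2
      · have := hm2b L evL twoL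
        linarith
      · exact mul_nonneg (by linarith) hX.le
      · have := P.rat; linarith
    calc O (2 * β) (n + L) ≤ (1 + (r - 1) * ε) * (c (2 * β) * m (2 * β) ^ n * m (2 * β) ^ L) := by
          linarith
      _ ≤ _ := mul_le_mul_of_nonneg_right h8 (by positivity)
  · rw [e24, hm4p]; exact t3
  · rw [hm2p]
    exact hb2T.trans (mul_le_mul_of_nonneg_right h7 (by positivity))

/-- `open_cover` in real numbers -/
private theorem cover_real {x1 x1' x2 x2' X1 X2 σ1 σ2 Q p u ε r r₁ T T₁ : ℝ}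
    (hp : 0 < p) (hu : 0 < u) (hε : 0 ≤ ε) (hr : 1 ≤ r) (hr₁ : 1 ≤ r₁) (hT₁ : 0 ≤ T₁)
    (hX1 : 0 < X1) (hX2 : 0 < X2) (hrT : r + T < 2) (hσ1 : σ1 = 1 ∨ σ1 = -1)
    (hσ2 : σ2 = 1 ∨ σ2 = -1) (h1 : |x1 - σ1 * X1| ≤ (r₁ - 1) * X1) (h1' : |x1'| ≤ T₁ * X1)
    (h2 : |x2 - σ2 * X2| ≤ (r - 1) * X2) (h2' : |x2'| ≤ T * X2) (hA : 0 ≤ x2 - x2')
    (hQ : Q = p * u / ((1 + ε) * r)) (hk : Q * X1 ^ 2 ≤ X2) :
    Q * (2 - r - T) / (r₁ + T₁) ^ 2 * (x1 - x1') ^ 2 ≤ x2 - x2' := by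
  have hr0 : 0 < r := by linarith
  have hQ0 : 0 < Q := by rw [hQ]; positivity
  have hR : 0 < r₁ + T₁ := by linarith
  have h3 : |x1 - x1'| ≤ (r₁ + T₁) * X1 := by
    have h4 : |σ1 * X1| = X1 := by
      rcases hσ1 with h | h <;> rw [h]
      · rw [one_mul, abs_of_pos hX1]
      · rw [neg_one_mul, abs_neg, abs_of_pos hX1]
    calc |x1 - x1'| = |(x1 - σ1 * X1) + σ1 * X1 - x1'| := by ring_nf
      _ ≤ |(x1 - σ1 * X1) + σ1 * X1| + |x1'| := abs_sub _ _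
      _ ≤ |x1 - σ1 * X1| + |σ1 * X1| + |x1'| := by gcongr; exact abs_add_le _ _
      _ ≤ (r₁ - 1) * X1 + X1 + T₁ * X1 := by rw [h4]; gcongr
      _ = _ := by ring
  have h4 : (x1 - x1') ^ 2 ≤ ((r₁ + T₁) * X1) ^ 2 := by
    rw [← sq_abs]
    exact pow_le_pow_left₀ (abs_nonneg _) h3 2
  have h5 : σ2 = 1 := by
    rcases hσ2 with h | h
    · exact h
    · exfalso
      rw [h] at h2
      rw [abs_le] at h2 h2'
      have : (r + T) * X2 < 2 * X2 := mul_lt_mul_of_pos_right hrT hX2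
      linarith
  rw [h5] at h2
  rw [abs_le] at h2 h2'
  have h6 : (2 - r - T) * X2 ≤ x2 - x2' := by linarith
  have h7 : 0 < 2 - r - T := by linarith
  calc Q * (2 - r - T) / (r₁ + T₁) ^ 2 * (x1 - x1') ^ 2
      ≤ Q * (2 - r - T) / (r₁ + T₁) ^ 2 * ((r₁ + T₁) * X1) ^ 2 :=
        mul_le_mul_of_nonneg_left h4 (by positivity)
    _ = (2 - r - T) * (Q * X1 ^ 2) := by field_simp
    _ ≤ (2 - r - T) * X2 := mul_le_mul_of_nonneg_left hk h7.le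
    _ ≤ _ := h6

theorem open_cover {z O O' : ℝ → ℕ → ℝ} {m c σ : ℝ → ℝ} (F : RingFam z m)
    (G : OpenFam z O O' m c σ) {L n : ℕ} {β u ε ε₁ p r r₁ T T₁ : ℝ}
    (S : RingState z m L β u ε ε₁) (P : OpenState O O' m c n β p r r₁ T T₁)
    (hrT : r + T < 2) {n' : ℕ} (hn' : Even n') (h1 : n ≤ n') (h2 : n' < n + L) :
    p * u / ((1 + ε) * r) * (2 - r - T) / (r₁ + T₁) ^ 2 * (O β (n' + 1) - O' β (n' + 1)) ^ 2 ≤
      O (2 * β) (n' + 1) - O' (2 * β) (n' + 1) := by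
  have hβ := S.hβ
  have hβ2 : 0 < 2 * β := by positivity
  obtain ⟨j, rfl⟩ : ∃ j, n' = n + j := ⟨n' - n, by omega⟩
  have evn := P.evn
  have evj : Even j := by
    rw [Nat.even_add] at hn'
    exact hn'.1 evn
  obtain ⟨⟨hm1, -, -, -⟩, hc1, hσ1, hE1, hM1, -, -, hS1⟩ := G.top β hβ
  obtain ⟨⟨hm2, -, -, -⟩, hc2, hσ2, hE2, hM2, -, -, hS2⟩ := G.top (2 * β) hβ2
  have hA := lev_nonneg (A := fun β => O β (n + j + 1) - O' β (n + j + 1)) hβ2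
    (G.levels_pp (n + j + 1))
  have s1 := hS1 (n + j) hn'
  have s2 := hS2 (n + j) hn'
  have d1 := hM1 n j evn evj
  have d2 := hM2 n j evn evj
  have a1 := (hE1 n evn)
  have hw1 : 0 < m β ^ j := pow_pos hm1 j
  have hw2 : 0 < m (2 * β) ^ j := pow_pos hm2 j
  have hN1 : 0 < m β ^ n := pow_pos hm1 n
  have hN2 : 0 < m (2 * β) ^ n := pow_pos hm2 n
  have hX1 : 0 < c β * m β ^ (n + j + 1) := mul_pos P.c1 (pow_pos hm1 _)
  have hX2 : 0 < c (2 * β) * m (2 * β) ^ (n + j + 1) := mul_pos P.c2 (pow_pos hm2 _)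
  have e1 : c β * m β ^ (n + j + 1) = m β * (c β * m β ^ n * m β ^ j) := by ring
  have e2 : c (2 * β) * m (2 * β) ^ (n + j + 1) =
      m (2 * β) * (c (2 * β) * m (2 * β) ^ n * m (2 * β) ^ j) := by ring
  refine cover_real (X1 := c β * m β ^ (n + j + 1)) (X2 := c (2 * β) * m (2 * β) ^ (n + j + 1))
    (σ1 := σ β) (σ2 := σ (2 * β)) P.hp S.hu S.hε P.hr P.hr₁ P.hT₁ hX1 hX2 hrT hσ1 hσ2 ?_ ?_ ?_ ?_ hA rfl ?_
  · rw [← mul_assoc]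
    refine s1.1.trans ?_
    rw [e1]
    have h3 : O β (n + j) ≤ r₁ * (c β * m β ^ n * m β ^ j) :=
      calc O β (n + j) ≤ O β n * m β ^ j := d1.1
        _ ≤ (r₁ * (c β * m β ^ n)) * m β ^ j := mul_le_mul_of_nonneg_right P.rat₁ hw1.le
        _ = _ := by ring
    have h4 : O β (n + j) - c β * m β ^ (n + j) ≤ (r₁ - 1) * (c β * m β ^ n * m β ^ j) := by
      rw [pow_add, ← mul_assoc]; linarith
    calc m β * (O β (n + j) - c β * m β ^ (n + j))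
        ≤ m β * ((r₁ - 1) * (c β * m β ^ n * m β ^ j)) := mul_le_mul_of_nonneg_left h4 hm1.le
      _ = _ := by ring
  · refine s1.2.trans ?_
    rw [e1]
    have h3 : O' β (n + j) ≤ T₁ * (c β * m β ^ n * m β ^ j) :=
      calc O' β (n + j) ≤ O' β n * m β ^ j := d1.2
        _ ≤ (T₁ * (c β * m β ^ n)) * m β ^ j := mul_le_mul_of_nonneg_right P.odd₁ hw1.le
        _ = _ := by ring
    calc m β * O' β (n + j) ≤ m β * (T₁ * (c β * m β ^ n * m β ^ j)) :=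
          mul_le_mul_of_nonneg_left h3 hm1.le
      _ = _ := by ring
  · rw [← mul_assoc]
    refine s2.1.trans ?_
    rw [e2]
    have h3 : O (2 * β) (n + j) ≤ r * (c (2 * β) * m (2 * β) ^ n * m (2 * β) ^ j) :=
      calc O (2 * β) (n + j) ≤ O (2 * β) n * m (2 * β) ^ j := d2.1
        _ ≤ (r * (c (2 * β) * m (2 * β) ^ n)) * m (2 * β) ^ j :=
            mul_le_mul_of_nonneg_right P.rat hw2.le
        _ = _ := by ring
    have h4 : O (2 * β) (n + j) - c (2 * β) * m (2 * β) ^ (n + j) ≤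
        (r - 1) * (c (2 * β) * m (2 * β) ^ n * m (2 * β) ^ j) := by
      rw [pow_add, ← mul_assoc]; linarith
    calc m (2 * β) * (O (2 * β) (n + j) - c (2 * β) * m (2 * β) ^ (n + j))
        ≤ m (2 * β) * ((r - 1) * (c (2 * β) * m (2 * β) ^ n * m (2 * β) ^ j)) :=
          mul_le_mul_of_nonneg_left h4 hm2.le
      _ = _ := by ring
  · refine s2.2.trans ?_
    rw [e2]
    have h3 : O' (2 * β) (n + j) ≤ T * (c (2 * β) * m (2 * β) ^ n * m (2 * β) ^ j) :=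
      calc O' (2 * β) (n + j) ≤ O' (2 * β) n * m (2 * β) ^ j := d2.2
        _ ≤ (T * (c (2 * β) * m (2 * β) ^ n)) * m (2 * β) ^ j :=
            mul_le_mul_of_nonneg_right P.odd hw2.le
        _ = _ := by ring
    calc m (2 * β) * O' (2 * β) (n + j)
        ≤ m (2 * β) * (T * (c (2 * β) * m (2 * β) ^ n * m (2 * β) ^ j)) :=
          mul_le_mul_of_nonneg_left h3 hm2.le
      _ = _ := by ring
  · have h3 := ring_ratio F S (k := j + 1) (by omega)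
    have hi : p * O β n ^ 2 ≤ r * (c (2 * β) * m (2 * β) ^ n) :=
      (sum_pur P.hp P.pur_pm P.pur_pp).trans P.rat
    have h4 : (c β * m β ^ n) ^ 2 ≤ O β n ^ 2 :=
      pow_le_pow_left₀ (mul_pos P.c1 hN1).le a1.1 2
    have hp := P.hp
    have hu := S.hu
    have hε := S.hε
    have hr : 0 < r := by have := P.hr; linarith
    have h5 : p * (c β * m β ^ n) ^ 2 ≤ r * (c (2 * β) * m (2 * β) ^ n) :=
      (mul_le_mul_of_nonneg_left h4 hp.le).trans hi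
    have hcc := P.c2
    calc p * u / ((1 + ε) * r) * (c β * m β ^ (n + j + 1)) ^ 2
        = (p * (c β * m β ^ n) ^ 2) * (u / (1 + ε) * m β ^ (2 * (j + 1))) / r := by
          have e3 : m β ^ (2 * (j + 1)) = (m β ^ (j + 1)) ^ 2 := by rw [← pow_mul, mul_comm]
          have e4 : m β ^ (n + j + 1) = m β ^ n * m β ^ (j + 1) := by rw [add_assoc, pow_add]
          rw [e3, e4]
          field_simp
      _ ≤ (r * (c (2 * β) * m (2 * β) ^ n)) * m (2 * β) ^ (j + 1) / r := by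
          apply div_le_div_of_nonneg_right _ hr.le
          apply mul_le_mul h5 h3 (by positivity) (by positivity)
      _ = c (2 * β) * m (2 * β) ^ (n + j + 1) := by
          have e5 : m (2 * β) ^ (n + j + 1) = m (2 * β) ^ n * m (2 * β) ^ (j + 1) := by
            rw [add_assoc, pow_add]
          rw [e5]
          field_simp

end Crest.Agent.R347
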