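import Mathlib

/-! # Row 347: integer matrices as lists of rows (for kernel evaluation) -/

set_option autoImplicit false

namespace Crest.Agent.R347.Ring

/-- dot product of integer lists, zeros of the first list are skipped -/
def dot (l : List Int) : List Int → Int :=
  List.rec (motive := fun _ => List Int → Int) (fun _ => 0)
    (fun a _ ih m => List.casesOn (motive := fun _ => Int) m 0
      (fun b m' => Int.casesOn (motive := fun _ => Int) a
        (fun n => Nat.casesOn (motive := fun _ => Int) n (ih m')
          (fun k => Int.add (Int.mul (Int.ofNat (Nat.succ k)) b) (ih m')))
        (fun n => Int.add (Int.mul (Int.negSucc n) b) (ih m')))) l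

/-- `A Bᵀ` -/
def mulT (A B : List (List Int)) : List (List Int) := A.map fun r => B.map fun c => dot r c

/-- sum -/
def addL (A B : List (List Int)) : List (List Int) := List.zipWith (List.zipWith Int.add) A B

/-- scalar multiple -/
def smulL (k : Int) (A : List (List Int)) : List (List Int) := A.map (List.map (Int.mul k))

/-- multiple of the identity -/
def diagL (n : ℕ) (v : Int) : List (List Int) :=
  (List.range n).map fun i => (List.range n).map fun j => if i = j then v else 0

/-- all entries bounded -/
def allLe (M : List (List Int)) (b : Int) : Bool :=
  M.all fun r => r.all fun z => decide (-b ≤ z) && decide (z ≤ b)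

/-- all entries zero -/
def isZero (M : List (List Int)) : Bool := M.all fun r => r.all fun z => decide (z = 0)

/-- shape check -/
def shape (n : ℕ) (M : List (List Int)) : Bool := (M.length == n) && M.all fun r => r.length == n

end Crest.Agent.R347.Ring
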