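import Crest.Agent.R347.BondForm

/-! # Row 347: variational energy of a uniform matrix product state with exact isometry -/

set_option autoImplicit false

open Crest.MathPhysics.SpinChain Matrix

namespace Crest.Agent.R347.Ring

variable {ι : Type*} [Fintype ι]

/-- the matrix product vector: `A^{σ_{n-1}} ⋯ A^{σ_1} A^{σ_0} x` -/
def Phi (A : Fin 3 → Matrix ι ι ℝ) : (n : ℕ) → (Fin n → Fin 3) → (ι → ℝ) → (ι → ℝ)
  | 0, _, x => x
  | n + 1, σ, x => Phi A n (Fin.tail σ) (A (σ 0) *ᵥ x)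

theorem Phi_cons (A : Fin 3 → Matrix ι ι ℝ) (n : ℕ) (s : Fin 3) (σ : Fin n → Fin 3) (x : ι → ℝ) :
    Phi A (n + 1) (Fin.cons s σ) x = Phi A n σ (A s *ᵥ x) := by
  rw [Phi, Fin.tail_cons, Fin.cons_zero]

/-- sums over configurations, first site split off -/
theorem sum_cons {M : Type*} [AddCommMonoid M] (n : ℕ) (F : (Fin (n + 1) → Fin 3) → M) :
    ∑ σ, F σ = ∑ s : Fin 3, ∑ σ : Fin n → Fin 3, F (Fin.cons s σ) := by
  rw [← Fintype.sum_prod_type']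
  exact (Fintype.sum_equiv (Fin.consEquiv (fun _ => Fin 3)) _ _ (fun p => rfl)).symm

/-- bond energy form -/
def kform (A : Fin 3 → Matrix ι ι ℝ) (x : ι → ℝ) : ℝ :=
  ∑ s : Fin 3, ∑ t : Fin 3, ∑ u : Fin 3, ∑ v : Fin 3,
    (hbZ s u t v : ℝ) * ((A u *ᵥ (A s *ᵥ x)) ⬝ᵥ (A v *ᵥ (A t *ᵥ x)))

/-- chain energy form -/
def eform (A : Fin 3 → Matrix ι ι ℝ) (N : ℕ) (x : ι → ℝ) : ℝ :=
  ∑ σ : Fin (N + 1) → Fin 3, ∑ τ : Fin (N + 1) → Fin 3,
    (chainZ N σ τ : ℝ) * (Phi A (N + 1) σ x ⬝ᵥ Phi A (N + 1) τ x)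

theorem sum_Phi (A : Fin 3 → Matrix ι ι ℝ)
    (hA : ∀ x y : ι → ℝ, ∑ s, (A s *ᵥ x) ⬝ᵥ (A s *ᵥ y) = x ⬝ᵥ y) (n : ℕ) (x y : ι → ℝ) :
    ∑ σ : Fin n → Fin 3, Phi A n σ x ⬝ᵥ Phi A n σ y = x ⬝ᵥ y := by
  induction n generalizing x y with
  | zero => simp [Phi]
  | succ n ih =>
    rw [sum_cons]
    simp only [Phi_cons, ih]
    exact hA x y

theorem eform_zero (A : Fin 3 → Matrix ι ι ℝ) (x : ι → ℝ) : eform A 0 x = 0 := by
  simp [eform, chainZ_zero]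

theorem eform_succ (A : Fin 3 → Matrix ι ι ℝ)
    (hA : ∀ x y : ι → ℝ, ∑ s, (A s *ᵥ x) ⬝ᵥ (A s *ᵥ y) = x ⬝ᵥ y) (N : ℕ) (x : ι → ℝ) :
    eform A (N + 1) x = ∑ s, eform A N (A s *ᵥ x) + kform A x := by
  have e1 : eform A (N + 1) x = ∑ s : Fin 3, ∑ t : Fin 3, ∑ σ : Fin (N + 1) → Fin 3, ∑ τ : Fin (N + 1) → Fin 3,
      ((if s = t then (chainZ N σ τ : ℝ) else 0) +
        (if (∀ l, l ≠ 0 → σ l = τ l) then (hbZ s (σ 0) t (τ 0) : ℝ) else 0)) *
        (Phi A (N + 1) σ (A s *ᵥ x) ⬝ᵥ Phi A (N + 1) τ (A t *ᵥ x)) := by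
    rw [eform, sum_cons]
    apply Finset.sum_congr rfl
    intro s _
    rw [Finset.sum_comm' (s := Finset.univ) (t := fun _ => Finset.univ) (t' := Finset.univ)
      (s' := fun _ => Finset.univ) (by simp)]
    rw [sum_cons]
    apply Finset.sum_congr rfl
    intro t _
    rw [Finset.sum_comm]
    apply Finset.sum_congr rfl
    intro σ _
    apply Finset.sum_congr rfl
    intro τ _
    rw [chainZ_cons, Phi_cons, Phi_cons]
    push_cast
    rfl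
  rw [e1]
  simp only [add_mul, Finset.sum_add_distrib]
  congr 1
  · apply Finset.sum_congr rfl
    intro s _
    rw [Finset.sum_eq_single s]
    · simp [eform]
    · intro t _ hts
      simp [Ne.symm hts]
    · intro h
      exact absurd (Finset.mem_univ _) h
  · rw [kform]
    apply Finset.sum_congr rfl
    intro s _
    apply Finset.sum_congr rfl
    intro t _
    have e2 : ∀ σ : Fin (N + 1) → Fin 3, ∀ τ : Fin (N + 1) → Fin 3,
        (if (∀ l, l ≠ 0 → σ l = τ l) then (hbZ s (σ 0) t (τ 0) : ℝ) else 0) *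
          (Phi A (N + 1) σ (A s *ᵥ x) ⬝ᵥ Phi A (N + 1) τ (A t *ᵥ x)) =
        (if (Fin.tail σ = Fin.tail τ) then (hbZ s (σ 0) t (τ 0) : ℝ) else 0) *
          (Phi A (N + 1) σ (A s *ᵥ x) ⬝ᵥ Phi A (N + 1) τ (A t *ᵥ x)) := by
      intro σ τ
      have hiff : (∀ l, l ≠ 0 → σ l = τ l) ↔ Fin.tail σ = Fin.tail τ := by
        constructor
        · intro h
          funext l
          exact h (Fin.succ l) (Fin.succ_ne_zero l)
        · intro h l
          refine Fin.cases ?_ (fun l => ?_) l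
          · intro h1
            exact absurd rfl h1
          · intro _
            exact congrFun h l
      by_cases h : Fin.tail σ = Fin.tail τ
      · rw [if_pos h, if_pos (hiff.mpr h)]
      · rw [if_neg h, if_neg (fun h' => h (hiff.mp h'))]
    simp only [e2]
    rw [sum_cons]
    apply Finset.sum_congr rfl
    intro u _
    rw [Finset.sum_comm]
    rw [sum_cons]
    apply Finset.sum_congr rfl
    intro v _
    rw [Finset.sum_comm]
    simp only [Fin.tail_cons, Fin.cons_zero, Phi_cons]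
    have e3 : ∀ ρ : Fin N → Fin 3, (∑ ρ' : Fin N → Fin 3, (if ρ = ρ' then (hbZ s u t v : ℝ) else 0) *
        (Phi A N ρ (A u *ᵥ (A s *ᵥ x)) ⬝ᵥ Phi A N ρ' (A v *ᵥ (A t *ᵥ x)))) =
        (hbZ s u t v : ℝ) * (Phi A N ρ (A u *ᵥ (A s *ᵥ x)) ⬝ᵥ Phi A N ρ (A v *ᵥ (A t *ᵥ x))) := by
      intro ρ
      rw [Finset.sum_eq_single ρ]
      · rw [if_pos rfl]
      · intro ρ' _ h
        rw [if_neg (Ne.symm h), zero_mul]
      · intro h
        exact absurd (Finset.mem_univ _) h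
    simp only [e3]
    rw [← Finset.mul_sum, sum_Phi A hA]

/-- induction: the energy bound -/
theorem eform_le (A : Fin 3 → Matrix ι ι ℝ)
    (hA : ∀ x y : ι → ℝ, ∑ s, (A s *ᵥ x) ⬝ᵥ (A s *ᵥ y) = x ⬝ᵥ y) (y : (ι → ℝ) → ℝ) (e C : ℝ)
    (hC : ∀ x, 0 ≤ (e + C) * (x ⬝ᵥ x) + y x)
    (hcert : ∀ x, kform A x + ∑ s, y (A s *ᵥ x) ≤ y x + e * (x ⬝ᵥ x)) (N : ℕ) (x : ι → ℝ) :
    eform A N x ≤ (e * (N + 1) + C) * (x ⬝ᵥ x) + y x := by
  induction N generalizing x with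
  | zero =>
    rw [eform_zero]
    have := hC x
    push_cast
    linarith
  | succ N ih =>
    rw [eform_succ A hA]
    have h1 : ∑ s, eform A N (A s *ᵥ x) ≤
        ∑ s, ((e * (N + 1) + C) * ((A s *ᵥ x) ⬝ᵥ (A s *ᵥ x)) + y (A s *ᵥ x)) :=
      Finset.sum_le_sum (fun s _ => ih _)
    rw [Finset.sum_add_distrib, ← Finset.mul_sum, hA] at h1
    have h2 := hcert x
    push_cast
    linarith

/-- the variational theorem -/
theorem ring_of_cert [DecidableEq ι] (A : Fin 3 → Matrix ι ι ℝ)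
    (hA : ∀ x y : ι → ℝ, ∑ s, (A s *ᵥ x) ⬝ᵥ (A s *ᵥ y) = x ⬝ᵥ y) (y : (ι → ℝ) → ℝ) (e C : ℝ)
    (hC : ∀ x, 0 ≤ (e + C) * (x ⬝ᵥ x) + y x)
    (hcert : ∀ x, kform A x + ∑ s, y (A s *ᵥ x) ≤ y x + e * (x ⬝ᵥ x)) (i₀ : ι) :
    ∃ C : ℝ, ∀ N : ℕ, ∃ ψ : (Fin (N + 1) → Fin 3) → ℂ, ψ ≠ 0 ∧
      (star ψ ⬝ᵥ (openH N 0 0).mulVec ψ).re ≤ (e * (N + 1) + C) * (star ψ ⬝ᵥ ψ).re := by
  set x : ι → ℝ := Pi.single i₀ 1 with hx
  have hxx : x ⬝ᵥ x = 1 := by
    rw [hx]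
    simp
  refine ⟨C + y x, fun N => ?_⟩
  set b : ℝ := e * (N + 1) + (C + y x) with hb
  have hE : eform A N x ≤ b := by
    have := eform_le A hA y e C hC hcert N x
    rw [hxx] at this
    rw [hb]
    linarith
  -- the component vectors
  set ψ : ι → (Fin (N + 1) → Fin 3) → ℂ := fun a σ => ((Phi A (N + 1) σ x a : ℝ) : ℂ) with hψ
  have hn : ∀ a, (star (ψ a) ⬝ᵥ ψ a).re = ∑ σ, Phi A (N + 1) σ x a * Phi A (N + 1) σ x a := by
    intro a
    simp only [dotProduct, hψ, Pi.star_apply, Complex.re_sum]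
    apply Finset.sum_congr rfl
    intro σ _
    simp
  have hq : ∀ a, (star (ψ a) ⬝ᵥ (openH N 0 0).mulVec (ψ a)).re =
      ∑ σ, ∑ τ, (chainZ N σ τ : ℝ) * (Phi A (N + 1) σ x a * Phi A (N + 1) τ x a) := by
    intro a
    simp only [dotProduct, mulVec, hψ, Pi.star_apply, Complex.re_sum]
    apply Finset.sum_congr rfl
    intro σ _
    rw [Finset.mul_sum, Complex.re_sum]
    apply Finset.sum_congr rfl
    intro τ _
    rw [openH_apply]
    have h0 : (if σ = τ then ((0 : ℝ) : ℂ) * ((1 - ((σ 0).val : ℤ) : ℤ) : ℂ) +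
        ((0 : ℝ) : ℂ) * ((1 - ((σ (Fin.last N)).val : ℤ) : ℤ) : ℂ) else 0) = 0 := by
      simp
    rw [h0, sub_zero]
    have h1 : star ((Phi A (N + 1) σ x a : ℝ) : ℂ) * ((chainZ N σ τ : ℂ) * ((Phi A (N + 1) τ x a : ℝ) : ℂ)) =
        (((chainZ N σ τ : ℝ) * (Phi A (N + 1) σ x a * Phi A (N + 1) τ x a) : ℝ) : ℂ) := by
      push_cast
      rw [show star ((Phi A (N + 1) σ x a : ℝ) : ℂ) = ((Phi A (N + 1) σ x a : ℝ) : ℂ) from
        Complex.conj_ofReal _]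
      ring
    rw [h1, Complex.ofReal_re]
  have hsn : ∑ a, (star (ψ a) ⬝ᵥ ψ a).re = 1 := by
    simp only [hn]
    rw [Finset.sum_comm, ← hxx, ← sum_Phi A hA (N + 1) x x]
    rfl
  have hsq : ∑ a, (star (ψ a) ⬝ᵥ (openH N 0 0).mulVec (ψ a)).re = eform A N x := by
    simp only [hq]
    rw [Finset.sum_comm, eform]
    apply Finset.sum_congr rfl
    intro σ _
    rw [Finset.sum_comm]
    apply Finset.sum_congr rfl
    intro τ _
    rw [← Finset.mul_sum]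
    rfl
  by_contra hcon
  push Not at hcon
  -- every component violates the bound or vanishes
  have hge : ∀ a, b * (star (ψ a) ⬝ᵥ ψ a).re ≤ (star (ψ a) ⬝ᵥ (openH N 0 0).mulVec (ψ a)).re := by
    intro a
    by_cases h0 : ψ a = 0
    · rw [h0]
      simp
    · exact (hcon (ψ a) h0).le
  have hex : ∃ a, ψ a ≠ 0 := by
    by_contra hno
    push Not at hno
    have : ∑ a, (star (ψ a) ⬝ᵥ ψ a).re = 0 := by
      apply Finset.sum_eq_zero
      intro a _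
      rw [hno a]
      simp
    rw [hsn] at this
    exact one_ne_zero this
  obtain ⟨a, ha⟩ := hex
  have hlt : ∑ a, b * (star (ψ a) ⬝ᵥ ψ a).re < ∑ a, (star (ψ a) ⬝ᵥ (openH N 0 0).mulVec (ψ a)).re :=
    Finset.sum_lt_sum (fun a _ => hge a) ⟨a, Finset.mem_univ _, hcon (ψ a) ha⟩
  rw [← Finset.mul_sum, hsn, hsq, mul_one] at hlt
  linarith

end Crest.Agent.R347.Ring
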