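import Crest.Agent.R347.NumFin

/-! Row 347, numerics, ring with 6 sites: schedule (generated). N = 124, B = 39, W = 44, sigma = 462, e0 = 17177009417, EM = 1527 -/

set_option autoImplicit false
set_option Elab.async false

namespace Crest.Agent.R347

def sched6 : List (ℕ × ℕ) :=
  [(0, 191978340532), (5, 173627469745), (5, 155754053742), (5, 138575297815), (5, 122272321601), (4, 213976562802), (5, 185656135373), (5, 159718881166), (5, 136230810406), (5, 115195170564), (4, 193121315358), (5, 160461092907), (5, 132144429453), (5, 107853174039), (4, 174468369769), (5, 139831266947), (5, 111042476693), (4, 174728603032), (5, 136185528834), (5, 105143239173), (4, 160807306971), (5, 121787886897), (4, 182681830346), (5, 135668124007), (5, 99755973534), (4, 145232961469), (5, 104653163411), (4, 149284659572), (5, 105377406757), (4, 147218435910), (5, 101753918938), (4, 139163447959), (5, 94139979502), (4, 125981443157), (5, 83370072677), (4, 109116712769), (4, 141209863583), (5, 90332780380), (4, 114244398716), (4, 142805498396), (5, 88203396068), (4, 107660027553), (4, 129825327344), (5, 77322437609), (4, 90967573658), (4, 105682916455), (4, 121224521817),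 (5, 68634471911), (4, 76709115665), (4, 84605642278), (4, 92070846008), (4, 98840761156), (4, 104654923577), (5, 54636026279), (4, 56242968228), (4, 57070070702), (4, 57070070702), (4, 56230804956), (4, 54576957752), (4, 52169150792), (4, 49100377216), (4, 45490055362), (4, 41476226948), (4, 37206615350), (4, 32829366485), (4, 28484303274), (4, 24295435145), (3, 40730582450), (4, 33542832606), (4, 27130232254), (4, 21544596202), (4, 16792111746), (4, 12841026629), (4, 9630769971), (3, 14162897017), (4, 10205616968), (4, 7203964919), (4, 4979211046), (4, 3368289825), (3, 4458030651), (4, 2884608068), (4, 1824090396), (4, 1126644068), (4, 679300100), (4, 399588294), (3, 458351278), (4, 256137479), (4, 139368922), (4, 73783547), (4, 37976825), (4, 18988412), (3, 18429930), (4, 8672908), (4, 3953825), (4, 1744334), (4, 743907), (4, 306314), (3, 243250), (4, 93007), (4, 34193), (4, 12068), (4, 4081), (4, 1320), (3, 815), (4, 239), (4, 67), (4, 17), (4, 4), (4, 1), (3, 0), (4, 0), (4, 0), (4, 0), (4, 0), (4, 0), (3, 0), (4, 0), (4, 0), (4, 0), (4, 0), (4, 0), (4, 0), (3, 0), (4, 0)]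

end Crest.Agent.R347
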