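import Crest.Agent.R347.NumFin

/-! Row 347, numerics, ring with 7 sites: schedule (generated). N = 140, B = 39, W = 44, sigma = 542, e0 = 27815691265, EM = 2789 -/

set_option autoImplicit false
set_option Elab.async false

namespace Crest.Agent.R347

def sched7 : List (ℕ × ℕ) :=
  [(1, 166076039017), (5, 169739481054), (5, 172235649893), (5, 173502088496), (5, 173502088496), (5, 172226337845), (5, 169693597582), (5, 165950356459), (5, 161069463622), (5, 155147792165), (5, 148303036629), (5, 140669792096), (5, 132395098444), (5, 123633658105), (5, 114542947951), (4, 210556889615), (5, 191978340532), (5, 173627469745), (5, 155754053742), (5, 138575297815), (5, 122272321601), (4, 213976562802), (5, 185656135373), (5, 159718881166), (5, 136230810406), (5, 115195170564), (4, 193121315358), (5, 160461092907), (5, 132144429453), (5, 107853174039), (4, 174468369769), (5, 139831266947), (5, 111042476693), (4, 174728603032), (5, 136185528834), (5, 105143239173), (4, 160807306971), (5, 121787886897), (4, 182681830346), (5, 135668124007), (5, 99755973534), (4, 145232961469), (5, 104653163411), (4, 149284659572), (5, 105377406757), (4, 147218435910), (5, 101753918938),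 (4, 139163447959), (5, 94139979502), (4, 125981443157), (5, 83370072677), (4, 109116712769), (4, 141209863583), (5, 90332780380), (4, 114244398716), (4, 142805498396), (5, 88203396068), (4, 107660027553), (4, 129825327344), (5, 77322437609), (4, 90967573658), (4, 105682916455), (4, 121224521817), (5, 68634471911), (4, 76709115665), (4, 84605642278), (4, 92070846008), (4, 98840761156), (5, 52327461788), (4, 54636026279), (4, 56242968228), (4, 57070070702), (4, 57070070702), (4, 56230804956), (4, 54576957752), (4, 52169150792), (4, 49100377216), (4, 45490055362), (4, 41476226948), (4, 37206615350), (4, 32829366485), (4, 28484303274), (4, 24295435145), (4, 20365291225), (4, 16771416303), (4, 13565116127), (4, 10772298101), (4, 8396055873), (4, 6420513314), (4, 4815384985), (4, 3540724254), (4, 2551404242), (3, 3601982459), (4, 2489605523), (4, 1684144912), (4, 1114507662), (4, 721152017), (4, 456022599), (4, 281661017), (4, 169825025), (4, 99897073), (4, 57293909), (4, 32017184), (5, 8710557), (4, 4611471), (4, 2373551), (4, 1186775), (4, 575935), (4, 271028), (4, 123557), (4, 54510), (4, 23247), (4, 9572), (4, 3800), (4, 1453), (4, 534), (4, 188),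 (4, 63), (4, 20), (4, 6), (4, 1), (4, 0), (4, 0), (4, 0), (4, 0), (5, 0), (4, 0), (4, 0), (4, 0), (4, 0), (4, 0), (4, 0), (4, 0), (4, 0), (4, 0), (4, 0), (4, 0), (4, 0), (4, 0), (4, 0)]

end Crest.Agent.R347
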